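import Crest.Agent.R335.LWD

/-! Row 335. Mollification: `C¹_c` is dense in `H¹`.  Pattern: `Crest.Agent.R112.Sob1`. -/

set_option autoImplicit false
set_option linter.unusedSectionVars false

open MeasureTheory Set Filter Topology
open scoped ENNReal

noncomputable section

namespace Crest.Agent.R335

variable {E : Type} [NormedAddCommGroup E] [NormedSpace ℝ E] [FiniteDimensional ℝ E]
  [MeasureSpace E] [BorelSpace E] [(volume : Measure E).IsAddHaarMeasure]
  {ι : Type} [Fintype ι] {e : ι → E}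

/-- Cut-off functions.  Take `χ (x / n)` for a fixed bump `χ`. -/
theorem exists_cut (e : ι → E) : ∃ (ζ : ℕ → E → ℝ) (M : ℝ), (∀ n, ContDiff ℝ 1 (ζ n)) ∧
    (∀ n, HasCompactSupport (ζ n)) ∧ (∀ n x, 0 ≤ ζ n x ∧ ζ n x ≤ 1) ∧
    (∀ (n : ℕ) x, ‖x‖ ≤ n → ζ n x = 1) ∧ ∀ (n : ℕ) i x, |pd e (ζ n) i x| ≤ M / (n + 1) := by
  let χ : ContDiffBump (0 : E) := ⟨1, 2, one_pos, one_lt_two⟩
  have hχ : ContDiff ℝ 1 χ := χ.contDiff
  obtain ⟨B, hB⟩ := (χ.hasCompactSupport.fderiv ℝ).exists_bound_of_continuous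
    (hχ.continuous_fderiv one_ne_zero)
  have hB0 : 0 ≤ B := (norm_nonneg _).trans (hB 0)
  refine ⟨fun n x => χ (((n : ℝ) + 1)⁻¹ • x), B * ∑ i, ‖e i‖,
    fun n => hχ.comp (contDiff_id.const_smul _), fun n => ?_, fun n x => ⟨χ.nonneg, χ.le_one⟩,
    fun n x hx => ?_, fun n i x => ?_⟩
  · exact χ.hasCompactSupport.comp_smul (by positivity : ((n : ℝ) + 1)⁻¹ ≠ 0)
  · apply χ.one_of_mem_closedBall
    rw [mem_closedBall_zero_iff, norm_smul, Real.norm_of_nonneg (by positivity)]
    change _ ≤ (1 : ℝ)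
    rw [inv_mul_le_iff₀ (by positivity)]
    linarith
  · have h1 : HasFDerivAt (fun x : E => ((n : ℝ) + 1)⁻¹ • x)
        (((n : ℝ) + 1)⁻¹ • ContinuousLinearMap.id ℝ E) x := (hasFDerivAt_id x).const_smul _
    have h2 := ((hχ.differentiable one_ne_zero _).hasFDerivAt.comp x h1).fderiv
    have h3 : pd e (fun x => χ (((n : ℝ) + 1)⁻¹ • x)) i x =
        ((n : ℝ) + 1)⁻¹ * fderiv ℝ χ (((n : ℝ) + 1)⁻¹ • x) (e i) := by
      unfold pd
      rw [show (fun x => χ (((n : ℝ) + 1)⁻¹ • x)) = χ ∘ fun x : E => ((n : ℝ) + 1)⁻¹ • x from rfl,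
        h2]
      simp
    rw [h3, abs_mul, abs_of_pos (by positivity), div_eq_inv_mul]
    refine mul_le_mul_of_nonneg_left ?_ (by positivity)
    calc |fderiv ℝ χ (((n : ℝ) + 1)⁻¹ • x) (e i)|
        ≤ ‖fderiv ℝ χ (((n : ℝ) + 1)⁻¹ • x)‖ * ‖e i‖ :=
          (fderiv ℝ χ (((n : ℝ) + 1)⁻¹ • x)).le_opNorm (e i)
      _ ≤ B * ∑ i, ‖e i‖ := mul_le_mul (hB _)
          (Finset.single_le_sum (f := fun i => ‖e i‖) (fun _ _ => norm_nonneg _)
            (Finset.mem_univ i)) (norm_nonneg _) hB0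

theorem LMoll_cut_tendsto {ζ : ℕ → E → ℝ} (h : ∀ (n : ℕ) x, ‖x‖ ≤ n → ζ n x = 1) (x : E) :
    Tendsto (fun n => ζ n x) atTop (𝓝 1) := by
  refine tendsto_const_nhds.congr' ?_
  filter_upwards [tendsto_natCast_atTop_atTop.eventually_ge_atTop ‖x‖] with n hn
  exact (h n x hn).symm

theorem LMoll_dct {D : ℕ → E → ℝ} {b : E → ℝ} (hD : ∀ n, AEStronglyMeasurable (D n) volume)
    (hb : MemLp b 2 volume) (hle : ∀ n x, |D n x| ≤ b x)
    (hlim : ∀ x, Tendsto (fun n => D n x) atTop (𝓝 0)) :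
    Tendsto (fun n => nsq (D n)) atTop (𝓝 0) := by
  have := tendsto_integral_of_dominated_convergence (F := fun n x => D n x ^ 2)
    (f := fun _ : E => (0 : ℝ)) (μ := volume) (fun x => b x ^ 2) (fun n => (hD n).pow 2)
    hb.integrable_sq (fun n => Eventually.of_forall fun x => by
      rw [Real.norm_of_nonneg (sq_nonneg _), ← sq_abs]
      exact pow_le_pow_left₀ (abs_nonneg _) (hle n x) 2)
    (Eventually.of_forall fun x => by simpa using (hlim x).pow 2)
  simpa [nsq] using this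

theorem LMoll_scheffe {F : ℕ → E → ℝ} {h : E → ℝ} (hF : ∀ n, MemLp (F n) 2 volume)
    (hh : MemLp h 2 volume) (hle : ∀ n, nsq (F n) ≤ nsq h)
    (hlim : ∀ᵐ x, Tendsto (fun n => F n x) atTop (𝓝 (h x))) :
    Tendsto (fun n => nsq fun x => F n x - h x) atTop (𝓝 0) := by
  have hint : ∀ n, Integrable fun x => (F n x - h x) ^ 2 - 2 * F n x ^ 2 + 2 * h x ^ 2 := fun n =>
    ((((hF n).sub hh).integrable_sq).sub ((hF n).integrable_sq.const_mul 2)).add
      (hh.integrable_sq.const_mul 2)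
  have hk := tendsto_integral_of_dominated_convergence
    (F := fun n x => max ((F n x - h x) ^ 2 - 2 * F n x ^ 2 + 2 * h x ^ 2) 0)
    (f := fun _ : E => (0 : ℝ)) (μ := volume) (fun x => 4 * h x ^ 2)
    (fun n => (hint n).pos_part.1) (hh.integrable_sq.const_mul 4)
    (fun n => Eventually.of_forall fun x => by
      rw [Real.norm_of_nonneg (le_max_right _ _)]
      exact max_le (by nlinarith [sq_nonneg (F n x + h x)]) (by positivity))
    (by
      filter_upwards [hlim] with x hx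
      have := ((((hx.sub_const (h x)).pow 2).sub ((hx.pow 2).const_mul 2)).add_const
        (2 * h x ^ 2)).max (tendsto_const_nhds (x := (0 : ℝ)))
      simpa using this)
  rw [integral_zero] at hk
  refine squeeze_zero (fun n => nsq_nonneg _) (fun n => ?_) hk
  have h1 : ∫ x, ((F n x - h x) ^ 2 - 2 * F n x ^ 2 + 2 * h x ^ 2) ≤
      ∫ x, max ((F n x - h x) ^ 2 - 2 * F n x ^ 2 + 2 * h x ^ 2) 0 :=
    integral_mono (hint n) (hint n).pos_part fun x => le_max_left _ _
  have i1 : Integrable fun x => (F n x - h x) ^ 2 := ((hF n).sub hh).integrable_sq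
  have i2 : Integrable fun x => 2 * F n x ^ 2 := (hF n).integrable_sq.const_mul 2
  have i3 : Integrable fun x => 2 * h x ^ 2 := hh.integrable_sq.const_mul 2
  have i4 : Integrable fun x => (F n x - h x) ^ 2 - 2 * F n x ^ 2 := i1.sub i2
  rw [integral_add i4 i3, integral_sub i1 i2, integral_const_mul,
    integral_const_mul] at h1
  have h2 := hle n
  unfold nsq at h2 ⊢
  linarith

theorem LMoll_tri {a b c : E → ℝ} (ha : MemLp a 2 volume) (hb : MemLp b 2 volume)
    (hc : MemLp c 2 volume) :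
    nsq (fun x => a x - c x) ≤ 2 * nsq (fun x => a x - b x) + 2 * nsq (fun x => b x - c x) := by
  have i1 : Integrable fun x => (a x - c x) ^ 2 := (ha.sub hc).integrable_sq
  have i2 : Integrable fun x => (a x - b x) ^ 2 := (ha.sub hb).integrable_sq
  have i3 : Integrable fun x => (b x - c x) ^ 2 := (hb.sub hc).integrable_sq
  unfold nsq
  rw [← integral_const_mul, ← integral_const_mul, ← integral_add (i2.const_mul 2) (i3.const_mul 2)]
  refine integral_mono i1 ((i2.const_mul 2).add (i3.const_mul 2)) fun x => ?_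
  dsimp only
  nlinarith [sq_nonneg (a x - 2 * b x + c x)]

open scoped Convolution in
theorem LMoll_young (φ : ContDiffBump (0 : E)) {h : E → ℝ} (hh : MemLp h 2 volume) :
    MemLp (φ.normed volume ⋆[ContinuousLinearMap.lsmul ℝ ℝ, volume] h) 2 volume ∧
      nsq (φ.normed volume ⋆[ContinuousLinearMap.lsmul ℝ ℝ, volume] h) ≤ nsq h := by
  have hl : LocallyIntegrable h volume := hh.locallyIntegrable one_le_two
  have h2 : Integrable fun x => h x ^ 2 := hh.integrable_sq
  have hc : Continuous (φ.normed volume ⋆[ContinuousLinearMap.lsmul ℝ ℝ, volume] h) :=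
    φ.hasCompactSupport_normed.continuous_convolution_left _ φ.continuous_normed hl
  have hG := (φ.integrable_normed (μ := volume)).integrable_convolution
    (ContinuousLinearMap.lsmul ℝ ℝ) h2
  have hI := integral_convolution (ContinuousLinearMap.lsmul ℝ ℝ)
    (φ.integrable_normed (μ := volume)) h2
  rw [φ.integral_normed] at hI
  simp only [ContinuousLinearMap.lsmul_apply, smul_eq_mul, one_mul] at hI
  have hpt : ∀ x, (φ.normed volume ⋆[ContinuousLinearMap.lsmul ℝ ℝ, volume] h) x ^ 2 ≤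
      (φ.normed volume ⋆[ContinuousLinearMap.lsmul ℝ ℝ, volume] fun x => h x ^ 2) x := by
    intro x
    have e1 : Integrable fun t => φ.normed volume t * h (x - t) :=
      φ.hasCompactSupport_normed.convolutionExists_left (ContinuousLinearMap.lsmul ℝ ℝ)
        φ.continuous_normed hl x
    have e2 : Integrable fun t => φ.normed volume t * h (x - t) ^ 2 :=
      φ.hasCompactSupport_normed.convolutionExists_left (ContinuousLinearMap.lsmul ℝ ℝ)
        φ.continuous_normed h2.locallyIntegrable x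
    have e3 : Integrable fun t => φ.normed volume t := φ.integrable_normed
    simp only [convolution_lsmul, smul_eq_mul]
    generalize hc' : ∫ t, φ.normed volume t * h (x - t) = c
    have e4 : 0 ≤ ∫ t, (φ.normed volume t * h (x - t) ^ 2 -
        2 * c * (φ.normed volume t * h (x - t)) + c ^ 2 * φ.normed volume t) := by
      refine integral_nonneg fun t => ?_
      have := mul_nonneg (φ.nonneg_normed (μ := volume) t) (sq_nonneg (h (x - t) - c))
      simp only [Pi.zero_apply]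
      nlinarith
    have e5 : Integrable fun t => φ.normed volume t * h (x - t) ^ 2 -
        2 * c * (φ.normed volume t * h (x - t)) := e2.sub (e1.const_mul _)
    rw [integral_add e5 (e3.const_mul _), integral_sub e2 (e1.const_mul _),
      integral_const_mul, integral_const_mul, hc', φ.integral_normed] at e4
    nlinarith
  have hi : Integrable fun x =>
      (φ.normed volume ⋆[ContinuousLinearMap.lsmul ℝ ℝ, volume] h) x ^ 2 :=
    hG.mono' (hc.pow 2).aestronglyMeasurable (Eventually.of_forall fun x => by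
      rw [Real.norm_of_nonneg (sq_nonneg _)]
      exact hpt x)
  refine ⟨(memLp_two_iff_integrable_sq hc.aestronglyMeasurable).2 hi, ?_⟩
  unfold nsq
  rw [← hI]
  exact integral_mono hi hG hpt

open scoped Convolution in
theorem LMoll_moll (φ : ℕ → ContDiffBump (0 : E)) (h1 : Tendsto (fun i => (φ i).rOut) atTop (𝓝 0))
    (h2 : ∀ i, (φ i).rOut ≤ 2 * (φ i).rIn) {h : E → ℝ} (hh : MemLp h 2 volume) :
    Tendsto (fun n => nsq fun x =>
      ((φ n).normed volume ⋆[ContinuousLinearMap.lsmul ℝ ℝ, volume] h) x - h x) atTop (𝓝 0) :=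
  LMoll_scheffe (fun n => (LMoll_young (φ n) hh).1) hh (fun n => (LMoll_young (φ n) hh).2)
    (ContDiffBump.ae_convolution_tendsto_right_of_locallyIntegrable h1 (Eventually.of_forall h2)
      (hh.locallyIntegrable one_le_two))

open scoped Convolution in
theorem LMoll_deriv {v : E} {u g : E → ℝ} (h : WD v u g) {φ : E → ℝ} (hφ : ContDiff ℝ 1 φ)
    (hφc : HasCompactSupport φ) (x : E) :
    fderiv ℝ (φ ⋆[ContinuousLinearMap.lsmul ℝ ℝ, volume] u) x v =
      (φ ⋆[ContinuousLinearMap.lsmul ℝ ℝ, volume] g) x := by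
  rw [← convolution_flip, (hφc.hasFDerivAt_convolution_right _ h.lu hφ x).fderiv,
    convolution_precompR_apply _ h.lu (hφc.fderiv ℝ) (hφ.continuous_fderiv one_ne_zero),
    convolution_def, convolution_lsmul_swap]
  have hψ : ContDiff ℝ 1 fun t => φ (x - t) := hφ.comp (contDiff_const.sub contDiff_id)
  have hψc : HasCompactSupport fun t => φ (x - t) := hφc.comp_homeomorph (Homeomorph.subLeft x)
  have h3 := h.eq _ hψ hψc
  have h4 : ∀ t, fderiv ℝ (fun t => φ (x - t)) t v = -fderiv ℝ φ (x - t) v := by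
    intro t
    have := (((hφ.differentiable one_ne_zero) (x - t)).hasFDerivAt.comp t
      ((hasFDerivAt_id t).const_sub x)).fderiv
    rw [show (fun t => φ (x - t)) = φ ∘ HSub.hSub x from rfl, this]
    simp
  simp only [h4, mul_neg, integral_neg, neg_inj] at h3
  simp only [ContinuousLinearMap.flip_apply, ContinuousLinearMap.lsmul_apply, smul_eq_mul]
  simp only [mul_comm _ (u _), h3, mul_comm (φ _)]

open scoped Convolution in
theorem LMoll_approx_c {u : E → ℝ} {g : ι → E → ℝ} (h : H1 e u g) (hc : HasCompactSupport u)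
    {δ : ℝ} (hδ : 0 < δ) :
    ∃ φ : E → ℝ, ContDiff ℝ 2 φ ∧ HasCompactSupport φ ∧ nsq (fun x => φ x - u x) ≤ δ ∧
      ∀ i, nsq (fun x => pd e φ i x - g i x) ≤ δ := by
  let φ : ℕ → ContDiffBump (0 : E) := fun n =>
    ⟨1 / ((n : ℝ) + 1), 2 * (1 / ((n : ℝ) + 1)), by positivity, by
      have : 0 < 1 / ((n : ℝ) + 1) := by positivity
      linarith⟩
  have h1 : Tendsto (fun i => (φ i).rOut) atTop (𝓝 0) := by
    have := (tendsto_one_div_add_atTop_nhds_zero_nat (𝕜 := ℝ)).const_mul (2 : ℝ)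
    rwa [mul_zero] at this
  have h2 : ∀ i, (φ i).rOut ≤ 2 * (φ i).rIn := fun i => le_rfl
  have e1 := (LMoll_moll φ h1 h2 h.l2).eventually (ge_mem_nhds hδ)
  have e2 := eventually_all.2 fun i => (LMoll_moll φ h1 h2 (h.gl2 i)).eventually (ge_mem_nhds hδ)
  obtain ⟨n, e1, e2⟩ := (e1.and e2).exists
  refine ⟨(φ n).normed volume ⋆[ContinuousLinearMap.lsmul ℝ ℝ, volume] u,
    (φ n).hasCompactSupport_normed.contDiff_convolution_left (n := 2) _ (φ n).contDiff_normed
      (h.l2.locallyIntegrable one_le_two),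
    (φ n).hasCompactSupport_normed.convolution _ hc, e1, fun i => ?_⟩
  unfold pd
  simp only [LMoll_deriv (h.wd i) (φ n).contDiff_normed (φ n).hasCompactSupport_normed]
  exact e2 i

/-- Cut off (`exists_cut`, `H1l.mul_c1c`), then convolve with `ContDiffBump.normed`; the derivative
of the convolution is the convolution of the weak derivative.  `L²` convergence of mollifications:
Young's inequality (Jensen or Cauchy-Schwarz) and density of `C_c` in `L²`
(`MemLp.exists_hasCompactSupport_eLpNorm_sub_le`), uniform convergence for continuous functions. -/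
theorem H1.approx {u : E → ℝ} {g : ι → E → ℝ} (h : H1 e u g) {δ : ℝ} (hδ : 0 < δ) :
    ∃ φ : E → ℝ, ContDiff ℝ 2 φ ∧ HasCompactSupport φ ∧ nsq (fun x => φ x - u x) ≤ δ ∧
      ∀ i, nsq (fun x => pd e φ i x - g i x) ≤ δ := by
  obtain ⟨ζ, M, z1, z2, z3, z4, z5⟩ := exists_cut e
  have hw : ∀ n, H1 e (fun x => ζ n x * u x) fun i x => ζ n x * g i x + pd e (ζ n) i x * u x :=
    fun n => h.h1l.mul_c1c (z1 n) (z2 n)
  have hM : ∀ n i x, |pd e (ζ n) i x| ≤ |M| := fun n i x =>
    (z5 n i x).trans ((div_le_div_of_nonneg_right (le_abs_self M) (by positivity)).trans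
      (div_le_self (abs_nonneg _) (by linarith [Nat.cast_nonneg (α := ℝ) n])))
  have hz : ∀ n x, |ζ n x - 1| ≤ 1 := fun n x => by
    have := z3 n x
    rw [abs_le]
    constructor <;> linarith [this.1, this.2]
  have e1 : Tendsto (fun n => nsq fun x => ζ n x * u x - u x) atTop (𝓝 0) := by
    refine LMoll_dct (b := fun x => |u x|) (fun n => ((hw n).l2.sub h.l2).1) h.l2.abs
      (fun n x => ?_) (fun x => ?_)
    · rw [show ζ n x * u x - u x = (ζ n x - 1) * u x by ring, abs_mul]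
      exact mul_le_of_le_one_left (abs_nonneg _) (hz n x)
    · simpa using ((LMoll_cut_tendsto z4 x).mul_const (u x)).sub_const (u x)
  have e2 : ∀ i, Tendsto (fun n => nsq fun x => ζ n x * g i x + pd e (ζ n) i x * u x - g i x)
      atTop (𝓝 0) := by
    intro i
    refine LMoll_dct (b := fun x => |g i x| + |M| * |u x|)
      (fun n => (((hw n).gl2 i).sub (h.gl2 i)).1) ((h.gl2 i).abs.add (h.l2.abs.const_mul _))
      (fun n x => ?_) (fun x => ?_)
    · rw [show ζ n x * g i x + pd e (ζ n) i x * u x - g i x =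
        (ζ n x - 1) * g i x + pd e (ζ n) i x * u x by ring]
      refine (abs_add_le _ _).trans (add_le_add ?_ ?_)
      · rw [abs_mul]
        exact mul_le_of_le_one_left (abs_nonneg _) (hz n x)
      · rw [abs_mul]
        exact mul_le_mul_of_nonneg_right (hM n i x) (abs_nonneg _)
    · have t1 : Tendsto (fun n : ℕ => pd e (ζ n) i x) atTop (𝓝 0) := by
        refine squeeze_zero_norm (fun n => z5 n i x) ?_
        have := (tendsto_one_div_add_atTop_nhds_zero_nat (𝕜 := ℝ)).const_mul M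
        simpa [div_eq_mul_inv] using this
      simpa using (((LMoll_cut_tendsto z4 x).mul_const (g i x)).add
        (t1.mul_const (u x))).sub_const (g i x)
  have hδ4 : 0 < δ / 4 := by positivity
  obtain ⟨n, e3, e4⟩ := ((e1.eventually (ge_mem_nhds hδ4)).and
    (eventually_all.2 fun i => (e2 i).eventually (ge_mem_nhds hδ4))).exists
  obtain ⟨φ, p1, p2, p3, p4⟩ := LMoll_approx_c (hw n) (z2 n).mul_right hδ4
  have hφ : H1 e φ (pd e φ) := H1.of_c1c (p1.of_le one_le_two) p2
  refine ⟨φ, p1, p2, ?_, fun i => ?_⟩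
  · have := LMoll_tri hφ.l2 (hw n).l2 h.l2
    linarith
  · have := LMoll_tri (hφ.gl2 i) ((hw n).gl2 i) (h.gl2 i)
    linarith [p4 i, e4 i]

/-- A fast converging sequence, with an `L²` majorant `b` and almost everywhere convergence
(`b = |u| + ∑ |g i| + ∑ n, (|φ n - u| + ∑ |∂ φ n - g i|)`). -/
theorem H1.approx_seq {u : E → ℝ} {g : ι → E → ℝ} (h : H1 e u g) :
    ∃ (φ : ℕ → E → ℝ) (b : E → ℝ), (∀ n, ContDiff ℝ 2 (φ n)) ∧ (∀ n, HasCompactSupport (φ n)) ∧
      (∀ n, nsq (fun x => φ n x - u x) ≤ (1 / 4) ^ n) ∧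
      (∀ n i, nsq (fun x => pd e (φ n) i x - g i x) ≤ (1 / 4) ^ n) ∧
      MemLp b 2 volume ∧
      (∀ᵐ x, (∀ n, |φ n x| ≤ b x) ∧ (∀ n i, |pd e (φ n) i x| ≤ b x) ∧
        Tendsto (fun n => φ n x) atTop (𝓝 (u x)) ∧
        ∀ i, Tendsto (fun n => pd e (φ n) i x) atTop (𝓝 (g i x))) := by
  choose φ p1 p2 p3 p4 using fun n : ℕ => h.approx (δ := (1 / 4) ^ n) (by positivity)
  have hφ : ∀ n, H1 e (φ n) (pd e (φ n)) := fun n => H1.of_c1c ((p1 n).of_le one_le_two) (p2 n)
  obtain ⟨d, hd⟩ : ∃ d : ℕ → E → ℝ, ∀ n x, d n x =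
      2 ^ n * ((φ n x - u x) ^ 2 + ∑ i, (pd e (φ n) i x - g i x) ^ 2) := ⟨_, fun _ _ => rfl⟩
  have i1 : ∀ n, Integrable fun x => (φ n x - u x) ^ 2 := fun n =>
    ((hφ n).l2.sub h.l2).integrable_sq
  have i2 : ∀ n i, Integrable fun x => (pd e (φ n) i x - g i x) ^ 2 := fun n i =>
    (((hφ n).gl2 i).sub (h.gl2 i)).integrable_sq
  have i3 : ∀ n, Integrable fun x => ∑ i, (pd e (φ n) i x - g i x) ^ 2 := fun n =>
    integrable_finsetSum _ fun i _ => i2 n i
  have hdi : ∀ n, Integrable (d n) := fun n => by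
    rw [funext (hd n)]
    exact ((i1 n).add (i3 n)).const_mul _
  have hd0 : ∀ n x, 0 ≤ d n x := fun n x => by rw [hd]; positivity
  have hdI : ∀ n, ∫ x, d n x ≤ (1 + Fintype.card ι) * (1 / 2) ^ n := by
    intro n
    simp only [hd]
    rw [integral_const_mul, integral_add (i1 n) (i3 n), integral_finsetSum _ fun i _ => i2 n i]
    have q1 : ∫ x, (φ n x - u x) ^ 2 ≤ (1 / 4) ^ n := p3 n
    have q2 : ∑ i, ∫ x, (pd e (φ n) i x - g i x) ^ 2 ≤ Fintype.card ι * (1 / 4) ^ n := by
      have := Finset.sum_le_card_nsmul Finset.univ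
        (fun i => ∫ x, (pd e (φ n) i x - g i x) ^ 2) ((1 / 4) ^ n) fun i _ => p4 n i
      simpa using this
    have q3 : (2 : ℝ) ^ n * (1 / 4) ^ n = (1 / 2) ^ n := by rw [← mul_pow]; norm_num
    calc _ ≤ (2 : ℝ) ^ n * ((1 / 4) ^ n + Fintype.card ι * (1 / 4) ^ n) := by gcongr
      _ = (1 + Fintype.card ι) * (2 ^ n * (1 / 4) ^ n) := by ring
      _ = _ := by rw [q3]
  have hm : ∀ n, AEMeasurable (fun x => ENNReal.ofReal (d n x)) volume := fun n =>
    (hdi n).1.aemeasurable.ennreal_ofReal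
  have hC : ∫⁻ x, ∑' n, ENNReal.ofReal (d n x) ≠ ∞ := by
    rw [lintegral_tsum hm]
    have hs : Summable fun n : ℕ => (1 + Fintype.card ι : ℝ) * (1 / 2) ^ n :=
      summable_geometric_two.mul_left _
    refine ne_top_of_le_ne_top (b := ∑' n : ℕ, ENNReal.ofReal ((1 + Fintype.card ι) * (1 / 2) ^ n))
      ?_ (ENNReal.tsum_le_tsum fun n => ?_)
    · rw [← ENNReal.ofReal_tsum_of_nonneg (fun n => by positivity) hs]
      exact ENNReal.ofReal_ne_top
    · rw [← ofReal_integral_eq_lintegral_ofReal (hdi n) (Eventually.of_forall (hd0 n))]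
      exact ENNReal.ofReal_le_ofReal (hdI n)
  have hCm : AEMeasurable (fun x => ∑' n, ENNReal.ofReal (d n x)) volume := AEMeasurable.tsum hm
  have hci : Integrable fun x => (∑' n, ENNReal.ofReal (d n x)).toReal :=
    integrable_toReal_of_lintegral_ne_top hCm hC
  have hs2 : MemLp (fun x => √(∑' n, ENNReal.ofReal (d n x)).toReal) 2 volume := by
    refine (memLp_two_iff_integrable_sq
      (Real.continuous_sqrt.comp_aestronglyMeasurable hci.1)).2 ?_
    simpa only [Real.sq_sqrt ENNReal.toReal_nonneg] using hci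
  refine ⟨φ, fun x => |u x| + ∑ i, |g i x| + √(∑' n, ENNReal.ofReal (d n x)).toReal, p1, p2, p3,
    p4, (h.l2.abs.add (memLp_finsetSum _ fun i _ => (h.gl2 i).abs)).add hs2, ?_⟩
  filter_upwards [ae_lt_top' hCm hC] with x hx
  generalize hc : (∑' n, ENNReal.ofReal (d n x)).toReal = c
  have k1 : ∀ n, d n x ≤ c := fun n => by
    rw [← hc]
    exact (ENNReal.ofReal_le_iff_le_toReal hx.ne).1 (ENNReal.le_tsum n)
  have hc0 : 0 ≤ c := (hd0 0 x).trans (k1 0)
  have k2 : ∀ n (t : ℝ), 2 ^ n * t ^ 2 ≤ d n x → |t| ≤ √(c * (1 / 2) ^ n) := by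
    intro n t ht
    apply Real.abs_le_sqrt
    have := ht.trans (k1 n)
    rw [one_div, inv_pow, ← div_eq_mul_inv, le_div_iff₀ (by positivity)]
    linarith
  have k3 : ∀ n, |φ n x - u x| ≤ √(c * (1 / 2) ^ n) := fun n => k2 n _ (by
    rw [hd]
    gcongr
    exact le_add_of_nonneg_right (by positivity))
  have k4 : ∀ n i, |pd e (φ n) i x - g i x| ≤ √(c * (1 / 2) ^ n) := fun n i => k2 n _ (by
    rw [hd]
    gcongr
    exact (Finset.single_le_sum (f := fun i => (pd e (φ n) i x - g i x) ^ 2)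
      (fun _ _ => sq_nonneg _) (Finset.mem_univ i)).trans (le_add_of_nonneg_left (sq_nonneg _)))
  have k5 : ∀ n : ℕ, √(c * (1 / 2) ^ n) ≤ √c := fun n =>
    Real.sqrt_le_sqrt (mul_le_of_le_one_right hc0 (pow_le_one₀ (by norm_num) (by norm_num)))
  have k6 : Tendsto (fun n : ℕ => √(c * (1 / 2) ^ n)) atTop (𝓝 0) := by
    have := ((tendsto_pow_atTop_nhds_zero_of_lt_one (r := (1 / 2 : ℝ)) (by norm_num)
      (by norm_num)).const_mul c).sqrt
    simpa using this
  have k7 : 0 ≤ ∑ i, |g i x| := by positivity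
  refine ⟨fun n => ?_, fun n i => ?_, ?_, fun i => ?_⟩
  · have := abs_sub_abs_le_abs_sub (φ n x) (u x)
    linarith [k3 n, k5 n]
  · have := abs_sub_abs_le_abs_sub (pd e (φ n) i x) (g i x)
    have k8 : |g i x| ≤ ∑ i, |g i x| := Finset.single_le_sum (f := fun i => |g i x|)
      (fun _ _ => abs_nonneg _) (Finset.mem_univ i)
    linarith [k4 n i, k5 n, abs_nonneg (u x)]
  · exact tendsto_sub_nhds_zero_iff.1 (squeeze_zero_norm k3 k6)
  · exact tendsto_sub_nhds_zero_iff.1 (squeeze_zero_norm (fun n => k4 n i) k6)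

/-- A closed property of `H¹` functions which holds on `C²_c` holds everywhere. -/
theorem H1.le_of_c2c {A B : (E → ℝ) → (ι → E → ℝ) → ℝ} {u : E → ℝ} {g : ι → E → ℝ}
    (h : H1 e u g)
    (hc : ∀ φ : E → ℝ, ContDiff ℝ 2 φ → HasCompactSupport φ → A φ (pd e φ) ≤ B φ (pd e φ))
    (hA : ∀ (φ : ℕ → E → ℝ) (b : E → ℝ), (∀ n, H1 e (φ n) (pd e (φ n))) → MemLp b 2 volume →
      (∀ᵐ x, (∀ n, |φ n x| ≤ b x) ∧ (∀ n i, |pd e (φ n) i x| ≤ b x) ∧
        Tendsto (fun n => φ n x) atTop (𝓝 (u x)) ∧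
        ∀ i, Tendsto (fun n => pd e (φ n) i x) atTop (𝓝 (g i x))) →
      Tendsto (fun n => A (φ n) (pd e (φ n))) atTop (𝓝 (A u g)) ∧
      Tendsto (fun n => B (φ n) (pd e (φ n))) atTop (𝓝 (B u g))) : A u g ≤ B u g := by
  obtain ⟨φ, b, p1, p2, -, -, p5, p6⟩ := h.approx_seq
  obtain ⟨t1, t2⟩ := hA φ b (fun n => H1.of_c1c ((p1 n).of_le one_le_two) (p2 n)) p5 p6
  exact le_of_tendsto_of_tendsto' t1 t2 fun n => hc _ (p1 n) (p2 n)

theorem LMoll_lim {a b f : E → ℝ} {F : ℕ → E → ℝ} (ha : MemLp a 2 volume) (hb : MemLp b 2 volume)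
    (hF : ∀ n, MemLp (F n) 2 volume)
    (h : ∀ᵐ x, (∀ n, |F n x| ≤ b x) ∧ Tendsto (fun n => F n x) atTop (𝓝 (f x))) :
    Tendsto (fun n => ∫ x, a x * F n x) atTop (𝓝 (∫ x, a x * f x)) := by
  refine tendsto_integral_of_dominated_convergence (fun x => |a x| * b x)
    (fun n => ha.1.mul (hF n).1) (ha.abs.integrable_mul hb) (fun n => ?_) ?_
  · filter_upwards [h] with x hx
    rw [Real.norm_eq_abs, abs_mul]
    exact mul_le_mul_of_nonneg_left (hx.1 n) (abs_nonneg _)
  · filter_upwards [h] with x hx using hx.2.const_mul _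

/-- Integration by parts. -/
theorem H1.ibp {u w : E → ℝ} {g k : ι → E → ℝ} (h : H1 e u g) (h' : H1 e w k) (i : ι) :
    ∫ x, g i x * w x = -∫ x, u x * k i x := by
  obtain ⟨φ, b, p1, p2, -, -, p5, p6⟩ := h'.approx_seq
  have hφ : ∀ n, H1 e (φ n) (pd e (φ n)) := fun n => H1.of_c1c ((p1 n).of_le one_le_two) (p2 n)
  have t1 := LMoll_lim (h.gl2 i) p5 (fun n => (hφ n).l2) (p6.mono fun x hx => ⟨hx.1, hx.2.2.1⟩)
  have t2 := LMoll_lim h.l2 p5 (fun n => (hφ n).gl2 i)
    (p6.mono fun x hx => ⟨fun n => hx.2.1 n i, hx.2.2.2 i⟩)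
  refine tendsto_nhds_unique t1 (t2.neg.congr fun n => ?_)
  have := (h.wd i).eq (φ n) ((p1 n).of_le one_le_two) (p2 n)
  unfold pd
  rw [this, neg_neg]

/-- Extension of a weak equation from `C¹_c` tests to `H¹` tests. -/
theorem test_ext_eq {a : ι → E → ℝ} {b : E → ℝ} (ha : ∀ i, MemLp (a i) 2 volume)
    (hb : MemLp b 2 volume)
    (h : ∀ φ : E → ℝ, ContDiff ℝ 1 φ → HasCompactSupport φ →
      (∫ x, gd a (pd e φ) x) + ∫ x, b x * φ x = 0)
    {w : E → ℝ} {k : ι → E → ℝ} (hw : H1 e w k) : (∫ x, gd a k x) + ∫ x, b x * w x = 0 := by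
  obtain ⟨φ, c, p1, p2, -, -, p5, p6⟩ := hw.approx_seq
  have hφ : ∀ n, H1 e (φ n) (pd e (φ n)) := fun n => H1.of_c1c ((p1 n).of_le one_le_two) (p2 n)
  have t1 := LMoll_lim hb p5 (fun n => (hφ n).l2) (p6.mono fun x hx => ⟨hx.1, hx.2.2.1⟩)
  have t2 := fun i => LMoll_lim (ha i) p5 (fun n => (hφ n).gl2 i)
    (p6.mono fun x hx => ⟨fun n => hx.2.1 n i, hx.2.2.2 i⟩)
  have t3 := (tendsto_finsetSum Finset.univ fun i _ => t2 i).add t1
  have e1 : ∀ l : ι → E → ℝ, (∀ i, MemLp (l i) 2 volume) →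
      ∫ x, gd a l x = ∑ i, ∫ x, a i x * l i x := fun l hl =>
    integral_finsetSum _ fun i _ => (ha i).integrable_mul (hl i)
  rw [e1 k hw.gl2]
  refine tendsto_nhds_unique t3 (tendsto_const_nhds.congr fun n => ?_)
  rw [← e1 _ (hφ n).gl2]
  exact (h _ ((p1 n).of_le one_le_two) (p2 n)).symm

/-- A weakly differentiable function with integrable weak derivative and (integrable) function:
the integral of the derivative vanishes. -/
theorem WD.integral_eq_zero {v : E} {u g : E → ℝ} (h : WD v u g) (hu : Integrable u)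
    (hg : Integrable g) : ∫ x, g x = 0 := by
  obtain ⟨ζ, M, z1, z2, z3, z4, z5⟩ := exists_cut (fun _ : Unit => v)
  have t1 : Tendsto (fun n => ∫ x, g x * ζ n x) atTop (𝓝 (∫ x, g x)) := by
    refine tendsto_integral_of_dominated_convergence (fun x => ‖g x‖)
      (fun n => hg.1.mul (z1 n).continuous.aestronglyMeasurable) hg.norm
      (fun n => Eventually.of_forall fun x => ?_) (Eventually.of_forall fun x => ?_)
    · rw [norm_mul, Real.norm_of_nonneg (z3 n x).1]
      exact mul_le_of_le_one_right (norm_nonneg _) (z3 n x).2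
    · simpa using (LMoll_cut_tendsto z4 x).const_mul (g x)
  have t2 : Tendsto (fun n => ∫ x, u x * fderiv ℝ (ζ n) x v) atTop (𝓝 0) := by
    have t3 : Tendsto (fun n : ℕ => (∫ x, ‖u x‖) * (M / (n + 1))) atTop (𝓝 0) := by
      have := ((tendsto_one_div_add_atTop_nhds_zero_nat (𝕜 := ℝ)).const_mul M).const_mul
        (∫ x, ‖u x‖)
      simpa [div_eq_mul_inv] using this
    refine squeeze_zero_norm (fun n => ?_) t3
    rw [← integral_mul_const]
    refine norm_integral_le_of_norm_le (hu.norm.mul_const _) (Eventually.of_forall fun x => ?_)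
    rw [norm_mul]
    exact mul_le_mul_of_nonneg_left (z5 n () x) (norm_nonneg _)
  have t4 := tendsto_nhds_unique t1.neg (t2.congr fun n => h.eq _ (z1 n) (z2 n))
  exact neg_eq_zero.1 t4

end Crest.Agent.R335
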