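import Crest.Agent.R335.Par

/-! Row 335. The explicit barriers.  All are combinations of `bar_sol` (`Sol.lin`).  With `κ₀ = 2 - 2 ε`, `B γ = r^γ e^{-k r}`:
`lbar 1 0 0 γ k + (I - κ₀ / r) B γ = B γ ((k (γ + 1) - κ₀) / r - γ (γ + 1) / (2 r²))`. -/

set_option autoImplicit false

open MeasureTheory Set Filter Topology
open scoped ENNReal

noncomputable section

namespace Crest.Agent.R335

variable {c : ℝ} {o : One c} {C ε : ℝ}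

theorem BarA_rad (γ : ℝ) {κ : ℝ} (hκ : 0 < κ) :
    ∃ (U : X → ℝ) (g : Fin 3 → X → ℝ) (f : X → ℝ), Sol (ext 1) U g f ∧ ∀ x : X, 1 ≤ ‖x‖ →
      U x = ‖x‖ ^ γ * Real.exp (-κ * ‖x‖) ∧
      f x = (-κ ^ 2 / 2 + κ * (γ + 1) / ‖x‖ - γ * (γ + 1) / (2 * ‖x‖ ^ 2)) *
        (‖x‖ ^ γ * Real.exp (-κ * ‖x‖)) := by
  obtain ⟨U, g, h1, h2⟩ := bar_sol (A := fun _ => 1) (A' := fun _ => 0) (A'' := fun _ => 0)
    (fun z => hasDerivAt_const z 1) (fun z => hasDerivAt_const z 0) continuous_const (M := 1)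
    (fun z => by rw [abs_one]; nlinarith [sq_nonneg z])
    (fun z => by rw [abs_zero]; positivity) (fun z => by rw [abs_zero]; positivity) γ hκ
  refine ⟨U, g, _, h1, fun x hx => ⟨?_, ?_⟩⟩
  · rw [h2 x hx, bar, one_mul]
  · rw [lbar]
    ring

theorem BarA_two (γ a : ℝ) {κ : ℝ} (hκ : 0 < κ) :
    ∃ (U : X → ℝ) (g : Fin 3 → X → ℝ) (f : X → ℝ), Sol (ext 1) U g f ∧ ∀ x : X, 1 ≤ ‖x‖ →
      U x = ‖x‖ ^ γ * Real.exp (-κ * ‖x‖) * (1 + a * (√‖x‖)⁻¹) ∧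
      f x + (κ ^ 2 / 2 - κ * (γ + 1) / ‖x‖) * U x =
        ‖x‖ ^ γ * Real.exp (-κ * ‖x‖) / (8 * ‖x‖ * √‖x‖) *
          (-(4 * γ * (γ + 1) * (√‖x‖)⁻¹) - 4 * a * κ - a * (4 * γ ^ 2 - 1) * (√‖x‖)⁻¹ ^ 2) := by
  obtain ⟨U, g, f, h1, h2⟩ := BarA_rad γ hκ
  obtain ⟨U', g', f', h1', h2'⟩ := BarA_rad (γ - 1 / 2) hκ
  refine ⟨_, _, _, h1.lin (measurableSet_ext 1) h1' 1 a, fun x hx => ?_⟩
  have hr : 0 < ‖x‖ := one_pos.trans_le hx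
  have e : ‖x‖ ^ (γ - 1 / 2) = ‖x‖ ^ γ / √‖x‖ := by
    rw [Real.rpow_sub hr, Real.sqrt_eq_rpow]
  have ht : 0 < √‖x‖ := Real.sqrt_pos.2 hr
  have hs : √‖x‖ ^ 2 = ‖x‖ := Real.sq_sqrt hr.le
  rw [(h2 x hx).1, (h2 x hx).2, (h2' x hx).1, (h2' x hx).2, e]
  generalize ‖x‖ ^ γ = P
  generalize Real.exp (-κ * ‖x‖) = E
  generalize √‖x‖ = t at ht hs
  rw [← hs]
  constructor
  · field_simp
  · field_simp
    ring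

theorem BarA_inv {x : X} (hx : 16 ≤ ‖x‖) : 0 < (√‖x‖)⁻¹ ∧ (√‖x‖)⁻¹ ≤ 1 / 4 := by
  have h : (4 : ℝ) ≤ √‖x‖ := Real.le_sqrt_of_sq_le (by linarith)
  refine ⟨inv_pos.2 (by linarith), ?_⟩
  rw [one_div]
  exact inv_anti₀ (by norm_num) h

theorem BarA_minus {γ κ : ℝ} (hγ : 9 / 10 ≤ γ ∧ γ ≤ 11 / 10) (hκ : 97 / 100 ≤ κ) :
    ∃ (U : X → ℝ) (g : Fin 3 → X → ℝ) (f : X → ℝ), Sol (ext 1) U g f ∧ ∀ x : X, 16 ≤ ‖x‖ →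
      ‖x‖ ^ γ * Real.exp (-κ * ‖x‖) / 2 ≤ U x ∧ U x ≤ ‖x‖ ^ γ * Real.exp (-κ * ‖x‖) ∧
      ‖x‖ ^ γ * Real.exp (-κ * ‖x‖) / (8 * ‖x‖ * √‖x‖) ≤
        f x + (κ ^ 2 / 2 - κ * (γ + 1) / ‖x‖) * U x := by
  obtain ⟨U, g, f, h1, h2⟩ := BarA_two γ (-1) (κ := κ) (by linarith)
  refine ⟨U, g, f, h1, fun x hx => ?_⟩
  obtain ⟨h3, h4⟩ := h2 x (by linarith)
  obtain ⟨h5, h6⟩ := BarA_inv hx
  have hB : 0 ≤ ‖x‖ ^ γ * Real.exp (-κ * ‖x‖) := by positivity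
  have hD : 0 ≤ ‖x‖ ^ γ * Real.exp (-κ * ‖x‖) / (8 * ‖x‖ * √‖x‖) := by positivity
  rw [h4, h3]
  generalize (√‖x‖)⁻¹ = u at h5 h6
  refine ⟨by nlinarith, by nlinarith, le_mul_of_one_le_right hD ?_⟩
  have h7 : γ * (γ + 1) ≤ 231 / 100 := by nlinarith
  have h8 : γ * (γ + 1) * u ≤ 231 / 100 * (1 / 4) := mul_le_mul h7 h6 h5.le (by norm_num)
  have h9 : 0 ≤ (4 * γ ^ 2 - 1) * u ^ 2 := mul_nonneg (by nlinarith) (sq_nonneg u)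
  linarith

theorem BarA_plus {γ κ : ℝ} (hγ : 9 / 10 ≤ γ ∧ γ ≤ 11 / 10) (hκ : 97 / 100 ≤ κ) :
    ∃ (U : X → ℝ) (g : Fin 3 → X → ℝ) (f : X → ℝ), Sol (ext 1) U g f ∧ ∀ x : X, 16 ≤ ‖x‖ →
      ‖x‖ ^ γ * Real.exp (-κ * ‖x‖) ≤ U x ∧ U x ≤ 2 * (‖x‖ ^ γ * Real.exp (-κ * ‖x‖)) ∧
      f x + (κ ^ 2 / 2 - κ * (γ + 1) / ‖x‖) * U x ≤
        -(‖x‖ ^ γ * Real.exp (-κ * ‖x‖) / (8 * ‖x‖ * √‖x‖)) := by
  obtain ⟨U, g, f, h1, h2⟩ := BarA_two γ 1 (κ := κ) (by linarith)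
  refine ⟨U, g, f, h1, fun x hx => ?_⟩
  obtain ⟨h3, h4⟩ := h2 x (by linarith)
  obtain ⟨h5, h6⟩ := BarA_inv hx
  have hB : 0 ≤ ‖x‖ ^ γ * Real.exp (-κ * ‖x‖) := by positivity
  have hD : 0 ≤ ‖x‖ ^ γ * Real.exp (-κ * ‖x‖) / (8 * ‖x‖ * √‖x‖) := by positivity
  rw [h4, h3]
  generalize (√‖x‖)⁻¹ = u at h5 h6
  refine ⟨by nlinarith, by nlinarith, ?_⟩
  refine (mul_le_mul_of_nonneg_left (c := -1) ?_ hD).trans (mul_neg_one _).le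
  have h8 : 0 ≤ γ * (γ + 1) * u := mul_nonneg (by nlinarith) h5.le
  have h9 : 0 ≤ (4 * γ ^ 2 - 1) * u ^ 2 := mul_nonneg (by nlinarith) (sq_nonneg u)
  linarith

theorem BarA_I (ch : Chan o C ε) : ch.I = ch.k ^ 2 / 2 := by
  rw [ch.k_sq]; ring

theorem BarA_I' (ch : Chan o C ε) : ch.I + ch.gS = ch.k' ^ 2 / 2 := by
  rw [ch.k'_sq]; ring

theorem BarA_h (ch : Chan o C ε) {x : X} (hx : 1 ≤ ‖x‖) (n : ℕ) :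
    ‖x‖ ^ (ch.β - n) * Real.exp (-ch.k * ‖x‖) = ch.h x * ‖x‖⁻¹ ^ n := by
  rw [Real.rpow_sub_natCast (one_pos.trans_le hx).ne', Chan.h, inv_pow]
  ring

theorem BarA_u {x : X} (hx : 1 ≤ ‖x‖) : 0 < ‖x‖⁻¹ ∧ ‖x‖⁻¹ ≤ 1 :=
  ⟨inv_pos.2 (one_pos.trans_le hx), inv_le_one_of_one_le₀ hx⟩

/-- `U = B (β + 1) - B (β + 1/2)`. -/
theorem Chan.bar_s (ch : Chan o C ε) : ∃ (U : X → ℝ) (g : Fin 3 → X → ℝ) (f : X → ℝ),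
    Sol (ext 1) U g f ∧ ∀ x : X, 16 ≤ ‖x‖ → ‖x‖ * ch.h x / 2 ≤ U x ∧ U x ≤ ‖x‖ * ch.h x ∧
      ch.h x / (8 * √‖x‖) ≤ f x + (ch.I - (2 - 2 * ε) / ‖x‖) * U x := by
  have hβ := ch.β_bd
  obtain ⟨U, g, f, h1, h2⟩ := BarA_minus (γ := ch.β + 1) (κ := ch.k)
    ⟨by linarith [hβ.1], by linarith [hβ.2]⟩ ch.k_bd.1
  refine ⟨U, g, f, h1, fun x hx => ?_⟩
  have hr : 0 < ‖x‖ := by linarith
  have e : ‖x‖ ^ (ch.β + 1) * Real.exp (-ch.k * ‖x‖) = ‖x‖ * ch.h x := by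
    rw [Real.rpow_add_one hr.ne', Chan.h]
    ring
  have e2 : ‖x‖ * ch.h x / (8 * ‖x‖ * √‖x‖) = ch.h x / (8 * √‖x‖) := by
    field_simp
  have h3 := h2 x hx
  rw [e, e2, add_assoc, one_add_one_eq_two, ch.k_β, ← BarA_I] at h3
  exact h3

/-- `U = B (β - 1)`. -/
theorem Chan.bar_rad (ch : Chan o C ε) : ∃ (U : X → ℝ) (g : Fin 3 → X → ℝ) (f : X → ℝ),
    Sol (ext 1) U g f ∧ ∀ x : X, 1 ≤ ‖x‖ → U x = ch.h x / ‖x‖ ∧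
      0 ≤ f x + (ch.I + 1 / ‖x‖) * U x := by
  have hβ := ch.β_bd
  have hk := ch.k_bd
  obtain ⟨U, g, f, h1, h2⟩ := BarA_rad (ch.β - (1 : ℕ)) (κ := ch.k) (by linarith [hk.1])
  refine ⟨U, g, f, h1, fun x hx => ?_⟩
  obtain ⟨h3, h4⟩ := h2 x hx
  obtain ⟨hu0, hu1⟩ := BarA_u hx
  have hh := (ch.h_pos (one_pos.trans_le hx)).le
  rw [BarA_h ch hx] at h3 h4
  rw [h4, h3, BarA_I]
  refine ⟨by rw [pow_one, div_eq_mul_inv], ?_⟩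
  rw [← add_mul]
  refine mul_nonneg ?_ (by positivity)
  have e : -ch.k ^ 2 / 2 + ch.k * (ch.β - (1 : ℕ) + 1) / ‖x‖ -
      (ch.β - (1 : ℕ)) * (ch.β - (1 : ℕ) + 1) / (2 * ‖x‖ ^ 2) + (ch.k ^ 2 / 2 + 1 / ‖x‖)
      = ‖x‖⁻¹ * (1 + ch.k * ch.β - (ch.β - 1) * ch.β / 2 * ‖x‖⁻¹) := by
    push_cast
    ring
  rw [e]
  refine mul_nonneg hu0.le ?_
  have a1 : -(1 / 5) ≤ ch.k * ch.β := by nlinarith [hβ.1, hβ.2, hk.1, hk.2]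
  have a2 : (ch.β - 1) * ch.β / 2 ≤ 1 / 2 := by nlinarith [hβ.1, hβ.2]
  have a3 : (ch.β - 1) * ch.β / 2 * ‖x‖⁻¹ ≤ 1 / 2 * 1 :=
    (mul_le_mul_of_nonneg_right a2 hu0.le).trans (mul_le_mul_of_nonneg_left hu1 (by norm_num))
  linarith

/-- `U = √(l + z²) B (β - 2)`; `A'' = l / A³ ≤ A / l`, `z A' ≥ 0`. -/
theorem Chan.bar_sqrt (ch : Chan o C ε) {l : ℝ} (hl : 1 ≤ l) :
    ∃ (U : X → ℝ) (g : Fin 3 → X → ℝ) (f : X → ℝ), Sol (ext 1) U g f ∧ ∀ x : X, 1 ≤ ‖x‖ →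
      U x = √(l + x 2 ^ 2) / ‖x‖ ^ 2 * ch.h x ∧
        0 ≤ f x + (ch.I + 1 / (2 * l) + 3 / ‖x‖) * U x := by
  have hβ := ch.β_bd
  have hk := ch.k_bd
  have hp : ∀ z : ℝ, 1 ≤ l + z ^ 2 := fun z => by nlinarith [sq_nonneg z]
  have hA1 : ∀ z : ℝ, 1 ≤ √(l + z ^ 2) := fun z => Real.one_le_sqrt.2 (hp z)
  have hA0 : ∀ z : ℝ, 0 < √(l + z ^ 2) := fun z => one_pos.trans_le (hA1 z)
  have hA2 : ∀ z : ℝ, √(l + z ^ 2) ^ 2 = l + z ^ 2 := fun z =>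
    Real.sq_sqrt (zero_le_one.trans (hp z))
  have hd : ∀ z : ℝ, HasDerivAt (fun z : ℝ => √(l + z ^ 2)) (z / √(l + z ^ 2)) z := fun z => by
    have h1 : HasDerivAt (fun z : ℝ => l + z ^ 2) (2 * z) z := by
      simpa using (hasDerivAt_pow 2 z).const_add l
    have h2 := h1.sqrt (one_pos.trans_le (hp z)).ne'
    rwa [mul_div_mul_left _ _ (two_ne_zero)] at h2
  have hd2 : ∀ z : ℝ, HasDerivAt (fun z : ℝ => z / √(l + z ^ 2)) (l / √(l + z ^ 2) ^ 3) z :=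
    fun z => by
    have h1 := (hasDerivAt_id' z).fun_div (hd z) (hA0 z).ne'
    have e : (1 * √(l + z ^ 2) - z * (z / √(l + z ^ 2))) / √(l + z ^ 2) ^ 2
        = l / √(l + z ^ 2) ^ 3 := by
      have h2 := hA2 z
      have h3 := (hA0 z).ne'
      generalize √(l + z ^ 2) = A at h2 h3
      field_simp
      linear_combination h2
    rwa [e] at h1
  have hlM : ∀ z : ℝ, l ≤ l * (1 + z ^ 2) := fun z => by nlinarith [sq_nonneg z]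
  obtain ⟨U, g, h1, h2⟩ := bar_sol hd hd2 (Continuous.div continuous_const (by fun_prop)
      fun z => (pow_pos (hA0 z) 3).ne') (M := l)
    (fun z => by
      rw [abs_of_pos (hA0 z)]
      nlinarith [hA1 z, hA2 z, sq_nonneg z])
    (fun z => by
      refine le_trans ?_ (hl.trans (hlM z))
      rw [abs_div, abs_of_pos (hA0 z), div_le_one (hA0 z)]
      exact Real.abs_le_sqrt (by linarith))
    (fun z => by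
      refine le_trans ?_ (hlM z)
      rw [abs_of_pos (div_pos (one_pos.trans_le hl) (pow_pos (hA0 z) 3))]
      exact div_le_self (zero_le_one.trans hl) (one_le_pow₀ (hA1 z)))
    (ch.β - (2 : ℕ)) (κ := ch.k) (by linarith [hk.1])
  refine ⟨U, g, _, h1, fun x hx => ?_⟩
  obtain ⟨hu0, hu1⟩ := BarA_u hx
  have hh := (ch.h_pos (one_pos.trans_le hx)).le
  rw [h2 x hx, bar, lbar, mul_assoc, mul_assoc, BarA_h ch hx, BarA_I]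
  refine ⟨by rw [inv_pow]; ring, ?_⟩
  rw [← mul_assoc _ (√(l + x 2 ^ 2)), ← add_mul]
  refine mul_nonneg ?_ (by positivity)
  have a0 := hA0 (x 2)
  have a2 := hA2 (x 2)
  generalize √(l + x 2 ^ 2) = A at a0 a2
  generalize x 2 = z at a2
  have e : -(l / A ^ 3) / 2 + z / A * z * (ch.k / ‖x‖ - (ch.β - (2 : ℕ)) / ‖x‖ ^ 2) +
      A * (-ch.k ^ 2 / 2 + ch.k * (ch.β - (2 : ℕ) + 1) / ‖x‖ -
        (ch.β - (2 : ℕ)) * (ch.β - (2 : ℕ) + 1) / (2 * ‖x‖ ^ 2)) +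
      (ch.k ^ 2 / 2 + 1 / (2 * l) + 3 / ‖x‖) * A
      = (A / l - l / A ^ 3) / 2 + z ^ 2 / A * (‖x‖⁻¹ * (ch.k + (2 - ch.β) * ‖x‖⁻¹)) +
        A * (‖x‖⁻¹ * (3 + ch.k * (ch.β - 1) - (ch.β - 2) * (ch.β - 1) / 2 * ‖x‖⁻¹)) := by
    push_cast
    ring
  rw [e]
  have b1 : l / A ^ 3 ≤ A / l := by
    rw [div_le_div_iff₀ (pow_pos a0 3) (one_pos.trans_le hl)]
    have : l ≤ A ^ 2 := by nlinarith [sq_nonneg z]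
    nlinarith
  have b2 : 0 ≤ ch.k + (2 - ch.β) * ‖x‖⁻¹ :=
    add_nonneg (by linarith [hk.1]) (mul_nonneg (by linarith [hβ.2]) hu0.le)
  have b3 : -(3 / 2) ≤ ch.k * (ch.β - 1) := by nlinarith [hβ.1, hβ.2, hk.1, hk.2]
  have b4 : (ch.β - 2) * (ch.β - 1) / 2 ≤ 3 / 2 := by nlinarith [hβ.1, hβ.2]
  have b5 : (ch.β - 2) * (ch.β - 1) / 2 * ‖x‖⁻¹ ≤ 3 / 2 * 1 :=
    (mul_le_mul_of_nonneg_right b4 hu0.le).trans (mul_le_mul_of_nonneg_left hu1 (by norm_num))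
  exact add_nonneg (add_nonneg (by linarith) (mul_nonneg (by positivity) (mul_nonneg hu0.le b2)))
    (mul_nonneg a0.le (mul_nonneg hu0.le (by linarith)))

/-- `U = (l + z²) B (β - 3)`. -/
theorem Chan.bar_Z (ch : Chan o C ε) {l : ℝ} (hl : 0 ≤ l) :
    ∃ (U : X → ℝ) (g : Fin 3 → X → ℝ) (f : X → ℝ), Sol (ext 1) U g f ∧ ∀ x : X, 1 ≤ ‖x‖ →
      U x = (l + x 2 ^ 2) / ‖x‖ ^ 3 * ch.h x ∧
        |f x + ch.I * U x + ch.h x / ‖x‖ ^ 3| ≤ 14 / ‖x‖ * U x := by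
  have hβ := ch.β_bd
  have hk := ch.k_bd
  obtain ⟨U, g, h1, h2⟩ := bar_sol (A := fun z => l + z ^ 2) (A' := fun z => 2 * z)
    (A'' := fun _ => 2) (fun z => by simpa using (hasDerivAt_pow 2 z).const_add l)
    (fun z => by simpa using (hasDerivAt_id' z).const_mul 2) continuous_const (M := l + 2)
    (fun z => by
      rw [abs_of_nonneg (by positivity)]
      nlinarith [sq_nonneg z, mul_nonneg hl (sq_nonneg z)])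
    (fun z => by
      rw [abs_le]
      constructor <;> nlinarith [sq_nonneg (z + 1), sq_nonneg (z - 1), mul_nonneg hl (sq_nonneg z)])
    (fun z => by
      rw [abs_two]
      nlinarith [sq_nonneg z, mul_nonneg hl (sq_nonneg z)])
    (ch.β - (3 : ℕ)) (κ := ch.k) (by linarith [hk.1])
  refine ⟨U, g, _, h1, fun x hx => ?_⟩
  obtain ⟨hu0, hu1⟩ := BarA_u hx
  have hh := (ch.h_pos (one_pos.trans_le hx)).le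
  rw [h2 x hx, bar, lbar, mul_assoc, mul_assoc, BarA_h ch hx, BarA_I]
  refine ⟨by rw [inv_pow]; ring, ?_⟩
  have hB : 0 ≤ ch.h x * ‖x‖⁻¹ ^ 3 * ‖x‖⁻¹ := by positivity
  have hz := sq_nonneg (x 2)
  have e : (-2 / 2 + 2 * x 2 * x 2 * (ch.k / ‖x‖ - (ch.β - (3 : ℕ)) / ‖x‖ ^ 2) +
      (l + x 2 ^ 2) * (-ch.k ^ 2 / 2 + ch.k * (ch.β - (3 : ℕ) + 1) / ‖x‖ -
        (ch.β - (3 : ℕ)) * (ch.β - (3 : ℕ) + 1) / (2 * ‖x‖ ^ 2))) * (ch.h x * ‖x‖⁻¹ ^ 3) +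
      ch.k ^ 2 / 2 * ((l + x 2 ^ 2) * (ch.h x * ‖x‖⁻¹ ^ 3)) + ch.h x / ‖x‖ ^ 3
      = ch.h x * ‖x‖⁻¹ ^ 3 * ‖x‖⁻¹ * (x 2 ^ 2 * (2 * (ch.k + (3 - ch.β) * ‖x‖⁻¹)) -
        (l + x 2 ^ 2) * (ch.k * (2 - ch.β) + (3 - ch.β) * (2 - ch.β) / 2 * ‖x‖⁻¹)) := by
    push_cast
    ring
  have e2 : 14 / ‖x‖ * ((l + x 2 ^ 2) * (ch.h x * ‖x‖⁻¹ ^ 3))
      = ch.h x * ‖x‖⁻¹ ^ 3 * ‖x‖⁻¹ * ((l + x 2 ^ 2) * 14) := by ring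
  rw [e, e2, abs_mul, abs_of_nonneg hB]
  refine mul_le_mul_of_nonneg_left ?_ hB
  have b1 : 0 ≤ (3 - ch.β) * ‖x‖⁻¹ := mul_nonneg (by linarith [hβ.2]) hu0.le
  have b2 : (3 - ch.β) * ‖x‖⁻¹ ≤ 4 * 1 :=
    mul_le_mul (by linarith [hβ.1]) hu1 hu0.le (by norm_num)
  have b3 : 0 ≤ ch.k * (2 - ch.β) := mul_nonneg (by linarith [hk.1]) (by linarith [hβ.2])
  have b4 : ch.k * (2 - ch.β) ≤ 2 * 3 :=
    mul_le_mul (by linarith [hk.2]) (by linarith [hβ.1]) (by linarith [hβ.2]) (by norm_num)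
  have b5 : 0 ≤ (3 - ch.β) * (2 - ch.β) / 2 :=
    div_nonneg (mul_nonneg (by linarith [hβ.2]) (by linarith [hβ.2])) zero_le_two
  have b6 : (3 - ch.β) * (2 - ch.β) / 2 ≤ 6 := by nlinarith [hβ.1, hβ.2]
  have b7 : (3 - ch.β) * (2 - ch.β) / 2 * ‖x‖⁻¹ ≤ 6 * 1 := mul_le_mul b6 hu1 hu0.le (by norm_num)
  have b8 := mul_nonneg b5 hu0.le
  have c1 : 0 ≤ x 2 ^ 2 * (2 * (ch.k + (3 - ch.β) * ‖x‖⁻¹)) :=
    mul_nonneg hz (by linarith [hk.1])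
  have c2 : x 2 ^ 2 * (2 * (ch.k + (3 - ch.β) * ‖x‖⁻¹)) ≤ (l + x 2 ^ 2) * 14 :=
    mul_le_mul (by linarith) (by linarith [hk.2]) (by linarith [hk.1]) (by linarith)
  have c3 : 0 ≤ (l + x 2 ^ 2) * (ch.k * (2 - ch.β) + (3 - ch.β) * (2 - ch.β) / 2 * ‖x‖⁻¹) :=
    mul_nonneg (by linarith) (by linarith)
  have c4 : (l + x 2 ^ 2) * (ch.k * (2 - ch.β) + (3 - ch.β) * (2 - ch.β) / 2 * ‖x‖⁻¹)
      ≤ (l + x 2 ^ 2) * 14 := mul_le_mul_of_nonneg_left (by linarith) (by linarith)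
  rw [abs_le]
  constructor <;> linarith

/-- `U = B' β' - B' (β' - 1/2)` with `B' γ = r^γ e^{-k' r}`. -/
theorem Chan.bar_Ha (ch : Chan o C ε) : ∃ (U : X → ℝ) (g : Fin 3 → X → ℝ) (f : X → ℝ),
    Sol (ext 1) U g f ∧ ∀ x : X, 16 ≤ ‖x‖ → ch.H x / 2 ≤ U x ∧ U x ≤ ch.H x ∧
      ch.H x / (8 * ‖x‖ * √‖x‖) ≤ f x + (ch.I + ch.gS - (2 - 2 * ε) / ‖x‖) * U x := by
  obtain ⟨U, g, f, h1, h2⟩ := BarA_minus ch.β'_bd ch.k'_bd.1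
  refine ⟨U, g, f, h1, fun x hx => ?_⟩
  have h3 := h2 x hx
  rw [ch.k'_β', ← BarA_I'] at h3
  exact h3

/-- `U = B' β' + B' (β' - 1/2)`. -/
theorem Chan.bar_Hs (ch : Chan o C ε) : ∃ (U : X → ℝ) (g : Fin 3 → X → ℝ) (f : X → ℝ),
    Sol (ext 1) U g f ∧ ∀ x : X, 16 ≤ ‖x‖ → ch.H x ≤ U x ∧ U x ≤ 2 * ch.H x ∧
      f x + (ch.I + ch.gS - (2 - 2 * ε) / ‖x‖) * U x ≤ -(ch.H x / (8 * ‖x‖ * √‖x‖)) := by
  obtain ⟨U, g, f, h1, h2⟩ := BarA_plus ch.β'_bd ch.k'_bd.1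
  refine ⟨U, g, f, h1, fun x hx => ?_⟩
  have h3 := h2 x hx
  rw [ch.k'_β', ← BarA_I'] at h3
  exact h3

theorem bar_exp {κ : ℝ} (hκ : 0 < κ) : ∃ (U : X → ℝ) (g : Fin 3 → X → ℝ) (f : X → ℝ),
    Sol (ext 1) U g f ∧ ∀ x : X, 1 ≤ ‖x‖ → U x = Real.exp (-κ * ‖x‖) ∧
      0 ≤ f x + κ ^ 2 / 2 * U x := by
  obtain ⟨U, g, f, h1, h2⟩ := BarA_rad 0 hκ
  refine ⟨U, g, f, h1, fun x hx => ?_⟩
  obtain ⟨h3, h4⟩ := h2 x hx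
  rw [Real.rpow_zero, one_mul] at h3 h4
  refine ⟨h3, ?_⟩
  rw [h3, h4, ← add_mul]
  refine mul_nonneg ?_ (Real.exp_pos _).le
  have : 0 ≤ κ / ‖x‖ := by positivity
  simp only [zero_add, mul_one, zero_div, sub_zero]
  linarith

end Crest.Agent.R335
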