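import Crest.Agent.R335.Par

/-! Row 335. The barriers for the odd channel.  With `A₁ z = arctan (z + 1) - π / 4` (`0 ≤ A₁ ≤ z / 2`,
`0 ≤ A₁'`, `-A₁'' / 2 = (z + 1) / (1 + (z + 1)²)² ≥ 2 / 25` on `[0, 1]`) and `B γ = r^γ e^{-k r}`,
`L = -Δ/2 + I - κ₀ / r`: `L (z B γ) = z B γ ((k (γ + 2) - κ₀) / r - γ (γ + 3) / (2 r²))`. -/

set_option autoImplicit false

open MeasureTheory Set Filter Topology
open scoped ENNReal

noncomputable section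

namespace Crest.Agent.R335

variable {c : ℝ} {o : One c} {C ε : ℝ}

theorem BarB_hA (z : ℝ) :
    HasDerivAt (fun z : ℝ => Real.arctan (z + 1) - Real.pi / 4) (1 / (1 + (z + 1) ^ 2)) z := by
  have h := ((hasDerivAt_id z).add_const 1).arctan.sub_const (Real.pi / 4)
  simpa using h

theorem BarB_hA' (z : ℝ) :
    HasDerivAt (fun z : ℝ => 1 / (1 + (z + 1) ^ 2)) (-(2 * (z + 1)) / (1 + (z + 1) ^ 2) ^ 2) z := by
  have h0 : (1 + (z + 1) ^ 2) ≠ 0 := by positivity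
  have h1 : HasDerivAt (fun z : ℝ => 1 + (z + 1) ^ 2) (2 * (z + 1)) z := by
    have h := (((hasDerivAt_id z).add_const 1).pow 2).const_add 1
    simpa using h
  simp only [one_div]
  exact h1.inv h0

theorem BarB_A_bd {z : ℝ} (hz : 0 ≤ z) :
    0 ≤ Real.arctan (z + 1) - Real.pi / 4 ∧ Real.arctan (z + 1) - Real.pi / 4 ≤ z := by
  constructor
  · rw [← Real.arctan_one, sub_nonneg]
    exact Real.arctan_strictMono.monotone (by linarith)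
  · have h := (convex_univ (𝕜 := ℝ) (E := ℝ)).norm_image_sub_le_of_norm_hasDerivWithin_le
      (f := fun z : ℝ => Real.arctan (z + 1) - Real.pi / 4) (f' := fun z => 1 / (1 + (z + 1) ^ 2))
      (C := 1) (fun x _ => (BarB_hA x).hasDerivWithinAt) (fun x _ => by
        rw [Real.norm_eq_abs, abs_of_pos (by positivity), div_le_one (by positivity)]
        nlinarith [sq_nonneg (x + 1)]) (mem_univ 0) (mem_univ z)
    simp only [zero_add, Real.arctan_one, sub_self, sub_zero, one_mul, Real.norm_eq_abs] at h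
    rw [abs_of_nonneg hz] at h
    exact (le_abs_self _).trans h

theorem BarB_sol₁ (γ : ℝ) {κ : ℝ} (hκ : 0 < κ) : ∃ (U : X → ℝ) (g : Fin 3 → X → ℝ),
    Sol (ext 1) U g (lbar (fun z => z) (fun _ => 1) (fun _ => 0) γ κ) ∧
      ∀ x, 1 ≤ ‖x‖ → U x = bar (fun z => z) γ κ x := by
  refine bar_sol (M := 1) (fun z => hasDerivAt_id' z) (fun z => hasDerivAt_const z 1)
    continuous_const (fun z => ?_) (fun z => ?_) (fun z => ?_) γ hκ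
  · rw [abs_le]
    constructor <;> nlinarith [sq_nonneg (z - 1), sq_nonneg (z + 1)]
  · rw [abs_one]
    nlinarith [sq_nonneg z]
  · rw [abs_zero]
    positivity

theorem BarB_sol₂ (γ : ℝ) {κ : ℝ} (hκ : 0 < κ) : ∃ (U : X → ℝ) (g : Fin 3 → X → ℝ),
    Sol (ext 1) U g (lbar (fun z => Real.arctan (z + 1) - Real.pi / 4)
      (fun z => 1 / (1 + (z + 1) ^ 2)) (fun z => -(2 * (z + 1)) / (1 + (z + 1) ^ 2) ^ 2) γ κ) ∧
      ∀ x, 1 ≤ ‖x‖ → U x = bar (fun z => Real.arctan (z + 1) - Real.pi / 4) γ κ x := by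
  refine bar_sol (M := 3) BarB_hA BarB_hA' ?_ (fun z => ?_) (fun z => ?_) (fun z => ?_) γ hκ
  · refine Continuous.div (by fun_prop) (by fun_prop) fun z => ?_
    positivity
  · have h1 := Real.arctan_lt_pi_div_two (z + 1)
    have h2 := Real.neg_pi_div_two_lt_arctan (z + 1)
    have h3 := Real.pi_le_four
    have h4 := Real.pi_pos
    rw [abs_le]
    constructor <;> nlinarith [sq_nonneg z]
  · rw [abs_of_pos (by positivity)]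
    have : 1 / (1 + (z + 1) ^ 2) ≤ 1 := by
      rw [div_le_one (by positivity)]
      nlinarith [sq_nonneg (z + 1)]
    nlinarith [sq_nonneg z]
  · have : |-(2 * (z + 1)) / (1 + (z + 1) ^ 2) ^ 2| ≤ 1 := by
      rw [abs_div, abs_of_pos (by positivity : 0 < (1 + (z + 1) ^ 2) ^ 2),
        div_le_one (by positivity), abs_le]
      generalize z + 1 = t
      constructor <;> nlinarith [sq_nonneg (t - 1), sq_nonneg (t + 1), sq_nonneg t, sq_nonneg (t ^ 2)]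
    nlinarith [sq_nonneg z]

/-- the numerical inequality (`u = 1 / √r`) -/
theorem BarB_num {σ β k u z a₀ a₁ a₂ : ℝ} (hσ : σ = 1 ∨ σ = -1) (hβ₁ : -1 / 10 ≤ β)
    (hβ₂ : β ≤ 1 / 10) (hk₁ : 97 / 100 ≤ k) (hk₂ : k ≤ 103 / 100) (hu₀ : 0 < u) (hu₁ : u ≤ 1 / 10)
    (hz : 0 ≤ z) (h₀ : 0 ≤ a₀) (h₀' : a₀ ≤ z) (h₁ : 0 ≤ a₁) (h₂ : 0 ≤ a₂)
    (h₂' : z ≤ 1 → 2 / 25 ≤ a₂) :
    (1 + z) / 100 ≤ -(σ * z * (β * (β + 3) / 2 * u)) + z * k / 2 +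
      z * ((β - 1 / 2) * (β + 5 / 2) / 2 * u ^ 2) + a₂ +
      a₁ * z * (k * u ^ 2 - (β - 3 / 2) * u ^ 4) -
      a₀ * (5 * k / 2 * u ^ 2 + (β - 3 / 2) * (β - 1 / 2) / 2 * u ^ 4) := by
  have hu2 : u ^ 2 ≤ 1 / 100 := by nlinarith
  have hu2' : 0 ≤ u ^ 2 := by positivity
  have hu4 : u ^ 4 ≤ 1 / 100 := by nlinarith
  have hu4' : 0 ≤ u ^ 4 := by positivity
  have e1 : |β * (β + 3) / 2 * u| ≤ 1 / 50 := by
    have : |β * (β + 3) / 2| ≤ 1 / 5 := by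
      rw [abs_le]
      constructor <;> nlinarith
    rw [abs_mul, abs_of_pos hu₀]
    nlinarith [abs_nonneg (β * (β + 3) / 2)]
  have e2 : -(1 / 100) ≤ (β - 1 / 2) * (β + 5 / 2) / 2 * u ^ 2 := by
    have : -1 ≤ (β - 1 / 2) * (β + 5 / 2) / 2 := by nlinarith
    nlinarith
  have e3 : 0 ≤ a₁ * z * (k * u ^ 2 - (β - 3 / 2) * u ^ 4) := by
    refine mul_nonneg (mul_nonneg h₁ hz) ?_
    nlinarith
  have e4 : 5 * k / 2 * u ^ 2 + (β - 3 / 2) * (β - 1 / 2) / 2 * u ^ 4 ≤ 1 / 25 := by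
    have h5 : (β - 3 / 2) * (β - 1 / 2) / 2 ≤ 1 := by nlinarith
    have h6 : 5 * k / 2 * u ^ 2 ≤ 3 / 100 := by nlinarith
    nlinarith
  have e5 : a₀ * (5 * k / 2 * u ^ 2 + (β - 3 / 2) * (β - 1 / 2) / 2 * u ^ 4) ≤ z * (1 / 25) :=
    (mul_le_mul_of_nonneg_left e4 h₀).trans (mul_le_mul_of_nonneg_right h₀' (by norm_num))
  have e6 : σ * z * (β * (β + 3) / 2 * u) ≤ z * (1 / 50) := by
    obtain ⟨l, r⟩ := abs_le.1 e1
    generalize β * (β + 3) / 2 * u = t at l r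
    rcases hσ with rfl | rfl <;> nlinarith
  have e7 := mul_le_mul_of_nonneg_left e2 hz
  have e8 := mul_le_mul_of_nonneg_left hk₁ hz
  rcases le_total z 1 with h | h
  · have := h₂' h
    linarith
  · linarith

theorem BarB_alg {σ β k t r z a₀ a₁ a₂ B E : ℝ} (hσ : σ = 1 ∨ σ = -1) (hβ₁ : -1 / 10 ≤ β)
    (hβ₂ : β ≤ 1 / 10) (hk₁ : 97 / 100 ≤ k) (hk₂ : k ≤ 103 / 100) (hs : 10 ≤ t) (hss : r = t ^ 2)
    (hz : 0 ≤ z) (h₀ : 0 ≤ a₀) (h₀' : a₀ ≤ z) (h₁ : 0 ≤ a₁) (h₂ : 0 ≤ a₂)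
    (h₂' : z ≤ 1 → 2 / 25 ≤ a₂) (hh : 0 < B * E) :
    z * (B * E) / 2 ≤ 1 * (z * B * E) + -σ * (1 * (z * (B / t) * E) + -1 * (a₀ * (B / (r * t)) * E)) ∧
    1 * (z * B * E) + -σ * (1 * (z * (B / t) * E) + -1 * (a₀ * (B / (r * t)) * E)) ≤ 2 * z * (B * E) ∧
      (1 + z) * (B * E) / (100 * r * t) ≤
        σ * (1 * ((-0 / 2 + 1 * z * (k / r - β / r ^ 2) +
            z * (-k ^ 2 / 2 + k * (β + 1) / r - β * (β + 1) / (2 * r ^ 2))) * B * E) +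
          -σ * (1 * ((-0 / 2 + 1 * z * (k / r - (β - 1 / 2) / r ^ 2) +
            z * (-k ^ 2 / 2 + k * (β - 1 / 2 + 1) / r -
              (β - 1 / 2) * (β - 1 / 2 + 1) / (2 * r ^ 2))) * (B / t) * E) +
            -1 * ((-(-2 * a₂) / 2 + a₁ * z * (k / r - (β - 3 / 2) / r ^ 2) +
              a₀ * (-k ^ 2 / 2 + k * (β - 3 / 2 + 1) / r -
                (β - 3 / 2) * (β - 3 / 2 + 1) / (2 * r ^ 2))) * (B / (r * t)) * E)) +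
          (k ^ 2 / 2 - k * (β + 2) / r) *
            (1 * (z * B * E) + -σ * (1 * (z * (B / t) * E) + -1 * (a₀ * (B / (r * t)) * E)))) := by
  obtain ⟨u, hu⟩ : ∃ u, u = t⁻¹ := ⟨_, rfl⟩
  have hu₀ : 0 < u := by rw [hu]; positivity
  have hu₁ : u ≤ 1 / 10 := by
    rw [hu, ← one_div]
    exact one_div_le_one_div_of_le (by norm_num) hs
  have hsu : t = u⁻¹ := by rw [hu, inv_inv]
  subst hss
  subst hsu
  have hn := BarB_num hσ hβ₁ hβ₂ hk₁ hk₂ hu₀ hu₁ hz h₀ h₀' h₁ h₂ h₂'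
  have hu3 : u ^ 3 ≤ 1 / 10 := (pow_le_of_le_one hu₀.le (by linarith) (by norm_num)).trans hu₁
  have hu3' : 0 < u ^ 3 := by positivity
  have hU : 1 * (z * B * E) + -σ * (1 * (z * (B / u⁻¹) * E) + -1 * (a₀ * (B / (u⁻¹ ^ 2 * u⁻¹)) * E)) =
      (z - σ * (z * u - a₀ * u ^ 3)) * (B * E) := by
    field_simp
    ring
  have hb : |σ * (z * u - a₀ * u ^ 3)| ≤ z / 2 := by
    have h1 : z * u ≤ z * (1 / 10) := mul_le_mul_of_nonneg_left hu₁ hz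
    have h2 : 0 ≤ z * u := by positivity
    have h3 : a₀ * u ^ 3 ≤ z * (1 / 10) := mul_le_mul h₀' hu3 hu3'.le hz
    have h4 : 0 ≤ a₀ * u ^ 3 := by positivity
    rw [abs_le]
    rcases hσ with rfl | rfl <;> constructor <;> linarith
  obtain ⟨hb₁, hb₂⟩ := abs_le.1 hb
  refine ⟨?_, ?_, ?_⟩
  · rw [hU]
    refine le_of_eq_of_le (b := (z / 2) * (B * E)) (by ring)
      (mul_le_mul_of_nonneg_right (by linarith) hh.le)
  · rw [hU]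
    refine le_of_le_of_eq (b := (2 * z) * (B * E))
      (mul_le_mul_of_nonneg_right (by linarith) hh.le) (by ring)
  · have h5 := mul_le_mul_of_nonneg_right hn (mul_pos hh hu3').le
    refine le_of_eq_of_le ?_ (h5.trans_eq ?_)
    · field_simp
    · rcases hσ with rfl | rfl
      · field_simp
        ring
      · field_simp
        ring

theorem BarB_main (ch : Chan o C ε) {σ : ℝ} (hσ : σ = 1 ∨ σ = -1) :
    ∃ (U : X → ℝ) (g : Fin 3 → X → ℝ) (f : X → ℝ),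
    Sol (ext 1) U g f ∧ ∀ x : X, 100 ≤ ‖x‖ → 0 ≤ x 2 →
      x 2 * ch.h x / 2 ≤ U x ∧ U x ≤ 2 * x 2 * ch.h x ∧
        (1 + x 2) * ch.h x / (100 * ‖x‖ * √‖x‖) ≤
          σ * (f x + (ch.I - (2 - 2 * ε) / ‖x‖) * U x) := by
  obtain ⟨hk₁, hk₂⟩ := ch.k_bd
  obtain ⟨hβ₁, hβ₂⟩ := ch.β_bd
  have hk : 0 < ch.k := by linarith
  obtain ⟨U₁, g₁, s₁, e₁⟩ := BarB_sol₁ ch.β hk
  obtain ⟨U₂, g₂, s₂, e₂⟩ := BarB_sol₁ (ch.β - 1 / 2) hk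
  obtain ⟨U₃, g₃, s₃, e₃⟩ := BarB_sol₂ (ch.β - 3 / 2) hk
  have hΩ : MeasurableSet (ext 1) := measurableSet_lt measurable_const measurable_norm
  refine ⟨_, _, _, Sol.lin hΩ s₁ (Sol.lin hΩ s₂ s₃ 1 (-1)) 1 (-σ), fun x hx hz => ?_⟩
  have hx1 : 1 ≤ ‖x‖ := by linarith
  have hx0 : 0 < ‖x‖ := by linarith
  have hh := ch.h_pos hx0
  have hI : ch.I = ch.k ^ 2 / 2 := by rw [ch.k_sq]; ring
  rw [e₁ x hx1, e₂ x hx1, e₃ x hx1, hI, ← ch.k_β]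
  obtain ⟨hA₀, hA₀'⟩ := BarB_A_bd hz
  have hA₁ : 0 ≤ 1 / (1 + (x 2 + 1) ^ 2) := by positivity
  have hA₂ : 0 ≤ (x 2 + 1) / (1 + (x 2 + 1) ^ 2) ^ 2 := by positivity
  have hA₂' : x 2 ≤ 1 → 2 / 25 ≤ (x 2 + 1) / (1 + (x 2 + 1) ^ 2) ^ 2 := by
    intro h
    rw [div_le_div_iff₀ (by norm_num) (by positivity)]
    have h1 : 1 ≤ x 2 + 1 := by linarith
    have h2 : x 2 + 1 ≤ 2 := by linarith
    generalize x 2 + 1 = t at h1 h2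
    have h3 : t ^ 2 ≤ 2 * t := by nlinarith
    have h4 : t ^ 4 ≤ 8 * t := by nlinarith
    nlinarith
  have hA₂e : -(2 * (x 2 + 1)) / (1 + (x 2 + 1) ^ 2) ^ 2 =
      -2 * ((x 2 + 1) / (1 + (x 2 + 1) ^ 2) ^ 2) := by ring
  have hs0 : 0 < √‖x‖ := Real.sqrt_pos.2 hx0
  have hs : 10 ≤ √‖x‖ := Real.le_sqrt_of_sq_le (by linarith)
  have hss : ‖x‖ = √‖x‖ ^ 2 := (Real.sq_sqrt hx0.le).symm
  have p₁ : ‖x‖ ^ (ch.β - 1 / 2) = ‖x‖ ^ ch.β / √‖x‖ := by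
    rw [Real.rpow_sub hx0, Real.sqrt_eq_rpow]
  have p₂ : ‖x‖ ^ (ch.β - 3 / 2) = ‖x‖ ^ ch.β / (‖x‖ * √‖x‖) := by
    rw [Real.rpow_sub hx0, Real.sqrt_eq_rpow, show (3 / 2 : ℝ) = 1 + 1 / 2 by norm_num,
      Real.rpow_add hx0, Real.rpow_one]
  simp only [bar, lbar, Chan.h, p₁, p₂, hA₂e] at hh ⊢
  generalize Real.arctan (x 2 + 1) - Real.pi / 4 = a₀ at hA₀ hA₀' ⊢
  generalize 1 / (1 + (x 2 + 1) ^ 2) = a₁ at hA₁ ⊢
  generalize (x 2 + 1) / (1 + (x 2 + 1) ^ 2) ^ 2 = a₂ at hA₂ hA₂' ⊢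
  generalize x 2 = z at hz hA₀' hA₂' ⊢
  generalize Real.exp (-ch.k * ‖x‖) = E at hh ⊢
  generalize ‖x‖ ^ ch.β = B at hh ⊢
  generalize ch.β = β at hβ₁ hβ₂ ⊢
  generalize ch.k = k at hk₁ hk₂ ⊢
  generalize √‖x‖ = t at hs hss ⊢
  generalize ‖x‖ = r at hss ⊢
  exact BarB_alg hσ hβ₁ hβ₂ hk₁ hk₂ hs hss hz hA₀ hA₀' hA₁ hA₂ hA₂' hh

/-- `U = z B β - z B (β - 1/2) + A₁ B (β - 3/2)`. -/
theorem Chan.bar_pa (ch : Chan o C ε) : ∃ (U : X → ℝ) (g : Fin 3 → X → ℝ) (f : X → ℝ),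
    Sol (ext 1) U g f ∧ ∀ x : X, 100 ≤ ‖x‖ → 0 ≤ x 2 →
      x 2 * ch.h x / 2 ≤ U x ∧ U x ≤ 2 * x 2 * ch.h x ∧
        (1 + x 2) * ch.h x / (100 * ‖x‖ * √‖x‖) ≤ f x + (ch.I - (2 - 2 * ε) / ‖x‖) * U x := by
  obtain ⟨U, g, f, hs, h⟩ := BarB_main ch (σ := 1) (Or.inl rfl)
  refine ⟨U, g, f, hs, fun x hx hz => ?_⟩
  obtain ⟨h1, h2, h3⟩ := h x hx hz
  exact ⟨h1, h2, by linarith⟩

/-- `U = z B β + z B (β - 1/2) - A₁ B (β - 3/2)`. -/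
theorem Chan.bar_ps (ch : Chan o C ε) : ∃ (U : X → ℝ) (g : Fin 3 → X → ℝ) (f : X → ℝ),
    Sol (ext 1) U g f ∧ ∀ x : X, 100 ≤ ‖x‖ → 0 ≤ x 2 →
      x 2 * ch.h x / 2 ≤ U x ∧ U x ≤ 2 * x 2 * ch.h x ∧
        f x + (ch.I - (2 - 2 * ε) / ‖x‖) * U x ≤ -((1 + x 2) * ch.h x / (100 * ‖x‖ * √‖x‖)) := by
  obtain ⟨U, g, f, hs, h⟩ := BarB_main ch (σ := -1) (Or.inr rfl)
  refine ⟨U, g, f, hs, fun x hx hz => ?_⟩
  obtain ⟨h1, h2, h3⟩ := h x hx hz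
  exact ⟨h1, h2, by linarith⟩

end Crest.Agent.R335
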