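import Crest.Agent.R335.LChain

/-! Row 335. Limits in `H¹`, square roots, quotients. -/

set_option autoImplicit false

open MeasureTheory Set Filter Topology
open scoped ENNReal

noncomputable section

namespace Crest.Agent.R335

variable {E : Type} [NormedAddCommGroup E] [NormedSpace ℝ E] [FiniteDimensional ℝ E]
  [MeasureSpace E] [BorelSpace E] [(volume : Measure E).IsAddHaarMeasure]
  {ι : Type} [Fintype ι] {e : ι → E}

theorem LLim0_inner {u w : E → ℝ} (hu : MemLp u 2 volume) (hw : MemLp w 2 volume) :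
    inner ℝ (hu.toLp u) (hw.toLp w) = ∫ x, u x * w x := by
  rw [L2.inner_def]
  refine integral_congr_ae ?_
  filter_upwards [hu.coeFn_toLp, hw.coeFn_toLp] with x h1 h2
  rw [h1, h2]
  simp [mul_comm]

theorem LLim0_norm {u : E → ℝ} (hu : MemLp u 2 volume) : ‖hu.toLp u‖ ^ 2 = nsq u := by
  rw [← real_inner_self_eq_norm_sq, LLim0_inner]
  simp only [nsq, sq]

theorem LLim0_dist {u w : E → ℝ} (hu : MemLp u 2 volume) (hw : MemLp w 2 volume) :
    ‖hu.toLp u - hw.toLp w‖ ^ 2 = nsq fun x => u x - w x := by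
  rw [← MemLp.toLp_sub, LLim0_norm]
  rfl

theorem LLim0_tendsto {u : ℕ → E → ℝ} {w : E → ℝ} (h : ∀ n, MemLp (u n) 2 volume)
    (hw : MemLp w 2 volume) (h1 : Tendsto (fun n => nsq fun x => u n x - w x) atTop (𝓝 0)) :
    Tendsto (fun n => (h n).toLp (u n)) atTop (𝓝 (hw.toLp w)) := by
  rw [tendsto_iff_norm_sub_tendsto_zero]
  have := h1.sqrt
  rw [Real.sqrt_zero] at this
  refine this.congr fun n => ?_
  rw [← LLim0_dist (h n) hw, Real.sqrt_sq (norm_nonneg _)]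

theorem LLim0_ip {u : ℕ → E → ℝ} {w ψ : E → ℝ} (h : ∀ n, MemLp (u n) 2 volume)
    (hw : MemLp w 2 volume) (hψ : MemLp ψ 2 volume)
    (h1 : Tendsto (fun n => nsq fun x => u n x - w x) atTop (𝓝 0)) :
    Tendsto (fun n => ∫ x, u n x * ψ x) atTop (𝓝 (∫ x, w x * ψ x)) := by
  have := (LLim0_tendsto h hw h1).inner (𝕜 := ℝ) (tendsto_const_nhds (x := hψ.toLp ψ))
  simpa only [LLim0_inner] using this

theorem LLim0_test {φ : E → ℝ} (hφ : ContDiff ℝ 1 φ) (hc : HasCompactSupport φ) (v : E) :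
    MemLp φ 2 volume ∧ MemLp (fun x => fderiv ℝ φ x v) 2 volume :=
  ⟨hφ.continuous.memLp_of_hasCompactSupport hc,
    ((hφ.continuous_fderiv one_ne_zero).clm_apply continuous_const).memLp_of_hasCompactSupport
      (hc.fderiv_apply ℝ v)⟩

theorem LLim0_weak {H : Type*} [NormedAddCommGroup H] [InnerProductSpace ℝ H] [CompleteSpace H]
    (x : ℕ → H) {c : ℝ} (h : ∀ δ : ℝ, 0 < δ → ∃ᶠ n in atTop, ‖x n‖ ^ 2 ≤ c + δ) :
    ∃ y : H, ‖y‖ ^ 2 ≤ c ∧ ∀ (v : H) (a : ℝ),
      Tendsto (fun n => inner ℝ (x n) v) atTop (𝓝 a) → inner ℝ y v = a := by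
  obtain ⟨φ, hφ, hx⟩ := extraction_forall_of_frequently
    (P := fun k n : ℕ => ‖x n‖ ^ 2 ≤ c + 1 / ((k : ℝ) + 1)) fun k => h _ (by positivity)
  let f : ℕ → WeakDual ℝ H := fun k =>
    StrongDual.toWeakDual (InnerProductSpace.toDual ℝ H (x (φ k)))
  have hK := WeakDual.isCompact_closedBall (𝕜 := ℝ) (0 : StrongDual ℝ H) (√(c + 1))
  have hU : ((hyperfilter ℕ : Ultrafilter ℕ) : Filter ℕ) ≤ atTop := by
    rw [← Nat.cofinite_eq_atTop]; exact hyperfilter_le_cofinite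
  obtain ⟨L, -, hL⟩ := hK.ultrafilter_le_nhds ((hyperfilter ℕ).map f) (by
    rw [Ultrafilter.coe_map, le_principal_iff, mem_map]
    refine Eventually.of_forall fun k => ?_
    change InnerProductSpace.toDual ℝ H (x (φ k)) ∈ Metric.closedBall 0 _
    rw [mem_closedBall_zero_iff, LinearIsometryEquiv.norm_map]
    refine Real.le_sqrt_of_sq_le ((hx k).trans ?_)
    have : 1 / ((k : ℝ) + 1) ≤ 1 := by
      rw [div_le_one (by positivity)]
      linarith [Nat.cast_nonneg (α := ℝ) k]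
    linarith)
  let y : H := (InnerProductSpace.toDual ℝ H).symm (WeakDual.toStrongDual L)
  have key : ∀ v, Tendsto (fun k => inner ℝ (x (φ k)) v) (hyperfilter ℕ : Filter ℕ)
      (𝓝 (inner ℝ y v)) := by
    intro v
    have h1 : inner ℝ y v = L v := InnerProductSpace.toDual_symm_apply
    rw [h1]
    exact ((WeakDual.eval_continuous v).tendsto L).comp hL
  refine ⟨y, ?_, fun v a ha => tendsto_nhds_unique (key v) ((ha.comp hφ.tendsto_atTop).mono_left hU)⟩
  have h2 : Tendsto (fun k : ℕ => (c + 1 / ((k : ℝ) + 1) + ‖y‖ ^ 2) / 2)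
      (hyperfilter ℕ : Filter ℕ) (𝓝 ((c + 0 + ‖y‖ ^ 2) / 2)) :=
    (((tendsto_one_div_add_atTop_nhds_zero_nat.const_add c).add_const _).div_const 2).mono_left hU
  have h3 := le_of_tendsto_of_tendsto' (key y) h2 fun k => by
    have a1 := real_inner_le_norm (x (φ k)) y
    have a2 := hx k
    nlinarith [sq_nonneg (‖x (φ k)‖ - ‖y‖)]
  rw [real_inner_self_eq_norm_sq] at h3
  linarith

theorem LLim0_dir {g : ι → E → ℝ} (hg : ∀ i, MemLp (g i) 2 volume) :
    dir g = ∑ i, nsq (g i) :=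
  integral_finsetSum _ fun i _ => (hg i).integrable_sq

theorem H1.of_tendsto {u : ℕ → E → ℝ} {g : ℕ → ι → E → ℝ} (h : ∀ n, H1 e (u n) (g n))
    {w : E → ℝ} {k : ι → E → ℝ} (hm : Measurable w) (hm' : ∀ i, Measurable (k i))
    (hw : MemLp w 2 volume) (hk : ∀ i, MemLp (k i) 2 volume)
    (h1 : Tendsto (fun n => nsq fun x => u n x - w x) atTop (𝓝 0))
    (h2 : ∀ i, Tendsto (fun n => nsq fun x => g n i x - k i x) atTop (𝓝 0)) : H1 e w k := by
  refine ⟨hm, hm', hw, hk, fun i => ⟨(L2l.of_memLp hw).locallyIntegrable,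
    (L2l.of_memLp (hk i)).locallyIntegrable, fun φ hφ hc => ?_⟩⟩
  obtain ⟨a1, a2⟩ := LLim0_test hφ hc (e i)
  refine tendsto_nhds_unique (LLim0_ip (fun n => (h n).l2) hw a2 h1) ?_
  exact (LLim0_ip (fun n => (h n).gl2 i) (hk i) a1 (h2 i)).neg.congr
    fun n => (((h n).wd i).eq φ hφ hc).symm

/-- Completeness of `L²` in the language of `nsq`. -/
theorem exists_l2_lim {u : ℕ → E → ℝ} (h : ∀ n, MemLp (u n) 2 volume)
    (hc : ∀ δ : ℝ, 0 < δ → ∃ N, ∀ n m, N ≤ n → N ≤ m → nsq (fun x => u n x - u m x) ≤ δ) :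
    ∃ w : E → ℝ, Measurable w ∧ MemLp w 2 volume ∧
      Tendsto (fun n => nsq fun x => u n x - w x) atTop (𝓝 0) := by
  have hC : CauchySeq fun n => (h n).toLp (u n) := by
    refine Metric.cauchySeq_iff.2 fun ε hε => ?_
    obtain ⟨N, hN⟩ := hc ((ε / 2) ^ 2) (by positivity)
    refine ⟨N, fun n hn m hm => ?_⟩
    have h1 := hN n m hn hm
    rw [← LLim0_dist (h n) (h m)] at h1
    have h2 := (pow_le_pow_iff_left₀ (norm_nonneg _) (by positivity) two_ne_zero).1 h1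
    rw [dist_eq_norm]
    linarith
  obtain ⟨W, hW⟩ := cauchySeq_tendsto_of_complete hC
  refine ⟨W, (Lp.stronglyMeasurable W).measurable, Lp.memLp W, ?_⟩
  have h1 := (tendsto_iff_norm_sub_tendsto_zero.1 hW).pow 2
  rw [zero_pow two_ne_zero] at h1
  refine h1.congr fun n => ?_
  rw [← LLim0_dist (h n) (Lp.memLp W), Lp.toLp_coeFn]

/-- An `L²` convergent sequence has an almost everywhere convergent subsequence. -/
theorem exists_subseq_ae {u : ℕ → E → ℝ} {w : E → ℝ} (h : ∀ n, MemLp (u n) 2 volume)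
    (hw : MemLp w 2 volume) (h1 : Tendsto (fun n => nsq fun x => u n x - w x) atTop (𝓝 0)) :
    ∃ s : ℕ → ℕ, StrictMono s ∧ ∀ᵐ x, Tendsto (fun n => u (s n) x) atTop (𝓝 (w x)) := by
  obtain ⟨s, hs, hae⟩ :=
    (tendstoInMeasure_of_tendsto_Lp (LLim0_tendsto h hw h1)).exists_seq_tendsto_ae
  refine ⟨s, hs, ?_⟩
  filter_upwards [hae, hw.coeFn_toLp, ae_all_iff.2 fun n => (h n).coeFn_toLp] with x a1 a2 a3
  rw [a2] at a1
  exact a1.congr fun n => a3 (s n)

/-- Lower semicontinuity.  Mazur's trick: the sets `K n` of the gradients of the convex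
combinations of the `u m`, `m ≥ n`, are nested and convex; almost minimal elements form a Cauchy
sequence (parallelogram identity); conclude with `H1.of_tendsto`.  (Or the Riesz representation
of `φ ↦ -∫ w * ∑ ∂_i φ_i`.) -/
theorem H1.of_bdd {u : ℕ → E → ℝ} {g : ℕ → ι → E → ℝ} (h : ∀ n, H1 e (u n) (g n))
    {w : E → ℝ} (hm : Measurable w) (hw : MemLp w 2 volume)
    (h1 : Tendsto (fun n => nsq fun x => u n x - w x) atTop (𝓝 0)) {c : ℝ}
    (h2 : ∀ δ : ℝ, 0 < δ → ∃ᶠ n in atTop, dir (g n) ≤ c + δ) :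
    ∃ k, H1 e w k ∧ dir k ≤ c := by
  classical
  let x : ℕ → PiLp 2 (fun _ : ι => Lp ℝ 2 (volume : Measure E)) := fun n =>
    WithLp.toLp 2 fun i => ((h n).gl2 i).toLp (g n i)
  have hx : ∀ n, ‖x n‖ ^ 2 = dir (g n) := by
    intro n
    rw [PiLp.norm_sq_eq_of_L2, LLim0_dir (h n).gl2]
    exact Finset.sum_congr rfl fun i _ => LLim0_norm ((h n).gl2 i)
  obtain ⟨y, hy, hlim⟩ := LLim0_weak x (c := c) fun δ hδ => by simpa only [hx] using h2 δ hδ
  refine ⟨fun i => y i, ⟨hm, fun i => (Lp.stronglyMeasurable (y i)).measurable, hw,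
    fun i => Lp.memLp (y i), fun i => ⟨(L2l.of_memLp hw).locallyIntegrable,
      (L2l.of_memLp (Lp.memLp (y i))).locallyIntegrable, fun φ hφ hc => ?_⟩⟩, ?_⟩
  · obtain ⟨a1, a2⟩ := LLim0_test hφ hc (e i)
    have e1 : ∀ z : PiLp 2 (fun _ : ι => Lp ℝ 2 (volume : Measure E)),
        inner ℝ z (WithLp.toLp 2 (Pi.single i (a1.toLp φ))) = inner ℝ (z i) (a1.toLp φ) := by
      intro z
      rw [PiLp.inner_apply, Finset.sum_eq_single i]
      · simp
      · intro j _ hj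
        simp [Pi.single_eq_of_ne hj]
      · simp
    have e2 := hlim (WithLp.toLp 2 (Pi.single i (a1.toLp φ))) (-∫ x, w x * fderiv ℝ φ x (e i)) (by
      refine (LLim0_ip (fun n => (h n).l2) hw a2 h1).neg.congr fun n => ?_
      rw [e1, ((h n).wd i).eq φ hφ hc, neg_neg]
      exact (LLim0_inner ((h n).gl2 i) a1).symm)
    rw [e1, ← Lp.toLp_coeFn (y i) (Lp.memLp (y i)), LLim0_inner] at e2
    rw [e2, neg_neg]
  · rw [LLim0_dir fun i => Lp.memLp (y i)]
    rw [PiLp.norm_sq_eq_of_L2] at hy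
    refine le_of_eq_of_le (Finset.sum_congr rfl fun i _ => ?_) hy
    rw [← LLim0_norm (Lp.memLp (y i)), Lp.toLp_coeFn]

end Crest.Agent.R335
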