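import Crest.Agent.R335.LSlice

/-! Row 335. Hardy inequality and consequences. -/

set_option autoImplicit false

open MeasureTheory Set Filter Topology
open scoped ENNReal

noncomputable section

namespace Crest.Agent.R335

variable {F : Type} [NormedAddCommGroup F] [NormedSpace ℝ F] [FiniteDimensional ℝ F]
  [MeasureSpace F] [BorelSpace F] [(volume : Measure F).IsAddHaarMeasure]
  {κ : Type} [Fintype κ] {f : κ → F}

/-- Fatou's lemma in real form. -/
theorem LHardy_fatou {α : Type*} [MeasurableSpace α] {μ : Measure α} {a : ℕ → α → ℝ} {b : α → ℝ}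
    {B : ℝ} (ha : ∀ n, Integrable (a n) μ) (h0 : ∀ n x, 0 ≤ a n x) (hb0 : ∀ x, 0 ≤ b x)
    (hb : AEStronglyMeasurable b μ) (hB : ∀ n, ∫ x, a n x ∂μ ≤ B)
    (hl : ∀ᵐ x ∂μ, Tendsto (fun n => a n x) atTop (𝓝 (b x))) :
    Integrable b μ ∧ ∫ x, b x ∂μ ≤ B := by
  have hB0 : 0 ≤ B := (integral_nonneg (h0 0)).trans (hB 0)
  have key : ∫⁻ x, ENNReal.ofReal (b x) ∂μ ≤ ENNReal.ofReal B := by
    have h1 : ∫⁻ x, ENNReal.ofReal (b x) ∂μ =
        ∫⁻ x, liminf (fun n => ENNReal.ofReal (a n x)) atTop ∂μ := by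
      refine lintegral_congr_ae ?_
      filter_upwards [hl] with x hx
      exact ((ENNReal.continuous_ofReal.tendsto _).comp hx).liminf_eq.symm
    rw [h1]
    refine (lintegral_liminf_le' fun n => (ha n).1.aemeasurable.ennreal_ofReal).trans ?_
    refine liminf_le_of_frequently_le' (Frequently.of_forall fun n => ?_)
    rw [← ofReal_integral_eq_lintegral_ofReal (ha n) (Eventually.of_forall (h0 n))]
    exact ENNReal.ofReal_le_ofReal (hB n)
  have hi : Integrable b μ := by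
    refine ⟨hb, ?_⟩
    rw [hasFiniteIntegral_iff_ofReal (Eventually.of_forall hb0)]
    exact key.trans_lt ENNReal.ofReal_lt_top
  refine ⟨hi, ?_⟩
  rw [← ofReal_integral_eq_lintegral_ofReal hi (Eventually.of_forall hb0)] at key
  exact (ENNReal.ofReal_le_ofReal_iff hB0).1 key

/-- `∫ div (ξ u²) = 0` for bounded `C¹` fields. -/
theorem LHardy_div {u : X → ℝ} {g : Fin 3 → X → ℝ} (h : H1 eX u g) {ξ : Fin 3 → X → ℝ}
    (hξ : ∀ i, ContDiff ℝ 1 (ξ i)) {M : ℝ} (h0 : ∀ i x, |ξ i x| ≤ M)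
    (h1 : ∀ i j x, |pd eX (ξ i) j x| ≤ M) :
    Integrable (fun x => (∑ i, pd eX (ξ i) i x) * u x ^ 2 + 2 * u x * gd ξ g x) ∧
      ∫ x, ((∑ i, pd eX (ξ i) i x) * u x ^ 2 + 2 * u x * gd ξ g x) = 0 := by
  have hw := fun i => h.mul_bdd (hξ i) (h0 i) (h1 i)
  have i1 : ∀ i, Integrable fun x => g i x * (ξ i x * u x) := fun i =>
    (h.gl2 i).integrable_mul (hw i).l2
  have i2 : ∀ i, Integrable fun x => u x * (ξ i x * g i x + pd eX (ξ i) i x * u x) := fun i =>
    h.l2.integrable_mul ((hw i).gl2 i)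
  have e : (fun x => (∑ i, pd eX (ξ i) i x) * u x ^ 2 + 2 * u x * gd ξ g x) = fun x =>
      ∑ i, (g i x * (ξ i x * u x) + u x * (ξ i x * g i x + pd eX (ξ i) i x * u x)) := by
    funext x
    simp only [gd, Fin.sum_univ_three]
    ring
  rw [e]
  have i3 : ∀ i, Integrable fun x => g i x * (ξ i x * u x) +
      u x * (ξ i x * g i x + pd eX (ξ i) i x * u x) := fun i => (i1 i).add (i2 i)
  refine ⟨integrable_finsetSum _ fun i _ => i3 i, ?_⟩
  rw [integral_finsetSum _ fun i _ => i3 i]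
  refine Finset.sum_eq_zero fun i _ => ?_
  rw [integral_add (i1 i) (i2 i), h.ibp (hw i) i, neg_add_cancel]

theorem LHardy_norm_sq (y : X) : ‖y‖ ^ 2 = ∑ i, y i ^ 2 := by
  rw [EuclideanSpace.norm_sq_eq]; simp

theorem LHardy_pd (c : X) {ε : ℝ} (hε : 0 < ε) (i j : Fin 3) (x : X) :
    pd eX (fun x => (x - c) i / (‖x - c‖ ^ 2 + ε)) j x =
      (if i = j then 1 else 0) / (‖x - c‖ ^ 2 + ε)
        - 2 * (x - c) i * (x - c) j / (‖x - c‖ ^ 2 + ε) ^ 2 := by
  have hD : 0 < ‖x - c‖ ^ 2 + ε := by positivity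
  have a1 : HasFDerivAt (fun x : X => x - c) (ContinuousLinearMap.id ℝ X) x :=
    (hasFDerivAt_id x).sub_const c
  have a2 : HasFDerivAt (fun x : X => (x - c) i) (EuclideanSpace.proj i : X →L[ℝ] ℝ) x := by
    exact ((EuclideanSpace.proj i : X →L[ℝ] ℝ).hasFDerivAt (x := x - c)).comp x a1
  have a3 := (a1.norm_sq).add_const ε
  have a4 := a2.mul ((hasDerivAt_inv hD.ne').comp_hasFDerivAt x a3)
  have e : (fun x : X => (x - c) i / (‖x - c‖ ^ 2 + ε)) =
      (fun x : X => (x - c) i) * ((fun y : ℝ => y⁻¹) ∘ fun x : X => ‖x - c‖ ^ 2 + ε) := by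
    funext y; simp [div_eq_mul_inv]
  have hin : inner ℝ (x - c) (eX j) = (x - c) j := by
    simp [eX, EuclideanSpace.inner_single_right]
  have hej : (eX j) i = if i = j then 1 else 0 := by
    simp [eX]
  rw [pd, e, a4.fderiv]
  simp only [add_apply, smul_apply,
    ContinuousLinearMap.comp_apply, ContinuousLinearMap.id_apply, innerSL_apply_apply, hin,
    smul_eq_mul, Function.comp_apply, nsmul_eq_mul, PiLp.proj_apply, hej]
  field_simp
  push_cast
  ring

theorem LHardy_reg {u : X → ℝ} {g : Fin 3 → X → ℝ} (h : H1 eX u g) (c : X) {ε : ℝ} (hε : 0 < ε)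
    (hε1 : ε ≤ 1) : Integrable (fun x => u x ^ 2 / (‖x - c‖ ^ 2 + ε)) ∧
      ∫ x, u x ^ 2 / (‖x - c‖ ^ 2 + ε) ≤ 4 * dir g := by
  have hD : ∀ x : X, 0 < ‖x - c‖ ^ 2 + ε := fun x => by positivity
  have hi : Integrable (fun x => u x ^ 2 / (‖x - c‖ ^ 2 + ε)) := by
    refine (h.integrable_sq.div_const ε).mono' ?_ (Eventually.of_forall fun x => ?_)
    · exact ((h.m.pow_const 2).div (by fun_prop)).aestronglyMeasurable
    · rw [Real.norm_of_nonneg (by have := hD x; positivity)]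
      exact div_le_div_of_nonneg_left (sq_nonneg _) hε (by nlinarith [sq_nonneg ‖x - c‖])
  refine ⟨hi, ?_⟩
  have hsq : ∀ (y : X) i, y i ^ 2 ≤ ‖y‖ ^ 2 := fun y i => by
    rw [LHardy_norm_sq]
    exact Finset.single_le_sum (f := fun i => y i ^ 2) (fun i _ => sq_nonneg _) (Finset.mem_univ i)
  obtain ⟨i1, i2⟩ := LHardy_div h (ξ := fun i x => (x - c) i / (‖x - c‖ ^ 2 + ε)) (M := 3 / ε)
    (fun i => by
      refine ContDiff.div ?_ ?_ fun x => (hD x).ne'
      · exact (EuclideanSpace.proj i : X →L[ℝ] ℝ).contDiff.comp (contDiff_id.sub contDiff_const)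
      · exact ((contDiff_norm_sq ℝ).comp (contDiff_id.sub contDiff_const)).add contDiff_const)
    (fun i x => by
      rw [abs_div, abs_of_pos (hD x), div_le_div_iff₀ (hD x) hε]
      have a1 := hsq (x - c) i
      have a2 : |(x - c) i| ≤ ‖x - c‖ ^ 2 + 1 := by
        nlinarith [sq_abs ((x - c) i), sq_nonneg (|(x - c) i| - 1)]
      nlinarith [sq_nonneg ‖x - c‖, mul_le_mul_of_nonneg_right a2 hε.le])
    (fun i j x => by
      rw [LHardy_pd c hε]
      have a1 := hsq (x - c) i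
      have a2 := hsq (x - c) j
      have b1 : |(if i = j then 1 else 0) / (‖x - c‖ ^ 2 + ε)| ≤ 1 / ε := by
        rw [abs_div, abs_of_pos (hD x)]
        refine div_le_div₀ zero_le_one ?_ hε (by nlinarith [sq_nonneg ‖x - c‖])
        split_ifs <;> simp
      have b2 : |2 * (x - c) i * (x - c) j / (‖x - c‖ ^ 2 + ε) ^ 2| ≤ 2 / ε := by
        rw [abs_div, abs_of_pos (pow_pos (hD x) 2), div_le_div_iff₀ (pow_pos (hD x) 2) hε]
        have a3 : |2 * (x - c) i * (x - c) j| ≤ 2 * ‖x - c‖ ^ 2 := by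
          rw [abs_le]
          constructor <;> nlinarith [sq_nonneg ((x - c) i + (x - c) j),
            sq_nonneg ((x - c) i - (x - c) j)]
        nlinarith [mul_le_mul_of_nonneg_right a3 hε.le, sq_nonneg (‖x - c‖ ^ 2), sq_nonneg ε,
          mul_nonneg (sq_nonneg ‖x - c‖) hε.le]
      refine (abs_sub _ _).trans ?_
      have : 3 / ε = 1 / ε + 2 / ε := by ring
      linarith)
  have hpt : ∀ x, u x ^ 2 / (‖x - c‖ ^ 2 + ε) ≤ 4 * gs g x + 2 *
      ((∑ i, pd eX (fun x => (x - c) i / (‖x - c‖ ^ 2 + ε)) i x) * u x ^ 2 +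
        2 * u x * gd (fun i x => (x - c) i / (‖x - c‖ ^ 2 + ε)) g x) := by
    intro x
    simp only [LHardy_pd c hε, gs, gd, Fin.sum_univ_three, if_true]
    have hn := LHardy_norm_sq (x - c)
    rw [Fin.sum_univ_three] at hn
    set D := ‖x - c‖ ^ 2 + ε with hDd
    have hD0 : 0 < D := hD x
    set y0 := (x - c) 0
    set y1 := (x - c) 1
    set y2 := (x - c) 2
    have hy : y0 ^ 2 + y1 ^ 2 + y2 ^ 2 = D - ε := by rw [hDd, hn]; ring
    have e : 4 * (g 0 x ^ 2 + g 1 x ^ 2 + g 2 x ^ 2) + 2 *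
        ((1 / D - 2 * y0 * y0 / D ^ 2 + (1 / D - 2 * y1 * y1 / D ^ 2) +
          (1 / D - 2 * y2 * y2 / D ^ 2)) * u x ^ 2 +
          2 * u x * (y0 / D * g 0 x + y1 / D * g 1 x + y2 / D * g 2 x)) - u x ^ 2 / D =
        (2 * g 0 x + u x * y0 / D) ^ 2 + (2 * g 1 x + u x * y1 / D) ^ 2 +
          (2 * g 2 x + u x * y2 / D) ^ 2 +
          5 * (D - (y0 ^ 2 + y1 ^ 2 + y2 ^ 2)) * u x ^ 2 / D ^ 2 := by
      field_simp
      ring
    rw [← sub_nonneg, e, hy]
    have : D - (D - ε) = ε := by ring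
    rw [this]
    positivity
  refine (integral_mono hi ((h.integrable_gs.const_mul 4).add (i1.const_mul 2)) hpt).trans ?_
  simp only [Pi.add_apply]
  rw [integral_add (h.integrable_gs.const_mul 4) (i1.const_mul 2), integral_const_mul,
    integral_const_mul, i2, dir]
  simp

theorem LHardy_coul {α : Type*} [MeasurableSpace α] {μ : Measure α} {A r : α → ℝ}
    (hA : Measurable A) (hr : Measurable r) (h0 : ∀ x, 0 ≤ r x)
    (i1 : Integrable (fun x => A x ^ 2) μ) (i2 : Integrable (fun x => A x ^ 2 / r x ^ 2) μ)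
    {η : ℝ} (hη : 0 < η) : Integrable (fun x => A x ^ 2 / r x) μ ∧
      ∫ x, A x ^ 2 / r x ∂μ ≤ η / 4 * ∫ x, A x ^ 2 / r x ^ 2 ∂μ + (∫ x, A x ^ 2 ∂μ) / η := by
  have hpt : ∀ x, A x ^ 2 / r x ≤ η / 4 * (A x ^ 2 / r x ^ 2) + A x ^ 2 / η := by
    intro x
    rcases (h0 x).eq_or_lt with h | h
    · rw [← h]
      simp only [div_zero, ne_eq, OfNat.ofNat_ne_zero, not_false_eq_true, zero_pow, mul_zero,
        zero_add]
      positivity
    · have e : η / 4 * (A x ^ 2 / r x ^ 2) + A x ^ 2 / η - A x ^ 2 / r x =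
          A x ^ 2 * (η - 2 * r x) ^ 2 / (4 * η * r x ^ 2) := by
        field_simp
        ring
      rw [← sub_nonneg, e]
      positivity
  have i3 := (i2.const_mul (η / 4)).add (i1.div_const η)
  have hi : Integrable (fun x => A x ^ 2 / r x) μ := by
    refine i3.mono' ((hA.pow_const 2).div hr).aestronglyMeasurable
      (Eventually.of_forall fun x => ?_)
    rw [Real.norm_of_nonneg (div_nonneg (sq_nonneg _) (h0 x))]
    exact hpt x
  refine ⟨hi, (integral_mono hi i3 hpt).trans_eq ?_⟩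
  simp only [Pi.add_apply]
  rw [integral_add (i2.const_mul (η / 4)) (i1.div_const η), integral_const_mul, integral_div]

/-- For `φ ∈ C¹_c`: integrate `div ((x - c) φ² / (‖x - c‖² + δ²))`; compare
`Crest.Agent.R338.DHardy`.  Then Fatou along `H1.approx_seq`. -/
theorem hardy {u : X → ℝ} {g : Fin 3 → X → ℝ} (h : H1 eX u g) (c : X) :
    Integrable (fun x => u x ^ 2 / ‖x - c‖ ^ 2) ∧ ∫ x, u x ^ 2 / ‖x - c‖ ^ 2 ≤ 4 * dir g := by
  have hε : ∀ n : ℕ, (0 : ℝ) < 1 / ((n : ℝ) + 1) := fun n => by positivity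
  have hε1 : ∀ n : ℕ, 1 / ((n : ℝ) + 1) ≤ 1 := fun n => by
    rw [div_le_one (by positivity)]
    linarith [(Nat.cast_nonneg n : (0 : ℝ) ≤ n)]
  refine LHardy_fatou (a := fun n x => u x ^ 2 / (‖x - c‖ ^ 2 + 1 / ((n : ℝ) + 1)))
    (fun n => (LHardy_reg h c (hε n) (hε1 n)).1) (fun n x => by positivity)
    (fun x => by positivity) ((h.m.pow_const 2).div (by fun_prop)).aestronglyMeasurable
    (fun n => (LHardy_reg h c (hε n) (hε1 n)).2) ?_
  filter_upwards [(volume : Measure X).ae_ne c] with x hx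
  have h1 : ‖x - c‖ ^ 2 ≠ 0 := pow_ne_zero _ (norm_ne_zero_iff.2 (sub_ne_zero.2 hx))
  refine tendsto_const_nhds.div ?_ h1
  simpa using (tendsto_const_nhds (x := ‖x - c‖ ^ 2)).add
    (tendsto_one_div_add_atTop_nhds_zero_nat (𝕜 := ℝ))

theorem hardy_memLp {u : X → ℝ} {g : Fin 3 → X → ℝ} (h : H1 eX u g) (c : X) :
    MemLp (fun x => u x / ‖x - c‖) 2 volume := by
  have hm : Measurable fun x => u x / ‖x - c‖ := h.m.div (by fun_prop)
  rw [memLp_two_iff_integrable_sq hm.aestronglyMeasurable]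
  simpa only [div_pow] using (hardy h c).1

/-- `1 / r ≤ η / (4 r²) + 1 / η`. -/
theorem coul_le {u : X → ℝ} {g : Fin 3 → X → ℝ} (h : H1 eX u g) (c : X) {η : ℝ} (hη : 0 < η) :
    Integrable (fun x => u x ^ 2 / ‖x - c‖) ∧
      ∫ x, u x ^ 2 / ‖x - c‖ ≤ η * dir g + nsq u / η := by
  obtain ⟨h1, h2⟩ := hardy h c
  obtain ⟨h3, h4⟩ := LHardy_coul (r := fun x => ‖x - c‖) h.m (by fun_prop)
    (fun x => norm_nonneg _) h.integrable_sq h1 hη
  refine ⟨h3, h4.trans ?_⟩
  unfold nsq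
  nlinarith

theorem H1.eq_zero_of_dir {u : X → ℝ} {g : Fin 3 → X → ℝ} (h : H1 eX u g) (h0 : dir g ≤ 0) :
    ∀ᵐ x, u x = 0 := by
  obtain ⟨h1, h2⟩ := hardy h 0
  have hn : 0 ≤ fun x : X => u x ^ 2 / ‖x - 0‖ ^ 2 := fun x => by positivity
  have h3 := (integral_eq_zero_iff_of_nonneg hn h1).1
    (le_antisymm (by linarith) (integral_nonneg hn))
  filter_upwards [h3, (volume : Measure X).ae_ne 0] with x hx hx0
  simpa [hx0] using hx

/-- Slices (`H1.slice_left`) and Tonelli. -/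
theorem hardy_prod {Φ : X × F → ℝ} {g : Fin 3 ⊕ κ → X × F → ℝ} (h : H1 (eP eX f) Φ g)
    {c : F → X} (hc : Measurable c) :
    Integrable (fun p => Φ p ^ 2 / ‖p.1 - c p.2‖ ^ 2) ∧
      ∫ p, Φ p ^ 2 / ‖p.1 - c p.2‖ ^ 2 ≤ 4 * ∫ p, ∑ i, g (.inl i) p ^ 2 := by
  have hm : Measurable fun p : X × F => Φ p ^ 2 / ‖p.1 - c p.2‖ ^ 2 :=
    (h.m.pow_const 2).div ((measurable_fst.sub (hc.comp measurable_snd)).norm.pow_const 2)
  have hG : Integrable (fun p : X × F => ∑ i, g (.inl i) p ^ 2) (volume.prod volume) :=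
    integrable_finsetSum _ fun i _ => (h.gl2 (.inl i)).integrable_sq
  have hs : ∀ᵐ y : F, Integrable (fun x => Φ (x, y) ^ 2 / ‖x - c y‖ ^ 2) ∧
      ∫ x, Φ (x, y) ^ 2 / ‖x - c y‖ ^ 2 ≤ 4 * ∫ x, ∑ i, g (.inl i) (x, y) ^ 2 := by
    filter_upwards [h.slice_left] with y hy
    exact hardy hy (c y)
  have hG2 := hG.integral_prod_right.const_mul 4
  have hi : Integrable (fun p : X × F => Φ p ^ 2 / ‖p.1 - c p.2‖ ^ 2) (volume.prod volume) := by
    rw [integrable_prod_iff' hm.aestronglyMeasurable]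
    refine ⟨hs.mono fun y hy => hy.1, hG2.mono' ?_ ?_⟩
    · exact hm.aestronglyMeasurable.norm.prod_swap.integral_prod_right'
    · filter_upwards [hs] with y hy
      rw [Real.norm_of_nonneg (integral_nonneg fun x => norm_nonneg _)]
      refine le_trans (le_of_eq (integral_congr_ae (Eventually.of_forall fun x => ?_))) hy.2
      exact Real.norm_of_nonneg (by positivity)
  refine ⟨hi, ?_⟩
  rw [Measure.volume_eq_prod, integral_prod_symm _ hi, integral_prod_symm _ hG,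
    ← integral_const_mul]
  exact integral_mono_ae hi.integral_prod_right hG2 (hs.mono fun y hy => hy.2)

theorem coul_prod {Φ : X × F → ℝ} {g : Fin 3 ⊕ κ → X × F → ℝ} (h : H1 (eP eX f) Φ g)
    {c : F → X} (hc : Measurable c) {η : ℝ} (hη : 0 < η) :
    Integrable (fun p => Φ p ^ 2 / ‖p.1 - c p.2‖) ∧
      ∫ p, Φ p ^ 2 / ‖p.1 - c p.2‖ ≤ η * (∫ p, ∑ i, g (.inl i) p ^ 2) + nsq Φ / η := by
  obtain ⟨h1, h2⟩ := hardy_prod h hc
  obtain ⟨h3, h4⟩ := LHardy_coul (r := fun p : X × F => ‖p.1 - c p.2‖) h.m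
    (measurable_fst.sub (hc.comp measurable_snd)).norm
    (fun x => norm_nonneg _) h.integrable_sq h1 hη
  refine ⟨h3, h4.trans ?_⟩
  unfold nsq
  nlinarith

/-- Hardy inequality from a vector field `ξ` of class `C¹` on the open set `O`, for functions `u`
with compact support in `O`: `∫ div (ξ u²) = 0` (`H1l.wd_mul`, multiply `ξ` by a cut-off function
which is `1` near `K`; `WD.integral_eq_zero`), then Cauchy-Schwarz. -/
theorem field_hardy {O K : Set X} (hO : IsOpen O) (hK : IsCompact K) (hKO : K ⊆ O)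
    {ξ : Fin 3 → X → ℝ} (hξ : ∀ i, ContDiffOn ℝ 1 (ξ i) O) {w : X → ℝ} (hw : ContinuousOn w O)
    {c : ℝ} (hc : 0 < c) (h0 : ∀ x ∈ O, 0 ≤ w x)
    (hdiv : ∀ x ∈ O, c * w x ≤ -∑ i, pd eX (ξ i) i x) (hle : ∀ x ∈ O, gs ξ x ≤ w x ^ 2)
    {u : X → ℝ} {g : Fin 3 → X → ℝ} (hu : H1l eX u g) (hK0 : ∀ᵐ x, x ∉ K → u x = 0) :
    c ^ 2 * ∫ x in K, w x * u x ^ 2 ≤ 4 * ∫ x in K, w x * gs g x := by
  have hKm := hK.measurableSet
  have hg0 : ∀ᵐ x, x ∉ K → ∀ i, g i x = 0 := by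
    filter_upwards [hK0, hu.grad_zero] with x h1 h2 hx using h2 (h1 hx)
  have hL : ∀ {a : X → ℝ}, L2l a → (∀ᵐ x, x ∉ K → a x = 0) → MemLp a 2 volume := by
    intro a ha ha0
    have := (memLp_indicator_iff_restrict hKm).2 (ha K hK)
    refine this.ae_eq ?_
    filter_upwards [ha0] with x hx
    by_cases hxK : x ∈ K
    · simp [hxK]
    · simp [hxK, hx hxK]
  have h : H1 eX u g := hu.h1 (hL hu.l2 hK0) fun i =>
    hL (hu.gl2 i) (hg0.mono fun x hx hxK => hx hxK i)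
  obtain ⟨K', hK', hKK', hK'O⟩ := exists_compact_between hK hO hKO
  obtain ⟨χ, hχ1, hχ0, -⟩ := exists_contMDiffMap_one_nhds_of_subset_interior (n := 1)
    (modelWithCornersSelf ℝ X) hK.isClosed hKK'
  have hχ : ContDiff ℝ 1 χ := χ.contMDiff.contDiff
  set ξ' : Fin 3 → X → ℝ := fun i x => χ x * ξ i x with hξ'
  have hz : ∀ i x, x ∉ K' → ξ' i x = 0 := fun i x hx => by simp [hξ', hχ0 x hx]
  have hs : ∀ i, ContDiff ℝ 1 (ξ' i) := fun i => by
    refine contDiff_iff_contDiffAt.2 fun x => ?_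
    by_cases hx : x ∈ O
    · exact hχ.contDiffAt.mul ((hξ i).contDiffAt (hO.mem_nhds hx))
    · have : ξ' i =ᶠ[𝓝 x] fun _ => 0 := by
        filter_upwards [hK'.isClosed.isOpen_compl.mem_nhds fun h' => hx (hK'O h')] with y hy
        exact hz i y hy
      exact contDiffAt_const.congr_of_eventuallyEq this
  have hcs : ∀ i, HasCompactSupport (ξ' i) := fun i => HasCompactSupport.intro hK' (hz i)
  have hb : ∃ M : ℝ, (∀ i x, |ξ' i x| ≤ M) ∧ ∀ i j x, |pd eX (ξ' i) j x| ≤ M := by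
    have b1 : ∀ i, ∃ M, ∀ x, ‖ξ' i x‖ ≤ M := fun i =>
      (hs i).continuous.bounded_above_of_compact_support (hcs i)
    have b2 : ∀ i j, ∃ M, ∀ x, ‖pd eX (ξ' i) j x‖ ≤ M := fun i j => by
      refine Continuous.bounded_above_of_compact_support ?_ ?_
      · exact ((hs i).continuous_fderiv one_ne_zero).clm_apply continuous_const
      · exact (hcs i).fderiv_apply ℝ (eX j)
    choose M1 hM1 using b1
    choose M2 hM2 using b2
    have n1 : ∀ i, 0 ≤ M1 i := fun i => (norm_nonneg _).trans (hM1 i 0)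
    have n2 : ∀ i j, 0 ≤ M2 i j := fun i j => (norm_nonneg _).trans (hM2 i j 0)
    have s1 : 0 ≤ ∑ i, M1 i := Finset.sum_nonneg fun i _ => n1 i
    have s2 : 0 ≤ ∑ i, ∑ j, M2 i j := Finset.sum_nonneg fun i _ => Finset.sum_nonneg fun j _ => n2 i j
    refine ⟨∑ i, M1 i + ∑ i, ∑ j, M2 i j, fun i x => ?_, fun i j x => ?_⟩
    · have := Finset.single_le_sum (f := M1) (fun i _ => n1 i) (Finset.mem_univ i)
      have h2 : |ξ' i x| ≤ M1 i := hM1 i x
      linarith
    · have a1 := Finset.single_le_sum (f := M2 i) (fun j _ => n2 i j) (Finset.mem_univ j)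
      have a2 := Finset.single_le_sum (f := fun i => ∑ j, M2 i j)
        (fun i _ => Finset.sum_nonneg fun j _ => n2 i j) (Finset.mem_univ i)
      have h2 : |pd eX (ξ' i) j x| ≤ M2 i j := hM2 i j x
      linarith
  obtain ⟨M, hM1, hM2⟩ := hb
  obtain ⟨i1, i2⟩ := LHardy_div h hs hM1 hM2
  rw [← setIntegral_eq_integral_of_ae_compl_eq_zero (s := K)
    (hK0.mono fun x hx hxK => by simp [hx hxK])] at i2
  have j1 : IntegrableOn (fun x => w x * u x ^ 2) K :=
    h.integrable_sq.integrableOn.continuousOn_mul (hw.mono hKO) hK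
  have j2 : IntegrableOn (fun x => w x * gs g x) K :=
    h.integrable_gs.integrableOn.continuousOn_mul (hw.mono hKO) hK
  have hpt : ∀ x ∈ K, c ^ 2 * (w x * u x ^ 2) ≤ 4 * (w x * gs g x) + (-(2 * c)) *
      ((∑ i, pd eX (ξ' i) i x) * u x ^ 2 + 2 * u x * gd ξ' g x) := by
    intro x hx
    have hev : ∀ i, ξ' i =ᶠ[𝓝 x] ξ i := fun i => by
      filter_upwards [(eventually_nhdsSet_iff_forall.1 hχ1) x hx] with y hy
      simp [hξ', hy]
    have e1 : ∑ i, pd eX (ξ' i) i x = ∑ i, pd eX (ξ i) i x :=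
      Finset.sum_congr rfl fun i _ => by rw [pd, pd, (hev i).fderiv_eq]
    have e2 : gd ξ' g x = gd ξ g x :=
      Finset.sum_congr rfl fun i _ => by rw [(hev i).self_of_nhds]
    rw [e1, e2]
    have a0 := h0 x (hKO hx)
    have a1 := mul_le_mul_of_nonneg_right (hdiv x (hKO hx)) (sq_nonneg (u x))
    have a2 : gd ξ g x ^ 2 ≤ w x ^ 2 * gs g x :=
      (gd_sq_le ξ g x).trans (mul_le_mul_of_nonneg_right (hle x (hKO hx)) (gs_nonneg g x))
    have a3 : 4 * c * (u x * gd ξ g x) ≤ c ^ 2 * (w x * u x ^ 2) + 4 * (w x * gs g x) := by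
      rcases a0.eq_or_lt with hw0 | hw0
      · rw [← hw0] at a2 ⊢
        have : gd ξ g x = 0 := by
          apply pow_eq_zero_iff (two_ne_zero) |>.1
          exact le_antisymm (by simpa using a2) (sq_nonneg _)
        simp [this]
      · refine le_of_mul_le_mul_left ?_ hw0
        nlinarith [sq_nonneg (c * w x * u x - 2 * gd ξ g x)]
    nlinarith [mul_le_mul_of_nonneg_left a1 hc.le]
  have := setIntegral_mono_on (j1.const_mul (c ^ 2))
    ((j2.const_mul 4).add (i1.integrableOn.const_mul (-(2 * c)))) hKm hpt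
  simp only [Pi.add_apply] at this
  rw [integral_add (j2.const_mul 4) (i1.integrableOn.const_mul (-(2 * c))), integral_const_mul,
    integral_const_mul, integral_const_mul, i2] at this
  simpa using this

end Crest.Agent.R335
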