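import Crest.Agent.R335.LVan
import Crest.Agent.R335.LHardy
import Crest.Prelude.Def_ThreeElectron

/-! Row 335. Sobolev inequality; potentials of class `L^{3/2} + L^∞`. -/

set_option autoImplicit false

open MeasureTheory Set Filter Topology
open scoped ENNReal

noncomputable section

namespace Crest.Agent.R335

open Crest.MathPhysics.ThreeBody in
example (v : X → ℝ) : IsSumClassPotential v ↔
    ∃ v₁ v₂ : X → ℝ, v = v₁ + v₂ ∧ MemLp v₁ (3 / 2 : ℝ≥0∞) volume ∧ MemLp v₂ ⊤ volume := Iff.rfl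

theorem LSob_norm_le (φ : X → ℝ) (x : X) : ‖fderiv ℝ φ x‖ ≤ √(gs (pd eX φ) x) := by
  refine ContinuousLinearMap.opNorm_le_bound _ (Real.sqrt_nonneg _) fun v => ?_
  have hv : v = ∑ i, v i • eX i := by
    ext j
    simp [eX, Pi.single_apply]
  have e : fderiv ℝ φ x v = ∑ i, pd eX φ i x * v i := by
    conv_lhs => rw [hv]
    rw [map_sum]
    refine Finset.sum_congr rfl fun i _ => ?_
    rw [map_smul, smul_eq_mul, mul_comm]
    rfl
  rw [e, Real.norm_eq_abs, EuclideanSpace.norm_eq, ← Real.sqrt_mul (gs_nonneg _ _)]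
  refine Real.abs_le_sqrt ?_
  simp only [Real.norm_eq_abs, sq_abs]
  exact Finset.sum_mul_sq_le_sq_mul_sq _ _ _

theorem LSob_eLp_sqrt {f : X → ℝ} (hf : Integrable f) (h0 : ∀ x, 0 ≤ f x) :
    eLpNorm (fun x => √(f x)) 2 volume = ENNReal.ofReal √(∫ x, f x) := by
  have hm : MemLp (fun x => √(f x)) 2 volume := by
    rw [memLp_two_iff_integrable_sq
      (Real.continuous_sqrt.comp_aestronglyMeasurable hf.aestronglyMeasurable)]
    simpa only [Real.sq_sqrt (h0 _)] using hf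
  rw [hm.eLpNorm_eq_integral_rpow_norm two_ne_zero ENNReal.ofNat_ne_top]
  congr 1
  rw [Real.sqrt_eq_rpow]
  simp only [ENNReal.toReal_ofNat, Real.rpow_two, Real.norm_eq_abs, sq_abs, Real.sq_sqrt (h0 _),
    one_div]

theorem LSob_core : ∃ K : ℝ, 0 < K ∧ ∀ (u : X → ℝ) (g : Fin 3 → X → ℝ), H1 eX u g →
    eLpNorm u 6 volume ≤ ENNReal.ofReal (K * √(dir g)) := by
  set K₀ := eLpNormLESNormFDerivOfEqInnerConst (volume : Measure X) ((2 : NNReal) : ℝ) with hK₀
  refine ⟨K₀ + 1, by positivity, fun u g h => ?_⟩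
  have h1 : ∀ φ : X → ℝ, ContDiff ℝ 1 φ → HasCompactSupport φ →
      eLpNorm φ 6 volume ≤ ENNReal.ofReal ((K₀ + 1) * √(dir (pd eX φ))) := by
    intro φ hφ hc
    have h2 := eLpNorm_le_eLpNorm_fderiv_of_eq_inner (volume : Measure X) hφ hc (p := 2) (p' := 6)
      (by norm_num) (by simp) (by simp; norm_num)
    have h3 : eLpNorm (fderiv ℝ φ) 2 volume ≤ ENNReal.ofReal √(dir (pd eX φ)) := by
      unfold dir
      rw [← LSob_eLp_sqrt (H1.of_c1c hφ hc).integrable_gs (gs_nonneg _)]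
      refine eLpNorm_mono fun x => ?_
      rw [Real.norm_eq_abs, abs_of_nonneg (Real.sqrt_nonneg _)]
      exact LSob_norm_le φ x
    rw [ENNReal.ofReal_mul (by positivity)]
    refine le_trans (by simpa using h2) (mul_le_mul' ?_ h3)
    rw [← ENNReal.ofReal_coe_nnreal]
    exact ENNReal.ofReal_le_ofReal (by simp [hK₀])
  obtain ⟨φ, b, hφ, hc, -, -, hb, hae⟩ := h.approx_seq
  have hφ1 : ∀ n, ContDiff ℝ 1 (φ n) := fun n => (hφ n).of_le (by norm_num)
  have h4 : Tendsto (fun n => dir (pd eX (φ n))) atTop (𝓝 (dir g)) := by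
    unfold dir
    refine tendsto_integral_of_dominated_convergence (fun x => 3 * b x ^ 2)
      (fun n => (H1.of_c1c (hφ1 n) (hc n)).integrable_gs.aestronglyMeasurable)
      (hb.integrable_sq.const_mul 3) (fun n => ?_) ?_
    · filter_upwards [hae] with x hx
      rw [Real.norm_eq_abs, abs_of_nonneg (gs_nonneg _ _)]
      unfold gs
      have : ∀ i, pd eX (φ n) i x ^ 2 ≤ b x ^ 2 := fun i => by
        rw [← sq_abs]
        exact pow_le_pow_left₀ (abs_nonneg _) (hx.2.1 n i) 2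
      rw [Fin.sum_univ_three]
      linarith [this 0, this 1, this 2]
    · filter_upwards [hae] with x hx
      exact tendsto_finsetSum _ fun i _ => (hx.2.2.2 i).pow 2
  have h5 : Tendsto (fun n => ENNReal.ofReal ((K₀ + 1) * √(dir (pd eX (φ n))))) atTop
      (𝓝 (ENNReal.ofReal ((K₀ + 1) * √(dir g)))) :=
    ENNReal.tendsto_ofReal (h4.sqrt.const_mul _)
  refine (Lp.eLpNorm_lim_le_liminf_eLpNorm (fun n => (hφ n).continuous.aestronglyMeasurable) u
    (hae.mono fun x hx => hx.2.2.1)).trans ?_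
  rw [← h5.liminf_eq]
  exact liminf_le_liminf (Eventually.of_forall fun n => h1 _ (hφ1 n) (hc n))

/-- `MeasureTheory.eLpNorm_le_eLpNorm_fderiv_of_eq_inner` for `C¹_c` functions and Fatou along
`H1.approx_seq` (`Lp.eLpNorm_lim_le_liminf_eLpNorm`). -/
theorem sobolev : ∃ C : ℝ, 0 < C ∧ ∀ (u : X → ℝ) (g : Fin 3 → X → ℝ), H1 eX u g →
    Integrable (fun x => u x ^ 6) ∧ ∫ x, u x ^ 6 ≤ C * dir g ^ 3 := by
  obtain ⟨K, hK, h⟩ := LSob_core
  refine ⟨K ^ 6, by positivity, fun u g hu => ?_⟩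
  have h1 := h u g hu
  have hm : MemLp u 6 volume :=
    ⟨hu.m.aestronglyMeasurable, h1.trans_lt ENNReal.ofReal_lt_top⟩
  have e : ∀ x, ‖u x‖ ^ (6 : ℝ≥0∞).toReal = u x ^ 6 := fun x => by
    rw [ENNReal.toReal_ofNat, Real.norm_eq_abs, show (6 : ℝ) = ((6 : ℕ) : ℝ) by norm_num,
      Real.rpow_natCast]
    exact Even.pow_abs (by decide) _
  have hi : Integrable fun x => u x ^ 6 := by
    simpa only [e] using hm.integrable_norm_rpow (by norm_num) ENNReal.ofNat_ne_top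
  refine ⟨hi, ?_⟩
  rw [hm.eLpNorm_eq_integral_rpow_norm (by norm_num) ENNReal.ofNat_ne_top,
    ENNReal.ofReal_le_ofReal_iff (by positivity)] at h1
  simp only [e] at h1
  have h0 : 0 ≤ ∫ x, u x ^ 6 := integral_nonneg fun x => by positivity
  have h2 := pow_le_pow_left₀ (Real.rpow_nonneg h0 _) h1 6
  rw [ENNReal.toReal_ofNat, show (6 : ℝ) = ((6 : ℕ) : ℝ) by norm_num,
    Real.rpow_inv_natCast_pow h0 (by norm_num), mul_pow] at h2
  refine h2.trans (le_of_eq ?_)
  rw [show √(dir g) ^ 6 = (√(dir g) ^ 2) ^ 3 by ring, Real.sq_sqrt (dir_nonneg g)]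

theorem LSob_h1 : ENNReal.HolderTriple 6 6 3 := by
  constructor
  rw [← ENNReal.toReal_eq_toReal_iff' (by simp) (by simp), ENNReal.toReal_add (by simp) (by simp)]
  simp only [ENNReal.toReal_inv, ENNReal.toReal_ofNat]
  norm_num

theorem LSob_h2 : ENNReal.HolderTriple (3 / 2) 3 1 := by
  constructor
  have : ((3 / 2 : ℝ≥0∞))⁻¹ ≠ ⊤ := by simp
  rw [← ENNReal.toReal_eq_toReal_iff' (ENNReal.add_ne_top.2 ⟨this, by simp⟩) (by simp),
    ENNReal.toReal_add this (by simp)]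
  simp only [ENNReal.toReal_inv, ENNReal.toReal_ofNat, ENNReal.toReal_div, ENNReal.toReal_one]
  norm_num

/-- Hölder. -/
theorem form_L32 : ∃ C : ℝ, 0 < C ∧ ∀ v : X → ℝ, MemLp v (3 / 2 : ℝ≥0∞) volume →
    ∀ (u : X → ℝ) (g : Fin 3 → X → ℝ), H1 eX u g → Integrable (fun x => v x * u x ^ 2) ∧
      ∫ x, |v x| * u x ^ 2 ≤ C * (eLpNorm v (3 / 2 : ℝ≥0∞) volume).toReal * dir g := by
  obtain ⟨K, hK, h⟩ := LSob_core
  refine ⟨K ^ 2, by positivity, fun v hv u g hu => ?_⟩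
  have h1 := h u g hu
  have hum := hu.m.aestronglyMeasurable (μ := (volume : Measure X))
  have := LSob_h1
  have := LSob_h2
  have h2 : eLpNorm (u • u) 3 volume ≤ eLpNorm u 6 volume * eLpNorm u 6 volume :=
    eLpNorm_smul_le_mul_eLpNorm hum hum
  have h3 : eLpNorm (v • (u • u)) 1 volume
      ≤ eLpNorm v (3 / 2) volume * eLpNorm (u • u) 3 volume :=
    eLpNorm_smul_le_mul_eLpNorm (hum.smul hum) hv.1
  have e : v • (u • u) = fun x => v x * u x ^ 2 := by
    funext x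
    simp [sq]
  have h4 : eLpNorm (fun x => v x * u x ^ 2) 1 volume
      ≤ eLpNorm v (3 / 2) volume * ENNReal.ofReal (K ^ 2 * dir g) := by
    rw [← e]
    refine h3.trans (mul_le_mul' le_rfl (h2.trans ((mul_le_mul' h1 h1).trans (le_of_eq ?_))))
    rw [← ENNReal.ofReal_mul (by positivity)]
    congr 1
    have := Real.mul_self_sqrt (dir_nonneg g)
    linear_combination K ^ 2 * this
  have hfin : eLpNorm v (3 / 2) volume * ENNReal.ofReal (K ^ 2 * dir g) ≠ ⊤ :=
    ENNReal.mul_ne_top hv.2.ne ENNReal.ofReal_ne_top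
  have hmeas : AEStronglyMeasurable (fun x => v x * u x ^ 2) volume := hv.1.mul (hum.pow 2)
  refine ⟨memLp_one_iff_integrable.1 ⟨hmeas, h4.trans_lt hfin.lt_top⟩, ?_⟩
  have e2 : ∫ x, |v x| * u x ^ 2 = (eLpNorm (fun x => v x * u x ^ 2) 1 volume).toReal := by
    rw [eLpNorm_one_eq_lintegral_enorm, ← integral_norm_eq_lintegral_enorm hmeas]
    simp only [Real.norm_eq_abs, abs_mul, abs_pow, sq_abs]
  rw [e2]
  refine (ENNReal.toReal_mono hfin h4).trans (le_of_eq ?_)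
  have := dir_nonneg g
  rw [ENNReal.toReal_mul, ENNReal.toReal_ofReal (by positivity)]
  ring

open Crest.MathPhysics.ThreeBody in
theorem LSob_split {v : X → ℝ} (hv : IsSumClassPotential v) {η : ℝ} (hη : 0 < η) :
    AEStronglyMeasurable v volume ∧ ∃ (w : X → ℝ) (M : ℝ), 0 ≤ M ∧ (∀ᵐ x, |v x| ≤ |w x| + M) ∧
      ∀ (u : X → ℝ) (g : Fin 3 → X → ℝ), H1 eX u g → Integrable (fun x => |w x| * u x ^ 2) ∧
        ∫ x, |w x| * u x ^ 2 ≤ η * dir g := by
  obtain ⟨v₁, v₂, rfl, h1, h2⟩ := hv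
  obtain ⟨C, hC, hf⟩ := form_L32
  refine ⟨h1.1.add h2.1, ?_⟩
  obtain ⟨k, hkc, hk, hkk, hkm⟩ := h1.exists_hasCompactSupport_eLpNorm_sub_le
    (ENNReal.div_ne_top (by simp) (by simp)) (ε := ENNReal.ofReal (η / C))
    (by simpa using div_pos hη hC)
  obtain ⟨M₁, hM₁⟩ := hkk.bounded_above_of_compact_support hkc
  have hM₂ : ∀ᵐ x, ‖v₂ x‖ ≤ (eLpNorm v₂ ⊤ volume).toReal := by
    filter_upwards [ae_le_eLpNormEssSup (f := v₂) (μ := volume)] with x hx
    rw [← eLpNorm_exponent_top] at hx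
    have := ENNReal.toReal_mono h2.2.ne hx
    simpa using this
  refine ⟨v₁ - k, M₁ + (eLpNorm v₂ ⊤ volume).toReal,
    add_nonneg ((norm_nonneg _).trans (hM₁ 0)) ENNReal.toReal_nonneg, ?_, fun u g hu => ?_⟩
  · filter_upwards [hM₂] with x hx
    have h3 := hM₁ x
    rw [Real.norm_eq_abs] at hx h3
    have e : (v₁ + v₂) x = (v₁ - k) x + k x + v₂ x := by simp
    rw [e]
    have := abs_add_three ((v₁ - k) x) (k x) (v₂ x)
    linarith
  · obtain ⟨h4, h5⟩ := hf (v₁ - k) (h1.sub hkm) u g hu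
    refine ⟨by simpa only [abs_mul, abs_pow, sq_abs] using h4.abs, h5.trans ?_⟩
    refine mul_le_mul_of_nonneg_right ?_ (dir_nonneg g)
    have h6 := ENNReal.toReal_le_of_le_ofReal (div_pos hη hC).le hk
    rw [le_div_iff₀ hC] at h6
    linarith

open Crest.MathPhysics.ThreeBody in
/-- Split `v₁ = v₁ 1_{|v₁| > M} + v₁ 1_{|v₁| ≤ M}`. -/
theorem class_form {v : X → ℝ} (hv : IsSumClassPotential v) {η : ℝ} (hη : 0 < η) :
    ∃ C : ℝ, 0 ≤ C ∧ ∀ (u : X → ℝ) (g : Fin 3 → X → ℝ), H1 eX u g →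
      Integrable (fun x => v x * u x ^ 2) ∧ ∫ x, |v x| * u x ^ 2 ≤ η * dir g + C * nsq u := by
  obtain ⟨hm, w, M, hM, hle, h⟩ := LSob_split hv hη
  refine ⟨M, hM, fun u g hu => ?_⟩
  obtain ⟨h1, h2⟩ := h u g hu
  have h3 := h1.add (hu.integrable_sq.const_mul M)
  have h4 : ∀ᵐ x, |v x| * u x ^ 2 ≤ |w x| * u x ^ 2 + M * u x ^ 2 := by
    filter_upwards [hle] with x hx
    rw [← add_mul]
    exact mul_le_mul_of_nonneg_right hx (sq_nonneg _)
  have h5 : Integrable fun x => v x * u x ^ 2 := by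
    refine h3.mono' (hm.mul (hu.m.aestronglyMeasurable.pow 2)) ?_
    filter_upwards [h4] with x hx
    rw [Real.norm_eq_abs, abs_mul, abs_pow, sq_abs]
    exact hx
  refine ⟨h5, ?_⟩
  have h6 : Integrable fun x => |v x| * u x ^ 2 := by
    simpa only [abs_mul, abs_pow, sq_abs] using h5.abs
  refine (integral_mono_ae h6 h3 h4).trans ?_
  simp only [Pi.add_apply]
  rw [integral_add h1 (hu.integrable_sq.const_mul M), integral_const_mul]
  unfold nsq
  linarith

open Crest.MathPhysics.ThreeBody in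
/-- The same splitting and `slab_trace`. -/
theorem class_slab {v : X → ℝ} (hv : IsSumClassPotential v) {η : ℝ} (hη : 0 < η) :
    ∃ δ : ℝ, 0 < δ ∧ δ ≤ 1 ∧ ∀ (u : X → ℝ) (g : Fin 3 → X → ℝ), H1 eX u g →
      ∫ x in {x : X | |x 2| < δ}, |v x| * u x ^ 2 ≤ η * (dir g + nsq u) := by
  obtain ⟨hm, w, M, hM, hle, h⟩ := LSob_split hv (half_pos hη)
  obtain ⟨C, -, hC⟩ := class_form hv hη
  have hδ : 0 < min 1 (η / (4 * (M + 1))) := lt_min one_pos (by positivity)
  refine ⟨min 1 (η / (4 * (M + 1))), hδ, min_le_left _ _, fun u g hu => ?_⟩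
  have hδ2 : min 1 (η / (4 * (M + 1))) ≤ η / (4 * (M + 1)) := min_le_right _ _
  generalize min 1 (η / (4 * (M + 1))) = δ at hδ hδ2
  obtain ⟨h1, h2⟩ := h u g hu
  have h3 := h1.add (hu.integrable_sq.const_mul M)
  have h4 : ∀ᵐ x, |v x| * u x ^ 2 ≤ |w x| * u x ^ 2 + M * u x ^ 2 := by
    filter_upwards [hle] with x hx
    rw [← add_mul]
    exact mul_le_mul_of_nonneg_right hx (sq_nonneg _)
  have h6 : Integrable fun x => |v x| * u x ^ 2 := by
    simpa only [abs_mul, abs_pow, sq_abs] using (hC u g hu).1.abs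
  refine (integral_mono_ae h6.integrableOn h3.integrableOn (ae_restrict_of_ae h4)).trans ?_
  simp only [Pi.add_apply]
  rw [integral_add h1.integrableOn (hu.integrable_sq.const_mul M).integrableOn,
    integral_const_mul]
  have h7 : ∫ x in {x : X | |x 2| < δ}, |w x| * u x ^ 2 ≤ ∫ x, |w x| * u x ^ 2 :=
    setIntegral_le_integral h1 (Eventually.of_forall fun x => by positivity)
  have h8 := mul_le_mul_of_nonneg_left (slab_trace hu hδ) hM
  have h9 := nsq_nonneg u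
  have h10 := dir_nonneg g
  have h11 : M * (2 * δ) ≤ η / 2 := by
    rw [le_div_iff₀ (by positivity)] at hδ2
    nlinarith
  have h12 := mul_le_mul_of_nonneg_right h11 (add_nonneg h9 h10)
  nlinarith

open Crest.MathPhysics.ThreeBody in
theorem LSob_memLp_scale {p : ℝ≥0∞} {v : X → ℝ} (hv : MemLp v p volume) (a : ℝ) {b : ℝ}
    (hb : b ≠ 0) : MemLp (fun x => a * v (b • x)) p volume := by
  have h1 : MemLp v p (Measure.map (fun x : X => b • x) volume) := by
    rw [Measure.map_addHaar_smul volume hb]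
    exact hv.smul_measure ENNReal.ofReal_ne_top
  exact (h1.comp_of_map (measurable_const_smul b).aemeasurable).const_mul a

open Crest.MathPhysics.ThreeBody in
theorem class_scale {v : X → ℝ} (hv : IsSumClassPotential v) (a : ℝ) {b : ℝ} (hb : b ≠ 0) :
    IsSumClassPotential fun x => a * v (b • x) := by
  obtain ⟨v₁, v₂, rfl, h1, h2⟩ := hv
  refine ⟨_, _, ?_, LSob_memLp_scale h1 a hb, LSob_memLp_scale h2 a hb⟩
  funext x
  simp [mul_add]

open Crest.MathPhysics.ThreeBody in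
theorem class_const {v : X → ℝ} (hv : IsSumClassPotential v) (a : ℝ) :
    IsSumClassPotential fun x => v x - a := by
  obtain ⟨v₁, v₂, rfl, h1, h2⟩ := hv
  refine ⟨v₁, v₂ - fun _ => a, ?_, h1, h2.sub (memLp_top_const a)⟩
  funext x
  simp [add_sub_assoc]

open Crest.MathPhysics.ThreeBody in
theorem class_mk {v : X → ℝ} (hv : IsSumClassPotential v) :
    ∃ v' : X → ℝ, Measurable v' ∧ v' =ᵐ[volume] v ∧ IsSumClassPotential v' := by
  obtain ⟨v₁, v₂, rfl, h1, h2⟩ := hv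
  have hm : AEStronglyMeasurable (v₁ + v₂) volume := h1.1.add h2.1
  refine ⟨hm.mk _, hm.stronglyMeasurable_mk.measurable, hm.ae_eq_mk.symm, v₁,
    hm.mk _ - v₁, by simp, h1, h2.ae_eq ?_⟩
  filter_upwards [hm.ae_eq_mk] with x hx
  rw [Pi.sub_apply, ← hx]
  simp

end Crest.Agent.R335
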