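import Crest.Agent.R335.TS
import Crest.Agent.R335.LSob
import Crest.Agent.R335.LMoll
import Crest.Agent.R335.LLim0

/-! Row 335. The bridge to the definitions of the statement: configurations. -/

set_option autoImplicit false

open MeasureTheory Set Filter Topology
open scoped ENNReal

noncomputable section

namespace Crest.Agent.R335

open Crest.MathPhysics.ThreeBody

/-- A complex amplitude from its real and imaginary parts. -/
def cw (u w : T → ℝ) (x : Config3) : ℂ := (u (toT x) : ℂ) + (w (toT x) : ℂ) * Complex.I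

/-- The noninteracting potential. -/
def U1 (v : X → ℝ) (p : T) : ℝ := v p.1 + (v p.2.1 + v p.2.2)

/-- The index of a frame vector. -/
def ix : IT → Fin 3 × Fin 3 :=
  Sum.elim (fun i => (0, i)) (Sum.elim (fun i => (1, i)) fun i => (2, i))

/-- The real antisymmetric components of a state. -/
structure Comp {J : Type} [Fintype J] (Φ : Wave3) (u : J → T → ℝ) (g : J → IT → T → ℝ) :
    Prop where
  h1 : ∀ j, H1 eT (u j) (g j)
  anti : ∀ j, Anti (u j)
  kin : kinetic Φ = ENNReal.ofReal (∑ j, dir (g j) / 2)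
  norm : normSq Φ = ENNReal.ofReal (∑ j, nsq (u j))
  pot : ∀ U : T → ℝ, (∀ p, U (cyc p) = U p) → (∀ j, Integrable fun p => U p * u j p ^ 2) →
    (∀ s, Integrable fun x => U (toT x) * ‖Φ s x‖ ^ 2) ∧
      potentialEnergy (fun x => U (toT x)) Φ = ∑ j, ∫ p, U p * u j p ^ 2
  dens : ∀ A : Set X, MeasurableSet A →
    densityOn Φ A = ∑ j, ∫⁻ x in A, ENNReal.ofReal (rho3 (u j) x)

/-- `toT` as a continuous linear equivalence. -/
def BrA_A : Config3 ≃L[ℝ] T :=
  LinearEquiv.toContinuousLinearEquiv
    { toFun := toT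
      invFun := fun y => WithLp.toLp 2 fun ic => (![y.1, y.2.1, y.2.2] : Fin 3 → X) ic.1 ic.2
      map_add' := fun _ _ => rfl
      map_smul' := fun _ _ => rfl
      left_inv := fun x => by
        ext ⟨i, c⟩
        fin_cases i <;> rfl
      right_inv := fun _ => rfl }

theorem BrA_A_apply (x : Config3) : BrA_A x = toT x := rfl

/-- `toT` as a linear isometry. -/
def BrA_iso : Config3 ≃ₗᵢ[ℝ] WithLp 2 (X × WithLp 2 (X × X)) where
  toFun x := WithLp.toLp 2 (elPos 0 x, WithLp.toLp 2 (elPos 1 x, elPos 2 x))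
  invFun y := WithLp.toLp 2 fun ic =>
    (![y.fst, y.snd.fst, y.snd.snd] : Fin 3 → X) ic.1 ic.2
  map_add' _ _ := rfl
  map_smul' _ _ := rfl
  left_inv x := by
    ext ⟨i, c⟩
    fin_cases i <;> rfl
  right_inv _ := rfl
  norm_map' x := by
    refine (pow_left_inj₀ (norm_nonneg _) (norm_nonneg _) two_ne_zero).1 ?_
    rw [WithLp.prod_norm_sq_eq_of_L2, WithLp.prod_norm_sq_eq_of_L2]
    simp only [EuclideanSpace.norm_sq_eq, Fintype.sum_prod_type, Fin.sum_univ_three]
    simp [elPos, add_assoc]

theorem BrA_mp : MeasurePreserving toT volume volume := by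
  have h1 := BrA_iso.measurePreserving
  have h2 := WithLp.volume_preserving_ofLp X (WithLp 2 (X × X))
  have h3 := (MeasurePreserving.id (volume : Measure X)).prod (WithLp.volume_preserving_ofLp X X)
  exact h3.comp (h2.comp h1)

theorem BrA_emb : MeasurableEmbedding toT :=
  BrA_A.toHomeomorph.measurableEmbedding

theorem ix_bij : Function.Bijective ix := by
  decide

/-- Measure preserving: `EuclideanSpace.volume_preserving_symm_measurableEquiv_toLp`,
`volume_measurePreserving_sumPiEquivProdPi`, `volume_measurePreserving_piCongrLeft` (or: a linear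
isometry onto `WithLp 2 (X × WithLp 2 (X × X))`; see also `R338.toX`). -/
theorem exists_toT : ∃ A : Config3 ≃L[ℝ] T, (∀ x, A x = toT x) ∧
    MeasurePreserving A volume volume ∧ ∀ j, A (EuclideanSpace.single (ix j) 1) = eT j := by
  refine ⟨BrA_A, fun _ => rfl, BrA_mp, ?_⟩
  rintro (i | i | i) <;> refine Prod.ext ?_ (Prod.ext ?_ ?_) <;> ext c <;>
    simp [BrA_A_apply, toT, elPos, ix, eT, eY, eP, eX]

theorem mp_toT : MeasurePreserving toT volume volume := by
  exact BrA_mp

theorem toT_surj : Function.Surjective toT := by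
  exact BrA_A.surjective

theorem integral_toT (u : T → ℝ) : ∫ x, u (toT x) = ∫ p, u p := by
  exact BrA_mp.integral_comp BrA_emb u

theorem lintegral_toT (u : T → ℝ≥0∞) : ∫⁻ x, u (toT x) = ∫⁻ p, u p := by
  exact BrA_mp.lintegral_comp_emb BrA_emb u

theorem integrable_toT {u : T → ℝ} : (Integrable fun x => u (toT x)) ↔ Integrable u := by
  exact BrA_mp.integrable_comp_emb BrA_emb

theorem ae_toT {q : T → Prop} : (∀ᵐ x, q (toT x)) ↔ ∀ᵐ p, q p := by
  rw [← BrA_mp.map_eq, BrA_emb.ae_map_iff]

theorem norm_sq_cw (u w : T → ℝ) (x : Config3) :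
    ‖cw u w x‖ ^ 2 = u (toT x) ^ 2 + w (toT x) ^ 2 := by
  rw [cw, Complex.sq_norm, Complex.normSq_add_mul_I]

theorem enorm_sq_cw (u w : T → ℝ) (x : Config3) :
    ‖cw u w x‖ₑ ^ 2 = ENNReal.ofReal (u (toT x) ^ 2) + ENNReal.ofReal (w (toT x) ^ 2) := by
  rw [← ofReal_norm, ← ENNReal.ofReal_pow (norm_nonneg _), norm_sq_cw,
    ENNReal.ofReal_add (sq_nonneg _) (sq_nonneg _)]

theorem memLp_cw {u w : T → ℝ} (hu : MemLp u 2 volume) (hw : MemLp w 2 volume) :
    MemLp (cw u w) 2 volume := by
  have h1 : MemLp (fun x => (u (toT x) : ℂ)) 2 volume := (hu.comp_measurePreserving BrA_mp).ofReal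
  have h2 : MemLp (fun x => (w (toT x) : ℂ)) 2 volume := (hw.comp_measurePreserving BrA_mp).ofReal
  exact h1.add (h2.mul_const Complex.I)

/-- Every square integrable amplitude has measurable real and imaginary parts. -/
theorem exists_cw {f : Config3 → ℂ} (hf : MemLp f 2 volume) : ∃ u w : T → ℝ, Measurable u ∧
    Measurable w ∧ MemLp u 2 volume ∧ MemLp w 2 volume ∧ f =ᵐ[volume] cw u w := by
  have hm := hf.1.stronglyMeasurable_mk.measurable
  have he := hf.1.ae_eq_mk
  set g := hf.1.mk f with hg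
  have hg2 : MemLp g 2 volume := hf.ae_eq he
  have hs : MeasurePreserving BrA_A.symm volume volume :=
    MeasurePreserving.symm BrA_A.toHomeomorph.toMeasurableEquiv BrA_mp
  refine ⟨fun p => (g (BrA_A.symm p)).re, fun p => (g (BrA_A.symm p)).im,
    Complex.measurable_re.comp (hm.comp hs.measurable),
    Complex.measurable_im.comp (hm.comp hs.measurable),
    (hg2.comp_measurePreserving hs).re, (hg2.comp_measurePreserving hs).im, ?_⟩
  filter_upwards [he] with x hx
  have h1 : BrA_A.symm (toT x) = x := BrA_A.symm_apply_apply x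
  simp only [cw, h1, hx, Complex.re_add_im]

theorem toT_01 (x : Config3) : toT (permConfig (Equiv.swap 0 1) x) =
    ((toT x).2.1, (toT x).1, (toT x).2.2) := by
  rfl

theorem toT_12 (x : Config3) : toT (permConfig (Equiv.swap 1 2) x) =
    ((toT x).1, (toT x).2.2, (toT x).2.1) := by
  rfl

theorem toT_02 (x : Config3) : toT (permConfig (Equiv.swap 0 2) x) =
    ((toT x).2.2, (toT x).2.1, (toT x).1) := by
  rfl

theorem toT_perm (σ : Equiv.Perm (Fin 3)) (x : Config3) :
    toT (permConfig σ x) = (elPos (σ 0) x, elPos (σ 1) x, elPos (σ 2) x) := by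
  rfl

theorem oneBody_eq (v : X → ℝ) : oneBodyPotential v = fun x => U1 v (toT x) := by
  funext x
  simp only [oneBodyPotential, U1, toT, Fin.sum_univ_three, add_assoc]

theorem U1_cyc (v : X → ℝ) (p : T) : U1 v (cyc p) = U1 v p := by
  simp only [U1, cyc]
  ring

theorem FB.u1 {v : X → ℝ} {C : ℝ} (h : FB eX v C) : FB eT (U1 v) (3 * C) := by
  have h1 := h.prod (h.prod h)
  rw [show C + (C + C) = 3 * C by ring] at h1
  exact h1

theorem class_fb {v : X → ℝ} (hm : Measurable v) (hv : IsSumClassPotential v) :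
    ∃ C, FB eX v C := by
  obtain ⟨C, -, hC⟩ := class_form hv (η := 1 / 4) (by norm_num)
  refine ⟨C, hm, fun u g hu => (hC u g hu).1, fun u g hu => ?_⟩
  have := (hC u g hu).2
  linarith

theorem dens_fun (A : Set X) (x : Config3) :
    ∑ i : Fin 3, A.indicator (fun _ => (1 : ℝ≥0∞)) (elPos i x) =
      A.indicator 1 (toT x).1 + A.indicator 1 (toT x).2.1 + A.indicator 1 (toT x).2.2 := by
  rw [Fin.sum_univ_three]
  rfl

end Crest.Agent.R335
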