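import Crest.Agent.R335.BrA

/-! Row 335. Densities of antisymmetric functions. -/

set_option autoImplicit false

open MeasureTheory Set Filter Topology
open scoped ENNReal

noncomputable section

namespace Crest.Agent.R335

open Crest.MathPhysics.ThreeBody

theorem BrD_lint {a : T → T} (s : Sym eT a) (F : T → ℝ≥0∞) : ∫⁻ p, F (a p) = ∫⁻ p, F p := by
  simp only [← s.eq]
  exact s.mp.lintegral_comp_emb s.A.toHomeomorph.measurableEmbedding F

theorem BrD_dir (g : IT → T → ℝ) : dir (gcyc g) = dir g := by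
  rw [← TS_dir TS_cyc g]
  congr 1
  funext i p
  rcases i with i | j | j <;> exact (one_mul _).symm

theorem BrD_fub {Φ : T → ℝ} (hm : Measurable Φ) (h : MemLp Φ 2 volume) {A : Set X}
    (hA : MeasurableSet A) : ∫⁻ p : T, A.indicator 1 p.1 * ENNReal.ofReal (Φ p ^ 2) =
      ∫⁻ x in A, ENNReal.ofReal (∫ y, Φ (x, y) ^ 2) := by
  have m0 : Measurable (A.indicator (1 : X → ℝ≥0∞)) := measurable_one.indicator hA
  have i : Integrable (fun p => Φ p ^ 2) (volume.prod volume) := h.integrable_sq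
  rw [Measure.volume_eq_prod, lintegral_prod _ (by fun_prop), ← lintegral_indicator hA]
  refine lintegral_congr_ae ?_
  filter_upwards [i.prod_right_ae] with x hx
  by_cases hx' : x ∈ A
  · simp [hx', ofReal_integral_eq_lintegral_ofReal hx (.of_forall fun _ => sq_nonneg _)]
  · simp [hx']

theorem BrD_fub' {v : X → ℝ} {C : ℝ} (hv : FB eX v C) {Φ : T → ℝ} {g : IT → T → ℝ}
    (h : H1 eT Φ g) : Integrable (fun x => v x * ∫ y, Φ (x, y) ^ 2) ∧
      ∫ x, v x * ∫ y, Φ (x, y) ^ 2 = ∫ p : T, v p.1 * Φ p ^ 2 := by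
  have i1 : Integrable (fun p : T => v p.1 * Φ p ^ 2) (volume.prod volume) := (hv.fst h).1
  simp only [← integral_const_mul]
  exact ⟨i1.integral_prod_left, (integral_prod _ i1).symm⟩

theorem BrD_pot {v : X → ℝ} {C : ℝ} (hv : FB eX v C) {ψ : T → ℝ} {g : IT → T → ℝ}
    (h : H1 eT ψ g) (ha : Anti ψ) : Integrable (fun x => v x * rho3 ψ x) ∧
      ∫ x, v x * rho3 ψ x = ∫ p, U1 v p * ψ p ^ 2 := by
  have hs : ∀ p : T, ψ (p.2.1, p.1, p.2.2) = -ψ p := fun p => ha p.1 p.2.1 p.2.2
  obtain ⟨a1, a2⟩ := BrD_fub' hv h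
  obtain ⟨b1, b2⟩ := BrD_fub' hv h.comp_cyc
  have i1 : Integrable fun p : T => v p.1 * ψ p ^ 2 := (hv.fst h).1
  have i2 : Integrable fun p : T => v p.2.1 * ψ p ^ 2 :=
    TS_integrable TS_12 (hv.fst (TS_H1 TS_12 h)).1
  have i3 : Integrable fun p : T => v p.2.2 * ψ p ^ 2 := TS_integrable TS_cyc (hv.fst h.comp_cyc).1
  have e2 := TS_integral TS_12 fun p => v p.2.1 * ψ p ^ 2
  have e3 : ∫ p : T, v p.1 * ψ (cyc p) ^ 2 = _ := TS_integral TS_cyc fun p => v p.2.2 * ψ p ^ 2
  simp only [hs, neg_sq] at e2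
  simp only [rho3, U1, mul_add, add_mul, mul_left_comm _ (2 : ℝ)]
  refine ⟨(a1.const_mul 2).add b1, ?_⟩
  rw [integral_add (a1.const_mul 2) b1, integral_add i1 (g := fun p => _ + _) (i2.add i3),
    integral_add i2 i3, integral_const_mul, a2, b2, e3, ← e2]
  ring

theorem measurable_rho3 {ψ : T → ℝ} (h : Measurable ψ) : Measurable (rho3 ψ) := by
  have h1 : ∀ {Φ : T → ℝ}, Measurable Φ → Measurable fun x => ∫ y, Φ (x, y) ^ 2 := fun h =>
    (h.pow_const 2).stronglyMeasurable.integral_prod_right'.measurable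
  exact ((h1 h).const_mul 2).add (h1 (h.comp mp_cyc.measurable))

theorem rho3_nonneg (ψ : T → ℝ) (x : X) : 0 ≤ rho3 ψ x := by
  unfold rho3
  positivity

theorem rho3_smul (a : ℝ) (ψ : T → ℝ) (x : X) :
    rho3 (fun p => a * ψ p) x = a ^ 2 * rho3 ψ x := by
  simp only [rho3, mul_pow, integral_const_mul]
  ring

theorem dens_anti {ψ : T → ℝ} (hm : Measurable ψ) (h : MemLp ψ 2 volume) (ha : Anti ψ) {A : Set X}
    (hA : MeasurableSet A) :
    ∫⁻ p : T, (A.indicator 1 p.1 + A.indicator 1 p.2.1 + A.indicator 1 p.2.2) *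
      ENNReal.ofReal (ψ p ^ 2) = ∫⁻ x in A, ENNReal.ofReal (rho3 ψ x) := by
  have hs : ∀ p : T, ψ (p.2.1, p.1, p.2.2) = -ψ p := fun p => ha p.1 p.2.1 p.2.2
  have m0 : Measurable (A.indicator (1 : X → ℝ≥0∞)) := measurable_one.indicator hA
  have m1 := (hm.pow_const 2).ennreal_ofReal
  have e2 := BrD_lint TS_12 fun p => A.indicator 1 p.2.1 * ENNReal.ofReal (ψ p ^ 2)
  have e3 := BrD_lint TS_cyc fun p => A.indicator 1 p.2.2 * ENNReal.ofReal (ψ p ^ 2)
  simp only [hs, neg_sq] at e2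
  have m2 : Measurable fun x => ENNReal.ofReal (∫ y, ψ (x, y) ^ 2) :=
    (hm.pow_const 2).stronglyMeasurable.integral_prod_right'.measurable.ennreal_ofReal
  simp only [add_mul]
  rw [lintegral_add_right _ (by fun_prop), lintegral_add_right _ (by fun_prop), ← e2, ← e3,
    BrD_fub hm h hA]
  refine (congrArg _ (BrD_fub (hm.comp mp_cyc.measurable) (h.comp_measurePreserving mp_cyc)
    hA)).trans ?_
  rw [add_assoc, ← lintegral_add_left m2, ← lintegral_add_left m2]
  refine lintegral_congr fun x => ?_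
  rw [rho3, two_mul, ENNReal.ofReal_add (by positivity) (by positivity),
    ENNReal.ofReal_add (by positivity) (by positivity), add_assoc]
  rfl

/-- An antisymmetric representative: `(u - u ∘ swap) / 2`. -/
theorem anti_mk {u : T → ℝ} {g : IT → T → ℝ} (h : H1 eT u g)
    (ha : ∀ᵐ p : T, u (p.2.1, p.1, p.2.2) = -u p) :
    ∃ u', u' =ᵐ[volume] u ∧ H1 eT u' g ∧ Anti u' := by
  have e : u =ᵐ[volume] fun p => (u p - u (p.2.1, p.1, p.2.2)) / 2 := by
    filter_upwards [ha] with p hp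
    rw [hp]
    ring
  refine ⟨_, e.symm, h.congr ((h.m.sub (TS_H1 TS_12 h).m).div_const 2) h.gm e fun _ => .rfl,
    fun x y z => ?_⟩
  ring

/-- A function which is antisymmetric in some pair of electrons is, up to a cyclic permutation
(`cyc` for the pair `(1, 3)`, `cyc ∘ cyc` for the pair `(2, 3)`), antisymmetric in the first two. -/
theorem anti_mk3 {u : T → ℝ} {g : IT → T → ℝ} (h : H1 eT u g)
    (ha : (∀ᵐ p : T, u (p.2.1, p.1, p.2.2) = -u p) ∨ (∀ᵐ p : T, u (p.1, p.2.2, p.2.1) = -u p) ∨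
      ∀ᵐ p : T, u (p.2.2, p.2.1, p.1) = -u p) :
    ∃ u' g', H1 eT u' g' ∧ Anti u' ∧ dir g' = dir g ∧ nsq u' = nsq u ∧
      (∀ U : T → ℝ, (∀ p, U (cyc p) = U p) → Integrable (fun p => U p * u' p ^ 2) →
        Integrable (fun p => U p * u p ^ 2) ∧ ∫ p, U p * u p ^ 2 = ∫ p, U p * u' p ^ 2) ∧
      ∀ F : T → ℝ≥0∞, (∀ p, F (cyc p) = F p) →
        ∫⁻ p, F p * ENNReal.ofReal (u p ^ 2) = ∫⁻ p, F p * ENNReal.ofReal (u' p ^ 2) := by
  have m12 := TS_mp TS_12
  rcases ha with ha | ha | ha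
  · obtain ⟨u', e, h', a⟩ := anti_mk h ha
    have e' : ∀ᵐ p, u' p = u p := e
    exact ⟨u', g, h', a, rfl, integral_congr_ae (e'.mono fun p hp => by simp only [hp]),
      fun U _ hi => ⟨hi.congr (e'.mono fun p hp => by simp only [hp]),
        integral_congr_ae (e'.mono fun p hp => by simp only [hp])⟩,
      fun F _ => lintegral_congr_ae (e'.mono fun p hp => by simp only [hp])⟩
  · obtain ⟨u', e, h', a⟩ := anti_mk h.comp_cyc.comp_cyc
      ((mp_cyc.comp mp_cyc).quasiMeasurePreserving.ae ha)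
    have e' : ∀ᵐ p, u' p = u (cyc (cyc p)) := e
    have I := fun F : T → ℝ => (TS_integral TS_cyc fun p => F (cyc p)).trans (TS_integral TS_cyc F)
    refine ⟨u', _, h', a, (BrD_dir _).trans (BrD_dir _), (integral_congr_ae
      (e'.mono fun p hp => by simp only [hp])).trans (I fun p => u p ^ 2), fun U hU hi => ⟨?_, ?_⟩,
      fun F hF => ?_⟩
    · exact TS_integrable TS_cyc (TS_integrable TS_cyc
        (hi.congr (e'.mono fun p hp => by simp only [hp, hU])))
    · exact (I _).symm.trans (integral_congr_ae (e'.mono fun p hp => by simp only [hp, hU]))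
    · rw [← BrD_lint TS_cyc, ← BrD_lint TS_cyc]
      exact lintegral_congr_ae (e'.mono fun p hp => by simp only [hp, hF])
  · obtain ⟨u', e, h', a⟩ := anti_mk h.comp_cyc (mp_cyc.quasiMeasurePreserving.ae ha)
    have e' : ∀ᵐ p, u' p = u (cyc p) := e
    refine ⟨u', _, h', a, BrD_dir _, (integral_congr_ae (e'.mono fun p hp => by
      simp only [hp])).trans (TS_integral TS_cyc fun p => u p ^ 2), fun U hU hi => ⟨?_, ?_⟩,
      fun F hF => ?_⟩
    · exact TS_integrable TS_cyc (hi.congr (e'.mono fun p hp => by simp only [hp, hU]))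
    · exact (TS_integral TS_cyc _).symm.trans
        (integral_congr_ae (e'.mono fun p hp => by simp only [hp, hU]))
    · rw [← BrD_lint TS_cyc]
      exact lintegral_congr_ae (e'.mono fun p hp => by simp only [hp, hF])

/-- The Pauli principle: `tb` on the slices `z = const` with `a = b`; the third electron is
bounded by the Cauchy–Schwarz inequality. -/
theorem pauli_anti {ψ : T → ℝ} (hm : Measurable ψ) (h : MemLp ψ 2 volume) (ha : Anti ψ)
    {a : X → ℝ} (h2 : MemLp a 2 volume) (h1 : nsq a = 1) :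
    2 * ∫ y : Y, (∫ x, a x * ψ (x, y)) ^ 2 ≤ nsq ψ ∧
      ∫ y : Y, (∫ x, a x * ψ (cyc (x, y))) ^ 2 ≤ nsq ψ := by
  constructor
  · by_cases hi : Integrable (fun y : Y => (∫ x, a x * ψ (x, y)) ^ 2) (volume.prod volume)
    swap
    · rw [Measure.volume_eq_prod, integral_undef hi, mul_zero]
      exact nsq_nonneg _
    have mp := volume_preserving_prodAssoc (α₁ := X) (β₁ := X) (γ₁ := X)
    have i2 : Integrable (fun q : Y × X => ψ (q.1.1, q.1.2, q.2) ^ 2) (volume.prod volume) :=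
      (h.comp_measurePreserving mp).integrable_sq
    rw [Measure.volume_eq_prod, integral_prod_symm _ hi, nsq, ← mp.integral_comp',
      Measure.volume_eq_prod, ← integral_const_mul]
    refine (integral_mono_ae (hi.integral_prod_right.const_mul 2) i2.integral_prod_right
      ?_).trans_eq (integral_prod_symm _ i2).symm
    filter_upwards [i2.prod_left_ae] with z hz
    have l2 : MemLp (fun q : Y => ψ (q.1, q.2, z)) 2 (volume.prod volume) :=
      (memLp_two_iff_integrable_sq (by fun_prop : Measurable fun q : Y =>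
        ψ (q.1, q.2, z)).aestronglyMeasurable).2 hz
    have t := tb l2 h2 h2 h1 h1
    have e0 := TS_integral TS_swap fun q => a q.1 * a q.2 * ψ (q.1, q.2, z)
    have e1 : ∀ x y, ψ (x, y, z) = -ψ (y, x, z) := fun x y => ha y x z
    have e2 : ∫ x, (∫ y, a y * ψ (x, y, z)) ^ 2 = ∫ x, (∫ y, a y * ψ (y, x, z)) ^ 2 :=
      integral_congr_ae (.of_forall fun x => by simp only [e1 x, mul_neg, integral_neg, neg_sq])
    have e3 : ∫ q : Y, a q.swap.1 * a q.swap.2 * ψ (q.swap.1, q.swap.2, z) =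
        -∫ q : Y, a q.1 * a q.2 * ψ (q.1, q.2, z) := by
      rw [← integral_neg]
      refine integral_congr_ae (.of_forall fun q => ?_)
      simp only [Prod.fst_swap, Prod.snd_swap, e1 q.2]
      ring
    have e4 : ∫ q : Y, a q.1 * a q.2 * ψ (q.1, q.2, z) ∂volume.prod volume = 0 := by
      rw [← Measure.volume_eq_prod]
      linarith
    simp only [e2, e4] at t
    rw [← Measure.volume_eq_prod] at t
    linarith
  · have i2 : Integrable (fun p : T => ψ (cyc p) ^ 2) (volume.prod volume) :=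
      (h.comp_measurePreserving mp_cyc).integrable_sq
    have mc := hm.comp mp_cyc.measurable
    rw [nsq, ← TS_integral TS_cyc fun p => ψ p ^ 2]
    refine (integral_mono_of_nonneg (.of_forall fun _ => sq_nonneg _) i2.integral_prod_right
      ?_).trans_eq (integral_prod_symm _ i2).symm
    filter_upwards [i2.prod_left_ae] with y hy
    have := ip_sq_le h2 ((memLp_two_iff_integrable_sq
      (mc.comp measurable_prodMk_right).aestronglyMeasurable).2 hy)
    rwa [h1, one_mul] at this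

theorem dir_anti {ψ : T → ℝ} {g : IT → T → ℝ} (h : H1 eT ψ g) (ha : Anti ψ) :
    2 * (∫ p, ∑ i, g (.inl i) p ^ 2) + ∫ p, ∑ i, gcyc g (.inl i) p ^ 2 = dir g := by
  have hs : ∀ p : T, ψ (p.2.1, p.1, p.2.2) = -ψ p := fun p => ha p.1 p.2.1 p.2.2
  have hg := (TS_H1 TS_12 h).h1l.grad_ae h.neg.h1l (.of_forall hs)
  have e1 : ∫ p, ∑ i, g (.inr (.inl i)) p ^ 2 = ∫ p, ∑ i, g (.inl i) p ^ 2 := by
    rw [← TS_integral TS_12 fun p => ∑ i, g (.inr (.inl i)) p ^ 2]
    refine integral_congr_ae (hg.mono fun p hp => Finset.sum_congr rfl fun i _ => ?_)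
    have := hp (.inl i)
    change 1 * g (.inr (.inl i)) (p.2.1, p.1, p.2.2) = _ at this
    rw [one_mul] at this
    rw [this, neg_sq]
  have e2 : ∫ p, ∑ i, gcyc g (.inl i) p ^ 2 = ∫ p, ∑ i, g (.inr (.inr i)) p ^ 2 :=
    TS_integral TS_cyc fun p => ∑ i, g (.inr (.inr i)) p ^ 2
  have i1 : Integrable fun p => ∑ i, g (.inr (.inl i)) p ^ 2 :=
    integrable_finsetSum _ fun i _ => (h.gl2 _).integrable_sq
  have i2 : Integrable fun p => ∑ i, g (.inr (.inr i)) p ^ 2 :=
    integrable_finsetSum _ fun i _ => (h.gl2 _).integrable_sq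
  rw [TS_dir_sum h, e2]
  simp only [Fintype.sum_sum_type]
  rw [integral_add i1 i2, e1]
  ring

theorem pot_anti {v : X → ℝ} {C : ℝ} (hv : FB eX v C) {ψ : T → ℝ} {g : IT → T → ℝ}
    (h : H1 eT ψ g) (ha : Anti ψ) : Integrable (fun x => v x * rho3 ψ x) ∧
      ∫ x, v x * rho3 ψ x = ∫ p, U1 v p * ψ p ^ 2 ∧
      ∫ x, |v x| * rho3 ψ x ≤ dir g / 4 + 3 * C * nsq ψ := by
  have hv' : FB eX (fun x => |v x|) C := ⟨hv.m.abs, fun u g hu =>
    (hv.int u g hu).abs.congr (.of_forall fun x => by simp [abs_mul]), by simpa using hv.bd⟩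
  refine ⟨(BrD_pot hv h ha).1, (BrD_pot hv h ha).2, (BrD_pot hv' h ha).2.trans_le
    (le_trans (le_of_eq (integral_congr_ae (.of_forall fun p => ?_))) (hv'.u1.bd ψ g h))⟩
  simp only
  rw [abs_of_nonneg (by unfold U1; positivity)]

end Crest.Agent.R335
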