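import Crest.Agent.R335.BrK
import Crest.Agent.R335.BrD

/-! Row 335. The real components of a fermionic state. -/

set_option autoImplicit false

open MeasureTheory Set Filter Topology
open scoped ENNReal

noncomputable section

namespace Crest.Agent.R335

open Crest.MathPhysics.ThreeBody

theorem spin_eq (s : Spin3) : s 0 = s 1 ∨ s 1 = s 2 ∨ s 0 = s 2 := by
  generalize s 0 = a
  generalize s 1 = b
  generalize s 2 = c
  revert a b c
  decide

theorem BrC_swap {Φ : Wave3} (h : IsFermionic Φ) (s : Spin3) {u w : T → ℝ}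
    (he : Φ s =ᵐ[volume] cw u w) {i j : Fin 3} (hij : i ≠ j) (hs : s i = s j) {a : T → T}
    (ha : MeasurePreserving a volume volume)
    (hp : ∀ x, toT (permConfig (Equiv.swap i j) x) = a (toT x)) :
    (∀ᵐ p : T, u (a p) = -u p) ∧ ∀ᵐ p : T, w (a p) = -w p := by
  obtain ⟨A, hA, -, -⟩ := exists_toT
  have h1 : ∀ᵐ p : T, Φ s (A.symm p) = (u p : ℂ) + (w p : ℂ) * Complex.I := by
    rw [← ae_toT]
    filter_upwards [he] with x hx
    rw [← hA, A.symm_apply_apply, hx, cw, hA]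
  have h2 := ha.quasiMeasurePreserving.ae h1
  have e0 : (fun k => s (Equiv.swap i j k)) = s := funext fun k => Equiv.apply_swap_eq_self hs k
  have h3 : ∀ᵐ p : T, u (a p) = -u p ∧ w (a p) = -w p := by
    filter_upwards [h1, h2] with p p1 p2
    have e1 : A.symm (a p) = permConfig (Equiv.swap i j) (A.symm p) := by
      rw [A.symm_apply_eq, hA, hp, ← hA, A.apply_symm_apply]
    have e2 := h.2 (Equiv.swap i j) s (A.symm p)
    rw [e0, ← e1, p1, p2, Equiv.Perm.sign_swap hij] at e2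
    have e3 := congrArg Complex.re e2
    have e4 := congrArg Complex.im e2
    simp at e3 e4
    exact ⟨e3, e4⟩
  exact ⟨h3.mono fun p hp => hp.1, h3.mono fun p hp => hp.2⟩

/-- Two electrons have the same spin: the amplitude is antisymmetric in their positions. -/
theorem ferm_anti {Φ : Wave3} (h : IsFermionic Φ) (s : Spin3) {u w : T → ℝ}
    (he : Φ s =ᵐ[volume] cw u w) :
    ((∀ᵐ p : T, u (p.2.1, p.1, p.2.2) = -u p) ∨ (∀ᵐ p : T, u (p.1, p.2.2, p.2.1) = -u p) ∨
      ∀ᵐ p : T, u (p.2.2, p.2.1, p.1) = -u p) ∧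
    ((∀ᵐ p : T, w (p.2.1, p.1, p.2.2) = -w p) ∨ (∀ᵐ p : T, w (p.1, p.2.2, p.2.1) = -w p) ∨
      ∀ᵐ p : T, w (p.2.2, p.2.1, p.1) = -w p) := by
  rcases spin_eq s with hs | hs | hs
  · obtain ⟨p, q⟩ := BrC_swap h s he (by decide) hs (TS_mp TS_12) toT_01
    exact ⟨.inl p, .inl q⟩
  · obtain ⟨p, q⟩ := BrC_swap h s he (by decide) hs (TS_mp (TS_prod (TS_refl eX) TS_swap)) toT_12
    exact ⟨.inr (.inl p), .inr (.inl q)⟩
  · obtain ⟨p, q⟩ := BrC_swap h s he (by decide) hs ((TS_mp TS_12).comp mp_cyc) toT_02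
    exact ⟨.inr (.inr p), .inr (.inr q)⟩

theorem BrC_lint {f : Config3 → ℂ} {u w : T → ℝ} (mu : Measurable u)
    (he : f =ᵐ[volume] cw u w) {F : T → ℝ≥0∞} (hF : Measurable F) :
    ∫⁻ x, F (toT x) * ‖f x‖ₑ ^ 2 =
      (∫⁻ p, F p * ENNReal.ofReal (u p ^ 2)) + ∫⁻ p, F p * ENNReal.ofReal (w p ^ 2) := by
  rw [← lintegral_add_left (f := fun p => F p * ENNReal.ofReal (u p ^ 2))
    (hF.mul (mu.pow_const 2).ennreal_ofReal), ← lintegral_toT]
  refine lintegral_congr_ae ?_
  filter_upwards [he] with x hx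
  rw [hx, enorm_sq_cw, mul_add]

theorem BrC_nsq {u : T → ℝ} (hu : MemLp u 2 volume) :
    ∫⁻ p, 1 * ENNReal.ofReal (u p ^ 2) = ENNReal.ofReal (nsq u) := by
  simp only [one_mul]
  exact (ofReal_integral_eq_lintegral_ofReal hu.integrable_sq
    (.of_forall fun _ => sq_nonneg _)).symm

theorem BrC_pot {f : Config3 → ℂ} {u w U : T → ℝ} (he : f =ᵐ[volume] cw u w)
    (hu : Integrable fun p => U p * u p ^ 2) (hw : Integrable fun p => U p * w p ^ 2) :
    Integrable (fun x => U (toT x) * ‖f x‖ ^ 2) ∧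
      ∫ x, U (toT x) * ‖f x‖ ^ 2 = (∫ p, U p * u p ^ 2) + ∫ p, U p * w p ^ 2 := by
  have e : (fun x => U (toT x) * u (toT x) ^ 2 + U (toT x) * w (toT x) ^ 2) =ᵐ[volume]
      fun x => U (toT x) * ‖f x‖ ^ 2 := by
    filter_upwards [he] with x hx
    rw [hx, norm_sq_cw, mul_add]
  refine ⟨(integrable_toT.2 (hu.add hw)).congr e, ?_⟩
  rw [← integral_congr_ae e, integral_toT fun p => U p * u p ^ 2 + U p * w p ^ 2,
    integral_add hu hw]

/-- `kin_eq`, `ferm_anti`, `anti_mk3`, `dens_fun`, `dens_anti`. -/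
theorem comp_exists {Φ : Wave3} (h : IsFermionic Φ) (hk : kinetic Φ < ⊤) :
    ∃ (u : Spin3 × Bool → T → ℝ) (g : Spin3 × Bool → IT → T → ℝ), Comp Φ u g := by
  have hk' : ∀ s, kineticOne (Φ s) < ⊤ := fun s =>
    (Finset.single_le_sum (f := fun s => kineticOne (Φ s)) (fun _ _ => bot_le)
      (Finset.mem_univ s)).trans_lt hk
  choose u w g k hu hw he hkin using fun s => kin_eq (h.1 s) (hk' s)
  choose u' g' a1 a2 a3 a4 a5 a6 using fun s => anti_mk3 (hu s) (ferm_anti h s (he s)).1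
  choose w' k' b1 b2 b3 b4 b5 b6 using fun s => anti_mk3 (hw s) (ferm_anti h s (he s)).2
  refine ⟨fun j => cond j.2 (u' j.1) (w' j.1), fun j => cond j.2 (g' j.1) (k' j.1), ?_, ?_, ?_, ?_,
    fun U hU hi => ?_, fun A hA => ?_⟩
  · rintro ⟨s, _ | _⟩
    exacts [b1 s, a1 s]
  · rintro ⟨s, _ | _⟩
    exacts [b2 s, a2 s]
  · simp only [kinetic, hkin, Fintype.sum_prod_type, Fintype.sum_bool, cond_true, cond_false, a3, b3]
    rw [ENNReal.ofReal_sum_of_nonneg fun s _ => add_nonneg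
      (div_nonneg (dir_nonneg _) two_pos.le) (div_nonneg (dir_nonneg _) two_pos.le)]
  · simp only [normSq, Fintype.sum_prod_type, Fintype.sum_bool, cond_true, cond_false, a4, b4]
    rw [ENNReal.ofReal_sum_of_nonneg fun s _ => add_nonneg (nsq_nonneg _) (nsq_nonneg _)]
    refine Finset.sum_congr rfl fun s _ => ?_
    have := BrC_lint (hu s).m (he s) (F := fun _ => 1) measurable_const
    rw [BrC_nsq (hu s).l2, BrC_nsq (hw s).l2] at this
    rw [ENNReal.ofReal_add (nsq_nonneg _) (nsq_nonneg _), ← this]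
    simp only [one_mul]
  · have p := fun s => a5 s U hU (hi (s, true))
    have q := fun s => b5 s U hU (hi (s, false))
    have r := fun s => BrC_pot (he s) (p s).1 (q s).1
    refine ⟨fun s => (r s).1, ?_⟩
    simp only [potentialEnergy, Fintype.sum_prod_type, Fintype.sum_bool, cond_true, cond_false]
    exact Finset.sum_congr rfl fun s _ => by rw [(r s).2, (p s).2, (q s).2]
  · have m0 : Measurable (A.indicator (1 : X → ℝ≥0∞)) := measurable_one.indicator hA
    have hc : ∀ p : T, A.indicator (1 : X → ℝ≥0∞) (cyc p).1 + A.indicator 1 (cyc p).2.1 +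
        A.indicator 1 (cyc p).2.2 =
          A.indicator 1 p.1 + A.indicator 1 p.2.1 + A.indicator 1 p.2.2 := fun p => by
      simp only [cyc]
      ring
    simp only [densityOn, dens_fun, Fintype.sum_prod_type, Fintype.sum_bool, cond_true, cond_false]
    refine Finset.sum_congr rfl fun s _ => ?_
    rw [BrC_lint (hu s).m (he s) (F := fun p => A.indicator 1 p.1 + A.indicator 1 p.2.1 +
      A.indicator 1 p.2.2) (by fun_prop), a6 s _ hc, b6 s _ hc,
      dens_anti (a1 s).m (a1 s).l2 (a2 s) hA, dens_anti (b1 s).m (b1 s).l2 (b2 s) hA]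

end Crest.Agent.R335
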