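import Crest.Agent.R335.BrD

/-! Row 335. From a countable family of antisymmetric functions to `Rep`. -/

set_option autoImplicit false

open MeasureTheory Set Filter Topology
open scoped ENNReal

noncomputable section

namespace Crest.Agent.R335

open Crest.MathPhysics.ThreeBody

section count

variable {K Z : Type} [Countable K] [MeasurableSpace K] [MeasurableSingletonClass K]
  [MeasurableSpace Z] {ν : Measure Z} [SigmaFinite ν]

theorem BrR_sum {F : Z × K → ℝ} (h : Integrable F (ν.prod .count)) :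
    HasSum (fun k => ∫ z, F (z, k) ∂ν) (∫ p, F p ∂ν.prod .count) := by
  have h1 := h.integral_prod_right
  rw [integral_prod_symm _ h, integral_countable h1]
  simp only [Measure.real, Measure.count_singleton, ENNReal.toReal_one, one_smul]
  exact (integrable_count_iff.1 h1).of_norm.hasSum

theorem BrR_int {F : K → Z → ℝ} (hm : ∀ k, Measurable (F k)) (hi : ∀ k, Integrable (F k) ν)
    (h0 : ∀ k z, 0 ≤ F k z) (hs : Summable fun k => ∫ z, F k z ∂ν) :
    Integrable (fun p : Z × K => F p.2 p.1) (ν.prod .count) := by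
  refine (integrable_prod_iff' (measurable_from_prod_countable_left hm).aestronglyMeasurable).2
    ⟨.of_forall hi, integrable_count_iff.2 ?_⟩
  simp only [Real.norm_of_nonneg (h0 _ _), Real.norm_of_nonneg (integral_nonneg (h0 _))]
  exact hs

theorem BrR_ae {q : Z × K → Prop} (h : ∀ k, ∀ᵐ z ∂ν, q (z, k)) :
    ∀ᵐ p ∂ν.prod (.count : Measure K), q p := by
  filter_upwards [Measure.quasiMeasurePreserving_fst.ae (ae_all_iff.2 h)] with p hp using hp p.2

theorem BrR_meas {F : K → T → ℝ} (hm : ∀ k, Measurable (F k)) :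
    Measurable fun p : X × (Y × K) => F p.2.2 (p.1, p.2.1) :=
  (measurable_from_prod_countable_left (f := fun p : T × K => F p.2 p.1) hm).comp
    MeasurableEquiv.prodAssoc.symm.measurable

theorem BrR_assoc {F : K → T → ℝ} (hm : ∀ k, Measurable (F k)) (hi : ∀ k, Integrable (F k))
    (h0 : ∀ k z, 0 ≤ F k z) (hs : Summable fun k => ∫ z, F k z) :
    Integrable (fun p : X × (Y × K) => F p.2.2 (p.1, p.2.1)) (volume.prod (volume.prod .count)) ∧
      HasSum (fun k => ∫ z, F k z)
        (∫ p : X × (Y × K), F p.2.2 (p.1, p.2.1) ∂volume.prod (volume.prod .count)) := by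
  have mp := measurePreserving_prodAssoc (volume : Measure X) (volume : Measure Y)
    (.count : Measure K)
  have i := BrR_int hm hi h0 hs
  refine ⟨(mp.integrable_comp_emb MeasurableEquiv.prodAssoc.measurableEmbedding).1 i, ?_⟩
  rw [← mp.integral_comp']
  exact BrR_sum i

theorem BrR_bool {J : Type} {F : J × Bool → ℝ} {a : ℝ} (h : HasSum F a) :
    HasSum (fun n => F (n, false) + F (n, true)) a :=
  h.prod_fiberwise fun n => by
    simpa [add_comm] using hasSum_fintype fun b => F (n, b)

theorem BrR_bool' {J : Type} {F : J × Bool → ℝ} {b : J → ℝ} (hb : Summable b) (h0 : ∀ k, 0 ≤ F k)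
    (h : ∀ k, F k ≤ b k.1) : Summable F := by
  refine .of_nonneg_of_le h0 h ((summable_prod_of_nonneg fun k => (h0 k).trans (h k)).2
    ⟨fun _ => (hasSum_fintype _).summable, ?_⟩)
  simpa using hb.mul_left 2

end count

/-- `Ω = (J × Bool) × Y`, `μ = count ⊗ volume`,
`Θ (x, (n, b), y) = if b then w n (cyc (x, y)) else √2 w n (x, y)`.  `H1.slice_left`,
`pauli_anti`, `dir_anti`, `pot_anti`, `ae_eq_of_forall_setLIntegral_eq_of_sigmaFinite`,
`integral_tsum` / `hasSum_integral_of_summable_integral_norm`. -/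
theorem rep_of_family {J : Type} [Countable J] [MeasurableSpace J] [MeasurableSingletonClass J]
    {v ρ : X → ℝ} (hm : Measurable v) (hv : IsSumClassPotential v) (hρ : Measurable ρ)
    (h0 : ∀ x, 0 ≤ ρ x) {w : J → T → ℝ} {g : J → IT → T → ℝ} (h1 : ∀ n, H1 eT (w n) (g n))
    (ha : ∀ n, Anti (w n)) (hn : HasSum (fun n => nsq (w n)) 1)
    (hd : Summable fun n => dir (g n)) {a : ℝ} (he : HasSum (fun n => qf (U1 v) (w n) (g n)) a)
    (hmin : ∀ u k, H1 eT u k → Anti u → nsq u = 1 → a ≤ qf (U1 v) u k)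
    (hdens : ∀ A : Set X, MeasurableSet A → ∫⁻ x in A, ENNReal.ofReal (ρ x) =
      ∑' n, ∫⁻ x in A, ENNReal.ofReal (rho3 (w n) x)) : Rep ρ := by
  obtain ⟨C, hC⟩ := class_fb hm hv
  set Φ : J × Bool → T → ℝ := fun k p => if k.2 then w k.1 (cyc p) else √2 * w k.1 p with hΦ
  set G : J × Bool → IT → T → ℝ := fun k i p =>
    if k.2 then gcyc (g k.1) i p else √2 * g k.1 i p with hG
  have s2 : ∀ t : ℝ, (√2 * t) ^ 2 = 2 * t ^ 2 := fun t => by
    rw [mul_pow, Real.sq_sqrt zero_le_two]
  have H : ∀ k, H1 eT (Φ k) (G k) := by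
    rintro ⟨n, _ | _⟩
    exacts [(h1 n).smul √2, (h1 n).comp_cyc]
  have iG : ∀ k, Integrable fun p => ∑ i, G k (.inl i) p ^ 2 := fun k =>
    integrable_finsetSum _ fun i _ => ((H k).gl2 _).integrable_sq
  have eG : ∀ n, (∫ p, ∑ i, G (n, false) (.inl i) p ^ 2) + ∫ p, ∑ i, G (n, true) (.inl i) p ^ 2 =
      dir (g n) := fun n => by
    rw [← dir_anti (h1 n) (ha n), ← integral_const_mul]
    simp [hG, s2, Finset.mul_sum]
  have G0 : ∀ k, 0 ≤ ∫ p, ∑ i, G k (.inl i) p ^ 2 := fun k =>
    integral_nonneg fun p => by positivity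
  have sG : Summable fun k => ∫ p, ∑ i, G k (.inl i) p ^ 2 := BrR_bool' hd G0 <| by
    rintro ⟨n, _ | _⟩ <;> linarith [eG n, G0 (n, false), G0 (n, true)]
  have sΦ : Summable fun k => ∫ p, Φ k p ^ 2 :=
    BrR_bool' (hn.summable.mul_left 2) (fun k => nsq_nonneg _) <| by
      rintro ⟨n, _ | _⟩
      · simp [hΦ, s2, integral_const_mul, nsq]
      · have := TS_integral TS_cyc fun p => w n p ^ 2
        have := nsq_nonneg (w n)
        simp only [hΦ, nsq, if_true] at *
        linarith
  obtain ⟨iΘ, -⟩ := BrR_assoc (fun k => (H k).m.pow_const 2) (fun k => (H k).integrable_sq)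
    (fun _ _ => sq_nonneg _) sΦ
  obtain ⟨iγ, eγ⟩ := BrR_assoc (F := fun k p => ∑ i, G k (.inl i) p ^ 2)
    (fun k => Finset.measurable_sum _ fun i _ => ((H k).gm _).pow_const 2) iG
    (fun _ _ => by positivity) sG
  have mΘ := BrR_meas fun k => (H k).m
  have mγ := fun i => BrR_meas fun k => (H k).gm (.inl i)
  have hr : ∀ᵐ x, HasSum (fun n => rho3 (w n) x)
      (∫ ω : Y × (J × Bool), Φ ω.2 (x, ω.1) ^ 2 ∂volume.prod .count) := by
    filter_upwards [iΘ.prod_right_ae] with x hx
    simpa [hΦ, s2, integral_const_mul, rho3] using BrR_bool (BrR_sum hx)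
  have hρ' : ∀ᵐ x, ∑' n, rho3 (w n) x = ρ x := by
    have mr := fun n => (measurable_rho3 (h1 n).m).ennreal_ofReal
    have := ae_eq_of_forall_setLIntegral_eq_of_sigmaFinite (μ := volume) hρ.ennreal_ofReal
      (Measurable.ennreal_tsum mr) fun A hA _ => by
        rw [hdens A hA, lintegral_tsum fun n => (mr n).aemeasurable]
    filter_upwards [this, hr] with x hx hx'
    rw [← ENNReal.ofReal_tsum_of_nonneg (fun n => rho3_nonneg _ x) hx'.summable] at hx
    exact ((ENNReal.ofReal_eq_ofReal_iff (h0 x) (tsum_nonneg fun n => rho3_nonneg _ x)).1 hx).symm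
  refine ⟨v, hm, hv, Y × (J × Bool), inferInstance, volume.prod .count, inferInstance,
    fun p => Φ p.2.2 (p.1, p.2.1), fun i p => G p.2.2 (.inl i) (p.1, p.2.1), mΘ, mγ,
    (memLp_two_iff_integrable_sq mΘ.aestronglyMeasurable).2 iΘ, fun i => ?_,
    BrR_ae fun k => (H k).slice_left, ?_, fun b hb nb => ?_, fun u k hu au nu => ?_⟩
  · refine (memLp_two_iff_integrable_sq (mγ i).aestronglyMeasurable).2 (iγ.mono'
      ((mγ i).pow_const 2).aestronglyMeasurable (.of_forall fun p => ?_))
    rw [Real.norm_of_nonneg (sq_nonneg _)]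
    exact Finset.single_le_sum (f := fun i => G p.2.2 (.inl i) (p.1, p.2.1) ^ 2)
      (fun _ _ => sq_nonneg _) (Finset.mem_univ i)
  · filter_upwards [hr, hρ'] with x hx hx' using hx.tsum_eq.symm.trans hx'
  · by_cases hi : Integrable (fun ω : Y × (J × Bool) => (∫ x, b x * Φ ω.2 (x, ω.1)) ^ 2)
        (volume.prod .count)
    · refine (hasSum_le (fun n => ?_) (BrR_bool (BrR_sum hi)) (hn.mul_left 2)).trans_eq (mul_one _)
      obtain ⟨p1, p2⟩ := pauli_anti (h1 n).m (h1 n).l2 (ha n) hb nb
      simp only [hΦ, if_true, Bool.false_eq_true, if_false, mul_left_comm _ (√2),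
        integral_const_mul, s2]
      linarith
    · rw [integral_undef hi]
      exact zero_le_two
  · have e1 := BrR_bool eγ
    simp only [eG] at e1
    have pa := fun n => pot_anti hC (h1 n) (ha n)
    have e2 := hasSum_integral_of_summable_integral_norm (fun n => (pa n).1) <|
      .of_nonneg_of_le (fun n => integral_nonneg fun x => norm_nonneg _) (fun n => by
        simpa only [norm_mul, Real.norm_eq_abs, abs_of_nonneg (rho3_nonneg _ _)] using (pa n).2.2)
        ((hd.div_const 4).add (hn.summable.mul_left (3 * C)))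
    have e3 : ∫ x, ∑' n, v x * rho3 (w n) x = ∫ x, v x * ρ x := integral_congr_ae <| by
      filter_upwards [hρ'] with x hx
      rw [tsum_mul_left, hx]
    simp only [fun n => (pa n).2.1, e3] at e2
    exact (((e1.div_const 2).add e2).unique he).le.trans (hmin u k hu au nu)

end Crest.Agent.R335
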