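import Crest.Agent.R335.BrG
import Crest.Agent.R335.BrR

/-! Row 335. Ensembles. -/

set_option autoImplicit false

open MeasureTheory Set Filter Topology
open scoped ENNReal

noncomputable section

namespace Crest.Agent.R335

open Crest.MathPhysics.ThreeBody

theorem BrE_hasSum {J : Type} [Fintype J] {q : ℕ → ℝ} (hq : HasSum q 1) (q0 : ∀ k, 0 ≤ q k)
    {f : ℕ → J → ℝ} {a : ℝ} (hf : ∀ k, ∑ j, f k j = a) (f0 : ∀ k j, 0 ≤ f k j) :
    HasSum (fun n : ℕ × J => q n.1 * f n.1 n.2) a := by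
  have e : ∀ k, HasSum (fun j => q k * f k j) (q k * a) := fun k => by
    rw [← hf k, Finset.mul_sum]
    exact hasSum_fintype _
  have hs : Summable fun n : ℕ × J => q n.1 * f n.1 n.2 := by
    refine (summable_prod_of_nonneg fun n => mul_nonneg (q0 _) (f0 _ _)).2
      ⟨fun k => (e k).summable, ?_⟩
    simp only [fun k => (e k).tsum_eq]
    exact hq.summable.mul_right a
  have h1 := (hs.hasSum.prod_fiberwise e).unique (hq.mul_right a)
  rw [one_mul] at h1
  rw [← h1]
  exact hs.hasSum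

theorem BrE_nsq (c : ℝ) (u : T → ℝ) : nsq (fun p => c * u p) = c ^ 2 * nsq u := by
  simp only [nsq, mul_pow, integral_const_mul]

theorem BrE_dir (c : ℝ) (g : IT → T → ℝ) : dir (fun i p => c * g i p) = c ^ 2 * dir g := by
  simp only [dir, gs, mul_pow, ← Finset.mul_sum, integral_const_mul]

theorem BrE_qf (c : ℝ) (U u : T → ℝ) (g : IT → T → ℝ) :
    qf U (fun p => c * u p) (fun i p => c * g i p) = c ^ 2 * qf U u g := by
  simp only [qf, BrE_dir, mul_pow, mul_left_comm _ (c ^ 2), integral_const_mul]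
  ring

/-- `class_mk`, `gs_congr`, `comp_exists` for every member; all members have the same energy `a`
and `∑ j, dir (g k j) ≤ 4 (a + 3 C)` (`FB.dir_le`); `rep_of_family` with
`J = ℕ × (Spin3 × Bool)` and `w (k, j) = √(p k).toReal * u k j`. -/
theorem br_ens {Ψ : Wave3} (h : HasEnsembleRep Ψ) {ρ : X → ℝ} (hρ : Measurable ρ)
    (h0 : ∀ x, 0 ≤ ρ x)
    (hd : ∀ A : Set X, MeasurableSet A → densityOn Ψ A = ∫⁻ x in A, ENNReal.ofReal (ρ x)) :
    Rep ρ := by
  obtain ⟨v₀, hv₀, p, Φ, hp, hΦ₀, hdens⟩ := h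
  obtain ⟨v, hm, hvv, hv⟩ := class_mk hv₀
  obtain ⟨C, hC⟩ := class_fb hm hv
  have hU := hC.u1
  have hΦ : ∀ k, IsGroundState (fun x => U1 v (toT x)) (Φ k) := fun k => by
    rw [← oneBody_eq]
    exact gs_congr (oneBody_congr hvv.symm) (hΦ₀ k)
  choose u g hc using fun k => comp_exists (hΦ k).1.1 (hΦ k).1.2.1
  set a := energy (fun x => U1 v (toT x)) (Φ 0) with ha
  have ea : ∀ k, ∑ j, qf (U1 v) (u k j) (g k j) = a := fun k => by
    rw [← ((hc k).energy (hΦ k).1.1 hU (U1_cyc v)).2]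
    exact le_antisymm ((hΦ k).2.2 _ (hΦ 0).1 (hΦ 0).2.1) ((hΦ 0).2.2 _ (hΦ k).1 (hΦ k).2.1)
  have en : ∀ k, ∑ j, nsq (u k j) = 1 := fun k => (hc k).nsq_eq (hΦ k).2.1
  have pt : ∀ k, p k ≠ ⊤ := fun k =>
    ENNReal.ne_top_of_tsum_ne_top (by rw [hp]; exact ENNReal.one_ne_top) k
  have hq : HasSum (fun k => (p k).toReal) 1 := by
    have := ENNReal.hasSum_toReal (f := p) (by rw [hp]; exact ENNReal.one_ne_top)
    rwa [← ENNReal.tsum_toReal_eq pt, hp, ENNReal.toReal_one] at this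
  have q0 : ∀ k, 0 ≤ (p k).toReal := fun k => ENNReal.toReal_nonneg
  have sq : ∀ k, √(p k).toReal ^ 2 = (p k).toReal := fun k => Real.sq_sqrt (q0 k)
  have dl : ∀ k j, dir (g k j) ≤ 4 * (qf (U1 v) (u k j) (g k j) + 3 * C * nsq (u k j)) :=
    fun k j => hU.dir_le ((hc k).h1 j)
  have s1 := BrE_hasSum hq q0 en fun k j => nsq_nonneg _
  have s2 := BrE_hasSum (f := fun k j => qf (U1 v) (u k j) (g k j) + 3 * C * nsq (u k j))
    (a := a + 3 * C) hq q0
    (fun k => by rw [Finset.sum_add_distrib, ← Finset.mul_sum, ea, en, mul_one])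
    fun k j => by linarith [dl k j, dir_nonneg (g k j)]
  refine rep_of_family (J := ℕ × (Spin3 × Bool)) hm hv hρ h0
    (w := fun n x => √(p n.1).toReal * u n.1 n.2 x)
    (g := fun n i x => √(p n.1).toReal * g n.1 n.2 i x) (a := a)
    (fun n => ((hc n.1).h1 n.2).smul _) (fun n x y z => ?_) ?_ ?_ ?_ ?_ fun A hA => ?_
  · simp only [(hc n.1).anti n.2 x y z, mul_neg]
  · simpa only [BrE_nsq, sq] using s1
  · simp only [BrE_dir, sq]
    refine .of_nonneg_of_le (fun n => mul_nonneg (q0 _) (dir_nonneg _)) (fun n => ?_)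
      (s2.summable.mul_left 4)
    rw [mul_left_comm]
    exact mul_le_mul_of_nonneg_left (dl _ _) (q0 _)
  · simp only [BrE_qf, sq]
    have := s2.sub (s1.mul_left (3 * C))
    rw [mul_one, add_sub_cancel_right] at this
    refine (congrArg (fun f => HasSum f a) (funext fun n => ?_)).mp this
    ring
  · exact fun w k hw aw nw => gs_trial hU (U1_cyc v) (hΦ 0) hw aw nw
  · rw [← hd A hA, hdens A hA, ENNReal.tsum_prod']
    refine tsum_congr fun k => ?_
    rw [(hc k).dens A hA, tsum_fintype, Finset.mul_sum]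
    refine Finset.sum_congr rfl fun j _ => ?_
    rw [← lintegral_const_mul' _ _ (pt k)]
    refine lintegral_congr fun x => ?_
    rw [rho3_smul, sq, ENNReal.ofReal_mul (q0 k), ENNReal.ofReal_toReal (pt k)]

end Crest.Agent.R335
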