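import Crest.Agent.R335.BrK
import Crest.Agent.R335.BrD

/-! Row 335. The fermionic state of an antisymmetric function. -/

set_option autoImplicit false

open MeasureTheory Set Filter Topology
open scoped ENNReal

noncomputable section

namespace Crest.Agent.R335

open Crest.MathPhysics.ThreeBody

/-- Two electrons with spin `0`, one with spin `1`. -/
def ferm (ψ : T → ℝ) : Wave3 := fun s =>
  if s = ![0, 0, 1] then cw (fun p => ψ p / √3) 0
  else if s = ![1, 0, 0] then cw (fun p => ψ (cyc p) / √3) 0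
  else if s = ![0, 1, 0] then cw (fun p => ψ (cyc (cyc p)) / √3) 0 else cw 0 0

theorem BrF_spin (s : Spin3) : s = ![0, 0, 1] ∨ s = ![1, 0, 0] ∨ s = ![0, 1, 0] ∨ s = ![0, 0, 0] ∨
    s = ![1, 1, 1] ∨ s = ![1, 1, 0] ∨ s = ![0, 1, 1] ∨ s = ![1, 0, 1] := by
  revert s
  decide

theorem BrF_swap {ψ : T → ℝ} (ha : Anti ψ) {i j : Fin 3} (hij : i ≠ j) (s : Spin3) (x : Config3) :
    ferm ψ (fun k => s (Equiv.swap i j k)) (permConfig (Equiv.swap i j) x) = -ferm ψ s x := by
  have a1 := ha (elPos 0 x) (elPos 1 x) (elPos 2 x)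
  have a2 := ha (elPos 1 x) (elPos 2 x) (elPos 0 x)
  have a3 := ha (elPos 2 x) (elPos 0 x) (elPos 1 x)
  have t : toT x = (elPos 0 x, elPos 1 x, elPos 2 x) := rfl
  fin_cases i <;> fin_cases j <;> (try exact absurd rfl hij) <;>
    rcases BrF_spin s with rfl | rfl | rfl | rfl | rfl | rfl | rfl | rfl <;>
    simp +decide [ferm, cw, toT_perm, cyc, t, Equiv.swap_apply_def, a1, a2, a3, neg_div]

/-- `toT_perm`; go through the six permutations (or use that the transpositions generate) and
the eight spin assignments. -/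
theorem ferm_fermionic {ψ : T → ℝ} (h : MemLp ψ 2 volume) (ha : Anti ψ) :
    IsFermionic (ferm ψ) := by
  have h1 := h.comp_measurePreserving mp_cyc
  have h2 := h1.comp_measurePreserving mp_cyc
  have z : MemLp (0 : T → ℝ) 2 volume := .zero
  refine ⟨fun s => ?_, fun σ => ?_⟩
  · unfold ferm
    split_ifs
    exacts [memLp_cw (h.mul_const _) z, memLp_cw (h1.mul_const _) z, memLp_cw (h2.mul_const _) z,
      memLp_cw z z]
  · induction σ using Equiv.Perm.swap_induction_on' with
    | one => simp [permConfig]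
    | mul_swap σ i j hij ih =>
      intro s x
      have := BrF_swap ha hij (fun i => s (σ i)) (permConfig σ x)
      rw [ih] at this
      simp only [Equiv.Perm.sign_mul, Equiv.Perm.sign_swap hij]
      refine Eq.trans this ?_
      simp

theorem sum_ferm {M : Type} [AddCommMonoid M] (F : (Config3 → ℂ) → M) (h0 : F (cw 0 0) = 0)
    (ψ : T → ℝ) : ∑ s, F (ferm ψ s) = F (cw (fun p => ψ p / √3) 0) +
      F (cw (fun p => ψ (cyc p) / √3) 0) + F (cw (fun p => ψ (cyc (cyc p)) / √3) 0) := by
  have e : (Finset.univ : Finset Spin3) = {![0, 0, 1], ![1, 0, 0], ![0, 1, 0], ![0, 0, 0],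
      ![1, 1, 1], ![1, 1, 0], ![0, 1, 1], ![1, 0, 1]} := by decide
  rw [e]
  simp +decide [ferm, h0, add_assoc]

theorem ferm_comp {ψ : T → ℝ} {g : IT → T → ℝ} (h : H1 eT ψ g) (ha : Anti ψ) :
    Comp (ferm ψ) (fun _ : Unit => ψ) fun _ => g := by
  have z : H1 eT (0 : T → ℝ) fun _ _ => 0 := H1.zero
  have q : ∀ t : ℝ, (t / √3) ^ 2 = 3⁻¹ * t ^ 2 := fun t => by
    rw [div_pow, Real.sq_sqrt (by norm_num)]
    ring
  have H : ∀ {u k}, H1 eT u k → kineticOne (cw (fun p => u p / √3) 0) =
      ENNReal.ofReal (dir k / 6) := fun {u k} hu => by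
    have := kin_cw (hu.smul (√3)⁻¹) z
    simp only [inv_mul_eq_div] at this
    rw [this, dir, dir, dir]
    simp only [gs, q, ← Finset.mul_sum, integral_const_mul, zero_pow two_ne_zero,
      Finset.sum_const_zero, integral_zero]
    congr 1
    ring
  have L : ∀ F : T → ℝ≥0∞, (∀ p, F (cyc p) = F p) →
      ∑ s, ∫⁻ x, F (toT x) * ‖ferm ψ s x‖ₑ ^ 2 = ∫⁻ p, F p * ENNReal.ofReal (ψ p ^ 2) := by
    intro F hF
    have e : ∀ u : T → ℝ, ∫⁻ x, F (toT x) * ‖cw (fun p => u p / √3) 0 x‖ₑ ^ 2 =
        3⁻¹ * ∫⁻ p, F p * ENNReal.ofReal (u p ^ 2) := fun u => by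
      rw [← lintegral_const_mul' _ _ (by norm_num), ← lintegral_toT]
      refine lintegral_congr fun x => ?_
      rw [enorm_sq_cw, q, ENNReal.ofReal_mul (by norm_num), ENNReal.ofReal_inv_of_pos (by norm_num)]
      simp [mul_left_comm]
    have e1 := BrD_lint TS_cyc fun p => F p * ENNReal.ofReal (ψ p ^ 2)
    have e2 := BrD_lint TS_cyc fun p => F p * ENNReal.ofReal (ψ (cyc p) ^ 2)
    simp only [hF] at e1 e2
    rw [sum_ferm (fun f => ∫⁻ x, F (toT x) * ‖f x‖ₑ ^ 2) (by simp [cw]), e, e, e, e2, e1,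
      ← add_mul, ← add_mul, ENNReal.inv_three_add_inv_three, one_mul]
  refine ⟨fun _ => h, fun _ => ha, ?_, ?_, fun U hU hi => ?_, fun A hA => ?_⟩
  · have d := dir_nonneg g
    rw [kinetic, sum_ferm _ ((kin_cw z z).trans (by simp [dir, gs])), H h, H h.comp_cyc,
      H h.comp_cyc.comp_cyc, BrD_dir (gcyc g), BrD_dir,
      ← ENNReal.ofReal_add (by positivity) (by positivity),
      ← ENNReal.ofReal_add (by positivity) (by positivity)]
    congr 1
    simp
    ring
  · simpa [normSq, nsq, ofReal_integral_eq_lintegral_ofReal h.integrable_sq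
      (.of_forall fun _ => sq_nonneg _)] using L (fun _ => 1) fun _ => rfl
  · have e : ∀ u : T → ℝ, (fun x => U (toT x) * ‖cw (fun p => u p / √3) 0 x‖ ^ 2) =
        fun x => (fun p => 3⁻¹ * (U p * u p ^ 2)) (toT x) := fun u => by
      funext x
      simp [norm_sq_cw, q, mul_left_comm]
    have i0 := hi ()
    have i1 := mp_cyc.integrable_comp_of_integrable i0
    have i2 := mp_cyc.integrable_comp_of_integrable i1
    simp only [Function.comp_def, hU] at i1 i2
    have e1 := TS_integral TS_cyc fun p => U p * ψ p ^ 2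
    have e2 := TS_integral TS_cyc fun p => U p * ψ (cyc p) ^ 2
    simp only [hU] at e1 e2
    refine ⟨fun s => ?_, ?_⟩
    · unfold ferm
      split_ifs
      exacts [e _ ▸ integrable_toT.2 (i0.const_mul _), e _ ▸ integrable_toT.2 (i1.const_mul _),
        e _ ▸ integrable_toT.2 (i2.const_mul _), by simp [cw]]
    · rw [potentialEnergy, sum_ferm (fun f => ∫ x, U (toT x) * ‖f x‖ ^ 2) (by simp [cw]), e, e, e]
      simp only [integral_const_mul, integral_toT fun p => U p * ψ p ^ 2, e1, e2,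
        integral_toT fun p => U p * ψ (cyc p) ^ 2, integral_toT fun p => U p * ψ (cyc (cyc p)) ^ 2]
      simp
      ring
  · simp only [densityOn, dens_fun]
    rw [L (fun p => A.indicator 1 p.1 + A.indicator 1 p.2.1 + A.indicator 1 p.2.2) fun p => by
      simp only [cyc]; ring, dens_anti h.m h.l2 ha hA]
    simp

end Crest.Agent.R335
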