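import Crest.Agent.R335.BrF
import Crest.Agent.R335.BrC

/-! Row 335. Ground states. -/

set_option autoImplicit false

open MeasureTheory Set Filter Topology
open scoped ENNReal

noncomputable section

namespace Crest.Agent.R335

open Crest.MathPhysics.ThreeBody

theorem Comp.energy {J : Type} [Fintype J] {Φ : Wave3} {u : J → T → ℝ} {g : J → IT → T → ℝ}
    (h : Comp Φ u g) (hΦ : IsFermionic Φ) {U : T → ℝ} {C : ℝ} (hU : FB eT U C)
    (hc : ∀ p, U (cyc p) = U p) : IsAdmissible (fun x => U (toT x)) Φ ∧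
      energy (fun x => U (toT x)) Φ = ∑ j, qf U (u j) (g j) := by
  obtain ⟨h1, h2⟩ := h.pot U hc fun j => hU.int _ _ (h.h1 j)
  refine ⟨⟨hΦ, h.kin ▸ ENNReal.ofReal_lt_top, h1⟩, ?_⟩
  have h3 : 0 ≤ ∑ j, dir (g j) / 2 := Finset.sum_nonneg fun j _ =>
    div_nonneg (integral_nonneg fun x => Finset.sum_nonneg fun i _ => sq_nonneg _) zero_le_two
  unfold Crest.MathPhysics.ThreeBody.energy
  rw [h.kin, ENNReal.toReal_ofReal h3, h2, ← Finset.sum_add_distrib]
  rfl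

theorem Comp.nsq_eq {J : Type} [Fintype J] {Φ : Wave3} {u : J → T → ℝ} {g : J → IT → T → ℝ}
    (h : Comp Φ u g) (hn : normSq Φ = 1) : ∑ j, nsq (u j) = 1 := by
  rw [h.norm] at hn
  exact ENNReal.ofReal_eq_one.1 hn

theorem br_gs {U : T → ℝ} {C : ℝ} (hU : FB eT U C) (hc : ∀ p, U (cyc p) = U p) {ψ : T → ℝ}
    {g : IT → T → ℝ} (h : RGS U ψ g) : ∃ Ψ : Wave3, IsGroundState (fun x => U (toT x)) Ψ ∧
      ∀ A : Set X, MeasurableSet A → densityOn Ψ A = ∫⁻ x in A, ENNReal.ofReal (rho3 ψ x) := by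
  have hC := ferm_comp h.h1 h.anti
  obtain ⟨a, e⟩ := hC.energy (ferm_fermionic h.h1.l2 h.anti) hU hc
  refine ⟨ferm ψ, ⟨a, ?_, fun Φ hΦ hn => ?_⟩, fun A hA => ?_⟩
  · rw [hC.norm]
    simp [h.n]
  · obtain ⟨u, k, hk⟩ := comp_exists hΦ.1 hΦ.2.1
    rw [e, (hk.energy hΦ.1 hU hc).2, Fintype.sum_unique, ← mul_one (qf U ψ g), ← hk.nsq_eq hn,
      Finset.mul_sum]
    exact Finset.sum_le_sum fun j _ => h.min _ _ (hk.h1 j) (hk.anti j)
  · rw [hC.dens A hA, Fintype.sum_unique]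

theorem gs_trial {U : T → ℝ} {C : ℝ} (hU : FB eT U C) (hc : ∀ p, U (cyc p) = U p) {Φ : Wave3}
    (h : IsGroundState (fun x => U (toT x)) Φ) {u : T → ℝ} {k : IT → T → ℝ} (hu : H1 eT u k)
    (ha : Anti u) (hn : nsq u = 1) : energy (fun x => U (toT x)) Φ ≤ qf U u k := by
  have hC := ferm_comp hu ha
  obtain ⟨a, e⟩ := hC.energy (ferm_fermionic hu.l2 ha) hU hc
  have := h.2.2 (ferm u) a (by rw [hC.norm]; simp [hn])
  rwa [e, Fintype.sum_unique] at this

theorem BrG_adm {U U' : Config3 → ℝ} (he : U =ᵐ[volume] U') {Φ : Wave3}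
    (h : IsAdmissible U Φ) : IsAdmissible U' Φ :=
  ⟨h.1, h.2.1, fun s => (h.2.2 s).congr (he.mono fun x hx => by simp only [hx])⟩

theorem BrG_energy {U U' : Config3 → ℝ} (he : U =ᵐ[volume] U') (Φ : Wave3) :
    energy U Φ = energy U' Φ := by
  unfold energy potentialEnergy
  congr 1
  exact Finset.sum_congr rfl fun s _ => integral_congr_ae (he.mono fun x hx => by simp only [hx])

theorem gs_congr {U U' : Config3 → ℝ} (he : U =ᵐ[volume] U') {Φ : Wave3}
    (h : IsGroundState U Φ) : IsGroundState U' Φ := by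
  refine ⟨BrG_adm he h.1, h.2.1, fun Ψ hΨ hn => ?_⟩
  rw [← BrG_energy he, ← BrG_energy he]
  exact h.2.2 Ψ (BrG_adm he.symm hΨ) hn

/-- The projections of `T` on the three factors are quasi measure preserving. -/
theorem oneBody_congr {v v' : X → ℝ} (he : v =ᵐ[volume] v') :
    oneBodyPotential v =ᵐ[volume] oneBodyPotential v' := by
  rw [oneBody_eq, oneBody_eq]
  have h1 : ∀ᵐ p : T, v p.1 = v' p.1 := Measure.quasiMeasurePreserving_fst.ae he
  have h2 : ∀ᵐ p : T, v p.2.1 = v' p.2.1 := mp_cyc.quasiMeasurePreserving.ae h1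
  have h3 : ∀ᵐ p : T, v p.2.2 = v' p.2.2 := mp_cyc.quasiMeasurePreserving.ae h2
  refine (ae_toT (q := fun p => U1 v p = U1 v' p)).2 ?_
  filter_upwards [h1, h2, h3] with p a b c
  rw [U1, U1, a, b, c]

end Crest.Agent.R335
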