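import Crest.Agent.R335.BrA
import Crest.Agent.R338.F

/-! Row 335. The kinetic energy on the Fourier side is the Dirichlet integral. -/

set_option autoImplicit false

open MeasureTheory Set Filter Topology
open scoped ENNReal

noncomputable section

namespace Crest.Agent.R335

open Crest.MathPhysics.ThreeBody
open scoped FourierTransform

theorem BrK_int {u w : T → ℝ} (hu : MemLp u 2 volume) (hw : MemLp w 2 volume) :
    ∫ x, ‖cw u w x‖ ^ 2 = nsq u + nsq w := by
  simp only [norm_sq_cw]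
  rw [integral_toT fun p => u p ^ 2 + w p ^ 2, integral_add hu.integrable_sq hw.integrable_sq]
  rfl

theorem BrK_sub {u w u' w' : T → ℝ} (hu : MemLp u 2 volume) (hw : MemLp w 2 volume)
    (hu' : MemLp u' 2 volume) (hw' : MemLp w' 2 volume) : ∫ x, ‖cw u w x - cw u' w' x‖ ^ 2 =
      nsq (fun p => u p - u' p) + nsq fun p => w p - w' p := by
  rw [← BrK_int (u := fun p => u p - u' p) (w := fun p => w p - w' p) (hu.sub hu') (hw.sub hw')]
  refine integral_congr_ae (.of_forall fun x => congrArg (‖·‖ ^ 2) ?_)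
  simp only [cw]
  push_cast
  ring

theorem BrK_kin {u w : T → ℝ} (hu : ContDiff ℝ 1 u) (hu' : HasCompactSupport u)
    (hw : ContDiff ℝ 1 w) (hw' : HasCompactSupport w) :
    R338.kin (n := 3) (cw u w) = dir (pd eT u) / 2 + dir (pd eT w) / 2 := by
  obtain ⟨A, hA, -, hf⟩ := exists_toT
  have H := H1.of_c1c (e := eT) hu hu'
  have H' := H1.of_c1c (e := eT) hw hw'
  have key : ∀ j x, fderiv ℝ (cw u w) x (EuclideanSpace.single (ix j) 1) =
      cw (pd eT u j) (pd eT w j) x := fun j x => by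
    have h1 := Complex.ofRealCLM.hasFDerivAt.comp x
      ((hu.differentiable one_ne_zero (A x)).hasFDerivAt.comp x A.hasFDerivAt)
    have h2 := Complex.ofRealCLM.hasFDerivAt.comp x
      ((hw.differentiable one_ne_zero (A x)).hasFDerivAt.comp x A.hasFDerivAt)
    have h3 : HasFDerivAt (cw u w) _ x := (h1.add (h2.mul_const Complex.I)).congr_of_eventuallyEq
      (.of_forall fun y => by simp [cw, hA])
    rw [h3.fderiv, cw, pd, pd, ← hf, ← hA]
    simp [mul_comm]
  rw [R338.kin, ← ix_bij.sum_comp, dir, dir]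
  simp only [key, BrK_int (H.gl2 _) (H'.gl2 _), gs, Finset.sum_add_distrib, nsq]
  rw [integral_finsetSum _ fun i _ => (H.gl2 i).integrable_sq,
    integral_finsetSum _ fun i _ => (H'.gl2 i).integrable_sq]
  ring

theorem BrK_dir {u : T → ℝ} {g k : IT → T → ℝ} (hg : H1 eT u g) (hk : H1 eT u k) :
    dir g = dir k := integral_congr_ae <| by
  filter_upwards [hg.h1l.grad_ae hk.h1l .rfl] with x hx
  simp only [gs, hx]

theorem BrK_seq {u : T → ℝ} {g : IT → T → ℝ} (h : H1 eT u g) : ∃ φ : ℕ → T → ℝ,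
    (∀ n, ContDiff ℝ 1 (φ n)) ∧ (∀ n, HasCompactSupport (φ n)) ∧
      Tendsto (fun n => nsq fun x => φ n x - u x) atTop (𝓝 0) ∧
      Tendsto (fun n => dir (pd eT (φ n))) atTop (𝓝 (dir g)) := by
  obtain ⟨φ, b, p1, p2, p3, -, p4, p5⟩ := h.approx_seq
  have c1 := fun n => (p1 n).of_le (by norm_num : (1 : WithTop ℕ∞) ≤ 2)
  refine ⟨φ, c1, p2, squeeze_zero (fun n => nsq_nonneg _) p3
    (tendsto_pow_atTop_nhds_zero_of_lt_one (by norm_num) (by norm_num)),
    tendsto_integral_of_dominated_convergence (fun x => ∑ _i : IT, b x ^ 2)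
      (fun n => (H1.of_c1c (c1 n) (p2 n)).integrable_gs.1)
      (integrable_finsetSum _ fun _ _ => p4.integrable_sq) (fun n => ?_) ?_⟩
  · filter_upwards [p5] with x hx
    rw [Real.norm_of_nonneg (gs_nonneg _ _)]
    exact Finset.sum_le_sum fun i _ => sq_le_sq' (abs_le.1 (hx.2.1 n i)).1 (abs_le.1 (hx.2.1 n i)).2
  · filter_upwards [p5] with x hx
    exact tendsto_finsetSum _ fun i _ => (hx.2.2.2 i).pow 2

theorem kineticOne_congr {f f' : Config3 → ℂ} (h : f =ᵐ[volume] f') :
    kineticOne f = kineticOne f' := by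
  by_cases hf : MemLp f 2 volume
  · rw [kineticOne, kineticOne, dif_pos hf, dif_pos (hf.ae_eq h), MemLp.toLp_congr hf (hf.ae_eq h) h]
  · rw [kineticOne, kineticOne, dif_neg hf, dif_neg fun h' => hf (h'.ae_eq h.symm)]

/-- `R338.kineticOne_eq` (`Config 3` and `kineticOne` of `ElectronicCoulomb` are definitionally
the ones of `ThreeBody`), `exists_toT`, `ix_bij`. -/
theorem kin_c1 {u w : T → ℝ} (hu : ContDiff ℝ 1 u) (hu' : HasCompactSupport u)
    (hw : ContDiff ℝ 1 w) (hw' : HasCompactSupport w) :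
    kineticOne (cw u w) = ENNReal.ofReal (dir (pd eT u) / 2 + dir (pd eT w) / 2) := by
  obtain ⟨A, hA, -, -⟩ := exists_toT
  have e : cw u w = fun x => (u (A x) : ℂ) + (w (A x) : ℂ) * Complex.I := by
    funext x
    rw [cw, hA]
  rw [← BrK_kin hu hu' hw hw']
  refine R338.kineticOne_eq (n := 3) ?_ ?_ <;> rw [e]
  · exact (Complex.ofRealCLM.contDiff.comp (hu.comp A.contDiff)).add
      ((Complex.ofRealCLM.contDiff.comp (hw.comp A.contDiff)).mul contDiff_const)
  · exact ((hu'.comp_homeomorph A.toHomeomorph).comp_left (g := fun r : ℝ => (r : ℂ))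
      (by simp)).add ((hw'.comp_homeomorph A.toHomeomorph).comp_left
        (g := fun r : ℝ => (r : ℂ) * Complex.I) (by simp))

/-- The Fourier transform is an isometry of `L²`; a subsequence converges almost everywhere;
Fatou's lemma. -/
theorem kin_lsc {f : ℕ → Config3 → ℂ} {f' : Config3 → ℂ} (hf : ∀ n, MemLp (f n) 2 volume)
    (hf' : MemLp f' 2 volume) (h : Tendsto (fun n => ∫ x, ‖f n x - f' x‖ ^ 2) atTop (𝓝 0))
    {c : ℝ≥0∞} (hc : ∀ᶠ n in atTop, kineticOne (f n) ≤ c) : kineticOne f' ≤ c := by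
  have h1 : Tendsto (fun n => (hf n).toLp (f n)) atTop (𝓝 (hf'.toLp f')) := by
    rw [tendsto_iff_norm_sub_tendsto_zero]
    have := h.sqrt
    rw [Real.sqrt_zero] at this
    refine this.congr fun n => ?_
    rw [← MemLp.toLp_sub, ← Real.sqrt_sq (norm_nonneg (MemLp.toLp _ _)), ← real_inner_self_eq_norm_sq,
      L2.inner_def]
    refine congrArg _ (integral_congr_ae ?_)
    filter_upwards [((hf n).sub hf').coeFn_toLp] with x hx
    rw [hx, real_inner_self_eq_norm_sq, Pi.sub_apply]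
  obtain ⟨s, hs, h2⟩ := (tendstoInMeasure_of_tendsto_Lp
    ((ContinuousFourier.continuous_fourier.tendsto _).comp h1)).exists_seq_tendsto_ae
  simp only [kineticOne, dif_pos (hf _), dif_pos hf', ← lintegral_const_mul' (1 / 2) _
    (by norm_num : (1 / 2 : ℝ≥0∞) ≠ ⊤)] at hc ⊢
  refine le_trans ?_ ((lintegral_liminf_le' fun n => ?_).trans
    (liminf_le_of_frequently_le' (hs.tendsto_atTop.eventually hc).frequently))
  · refine lintegral_mono_ae ?_
    filter_upwards [h2] with x hx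
    refine (Tendsto.liminf_eq ?_).ge
    exact ENNReal.Tendsto.const_mul (ENNReal.Tendsto.const_mul (ENNReal.Tendsto.pow hx.enorm)
      (.inr ENNReal.ofReal_ne_top)) (.inr (by norm_num))
  · exact ((by fun_prop : Measurable fun ξ : Config3 =>
      ENNReal.ofReal ((2 * Real.pi * ‖ξ‖) ^ 2)).aemeasurable.mul
      ((Lp.aestronglyMeasurable _).enorm.pow_const 2)).const_mul _

/-- `H1.approx`, `kin_c1`, `kin_lsc`. -/
theorem kin_le {u w : T → ℝ} {g k : IT → T → ℝ} (hu : H1 eT u g) (hw : H1 eT w k) :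
    kineticOne (cw u w) ≤ ENNReal.ofReal (dir g / 2 + dir k / 2) := by
  obtain ⟨φ, p1, p2, p3, p4⟩ := BrK_seq hu
  obtain ⟨χ, q1, q2, q3, q4⟩ := BrK_seq hw
  have l2 := fun n => (H1.of_c1c (e := eT) (p1 n) (p2 n)).l2
  have l2' := fun n => (H1.of_c1c (e := eT) (q1 n) (q2 n)).l2
  have key : ∀ c, dir g / 2 + dir k / 2 < c → kineticOne (cw u w) ≤ ENNReal.ofReal c := by
    intro c hc
    refine kin_lsc (fun n => memLp_cw (l2 n) (l2' n)) (memLp_cw hu.l2 hw.l2) ?_ ?_
    · simpa only [BrK_sub (l2 _) (l2' _) hu.l2 hw.l2, add_zero] using p3.add q3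
    · filter_upwards [((p4.div_const 2).add (q4.div_const 2)).eventually (gt_mem_nhds hc)] with n hn
      rw [kin_c1 (p1 n) (p2 n) (q1 n) (q2 n)]
      exact ENNReal.ofReal_le_ofReal hn.le
  exact ge_of_tendsto ((ENNReal.continuous_ofReal.tendsto _).mono_left nhdsWithin_le_nhds)
    (eventually_nhdsWithin_of_forall (s := Ioi _) key)

/-- `R338.exists_c1_approx`; write the approximations as `cw (φ n) (χ n)`; `H1.of_bdd` for both
parts, with `a = liminf dir (φ n)` and `2 K - a`. -/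
theorem kin_ge {u w : T → ℝ} (mu : Measurable u) (mw : Measurable w) (hu : MemLp u 2 volume)
    (hw : MemLp w 2 volume) (h : kineticOne (cw u w) < ⊤) : ∃ g k, H1 eT u g ∧ H1 eT w k ∧
      dir g / 2 + dir k / 2 ≤ (kineticOne (cw u w)).toReal := by
  obtain ⟨A, hA, -, -⟩ := exists_toT
  choose G g1 g2 g3 g4 using fun n : ℕ =>
    R338.exists_c1_approx (n := 3) (memLp_cw hu hw) h (δ := 1 / ((n : ℝ) + 1)) (by positivity)
  change ∀ n, R338.kin (G n) ≤ (kineticOne (cw u w)).toReal + _ at g4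
  set K := (kineticOne (cw u w)).toReal
  set φ : ℕ → T → ℝ := fun n p => (G n (A.symm p)).re
  set χ : ℕ → T → ℝ := fun n p => (G n (A.symm p)).im
  have e : ∀ n, G n = cw (φ n) (χ n) := fun n => funext fun x => by simp [cw, φ, χ, ← hA]
  have p1 : ∀ n, ContDiff ℝ 1 (φ n) := fun n =>
    Complex.reCLM.contDiff.comp ((g1 n).comp A.symm.contDiff)
  have q1 : ∀ n, ContDiff ℝ 1 (χ n) := fun n =>
    Complex.imCLM.contDiff.comp ((g1 n).comp A.symm.contDiff)
  have p2 : ∀ n, HasCompactSupport (φ n) := fun n =>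
    ((g2 n).comp_homeomorph A.symm.toHomeomorph).comp_left (g := Complex.re) rfl
  have q2 : ∀ n, HasCompactSupport (χ n) := fun n =>
    ((g2 n).comp_homeomorph A.symm.toHomeomorph).comp_left (g := Complex.im) rfl
  have H := fun n => H1.of_c1c (e := eT) (p1 n) (p2 n)
  have H' := fun n => H1.of_c1c (e := eT) (q1 n) (q2 n)
  simp only [e, BrK_sub (H _).l2 (H' _).l2 hu hw, BrK_kin (p1 _) (p2 _) (q1 _) (q2 _)] at g3 g4
  have t0 := tendsto_one_div_add_atTop_nhds_zero_nat (𝕜 := ℝ)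
  obtain ⟨a, -, s, hs, ha⟩ := isCompact_Icc.tendsto_subseq (s := Icc 0 (2 * K + 2))
    (x := fun n => dir (pd eT (φ n))) fun n => ⟨dir_nonneg _, by
      have : 1 / ((n : ℝ) + 1) ≤ 1 := (div_le_one (by positivity)).2 (by simp)
      linarith [g4 n, dir_nonneg (pd eT (χ n))]⟩
  have t1 := t0.comp hs.tendsto_atTop
  obtain ⟨g, hg, dg⟩ := H1.of_bdd (fun n => H (s n)) mu hu (squeeze_zero (fun n => nsq_nonneg _)
    (fun n => le_trans (le_add_of_nonneg_right (nsq_nonneg _)) (g3 (s n))) t1) (c := a)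
    fun δ hδ => (ha.eventually (ge_mem_nhds (by linarith))).frequently
  obtain ⟨k, hk, dk⟩ := H1.of_bdd (fun n => H' (s n)) mw hw (squeeze_zero (fun n => nsq_nonneg _)
    (fun n => le_trans (le_add_of_nonneg_left (nsq_nonneg _)) (g3 (s n))) t1) (c := 2 * K - a)
    fun δ hδ => Eventually.frequently <| by
      filter_upwards [ha.eventually (le_mem_nhds (show a - δ / 2 < a by linarith)),
        t1.eventually (ge_mem_nhds (show 0 < δ / 4 by linarith))] with n h1 h2
      simp only [Function.comp_apply] at h1 h2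
      linarith [g4 (s n)]
  exact ⟨g, k, hg, hk, by linarith⟩

theorem kin_cw {u w : T → ℝ} {g k : IT → T → ℝ} (hu : H1 eT u g) (hw : H1 eT w k) :
    kineticOne (cw u w) = ENNReal.ofReal (dir g / 2 + dir k / 2) := by
  have h := (kin_le hu hw).trans_lt ENNReal.ofReal_lt_top
  obtain ⟨g', k', hg, hk, le⟩ := kin_ge hu.m hw.m hu.l2 hw.l2 h
  rw [BrK_dir hg hu, BrK_dir hk hw] at le
  exact (kin_le hu hw).antisymm (ENNReal.ofReal_le_of_le_toReal le)

theorem kin_eq {f : Config3 → ℂ} (hf : MemLp f 2 volume) (h : kineticOne f < ⊤) :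
    ∃ u w g k, H1 eT u g ∧ H1 eT w k ∧ f =ᵐ[volume] cw u w ∧
      kineticOne f = ENNReal.ofReal (dir g / 2 + dir k / 2) := by
  obtain ⟨u, w, mu, mw, hu, hw, e⟩ := exists_cw hf
  rw [kineticOne_congr e] at h ⊢
  obtain ⟨g, k, hg, hk, -⟩ := kin_ge mu mw hu hw h
  exact ⟨u, w, g, k, hg, hk, e, kin_cw hg hk⟩

end Crest.Agent.R335
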