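import Crest.Agent.R335.BrA

/-! Row 335. Scaling. -/

set_option autoImplicit false

open MeasureTheory Set Filter Topology
open scoped ENNReal

noncomputable section

namespace Crest.Agent.R335

open Crest.MathPhysics.ThreeBody

def scT (b : ℝ) (u : T → ℝ) (p : T) : ℝ := √(b ^ 9) * u (b • p)

def gscT (b : ℝ) (g : IT → T → ℝ) (i : IT) (p : T) : ℝ := √(b ^ 9) * (b * g i (b • p))

variable {b : ℝ}

/-- `Measure.integral_comp_smul`. -/
theorem integral_smul_X (hb : 0 < b) (u : X → ℝ) : ∫ x, u (b • x) = (∫ x, u x) / b ^ 3 := by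
  rw [Measure.integral_comp_smul, show Module.finrank ℝ X = 3 by simp,
    abs_of_pos (by positivity), smul_eq_mul, inv_mul_eq_div]

theorem integral_smul_Y (hb : 0 < b) (u : Y → ℝ) : ∫ x, u (b • x) = (∫ x, u x) / b ^ 6 := by
  rw [Measure.integral_comp_smul, show Module.finrank ℝ Y = 6 by simp,
    abs_of_pos (by positivity), smul_eq_mul, inv_mul_eq_div]

theorem integral_smul_T (hb : 0 < b) (u : T → ℝ) : ∫ x, u (b • x) = (∫ x, u x) / b ^ 9 := by
  rw [Measure.integral_comp_smul, show Module.finrank ℝ T = 9 by simp,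
    abs_of_pos (by positivity), smul_eq_mul, inv_mul_eq_div]

theorem H1.scT (hb : 0 < b) {u : T → ℝ} {g : IT → T → ℝ} (h : H1 eT u g) :
    H1 eT (scT b u) (gscT b g) := by
  exact (h.comp_equiv (e := eT) (ContinuousLinearEquiv.smulLeft (Units.mk0 b hb.ne')) id
    (fun _ => b) fun _ => rfl).smul (√(b ^ 9))

theorem Anti.scT {u : T → ℝ} (h : Anti u) : Anti (scT b u) := by
  intro x y z
  have := h (b • x) (b • y) (b • z)
  simp only [R335.scT, Prod.smul_mk, this, mul_neg]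

theorem BrS_sqrt (hb : 0 < b) : √(b ^ 9) * √(b⁻¹ ^ 9) = 1 := by
  rw [← Real.sqrt_mul (by positivity), ← mul_pow, mul_inv_cancel₀ hb.ne', one_pow, Real.sqrt_one]

theorem scT_inv (hb : 0 < b) (u : T → ℝ) : scT b (scT b⁻¹ u) = u := by
  funext p
  simp only [scT]
  rw [← mul_assoc, BrS_sqrt hb, one_mul, inv_smul_smul₀ hb.ne']

theorem gscT_inv (hb : 0 < b) (g : IT → T → ℝ) : gscT b (gscT b⁻¹ g) = g := by
  funext i p
  simp only [gscT]
  rw [inv_smul_smul₀ hb.ne', mul_left_comm b, mul_inv_cancel_left₀ hb.ne', ← mul_assoc,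
    BrS_sqrt hb, one_mul]

theorem BrS_sq (hb : 0 < b) (u : T → ℝ) (p : T) : scT b u p ^ 2 = b ^ 9 * u (b • p) ^ 2 := by
  rw [scT, mul_pow, Real.sq_sqrt (by positivity)]

theorem BrS_int (hb : 0 < b) (U u : T → ℝ) :
    ∫ p, U (b • p) * scT b u p ^ 2 = ∫ p, U p * u p ^ 2 := by
  simp only [BrS_sq hb, mul_left_comm _ (b ^ 9)]
  rw [integral_const_mul, integral_smul_T hb fun p => U p * u p ^ 2,
    mul_div_cancel₀ _ (by positivity)]

theorem BrS_surj (hb : 0 < b) {u : T → ℝ} {g : IT → T → ℝ} (h : H1 eT u g) :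
    ∃ w k, H1 eT w k ∧ scT b w = u ∧ gscT b k = g ∧ (Anti u → Anti w) :=
  ⟨_, _, h.scT (inv_pos.2 hb), scT_inv hb u, gscT_inv hb g, fun ha => ha.scT⟩

theorem nsq_scT (hb : 0 < b) (u : T → ℝ) : nsq (scT b u) = nsq u := by
  simpa only [one_mul, nsq] using BrS_int hb (fun _ => 1) u

theorem dir_scT (hb : 0 < b) (g : IT → T → ℝ) : dir (gscT b g) = b ^ 2 * dir g := by
  have e : ∀ p, gs (gscT b g) p = b ^ 9 * b ^ 2 * gs g (b • p) := fun p => by
    simp only [gs, gscT, mul_pow, Real.sq_sqrt (pow_pos hb 9).le, Finset.mul_sum, mul_assoc]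
  simp only [dir, e]
  rw [integral_const_mul, integral_smul_T hb (gs g)]
  field_simp

theorem qf_scT (hb : 0 < b) (U u : T → ℝ) (g : IT → T → ℝ) :
    qf (fun p => b ^ 2 * U (b • p)) (scT b u) (gscT b g) = b ^ 2 * qf U u g := by
  simp only [qf, mul_assoc]
  rw [dir_scT hb, integral_const_mul, BrS_int hb]
  ring

theorem rho3_scT (hb : 0 < b) (u : T → ℝ) (x : X) :
    rho3 (scT b u) x = b ^ 3 * rho3 u (b • x) := by
  have e1 := integral_smul_Y hb fun y => u (b • x, y) ^ 2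
  have e2 := integral_smul_Y hb fun y => u (cyc (b • x, y)) ^ 2
  simp only [rho3, BrS_sq hb, integral_const_mul]
  rw [show (∫ y : Y, u (b • (x, y)) ^ 2) = _ from e1,
    show (∫ y : Y, u (b • cyc (x, y)) ^ 2) = _ from e2]
  field_simp

theorem FB.scT (hb : 0 < b) {U : T → ℝ} {C : ℝ} (h : FB eT U C) :
    FB eT (fun p => b ^ 2 * U (b • p)) (b ^ 2 * C) := by
  refine ⟨(h.m.comp (measurable_const_smul b)).const_mul _, fun u g hu => ?_, fun u g hu => ?_⟩
  · obtain ⟨w, k, hw, rfl, rfl, -⟩ := BrS_surj hb hu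
    refine (((h.int w k hw).comp_smul hb.ne').const_mul (b ^ 2 * b ^ 9)).congr
      (.of_forall fun p => ?_)
    simp only [BrS_sq hb]
    ring
  · obtain ⟨w, k, hw, rfl, rfl, -⟩ := BrS_surj hb hu
    simp only [abs_mul, mul_assoc, abs_of_pos (pow_pos hb 2)]
    rw [integral_const_mul, BrS_int hb (fun p => |U p|), dir_scT hb, nsq_scT hb]
    have := mul_le_mul_of_nonneg_left (h.bd w k hw) (pow_pos hb 2).le
    linarith

theorem RGS.scT (hb : 0 < b) {U ψ : T → ℝ} {g : IT → T → ℝ} (h : RGS U ψ g) :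
    RGS (fun p => b ^ 2 * U (b • p)) (scT b ψ) (gscT b g) := by
  refine ⟨h.h1.scT hb, h.anti.scT, (nsq_scT hb ψ).trans h.n, fun u k hu ha => ?_⟩
  obtain ⟨w, k', hw, rfl, rfl, ha'⟩ := BrS_surj hb hu
  rw [qf_scT hb, qf_scT hb, nsq_scT hb, mul_assoc]
  exact mul_le_mul_of_nonneg_left (h.min w k' hw (ha' ha)) (pow_pos hb 2).le

theorem coulomb_eq (D : ℝ) {Z : ℕ} (hZ : 0 < Z) :
    coulombPotential Z (EuclideanSpace.single 2 (D / Z)) (EuclideanSpace.single 2 (-(D / Z))) =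
      fun x => (Z : ℝ) ^ 2 * U3 D (1 / Z) ((Z : ℝ) • toT x) := by
  have hz : (0 : ℝ) < Z := by exact_mod_cast hZ
  have e0 : Rn D = (Z : ℝ) • (EuclideanSpace.single 2 (D / Z) : X) := by
    ext i
    fin_cases i <;> simp [Rn, mul_div_cancel₀ _ hz.ne']
  have e0' : (EuclideanSpace.single 2 (-(D / Z)) : X) = -EuclideanSpace.single 2 (D / Z) := by
    ext i
    fin_cases i <;> simp
  have e1 : ∀ x y : X, ‖(Z : ℝ) • x - (Z : ℝ) • y‖ = Z * ‖x - y‖ := fun x y => by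
    rw [← smul_sub, norm_smul, Real.norm_of_nonneg hz.le]
  have e2 : ∀ x y : X, ‖(Z : ℝ) • x + (Z : ℝ) • y‖ = Z * ‖x + y‖ := fun x y => by
    rw [← smul_add, norm_smul, Real.norm_of_nonneg hz.le]
  funext x
  simp only [coulombPotential, Fin.sum_univ_three, U3, U2, V, W, toT, Prod.smul_mk, e0, e0', e1, e2,
    sub_neg_eq_add, div_eq_mul_inv _ (‖_‖), div_eq_mul_inv _ (_ * ‖_‖), mul_inv]
  generalize (EuclideanSpace.single 2 (D / Z) : X) = R
  simp only [Fin.reduceLT, if_true, if_false, lt_self_iff_false]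
  generalize ‖elPos 0 x - R‖⁻¹ = a0
  generalize ‖elPos 1 x - R‖⁻¹ = a1
  generalize ‖elPos 2 x - R‖⁻¹ = a2
  generalize ‖elPos 0 x + R‖⁻¹ = b0
  generalize ‖elPos 1 x + R‖⁻¹ = b1
  generalize ‖elPos 2 x + R‖⁻¹ = b2
  generalize ‖elPos 0 x - elPos 1 x‖⁻¹ = c0
  generalize ‖elPos 0 x - elPos 2 x‖⁻¹ = c1
  generalize ‖elPos 1 x - elPos 2 x‖⁻¹ = c2
  field_simp
  ring

end Crest.Agent.R335
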