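import Crest.Agent.R335.BrS

/-! Row 335. Scaling of `Rep`. -/

set_option autoImplicit false

open MeasureTheory Set Filter Topology
open scoped ENNReal

noncomputable section

namespace Crest.Agent.R335

open Crest.MathPhysics.ThreeBody

theorem BrS2_map {Ω : Type} [MeasurableSpace Ω] (μ : Measure Ω) [SigmaFinite μ] {b : ℝ}
    (hb : 0 < b) : Measure.map (fun p : X × Ω => (b • p.1, p.2)) (volume.prod μ) =
      ENNReal.ofReal (b ^ 3)⁻¹ • volume.prod μ := by
  have h := Measure.map_prod_map (volume : Measure X) μ (measurable_const_smul b) measurable_id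
  rw [Measure.map_id, Measure.map_addHaar_smul volume hb.ne', Measure.prod_smul_left,
    finrank_euclideanSpace_fin, abs_of_pos (by positivity)] at h
  exact h.symm

theorem BrS2_nsq {b : ℝ} (hb : 0 < b) (a : X → ℝ) :
    nsq (fun x => √(b ^ 3) * a (b • x)) = nsq a := by
  simp only [nsq, mul_pow, Real.sq_sqrt (pow_pos hb 3).le]
  rw [integral_const_mul, integral_smul_X hb fun x => a x ^ 2]
  field_simp

/-- `v' x = b² v (b x)` (`class_scale`), `Θ' (x, ω) = √(b³) Θ (b x, ω)`,
`g' = √(b³) b g (b x, ω)`; `qf_scT`, `scT_inv`. -/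
theorem Rep.scale {ρ : X → ℝ} (h : Rep ρ) {b : ℝ} (hb : 0 < b) :
    Rep fun x => b ^ 3 * ρ (b • x) := by
  obtain ⟨v, hv, hc, Ω, _, μ, _, Θ, g, F⟩ := h
  have hσ : Measurable fun p : X × Ω => (b • p.1, p.2) := by fun_prop
  have hL : ∀ {f : X × Ω → ℝ}, MemLp f 2 (volume.prod μ) →
      MemLp (fun p : X × Ω => f (b • p.1, p.2)) 2 (volume.prod μ) := fun {f} hf => by
    refine MemLp.comp_of_map ?_ hσ.aemeasurable
    rw [BrS2_map μ hb]
    exact hf.smul_measure ENNReal.ofReal_ne_top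
  have hs : √(b ^ 3) ^ 2 = b ^ 3 := Real.sq_sqrt (pow_pos hb 3).le
  have hs0 : 0 < √(b ^ 3) := Real.sqrt_pos.2 (pow_pos hb 3)
  refine ⟨fun x => b ^ 2 * v (b • x), (hv.comp (measurable_const_smul b)).const_mul _,
    class_scale hc _ hb.ne', Ω, _, μ, inferInstance, fun p => √(b ^ 3) * Θ (b • p.1, p.2),
    fun i p => √(b ^ 3) * (b * g i (b • p.1, p.2)), (F.m.comp hσ).const_mul _,
    fun i => (((F.gm i).comp hσ).const_mul _).const_mul _, (hL F.l2).const_mul _,
    fun i => ((hL (F.gl2 i)).const_mul _).const_mul _, ?_, ?_, fun a ha na => ?_,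
    fun u k hu au nu => ?_⟩
  · filter_upwards [F.h1] with ω hω
    exact (hω.comp_equiv (e := eX) (ContinuousLinearEquiv.smulLeft (Units.mk0 b hb.ne')) id
      (fun _ => b) fun _ => rfl).smul _
  · filter_upwards [(Measure.quasiMeasurePreserving_smul volume hb.ne').ae F.dens] with x hx
    simp only [mul_pow, hs]
    rw [integral_const_mul, hx]
  · refine le_of_eq_of_le ?_ (F.pauli (fun x => √(b⁻¹ ^ 3) * a (b⁻¹ • x))
      (LSob_memLp_scale ha _ (inv_ne_zero hb.ne')) (by rw [BrS2_nsq (inv_pos.2 hb), na]))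
    refine integral_congr_ae (Eventually.of_forall fun ω => ?_)
    have h1 := integral_smul_X hb fun y => b ^ 3 * (√(b⁻¹ ^ 3) * a (b⁻¹ • y) * Θ (y, ω))
    rw [integral_const_mul (b ^ 3) fun y => √(b⁻¹ ^ 3) * a (b⁻¹ • y) * Θ (y, ω),
      mul_div_cancel_left₀ _ (pow_pos hb 3).ne'] at h1
    simp only
    rw [← h1]
    congr 2
    funext x
    rw [inv_smul_smul₀ hb.ne', inv_pow, Real.sqrt_inv]
    nth_rw 2 [← hs]
    field_simp
  · have hb' := inv_pos.2 hb
    have h1 := F.min _ _ (hu.scT hb') au.scT (by rw [nsq_scT hb', nu])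
    have h2 := qf_scT hb (fun p : T => v p.1 + (v p.2.1 + v p.2.2)) (scT b⁻¹ u) (gscT b⁻¹ k)
    rw [scT_inv hb, gscT_inv hb] at h2
    have h3 : ∫ x, b ^ 2 * v (b • x) * (b ^ 3 * ρ (b • x)) = b ^ 2 * ∫ x, v x * ρ x := by
      rw [integral_smul_X hb fun x => b ^ 2 * v x * (b ^ 3 * ρ x)]
      simp only [show ∀ x, b ^ 2 * v x * (b ^ 3 * ρ x) = b ^ 5 * (v x * ρ x) from fun x => by ring]
      rw [integral_const_mul]
      field_simp
    have h4 : ∫ p : X × Ω, ∑ i, (√(b ^ 3) * (b * g i (b • p.1, p.2))) ^ 2 ∂volume.prod μ =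
        b ^ 2 * ∫ p, ∑ i, g i p ^ 2 ∂volume.prod μ := by
      have hm : Measurable fun p => ∑ i, g i p ^ 2 :=
        Finset.measurable_sum _ fun i _ => (F.gm i).pow_const 2
      have h5 := integral_map (μ := volume.prod μ) hσ.aemeasurable hm.aestronglyMeasurable
      rw [BrS2_map μ hb, integral_smul_measure, ENNReal.toReal_ofReal (by positivity)] at h5
      simp only [mul_pow, hs, ← Finset.mul_sum]
      rw [integral_const_mul, integral_const_mul, ← h5, smul_eq_mul]
      field_simp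
    simp only [mul_add, Prod.smul_fst, Prod.smul_snd] at h2
    rw [h2, h3, h4, mul_div_assoc, ← mul_add]
    exact mul_le_mul_of_nonneg_left h1 (by positivity)

end Crest.Agent.R335
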