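import Crest.Agent.R335.LGap0

/-! Row 335. Existence of ground states from a gap; exponential decay from a gap. -/

set_option autoImplicit false

open MeasureTheory Set Filter Topology
open scoped ENNReal

noncomputable section

namespace Crest.Agent.R335

variable {E : Type} [NormedAddCommGroup E] [NormedSpace ℝ E] [FiniteDimensional ℝ E]
  [MeasureSpace E] [BorelSpace E] [(volume : Measure E).IsAddHaarMeasure]
  {ι : Type} [Fintype ι] {e : ι → E}

theorem LGap_fatou {Z : Type} [MeasurableSpace Z] {μ : Measure Z} {F : ℕ → Z → ℝ} {G : Z → ℝ}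
    {B : ℝ} (hF : ∀ n, Integrable (F n) μ) (h0 : ∀ n x, 0 ≤ F n x) (hB : ∀ n, ∫ x, F n x ∂μ ≤ B)
    (hlim : ∀ x, Tendsto (fun n => F n x) atTop (𝓝 (G x))) :
    Integrable G μ ∧ ∫ x, G x ∂μ ≤ B := by
  have hG0 : ∀ x, 0 ≤ G x := fun x => ge_of_tendsto' (hlim x) fun n => h0 n x
  have hGm : AEStronglyMeasurable G μ :=
    aestronglyMeasurable_of_tendsto_ae atTop (fun n => (hF n).1) (ae_of_all _ hlim)
  have hB0 : 0 ≤ B := (integral_nonneg (h0 0)).trans (hB 0)
  have h1 : ∫⁻ x, ENNReal.ofReal (G x) ∂μ ≤ ENNReal.ofReal B := by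
    have e : ∀ x, ENNReal.ofReal (G x) = liminf (fun n => ENNReal.ofReal (F n x)) atTop :=
      fun x => ((ENNReal.tendsto_ofReal (hlim x)).liminf_eq).symm
    simp only [e]
    refine (lintegral_liminf_le' fun n => (hF n).1.aemeasurable.ennreal_ofReal).trans ?_
    refine liminf_le_of_frequently_le' (Frequently.of_forall fun n => ?_)
    rw [← ofReal_integral_eq_lintegral_ofReal (hF n) (ae_of_all _ (h0 n))]
    exact ENNReal.ofReal_le_ofReal (hB n)
  have hI : Integrable G μ :=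
    ⟨hGm, (hasFiniteIntegral_iff_ofReal (ae_of_all _ hG0)).2 (h1.trans_lt ENNReal.ofReal_lt_top)⟩
  refine ⟨hI, ?_⟩
  rw [← ofReal_integral_eq_lintegral_ofReal hI (ae_of_all _ hG0)] at h1
  exact (ENNReal.ofReal_le_ofReal_iff hB0).1 h1

theorem LGap_pd_comp {ρ : E → ℝ} (hρ : ContDiff ℝ 1 ρ) {Φ : ℝ → ℝ} {d : ℝ} {x : E}
    (h : HasDerivAt Φ d (ρ x)) (i : ι) : pd e (fun y => Φ (ρ y)) i x = d * pd e ρ i x := by
  have h1 : HasFDerivAt ρ (fderiv ℝ ρ x) x := (hρ.differentiable one_ne_zero x).hasFDerivAt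
  have h2 := h.comp_hasFDerivAt x h1
  unfold pd
  rw [show (fun y => Φ (ρ y)) = Φ ∘ ρ from rfl, h2.fderiv]
  simp

theorem LGap_sq_le_gs (g : ι → E → ℝ) (i : ι) (x : E) : g i x ^ 2 ≤ gs g x :=
  Finset.single_le_sum (f := fun j => g j x ^ 2) (fun _ _ => sq_nonneg _) (Finset.mem_univ i)

theorem LGap_core {S : (E → ℝ) → Prop} {U : E → ℝ} {C : ℝ} (hU : FB e U C)
    {w : E → ℝ} {k : ι → E → ℝ} (hw : H1 e w k) (hn : nsq w = 1) {b γ : ℝ}
    (hγ : 0 < γ) (hel : ∀ u g, H1 e u g → S u → bf U w k u g = b * ip w u)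
    (hgap : ∀ u g, H1 e u g → S u → b * nsq u + γ * (nsq u - ip w u ^ 2) ≤ qf U u g)
    {ψ : E → ℝ} (hψ : ContDiff ℝ 1 ψ) {B : ℝ} (hB : ∀ x, ψ x ≤ B)
    (hg : ∀ x, gs (pd e ψ) x ≤ γ) (hS1 : S fun x => Real.exp (ψ x) * w x)
    (hS2 : S fun x => Real.exp (ψ x) * (Real.exp (ψ x) * w x)) {A : Set E} (hA : MeasurableSet A)
    {a : ℝ} (ha : ∀ x, x ∉ A → ψ x ≤ a) (htail : ∫ x in A, w x ^ 2 ≤ 1 / 16) :
    H1 e (fun x => Real.exp (ψ x) * w x)
        (fun i x => Real.exp (ψ x) * (k i x + pd e ψ i x * w x)) ∧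
      nsq (fun x => Real.exp (ψ x) * w x) ≤ 6 * Real.exp (2 * a) ∧
      dir (fun i x => Real.exp (ψ x) * (k i x + pd e ψ i x * w x)) ≤
        24 * (|b| + γ + |C|) * Real.exp (2 * a) := by
  have hζ : ContDiff ℝ 1 fun x => Real.exp (ψ x) := hψ.exp
  have hpd : ∀ i x, pd e (fun x => Real.exp (ψ x)) i x = Real.exp (ψ x) * pd e ψ i x :=
    fun i x => LGap_pd_comp hψ (Real.hasDerivAt_exp _) i
  have hb0 : ∀ x, |Real.exp (ψ x)| ≤ Real.exp B * (1 + γ) := by
    intro x
    rw [abs_of_pos (Real.exp_pos _)]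
    have := Real.exp_le_exp.2 (hB x)
    nlinarith [Real.exp_pos B]
  have hb1 : ∀ i x, |pd e (fun x => Real.exp (ψ x)) i x| ≤ Real.exp B * (1 + γ) := by
    intro i x
    rw [hpd, abs_mul, abs_of_pos (Real.exp_pos _)]
    have h1 := (LGap_sq_le_gs (pd e ψ) i x).trans (hg x)
    have h2 : |pd e ψ i x| ≤ 1 + γ := by
      nlinarith [sq_abs (pd e ψ i x), sq_nonneg (|pd e ψ i x| - 1), abs_nonneg (pd e ψ i x)]
    exact mul_le_mul (Real.exp_le_exp.2 (hB x)) h2 (abs_nonneg _) (Real.exp_pos _).le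
  set u : E → ℝ := fun x => Real.exp (ψ x) * w x with hu
  set g : ι → E → ℝ := fun i x => Real.exp (ψ x) * (k i x + pd e ψ i x * w x) with hgd
  have hug : H1 e u g := by
    have h := hw.mul_bdd hζ hb0 hb1
    have e1 : (fun i x => Real.exp (ψ x) * k i x + pd e (fun x => Real.exp (ψ x)) i x * w x) = g := by
      funext i x
      rw [hpd, hgd]
      ring
    rwa [e1] at h
  have hv := hug.mul_bdd hζ hb0 hb1
  have h1 := hel _ _ hv hS2
  set h : ι → E → ℝ := fun i x =>
    Real.exp (ψ x) * g i x + pd e (fun x => Real.exp (ψ x)) i x * u x with hh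
  have e2 : ip w (fun x => Real.exp (ψ x) * u x) = nsq u := by
    unfold ip nsq
    congr 1
    funext x
    simp only [hu]
    ring
  have e3 : (∫ x, U x * (w x * (Real.exp (ψ x) * u x))) = ∫ x, U x * u x ^ 2 := by
    congr 1
    funext x
    simp only [hu]
    ring
  have e4 : ∀ x, gs g x = gd k h x + gs (pd e ψ) x * u x ^ 2 := by
    intro x
    simp only [gs, gd, Finset.sum_mul, ← Finset.sum_add_distrib]
    refine Finset.sum_congr rfl fun i _ => ?_
    simp only [hh, hgd, hu, hpd]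
    ring
  have e5 : dir g ≤ (∫ x, gd k h x) + γ * nsq u := by
    unfold dir nsq
    rw [← integral_const_mul, ← integral_add (hw.integrable_gd hv) (hug.integrable_sq.const_mul γ)]
    refine integral_mono hug.integrable_gs
      ((hw.integrable_gd hv).add (hug.integrable_sq.const_mul γ)) fun x => ?_
    simp only [e4]
    have := mul_le_mul_of_nonneg_right (hg x) (sq_nonneg (u x))
    linarith
  have h2 : qf U u g ≤ b * nsq u + γ / 2 * nsq u := by
    unfold bf at h1
    rw [e2, e3] at h1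
    unfold qf
    linarith
  have h3 := hgap u g hug hS1
  have h4 : nsq u ≤ 2 * ip w u ^ 2 := by
    have : γ * nsq u ≤ γ * (2 * ip w u ^ 2) := by linarith
    exact le_of_mul_le_mul_left this hγ
  have hwA : MemLp (A.indicator w) 2 volume := hw.l2.indicator hA
  have h5 : ip (A.indicator w) u ^ 2 ≤ nsq u / 16 := by
    have h6 := ip_sq_le hwA hug.l2
    have h7 : nsq (A.indicator w) = ∫ x in A, w x ^ 2 := by
      unfold nsq
      rw [← integral_indicator hA]
      congr 1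
      funext x
      by_cases hx : x ∈ A <;> simp [hx]
    have h8 := mul_le_mul_of_nonneg_right htail (nsq_nonneg u)
    rw [h7] at h6
    linarith
  have h6 : 0 ≤ ip w u := integral_nonneg fun x => by
    show 0 ≤ w x * (Real.exp (ψ x) * w x)
    have := mul_nonneg (Real.exp_pos (ψ x)).le (mul_self_nonneg (w x))
    linarith
  have h7 : ip w u ≤ Real.exp a + ip (A.indicator w) u := by
    have hI : Integrable fun x => A.indicator w x * u x := hwA.integrable_mul hug.l2
    have e6 : Real.exp a = ∫ x, Real.exp a * w x ^ 2 := by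
      rw [integral_const_mul]
      have : ∫ x, w x ^ 2 = 1 := hn
      rw [this, mul_one]
    rw [e6]
    unfold ip
    rw [← integral_add (hw.integrable_sq.const_mul _) hI]
    refine integral_mono (hw.integrable_mul hug) ((hw.integrable_sq.const_mul _).add hI) fun x => ?_
    by_cases hx : x ∈ A
    · simp only [indicator_of_mem hx]
      have := mul_nonneg (Real.exp_pos a).le (sq_nonneg (w x))
      linarith
    · simp only [indicator_of_notMem hx, hu]
      have := mul_le_mul_of_nonneg_right (Real.exp_le_exp.2 (ha x hx)) (sq_nonneg (w x))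
      linarith
  have e7 : Real.exp (2 * a) = Real.exp a ^ 2 := by rw [← Real.exp_nat_mul]; norm_num
  have h8 : nsq u ≤ 6 * Real.exp (2 * a) := by
    rw [e7]
    have h9 : ip w u ^ 2 ≤ (Real.exp a + ip (A.indicator w) u) ^ 2 :=
      pow_le_pow_left₀ h6 h7 2
    nlinarith [sq_nonneg (Real.exp a - ip (A.indicator w) u), sq_nonneg (Real.exp a)]
  refine ⟨hug, h8, ?_⟩
  have h9 := hU.dir_le hug
  have h10 := nsq_nonneg u
  have h11 : 0 ≤ |b| + γ + |C| := by positivity
  have h12 := mul_le_mul_of_nonneg_left h8 h11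
  have h13 := mul_le_mul_of_nonneg_right (le_abs_self b) h10
  have h14 := mul_le_mul_of_nonneg_right (le_abs_self C) h10
  have h15 := mul_nonneg hγ.le h10
  nlinarith

/-- With `f = exp (α ρ / (1 + ρ / M))`: `qf (f w) - b ‖f w‖² = (1/2) ∫ |∇f|² w²` (test with
`f² w`), so `‖f w‖² ≤ 2 ⟨w, f w⟩² ≤ 2 (exp (α L) + ‖f w‖ / 4)²`.  Let `M → ∞` (monotone
convergence, `H1l.mul_contDiff`, `H1.of_bdd` or Fatou for the gradient). -/
theorem aggap {S : (E → ℝ) → Prop} {U : E → ℝ} {C : ℝ} (hU : FB e U C)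
    {w : E → ℝ} {k : ι → E → ℝ} (hw : H1 e w k) (hSw : S w) (hn : nsq w = 1) {b γ : ℝ}
    (hγ : 0 < γ) (hel : ∀ u g, H1 e u g → S u → bf U w k u g = b * ip w u)
    (hgap : ∀ u g, H1 e u g → S u → b * nsq u + γ * (nsq u - ip w u ^ 2) ≤ qf U u g)
    {ρ : E → ℝ} (hρ : ContDiff ℝ 1 ρ) (hρ0 : ∀ x, 0 ≤ ρ x) {N : ℝ}
    (hN : ∀ x, gs (pd e ρ) x ≤ N)
    (hSρ : ∀ (Φ : ℝ → ℝ) (u : E → ℝ), S u → S fun x => Φ (ρ x) * u x) {α : ℝ} (hα : 0 ≤ α)
    (hαγ : N * α ^ 2 ≤ γ) {L : ℝ} (htail : ∫ x in {x | L < ρ x}, w x ^ 2 ≤ 1 / 16) :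
    H1 e (fun x => Real.exp (α * ρ x) * w x)
        (fun i x => Real.exp (α * ρ x) * (k i x + α * pd e ρ i x * w x)) ∧
      nsq (fun x => Real.exp (α * ρ x) * w x) ≤ 6 * Real.exp (2 * α * L) ∧
      dir (fun i x => Real.exp (α * ρ x) * (k i x + α * pd e ρ i x * w x)) ≤
        24 * (|b| + γ + |C|) * Real.exp (2 * α * L) := by
  have hA : MeasurableSet {x | L < ρ x} := (isOpen_lt continuous_const hρ.continuous).measurableSet
  have hM : ∀ n : ℕ, (0 : ℝ) < n + 1 := fun n => by positivity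
  have hden : ∀ (n : ℕ) x, (0 : ℝ) < 1 + ρ x / (n + 1) := fun n x => by
    have := div_nonneg (hρ0 x) (hM n).le
    linarith
  have hden1 : ∀ (n : ℕ) x, (1 : ℝ) ≤ 1 + ρ x / (n + 1) := fun n x => by
    have := div_nonneg (hρ0 x) (hM n).le
    linarith
  set ψ : ℕ → E → ℝ := fun n x => α * (ρ x / (1 + ρ x / (n + 1))) with hψ
  have hψc : ∀ n, ContDiff ℝ 1 (ψ n) := fun n =>
    contDiff_const.mul (hρ.div (contDiff_const.add (hρ.div_const _)) fun x => (hden n x).ne')
  have hpd : ∀ n i x, pd e (ψ n) i x = α * (1 / (1 + ρ x / (n + 1)) ^ 2) * pd e ρ i x := by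
    intro n i x
    refine LGap_pd_comp (Φ := fun t => α * (t / (1 + t / (n + 1)))) hρ ?_ i
    have h1 : HasDerivAt (fun t : ℝ => 1 + t / (n + 1)) (1 / (n + 1)) (ρ x) :=
      ((hasDerivAt_id (ρ x)).div_const _).const_add 1
    have h2 := ((hasDerivAt_id (ρ x)).div h1 (hden n x).ne').const_mul α
    refine HasDerivAt.congr_deriv h2 ?_
    simp only [id]
    congr 2
    ring
  have hle : ∀ n x, ψ n x ≤ α * ρ x := fun n x =>
    mul_le_mul_of_nonneg_left (div_le_self (hρ0 x) (hden1 n x)) hα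
  have hcore := fun n : ℕ => LGap_core hU hw hn hγ hel hgap (hψc n) (B := α * (n + 1))
    (fun x => by
      refine mul_le_mul_of_nonneg_left ?_ hα
      rw [div_le_iff₀ (hden n x), mul_add, mul_div_cancel₀ _ (hM n).ne']
      linarith [hM n])
    (fun x => by
      have e1 : gs (pd e (ψ n)) x = (1 / (1 + ρ x / (n + 1)) ^ 2) ^ 2 * (gs (pd e ρ) x * α ^ 2) := by
        simp only [gs, hpd, Finset.sum_mul, Finset.mul_sum]
        exact Finset.sum_congr rfl fun i _ => by ring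
      have h1 : gs (pd e ρ) x * α ^ 2 ≤ γ :=
        (mul_le_mul_of_nonneg_right (hN x) (sq_nonneg α)).trans hαγ
      have h2 : 0 ≤ gs (pd e ρ) x * α ^ 2 := mul_nonneg (gs_nonneg _ _) (sq_nonneg α)
      have h3 : (1 / (1 + ρ x / (n + 1)) ^ 2) ^ 2 ≤ 1 := by
        refine pow_le_one₀ (by positivity) ?_
        rw [div_le_one (pow_pos (hden n x) 2)]
        exact one_le_pow₀ (hden1 n x)
      rw [e1]
      nlinarith)
    (hSρ (fun t => Real.exp (α * (t / (1 + t / (n + 1))))) w hSw)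
    (hSρ (fun t => Real.exp (α * (t / (1 + t / (n + 1))))) _
      (hSρ (fun t => Real.exp (α * (t / (1 + t / (n + 1))))) w hSw))
    hA (a := α * L)
    (fun x hx => (hle n x).trans (mul_le_mul_of_nonneg_left (not_lt.1 hx) hα)) htail
  have hl0 : ∀ x, Tendsto (fun n : ℕ => 1 + ρ x / ((n : ℝ) + 1)) atTop (𝓝 1) := by
    intro x
    have h1 : Tendsto (fun n : ℕ => ρ x / ((n : ℝ) + 1)) atTop (𝓝 0) :=
      (tendsto_natCast_atTop_atTop.atTop_add tendsto_const_nhds).const_div_atTop _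
    simpa using h1.const_add 1
  have hl1 : ∀ x, Tendsto (fun n : ℕ => Real.exp (ψ n x)) atTop (𝓝 (Real.exp (α * ρ x))) := by
    intro x
    have h1 := ((tendsto_const_nhds (x := ρ x)).div (hl0 x) one_ne_zero).const_mul α
    rw [div_one] at h1
    exact (Real.continuous_exp.tendsto _).comp h1
  have hl2 : ∀ i x, Tendsto (fun n : ℕ => pd e (ψ n) i x) atTop (𝓝 (α * pd e ρ i x)) := by
    intro i x
    have h1 := (((tendsto_const_nhds (x := (1 : ℝ))).div ((hl0 x).pow 2)
      (by norm_num)).const_mul α).mul_const (pd e ρ i x)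
    simp only [hpd]
    simpa using h1
  have e2 : 2 * α * L = 2 * (α * L) := by ring
  obtain ⟨hI1, hB1⟩ := LGap_fatou (G := fun x => (Real.exp (α * ρ x) * w x) ^ 2)
    (fun n => (hcore n).1.integrable_sq) (fun n x => sq_nonneg _) (fun n => (hcore n).2.1)
    fun x => ((hl1 x).mul_const _).pow 2
  obtain ⟨hI2, hB2⟩ := LGap_fatou
    (G := gs fun i x => Real.exp (α * ρ x) * (k i x + α * pd e ρ i x * w x))
    (fun n => (hcore n).1.integrable_gs) (fun n x => gs_nonneg _ _) (fun n => (hcore n).2.2)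
    fun x => tendsto_finsetSum _ fun i _ =>
      ((hl1 x).mul (((hl2 i x).mul_const _).const_add _)).pow 2
  rw [e2]
  refine ⟨?_, hB1, hB2⟩
  have hζ : ContDiff ℝ 1 fun x => Real.exp (α * ρ x) := (contDiff_const.mul hρ).exp
  have h1 := hw.h1l.mul_contDiff hζ
  have e1 : (fun i x => Real.exp (α * ρ x) * k i x + pd e (fun x => Real.exp (α * ρ x)) i x * w x)
      = fun i x => Real.exp (α * ρ x) * (k i x + α * pd e ρ i x * w x) := by
    funext i x
    rw [LGap_pd_comp (Φ := fun t => Real.exp (α * t)) hρ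
      (((hasDerivAt_id (ρ x)).const_mul α).exp) i]
    simp only [id]
    ring
  rw [e1] at h1
  refine h1.h1 ((memLp_two_iff_integrable_sq h1.m.aestronglyMeasurable).2 hI1) fun i => ?_
  refine (memLp_two_iff_integrable_sq (h1.gm i).aestronglyMeasurable).2 ?_
  refine hI2.mono' ((h1.gm i).pow_const 2).aestronglyMeasurable (ae_of_all _ fun x => ?_)
  rw [Real.norm_of_nonneg (sq_nonneg _)]
  exact LGap_sq_le_gs (fun i x => Real.exp (α * ρ x) * (k i x + α * pd e ρ i x * w x)) i x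

/-- The tail of a function close to `u₀`. -/
theorem tail_le {w u₀ : E → ℝ} (hw : MemLp w 2 volume) (h0 : MemLp u₀ 2 volume) (A : Set E) :
    ∫ x in A, w x ^ 2 ≤ 2 * nsq (fun x => w x - u₀ x) + 2 * ∫ x in A, u₀ x ^ 2 := by
  have h1 : Integrable fun x => (w x - u₀ x) ^ 2 := (hw.sub h0).integrable_sq
  have h2 : ∫ x in A, (w x - u₀ x) ^ 2 ≤ nsq (fun x => w x - u₀ x) :=
    setIntegral_le_integral h1 (ae_of_all _ fun x => sq_nonneg _)
  have h3 : ∫ x in A, w x ^ 2 ≤ ∫ x in A, (2 * (w x - u₀ x) ^ 2 + 2 * u₀ x ^ 2) :=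
    integral_mono hw.integrable_sq.integrableOn
      ((h1.const_mul 2).add (h0.integrable_sq.const_mul 2)).integrableOn fun x => by
        simp only
        nlinarith [sq_nonneg (w x - 2 * u₀ x)]
  rw [integral_add (h1.const_mul 2).integrableOn (h0.integrable_sq.const_mul 2).integrableOn,
    integral_const_mul, integral_const_mul] at h3
  linarith

theorem exists_tail {u₀ ρ : E → ℝ} (h0 : MemLp u₀ 2 volume) (hρ : Measurable ρ) {δ : ℝ}
    (hδ : 0 < δ) : ∃ L : ℝ, 0 ≤ L ∧ ∫ x in {x | L < ρ x}, u₀ x ^ 2 ≤ δ := by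
  have h1 := tendsto_setIntegral_of_antitone (μ := volume) (f := fun x => u₀ x ^ 2)
    (s := fun n : ℕ => {x | (n : ℝ) < ρ x}) (fun n => measurableSet_lt measurable_const hρ)
    (fun m n hmn x (hx : (n : ℝ) < ρ x) => show (m : ℝ) < ρ x from
      lt_of_le_of_lt (Nat.cast_le.2 hmn) hx)
    ⟨0, h0.integrable_sq.integrableOn⟩
  have e : (⋂ n : ℕ, {x | (n : ℝ) < ρ x}) = ∅ := by
    refine eq_empty_iff_forall_notMem.2 fun x hx => ?_
    obtain ⟨n, hn⟩ := exists_nat_gt (ρ x)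
    exact lt_asymm hn (mem_iInter.1 hx n)
  rw [e, Measure.restrict_empty, integral_zero_measure] at h1
  obtain ⟨n, hn⟩ := (h1.eventually (ge_mem_nhds hδ)).exists
  exact ⟨n, n.cast_nonneg, hn⟩

end Crest.Agent.R335
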