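import Crest.Agent.R335.T2
import Crest.Agent.R335.LGap

/-! Row 335. Existence of the two- and three-body states. -/

set_option autoImplicit false

open MeasureTheory Set Filter Topology
open scoped ENNReal

noncomputable section

namespace Crest.Agent.R335

variable {c : ℝ} {o : One c} {C ε : ℝ}

section aux

variable {E : Type} [NormedAddCommGroup E] [NormedSpace ℝ E] [FiniteDimensional ℝ E]
  [MeasureSpace E] [BorelSpace E] [(volume : Measure E).IsAddHaarMeasure] {ι : Type} [Fintype ι]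
  {e : ι → E}

omit [FiniteDimensional ℝ E] [BorelSpace E] [(volume : Measure E).IsAddHaarMeasure] [Fintype ι] in
theorem T3_mp {a : E → E} (σ : Sym e a) : MeasurePreserving a volume volume := by
  obtain ⟨A, τ, sgn, hA, hsg, fr, mp⟩ := σ
  obtain rfl : a = A := funext fun x => (hA x).symm
  exact mp

omit [FiniteDimensional ℝ E] [(volume : Measure E).IsAddHaarMeasure] [Fintype ι] in
theorem T3_nsq_comp {a : E → E} (σ : Sym e a) (u : E → ℝ) : nsq (fun x => u (a x)) = nsq u := by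
  obtain ⟨A, τ, sgn, hA, hsg, fr, mp⟩ := σ
  obtain rfl : a = A := funext fun x => (hA x).symm
  exact mp.integral_comp A.toHomeomorph.measurableEmbedding fun x => u x ^ 2

theorem T3_eig {a : E → E} (σ : Sym e a) {U : E → ℝ} {C : ℝ} (hU : FB e U C)
    (haa : ∀ x, a (a x) = x) (hUa : ∀ x, U (a x) = U x) {S : (E → ℝ) → Prop}
    (hSA : ∀ w, S w → S fun x => w (a x))
    (hlin : ∀ u w (a b : ℝ), S u → S w → S fun x => a * u x + b * w x)
    {s : ℝ} (hs : s = 1 ∨ s = -1) {u : E → ℝ} {g : ι → E → ℝ} (hu : H1 e u g)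
    (hus : ∀ x, u (a x) = s * u x) {α : ℝ}
    (h : ∀ w k, H1 e w k → S w → (∀ x, w (a x) = s * w x) → bf U u g w k = α * ip u w) :
    ∀ w k, H1 e w k → S w → bf U u g w k = α * ip u w := by
  obtain ⟨A, τ, sgn, hA, hsg, fr, mp⟩ := σ
  obtain rfl : a = A := funext fun x => (hA x).symm
  exact eig_of_sector hU A τ sgn hsg fr haa mp hUa hSA hlin hs hu hus h

omit [Fintype ι] in
/-- Symmetries pass to `L²` limits, almost everywhere. -/
theorem T3_lim {a : E → E} (σ : Sym e a) {s : ℝ} {u : ℕ → E → ℝ} {w : E → ℝ}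
    (hs : ∀ k x, u k (a x) = s * u k x) (h : ∀ k, MemLp (u k) 2 volume) (hw : MemLp w 2 volume)
    (h1 : Tendsto (fun k => nsq fun x => u k x - w x) atTop (𝓝 0)) :
    ∀ᵐ x, w (a x) = s * w x := by
  obtain ⟨φ, -, hφ⟩ := exists_subseq_ae h hw h1
  filter_upwards [hφ, (T3_mp σ).quasiMeasurePreserving.ae hφ] with x h2 h3
  simp only [hs] at h3
  exact tendsto_nhds_unique h3 (h2.const_mul s)

omit [FiniteDimensional ℝ E] [BorelSpace E] [(volume : Measure E).IsAddHaarMeasure] [Fintype ι] in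
/-- Averaging over an involution. -/
theorem T3_avg {a : E → E} (σ : Sym e a) (haa : ∀ x, a (a x) = x) {s : ℝ} (hs : s = 1 ∨ s = -1)
    {w : E → ℝ} (hm : Measurable w) (h : ∀ᵐ x, w (a x) = s * w x) :
    ∃ w' : E → ℝ, Measurable w' ∧ w' =ᵐ[volume] w ∧ (∀ x, w' (a x) = s * w' x) ∧
      ∀ (b : E → E) (t : ℝ), (∀ x, a (b x) = b (a x)) → (∀ x, w (b x) = t * w x) →
        ∀ x, w' (b x) = t * w' x := by
  have hs2 : s * s = 1 := by rcases hs with rfl | rfl <;> norm_num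
  refine ⟨fun x => (w x + s * w (a x)) / 2,
    (hm.add ((hm.comp (T3_mp σ).measurable).const_mul s)).div_const 2, ?_, fun x => ?_,
    fun b t hab hb x => ?_⟩
  · filter_upwards [h] with x hx
    rw [hx, ← mul_assoc, hs2]
    ring
  · simp only [haa]
    linear_combination (-(w (a x)) / 2) * hs2
  · simp only [hab, hb]
    ring

/-- The output of `gapmin`. -/
structure T3_Min (e : ι → E) (S : (E → ℝ) → Prop) (U u₀ : E → ℝ) (g₀ : ι → E → ℝ) (a γ μ C : ℝ)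
    (w : E → ℝ) (k : ι → E → ℝ) (b : ℝ) : Prop where
  h1 : H1 e w k
  S1 : S w
  n : nsq w = 1
  q : qf U w k = b
  lo : a ≤ b
  hi : b ≤ a + μ
  el : ∀ u g, H1 e u g → S u → bf U w k u g = b * ip w u
  gap : ∀ u g, H1 e u g → S u → b * ip w u ^ 2 + (a + γ) * (nsq u - ip w u ^ 2) ≤ qf U u g
  cl : nsq (fun x => w x - u₀ x) ≤ 2 * μ / γ
  cd : dir (fun i x => k i x - g₀ i x) ≤ 4 * (μ + (|a| + μ + |C|) * (2 * μ / γ))

theorem T3_gapmin {S : (E → ℝ) → Prop} (hS : Sector S) {U : E → ℝ} {C : ℝ} (hU : FB e U C)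
    {u₀ : E → ℝ} {g₀ : ι → E → ℝ} (h0 : H1 e u₀ g₀) (hS0 : S u₀) (hn : nsq u₀ = 1) {a γ μ : ℝ}
    (hμ : 0 ≤ μ) (hγ : μ < γ) (hq : qf U u₀ g₀ ≤ a + μ)
    (hgap : ∀ u g, H1 e u g → S u → a * nsq u + γ * (nsq u - ip u₀ u ^ 2) ≤ qf U u g) :
    ∃ w k b, T3_Min e S U u₀ g₀ a γ μ C w k b := by
  obtain ⟨w, k, b, h1, h2, h3, h4, h5, h6, h7, h8, h9, h10⟩ :=
    gapmin hS hU h0 hS0 hn hμ hγ hq hgap
  exact ⟨w, k, b, h1, h2, h3, h4, h5, h6, h7, h8, h9, h10⟩

variable {S : (E → ℝ) → Prop} {U u₀ : E → ℝ} {g₀ : ι → E → ℝ} {a γ μ C : ℝ} {w : E → ℝ}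
  {k : ι → E → ℝ} {b : ℝ}

theorem T3_Min.congr (h : T3_Min e S U u₀ g₀ a γ μ C w k b) {w' : E → ℝ} (hm : Measurable w')
    (hw : w' =ᵐ[volume] w) (hS : S w') : T3_Min e S U u₀ g₀ a γ μ C w' k b := by
  have h1 : H1 e w' k := h.h1.congr hm h.h1.gm hw.symm fun i => EventuallyEq.rfl
  have hip : ∀ u, ip w' u = ip w u := fun u =>
    integral_congr_ae (hw.mono fun x hx => by simp only [hx])
  have hbf : ∀ u g, bf U w' k u g = bf U w k u g := fun u g => by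
    unfold bf
    rw [integral_congr_ae (f := fun x => U x * (w' x * u x)) (g := fun x => U x * (w x * u x))
      (hw.mono fun x hx => by simp only [hx])]
  refine ⟨h1, hS, ?_, ?_, h.lo, h.hi, fun u g hu hSu => ?_, fun u g hu hSu => ?_, ?_, h.cd⟩
  · rw [← h.n]
    exact integral_congr_ae (hw.mono fun x hx => by simp only [hx])
  · rw [← h.q]
    exact qf_congr h1 h.h1 hw
  · rw [hip, hbf]
    exact h.el u g hu hSu
  · rw [hip]
    exact h.gap u g hu hSu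
  · refine le_trans (le_of_eq ?_) h.cl
    exact integral_congr_ae (hw.mono fun x hx => by simp only [hx])

theorem T3_Min.gap' (h : T3_Min e S U u₀ g₀ a γ μ C w k b) {γ' : ℝ} (hγ : γ' ≤ γ - μ)
    (u : E → ℝ) (g : ι → E → ℝ) (hu : H1 e u g) (hS : S u) :
    b * nsq u + γ' * (nsq u - ip w u ^ 2) ≤ qf U u g := by
  have h1 := h.gap u g hu hS
  have h2 := ip_sq_le h.h1.l2 hu.l2
  rw [h.n, one_mul] at h2
  have h3 := h.hi
  nlinarith

theorem T3_Min.abs_le (h : T3_Min e S U u₀ g₀ a γ μ C w k b) (hμ : μ ≤ γ) (hγ : 0 ≤ γ) :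
    |b| ≤ |a| + γ := by
  have := h.lo
  have := h.hi
  have := le_abs_self a
  have := neg_abs_le a
  rw [_root_.abs_le]
  constructor <;> linarith

theorem T3_Min.dir_le (h : T3_Min e S U u₀ g₀ a γ μ C w k b) (hU : FB e U C) (hμ : μ ≤ γ) :
    dir k ≤ 4 * (|a| + γ + |C|) := by
  have h1 := hU.dir_le h.h1
  rw [h.q, h.n] at h1
  have := h.hi
  have := le_abs_self a
  have := le_abs_self C
  linarith

theorem T3_Min.cl' (h : T3_Min e S U u₀ g₀ a γ μ C w k b) (hγ : 0 < γ) (hμ : μ ≤ γ / 128) :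
    nsq (fun x => w x - u₀ x) ≤ 1 / 64 := by
  refine h.cl.trans ?_
  rw [div_le_iff₀ hγ]
  linarith

theorem T3_Min.wb (h : T3_Min e S U u₀ g₀ a γ μ C w k b) (hU : FB e U C) (hγ : 0 < γ)
    (hμ : μ ≤ γ / 128) (h0 : MemLp u₀ 2 volume) {ρ : E → ℝ} (hρ : ContDiff ℝ 1 ρ)
    (hρ0 : ∀ x, 0 ≤ ρ x) {N : ℝ} (hN : ∀ x, gs (pd e ρ) x ≤ N)
    (hSρ : ∀ (Φ : ℝ → ℝ) (u : E → ℝ), S u → S fun x => Φ (ρ x) * u x) {α : ℝ} (hα : 0 ≤ α)
    (hαγ : N * α ^ 2 ≤ γ / 2) {L : ℝ} (htail : ∫ x in {x | L < ρ x}, u₀ x ^ 2 ≤ 1 / 64) {K : ℝ}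
    (hK : (24 * (|a| + 2 * γ + |C|) + 6) * Real.exp (2 * α * L) ≤ K) : WB e ρ α K w k := by
  have ht := tail_le h.h1.l2 h0 {x | L < ρ x}
  have hc := h.cl' hγ hμ
  obtain ⟨h1, h2, h3⟩ := aggap hU h.h1 h.S1 h.n (half_pos hγ) h.el (h.gap' (by linarith)) hρ hρ0
    hN hSρ hα hαγ (L := L) (by linarith)
  have hb := h.abs_le (by linarith) hγ.le
  have he := Real.exp_pos (2 * α * L)
  have := abs_nonneg a
  have := abs_nonneg C
  refine ⟨h1, h2.trans (le_trans ?_ hK), h3.trans (le_trans ?_ hK)⟩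
  · exact mul_le_mul_of_nonneg_right (by linarith) he.le
  · exact mul_le_mul_of_nonneg_right (by linarith) he.le

end aux

theorem T3_gs {E F ι κ : Type} [NormedAddCommGroup E] [NormedSpace ℝ E] [NormedAddCommGroup F]
    [NormedSpace ℝ F] [Fintype ι] [Fintype κ] (e : ι → E) (f : κ → F) {ρ : E → ℝ} {ρ' : F → ℝ}
    (h : ContDiff ℝ 1 ρ) (h' : ContDiff ℝ 1 ρ') (p : E × F) :
    gs (pd (eP e f) fun p => ρ p.1 + ρ' p.2) p = gs (pd e ρ) p.1 + gs (pd f ρ') p.2 := by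
  have h1 : HasFDerivAt (fun p : E × F => ρ p.1 + ρ' p.2)
      ((fderiv ℝ ρ p.1).comp (ContinuousLinearMap.fst ℝ E F) +
        (fderiv ℝ ρ' p.2).comp (ContinuousLinearMap.snd ℝ E F)) p :=
    ((h.differentiable one_ne_zero p.1).hasFDerivAt.comp p hasFDerivAt_fst).add
      ((h'.differentiable one_ne_zero p.2).hasFDerivAt.comp p hasFDerivAt_snd)
  simp only [gs, pd, h1.fderiv, Fintype.sum_sum_type, eP, Sum.elim_inl, Sum.elim_inr]
  simp

theorem T3_al (o : One c) : 0 ≤ o.al ∧ o.al ^ 2 = o.g / 16 := by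
  have h := o.g_pos
  refine ⟨by unfold One.al; positivity, ?_⟩
  rw [One.al, div_pow, Real.sq_sqrt h.le]
  norm_num

/-- A nondegenerate minimiser close to `u₀` has the symmetry of `u₀`: `w ∘ a` has the same energy
(`qf_comp`, `H1.comp_equiv`), `eq_of_ip_sq`. -/
theorem sym_of_gap {E : Type} [NormedAddCommGroup E] [NormedSpace ℝ E] [FiniteDimensional ℝ E]
    [MeasureSpace E] [BorelSpace E] [(volume : Measure E).IsAddHaarMeasure] {ι : Type} [Fintype ι]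
    {e : ι → E} {a : E → E} (σ : Sym e a) {U : E → ℝ} (hU : ∀ x, U (a x) = U x) {w u₀ : E → ℝ}
    {k : ι → E → ℝ} (hw : H1 e w k) (hn : nsq w = 1) (h0 : MemLp u₀ 2 volume) {s : ℝ}
    (hs : s = 1 ∨ s = -1) (hu : ∀ x, u₀ (a x) = s * u₀ x) (hc : nsq (fun x => w x - u₀ x) < 1 / 4)
    {b b' : ℝ} (hb : b < b') (hq : qf U w k = b)
    (hgap : ∀ g, H1 e (fun x => w (a x)) g →
      b * ip w (fun x => w (a x)) ^ 2 + b' * (1 - ip w (fun x => w (a x)) ^ 2) ≤
        qf U (fun x => w (a x)) g) : ∀ᵐ x, w (a x) = s * w x := by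
  have hns := T3_nsq_comp σ
  obtain ⟨A, τ, sgn, hA, hsg, fr, mp⟩ := σ
  obtain rfl : a = A := funext fun x => (hA x).symm
  have hw' := hw.comp_equiv A τ sgn fr
  have hqc := (qf_comp U A τ sgn hsg mp w k).1
  rw [show (fun x => U (A x)) = U from funext hU, hq] at hqc
  have h1 := hgap _ hw'
  rw [hqc] at h1
  have h2 : 1 ≤ ip w (fun x => w (A x)) ^ 2 := by nlinarith
  have key : ¬∀ᵐ x, w (A x) = -s * w x := by
    intro h
    have hs2 : s * s = 1 := by rcases hs with rfl | rfl <;> norm_num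
    have e1 : nsq (fun x => 1 * w x + 1 * u₀ x) = nsq fun x => w x - u₀ x := by
      rw [← hns fun x => w x - u₀ x]
      refine integral_congr_ae (h.mono fun x hx => ?_)
      simp only [hx, hu]
      linear_combination (-(w x + u₀ x) ^ 2) * hs2
    have e2 : nsq (fun x => 1 * w x + (-1) * u₀ x) = nsq fun x => w x - u₀ x := by
      rw [LGap0_sub]
    rw [nsq_lin hw.l2 h0] at e1 e2
    have := nsq_nonneg u₀
    linarith
  rcases eq_of_ip_sq hw'.l2 hw.l2 ((hns w).trans hn) hn h2 with h | h <;> rcases hs with rfl | rfl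
  · exact h.mono fun x hx => by simpa using hx
  · exact (key (h.mono fun x hx => by simpa using hx)).elim
  · exact (key (h.mono fun x hx => by simpa using hx)).elim
  · exact h.mono fun x hx => by simpa using hx

theorem T3_Min.sym {E : Type} [NormedAddCommGroup E] [NormedSpace ℝ E] [FiniteDimensional ℝ E]
    [MeasureSpace E] [BorelSpace E] [(volume : Measure E).IsAddHaarMeasure] {ι : Type} [Fintype ι]
    {e : ι → E} {S : (E → ℝ) → Prop} {U u₀ : E → ℝ} {g₀ : ι → E → ℝ} {a γ μ C : ℝ} {w : E → ℝ}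
    {k : ι → E → ℝ} {b : ℝ} (h : T3_Min e S U u₀ g₀ a γ μ C w k b) (hγ : 0 < γ)
    (hμ : μ ≤ γ / 128) (h0 : MemLp u₀ 2 volume) {r : E → E} (σ : Sym e r)
    (hU : ∀ x, U (r x) = U x) {s : ℝ} (hs : s = 1 ∨ s = -1) (hu : ∀ x, u₀ (r x) = s * u₀ x)
    (hS : S fun x => w (r x)) : ∀ᵐ x, w (r x) = s * w x := by
  refine sym_of_gap σ hU h.h1 h.n h0 hs hu ((h.cl' hγ hμ).trans_lt (by norm_num))
    (b' := a + γ) (by linarith [h.hi]) h.q fun g hg => ?_
  have h1 := h.gap _ g hg hS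
  rwa [T3_nsq_comp σ, h.n] at h1

theorem contDiff_jb2 : ContDiff ℝ 1 jb2 ∧ (∀ y, gs (pd eY jb2) y ≤ 2) ∧ (∀ y, 0 ≤ jb2 y) ∧
    (∀ y, jb2 y.swap = jb2 y) ∧ ∀ y, jb2 (PY y) = jb2 y := by
  refine ⟨(contDiff_jb.comp contDiff_fst).add (contDiff_jb.comp contDiff_snd), fun y => ?_,
    fun y => add_nonneg (Real.sqrt_nonneg _) (Real.sqrt_nonneg _), fun y => add_comm _ _,
    fun y => ?_⟩
  · have h := T3_gs eX eX contDiff_jb contDiff_jb y
    exact h.trans_le (by linarith [gs_jb_le y.1, gs_jb_le y.2])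
  · simp only [jb2, PY, jb_P]

theorem contDiff_jb3 : ContDiff ℝ 1 jb3 ∧ (∀ p, gs (pd eT jb3) p ≤ 3) ∧ (∀ p, 0 ≤ jb3 p) ∧
    ∀ x y z, jb3 (y, x, z) = jb3 (x, y, z) := by
  obtain ⟨h1, h2, h3, -, -⟩ := contDiff_jb2
  refine ⟨(contDiff_jb.comp contDiff_fst).add (h1.comp contDiff_snd), fun p => ?_,
    fun p => add_nonneg (Real.sqrt_nonneg _) (h3 _), fun x y z => ?_⟩
  · have h := T3_gs eX eY contDiff_jb h1 p
    exact h.trans_le (by linarith [gs_jb_le p.1, h2 p.2])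
  · simp only [jb3, jb2]
    ring

theorem sector_sy : Sector fun u : Y → ℝ => (∀ y, u y.swap = u y) ∧ ∀ y, u (PY y) = -u y := by
  obtain ⟨σ₁⟩ := sym_swap
  obtain ⟨σ₂⟩ := sym_PY
  refine ⟨fun u w a b hu hw => ⟨fun y => by simp only [hu.1, hw.1], fun y => ?_⟩,
    fun u w hu h hm hw h1 => ?_⟩
  · simp only [hu.2, hw.2]
    ring
  · have l1 := T3_lim σ₁ (s := 1) (fun k y => by rw [(hu k).1, one_mul]) h hw h1
    have l2 := T3_lim σ₂ (s := -1) (fun k y => by rw [(hu k).2, neg_one_mul]) h hw h1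
    obtain ⟨w₁, m₁, e₁, s₁, -⟩ := T3_avg σ₁ Prod.swap_swap (Or.inl rfl) hm l1
    have l3 : ∀ᵐ y, w₁ (PY y) = -1 * w₁ y := by
      filter_upwards [l2, e₁, mp_PY.quasiMeasurePreserving.ae e₁] with y h2 h3 h4
      rw [h4, h3, h2]
    obtain ⟨w₂, m₂, e₂, s₂, t₂⟩ := T3_avg σ₂ PY_PY (Or.inr rfl) m₁ l3
    refine ⟨w₂, m₂, e₂.trans e₁, fun y => ?_, fun y => ?_⟩
    · rw [t₂ Prod.swap 1 (fun _ => rfl) s₁, one_mul]
    · rw [s₂, neg_one_mul]

theorem sector_anti : Sector Anti := by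
  obtain ⟨σ⟩ := sym_12
  refine ⟨fun u w a b hu hw x y z => ?_, fun u w hu h hm hw h1 => ?_⟩
  · simp only [hu x y z, hw x y z]
    ring
  · have l1 := T3_lim σ (s := -1) (fun k p => by rw [hu k p.1 p.2.1 p.2.2, neg_one_mul]) h hw h1
    obtain ⟨w₁, m₁, e₁, s₁, -⟩ := T3_avg σ (fun _ => rfl) (Or.inr rfl) hm l1
    exact ⟨w₁, m₁, e₁, fun x y z => by simpa using s₁ (x, y, z)⟩

/-- `χ0`: `gapmin` in the whole space (`gap2_all`, `qf_U2`), `sym_of_gap` for `swap` and `PY`, then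
average the representative over the group (`H1.congr`, same gradient).  `χ1`: `gapmin` in
`sector_sy`, `eig_of_sector` twice.  `aggap` with `tail_le`, `exists_tail`. -/
theorem two_exists (o : One c) : ∃ C ε₀ : ℝ, 1 ≤ C ∧ 0 < ε₀ ∧ ∀ C', C ≤ C' → ∀ ε, 0 < ε →
    ε ≤ ε₀ → Nonempty (Two o C' ε) := by
  obtain ⟨σ₁⟩ := sym_swap
  obtain ⟨σ₂⟩ := sym_PY
  obtain ⟨ka, ha, na, qa⟩ := aa_spec o
  obtain ⟨ks, hs, ns, qs⟩ := sy_spec o
  obtain ⟨j1, j2, j3, j4, j5⟩ := contDiff_jb2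
  obtain ⟨al0, al2⟩ := T3_al o
  obtain ⟨L₀, -, t₀⟩ := exists_tail ha.l2 j1.continuous.measurable (δ := 1 / 64) (by norm_num)
  obtain ⟨L₁, -, t₁⟩ := exists_tail hs.l2 j1.continuous.measurable (δ := 1 / 64) (by norm_num)
  have hg := o.g_pos
  have hg1 := o.g_le
  have da := dir_nonneg ka
  have ds := dir_nonneg ks
  set M : ℝ := dir ka + dir ks + 1 with hM
  have hM1 : 1 ≤ M := by linarith
  set K₀ : ℝ := (24 * (|2 * o.ea| + 2 * o.g + |(200 : ℝ)|) + 6) * Real.exp (2 * o.al * L₀) with hK₀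
  set K₁ : ℝ := (24 * (|o.ea + o.eb| + 2 * o.g + |(200 : ℝ)|) + 6) * Real.exp (2 * o.al * L₁)
    with hK₁
  set D₀ : ℝ := 4 * (|2 * o.ea| + o.g + |(200 : ℝ)|) with hD₀
  set D₁ : ℝ := 4 * (|o.ea + o.eb| + o.g + |(200 : ℝ)|) with hD₁
  have p1 : 0 ≤ K₀ := by positivity
  have p2 : 0 ≤ K₁ := by positivity
  have p3 : 0 ≤ D₀ := by positivity
  have p4 : 0 ≤ D₁ := by positivity
  have p5 : 0 ≤ 2 * M / o.g := by positivity
  refine ⟨M + 2 * M / o.g + K₀ + K₁ + D₀ + D₁, o.g / (128 * M), by linarith, by positivity,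
    fun C' hC ε hε hε' => ?_⟩
  rw [le_div_iff₀ (by positivity)] at hε'
  have hμ : ε * M ≤ o.g / 128 := by linarith
  have hμ0 : 0 ≤ ε * M := by positivity
  have hε1 : ε ≤ 1 := by nlinarith
  have hU := fb_U2 o.D hε.le hε1
  have c1 : ε * M ≤ C' * ε := by nlinarith
  have c2 : 2 * (ε * M) / o.g ≤ C' * ε := by
    calc 2 * (ε * M) / o.g = 2 * M / o.g * ε := by ring
      _ ≤ C' * ε := mul_le_mul_of_nonneg_right (by linarith) hε.le
  -- the ground state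
  have hT : Sector fun _ : Y → ℝ => True :=
    ⟨fun _ _ _ _ _ _ => trivial, fun _ w _ _ hm _ _ => ⟨w, hm, EventuallyEq.rfl, trivial⟩⟩
  obtain ⟨w, k₀, b₀, h⟩ := T3_gapmin hT hU ha trivial na (a := 2 * o.ea) (γ := o.g) hμ0
    (by linarith)
    (by
      have := (qf_U2 o.D hε.le ha).2
      rw [qa, na] at this
      nlinarith)
    fun u g hu _ => (gap2_all o hu).trans (qf_U2 o.D hε.le hu).1
  have l1 := h.sym hg hμ ha.l2 σ₁ (U2_swap _ _) (Or.inl rfl)
    (fun y => by simp only [One.aa, Prod.fst_swap, Prod.snd_swap]; ring) trivial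
  obtain ⟨w₁, m₁, e₁, s₁, -⟩ := T3_avg σ₁ Prod.swap_swap (Or.inl rfl) h.h1.m l1
  replace h := h.congr m₁ e₁ trivial
  have l2 := h.sym hg hμ ha.l2 σ₂ (U2_PY _ _) (Or.inl rfl)
    (fun y => by simp only [One.aa, PY, o.aP, one_mul]) trivial
  obtain ⟨χ₀, m₂, e₂, s₂, u₂⟩ := T3_avg σ₂ PY_PY (Or.inl rfl) h.h1.m l2
  replace h := h.congr m₂ e₂ trivial
  have s₃ := u₂ Prod.swap 1 (fun _ => rfl) s₁
  -- the first excited state
  obtain ⟨χ₁, k₁, b₁, h'⟩ := T3_gapmin sector_sy hU hs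
    ⟨fun y => by simp only [One.sy, Prod.fst_swap, Prod.snd_swap]; ring,
      fun y => by simp only [One.sy, PY, o.aP, o.bP]; ring⟩ ns (a := o.ea + o.eb) (γ := o.g) hμ0
    (by linarith)
    (by
      have := (qf_U2 o.D hε.le hs).2
      rw [qs, ns] at this
      nlinarith)
    fun u g hu hS => (gap2_sy o hu hS.1 hS.2).trans (qf_U2 o.D hε.le hu).1
  have el1 := T3_eig σ₂ hU PY_PY (U2_PY _ _) (S := fun u => ∀ y, u y.swap = u y)
    (fun w hw y => hw (PY y)) (fun u w a b hu hw y => by simp only [hu, hw]) (Or.inr rfl) h'.h1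
    (fun y => by rw [h'.S1.2, neg_one_mul]) (α := b₁)
    fun w k hw h1 h2 => h'.el w k hw ⟨h1, fun y => by rw [h2, neg_one_mul]⟩
  have el2 := T3_eig σ₁ hU Prod.swap_swap (U2_swap _ _) (S := fun _ => True)
    (fun _ _ => trivial) (fun _ _ _ _ _ _ => trivial) (Or.inl rfl) h'.h1
    (fun y => by rw [h'.S1.1, one_mul]) (α := b₁)
    fun w k hw _ h2 => el1 w k hw fun y => by rw [h2, one_mul]
  have lo := h.lo
  have hi := h.hi
  have lo' := h'.lo
  have hi' := h'.hi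
  have hgd : o.g = o.eb - o.ea := rfl
  exact ⟨{
    χ0 := χ₀
    χ1 := χ₁
    g0 := k₀
    g1 := k₁
    E2 := b₀
    gS := b₁ - b₀
    h0 := h.h1
    h1 := h'.h1
    n0 := h.n
    n1 := h'.n
    s0 := fun y => by rw [s₃, one_mul]
    s1 := h'.S1.1
    P0 := fun y => by rw [s₂, one_mul]
    P1 := h'.S1.2
    eig0 := fun w k hw => h.el w k hw trivial
    eig1 := fun w k hw => by rw [add_sub_cancel]; exact el2 w k hw trivial
    gap0 := fun u g hu => h.gap' (by linarith) u g hu trivial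
    c0 := h.cl.trans c2
    c1 := h'.cl.trans c2
    E2_near := abs_le.2 ⟨by linarith, by linarith⟩
    gS_near := abs_le.2 ⟨by linarith, by linarith⟩
    d0 := (h.dir_le hU (by linarith)).trans (by linarith)
    d1 := (h'.dir_le hU (by linarith)).trans (by linarith)
    w0 := h.wb hU hg hμ ha.l2 j1 j3 j2 (fun _ _ _ => trivial) al0 (by linarith) t₀ (by linarith)
    w1 := h'.wb hU hg hμ hs.l2 j1 j3 j2
      (fun Φ u hu => ⟨fun y => by simp only [j4, hu.1], fun y => by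
        simp only [j5, hu.2, mul_neg]⟩) al0 (by linarith) t₁ (by linarith) }⟩

/-- `gapmin` in `sector_anti` (`gap3`, `qf_U3`, `slater_spec`), `sym_of_gap` for the total parity,
replace `ψ` by its odd part, `eig_of_sector` with `sym_12`, `aggap`. -/
theorem three_exists (o : One c) : ∃ C ε₀ : ℝ, 1 ≤ C ∧ 0 < ε₀ ∧ ∀ C', C ≤ C' → ∀ ε, 0 < ε →
    ε ≤ ε₀ → Nonempty (Three o C' ε) := by
  obtain ⟨σ₁⟩ := sym_12
  obtain ⟨σ₂⟩ := sym_PT
  obtain ⟨gu, hu, nu, qu, eu⟩ := slater_spec (fb_V o.D) o.ha o.hb o.ha o.na o.nb o.na o.ab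
  have qa : qf (V o.D) o.a o.ga = o.ea := by
    rw [← bf_self, o.eiga _ _ o.ha, LGap0_ip_self, o.na, mul_one]
  have qb : qf (V o.D) o.b o.gb = o.eb := by
    rw [← bf_self, o.eigb _ _ o.hb, LGap0_ip_self, o.nb, mul_one]
  have e3 : o.ea + o.eb + o.ea = 2 * o.ea + o.eb := by ring
  replace eu := eu _ _ _ o.eiga o.eigb o.eiga
  rw [← U3_zero, e3] at eu
  rw [← U3_zero, qa, qb, e3] at qu
  change H1 eT o.u0 gu at hu
  change nsq o.u0 = 1 at nu
  change qf _ o.u0 gu = _ at qu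
  obtain ⟨j1, j2, j3, j4⟩ := contDiff_jb3
  obtain ⟨al0, al2⟩ := T3_al o
  obtain ⟨L, -, t₀⟩ := exists_tail hu.l2 j1.continuous.measurable (δ := 1 / 64) (by norm_num)
  have hg := o.g_pos
  have hg1 := o.g_le
  have da := dir_nonneg gu
  set M : ℝ := 3 * (dir gu + 1) with hM
  have hM1 : 1 ≤ M := by linarith
  set K : ℝ := (24 * (|2 * o.ea + o.eb| + 2 * o.g + |(400 : ℝ)|) + 6) * Real.exp (2 * o.al * L)
    with hK
  set D₀ : ℝ := 4 * (|2 * o.ea + o.eb| + o.g + |(400 : ℝ)|) with hD₀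
  set D₁ : ℝ := 4 * (M + (|2 * o.ea + o.eb| + o.g + |(400 : ℝ)|) * (2 * M / o.g)) with hD₁
  have p1 : 0 ≤ K := by positivity
  have p3 : 0 ≤ D₀ := by positivity
  have p4 : 0 ≤ D₁ := by positivity
  have p5 : 0 ≤ 2 * M / o.g := by positivity
  refine ⟨M + 2 * M / o.g + K + D₀ + D₁, o.g / (128 * M), by linarith, by positivity,
    fun C' hC ε hε hε' => ?_⟩
  rw [le_div_iff₀ (by positivity)] at hε'
  have hμ : ε * M ≤ o.g / 128 := by linarith
  have hμ0 : 0 ≤ ε * M := by positivity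
  have hε1 : ε ≤ 1 := by nlinarith
  have hU := fb_U3 o.D hε.le hε1
  have c1 : ε * M ≤ C' * ε := by nlinarith
  have c2 : 2 * (ε * M) / o.g ≤ C' * ε := by
    calc 2 * (ε * M) / o.g = 2 * M / o.g * ε := by ring
      _ ≤ C' * ε := mul_le_mul_of_nonneg_right (by linarith) hε.le
  have c3 : 4 * (ε * M + (|2 * o.ea + o.eb| + ε * M + |(400 : ℝ)|) * (2 * (ε * M) / o.g)) ≤
      C' * ε := by
    calc _ ≤ 4 * (ε * M + (|2 * o.ea + o.eb| + o.g + |(400 : ℝ)|) * (2 * (ε * M) / o.g)) := by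
          gcongr
          linarith
      _ = D₁ * ε := by rw [hD₁]; ring
      _ ≤ C' * ε := mul_le_mul_of_nonneg_right (by linarith) hε.le
  obtain ⟨w, k, b, h⟩ := T3_gapmin sector_anti hU hu (slater_anti _ _ _) nu
    (a := 2 * o.ea + o.eb) (γ := o.g) hμ0 (by linarith)
    (by
      have := (qf_U3 o.D hε.le hu).2
      rw [qu, nu] at this
      exact this.trans (le_of_eq (by rw [hM]; ring)))
    fun u g hu hS => (gap3 o hu hS).trans (qf_U3 o.D hε.le hu).1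
  have l1 := h.sym hg hμ hu.l2 σ₂ (U3_PT _ _) (Or.inr rfl)
    (fun p => by simp only [One.u0, slater, PY, o.aP, o.bP]; ring)
    fun x y z => h.S1 (P x) (P y) (P z)
  obtain ⟨ψ, m₁, e₁, s₁, u₁⟩ := T3_avg σ₂ (fun p => by simp only [P_P, PY_PY]) (Or.inr rfl)
    h.h1.m l1
  have s₂ := u₁ (fun p => (p.2.1, p.1, p.2.2)) (-1) (fun _ => rfl)
    fun p => by rw [h.S1 p.1 p.2.1 p.2.2, neg_one_mul]
  replace h := h.congr m₁ e₁ fun x y z => by simpa using s₂ (x, y, z)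
  have el := T3_eig σ₁ hU (fun _ => rfl) (U3_12 _ _) (S := fun _ => True)
    (fun _ _ => trivial) (fun _ _ _ _ _ _ => trivial) (Or.inr rfl) h.h1 s₂ (α := b)
    fun w k hw _ h2 => h.el w k hw fun x y z => by simpa using h2 (x, y, z)
  have lo := h.lo
  have hi := h.hi
  exact ⟨{
    ψ := ψ
    gψ := k
    gu := gu
    E3 := b
    hψ := h.h1
    nψ := h.n
    anti := h.S1
    odd := fun x y => by simpa using s₁ (x, y)
    eig := fun w k hw => el w k hw trivial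
    min := fun u g hu hS => by simpa using h.gap' (γ' := 0) (by linarith) u g hu hS
    hu := hu
    eigu := eu
    cl := h.cl.trans c2
    cd := h.cd.trans c3
    E3_near := abs_le.2 ⟨by linarith, by linarith⟩
    dψ := (h.dir_le hU (by linarith)).trans (by linarith)
    wψ := h.wb hU hg hμ hu.l2 j1 j3 j2
      (fun Φ u hu x y z => by simp only [j4 x y z, hu x y z, mul_neg]) al0 (by linarith) t₀
      (by linarith) }⟩

end Crest.Agent.R335
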