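import Crest.Agent.R335.CDefs
import Crest.Agent.R335.T3

/-! Row 335. Multipole estimates. -/

set_option autoImplicit false

open MeasureTheory Set Filter Topology
open scoped ENNReal

noncomputable section

namespace Crest.Agent.R335

variable {c : ℝ} {o : One c} {C ε : ℝ}

theorem measurableSet_far (r : ℝ) : MeasurableSet (far r) := by
  exact (measurableSet_le measurable_const measurable_fst.norm).union
    (measurableSet_le measurable_const measurable_snd.norm)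

theorem measurable_Wo : Measurable fun p : T => Wo p.1 p.2 := by
  exact (measurable_W.sub (measurable_W.comp mp_PY'.measurable)).div_const 2

theorem Wo_PY (x : X) (y : Y) : Wo x (PY y) = -Wo x y := by
  unfold Wo
  rw [PY_PY]
  ring

theorem abs_Wo_le (x : X) (y : Y) : |Wo x y| ≤ (W x y + W (P x) y) / 2 := by
  unfold Wo
  rw [W_PY]
  have h1 := W_nonneg x y
  have h2 := W_nonneg (P x) y
  rw [abs_le]
  constructor <;> linarith

theorem integral_W_odd (x : X) {u : Y → ℝ} (ho : ∀ y, u (PY y) = -u y)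
    (h : Integrable fun y => W x y * u y) (h' : Integrable fun y => W (P x) y * u y) :
    ∫ y, W x y * u y = ∫ y, Wo x y * u y := by
  have h1 : ∫ y, W x y * u y = -∫ y, W (P x) y * u y := by
    rw [← integral_PY, ← integral_neg]
    refine integral_congr_ae (Eventually.of_forall fun y => ?_)
    simp only [W_PY, ho]
    ring
  have h2 : ∫ y, Wo x y * u y = ∫ y, (1 / 2 * (W x y * u y) + -1 / 2 * (W (P x) y * u y)) := by
    refine integral_congr_ae (Eventually.of_forall fun y => ?_)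
    simp only [Wo, W_PY]
    ring
  rw [h2, LWD_int2 h h']
  linarith

theorem Mu_near (x y : X) : |‖x - y‖ - ‖x‖| ≤ ‖y‖ := by
  have := abs_norm_sub_norm_le (x - y) x
  rwa [sub_sub_cancel_left, norm_neg] at this

theorem mono_near {x y : X} (hx : 0 < ‖x‖) (h : ‖y‖ ≤ ‖x‖ / 2) :
    |1 / ‖x - y‖ - 1 / ‖x‖| ≤ 2 * ‖y‖ / ‖x‖ ^ 2 := by
  have h1 := Mu_near x y
  generalize ‖x - y‖ = a at *
  generalize ‖x‖ = r at *
  generalize ‖y‖ = t at *
  have h2 := abs_le.1 h1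
  have ha : 0 < a := by linarith
  have e : 1 / a - 1 / r = -(a - r) / (a * r) := by field_simp; ring
  rw [e, abs_div, abs_neg, abs_of_pos (mul_pos ha hx), div_le_div_iff₀ (by positivity) (by positivity)]
  have h3 : r ^ 2 ≤ 2 * (a * r) := by nlinarith
  calc |a - r| * r ^ 2 ≤ t * (2 * (a * r)) :=
        mul_le_mul h1 h3 (by positivity) ((abs_nonneg _).trans h1)
    _ = _ := by ring

/-- With `a = ‖x - y‖`, `b = ‖x - P y‖`: `b² - a² = 4 x₂ y₂`, so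
`(1/a - 1/b) / 2 = 2 x₂ y₂ / (a b (a + b))`, and `|a - r|, |b - r| ≤ ‖y‖ ≤ r / 2`. -/
theorem dip_near {x y : X} (hx : 0 < ‖x‖) (h : ‖y‖ ≤ ‖x‖ / 2) :
    |(1 / ‖x - y‖ - 1 / ‖x - P y‖) / 2| ≤ 4 * |x 2| / ‖x‖ ^ 2 ∧
    |(1 / ‖x - y‖ - 1 / ‖x - P y‖) / 2 - x 2 * y 2 / ‖x‖ ^ 3| ≤ 100 * |x 2| * ‖y‖ ^ 2 / ‖x‖ ^ 4 := by
  have h1 := Mu_near x y
  have h2 := Mu_near x (P y)
  rw [norm_P] at h2
  have h3 : ‖x - P y‖ ^ 2 - ‖x - y‖ ^ 2 = 4 * (x 2 * y 2) := by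
    rw [LHardy_norm_sq, LHardy_norm_sq]
    simp [Fin.sum_univ_three, P]
    ring
  have h4 := abs_two_le y
  generalize ‖x - y‖ = a at *
  generalize ‖x - P y‖ = b at *
  generalize ‖x‖ = r at *
  generalize ‖y‖ = t at *
  generalize x 2 = p at *
  generalize y 2 = q at *
  have ht : 0 ≤ t := (abs_nonneg _).trans h4
  obtain ⟨a1, a2⟩ := abs_le.1 h1
  obtain ⟨b1, b2⟩ := abs_le.1 h2
  have ha : 0 < a := by linarith
  have hb : 0 < b := by linarith
  have hrt : 0 ≤ r - t := by linarith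
  have e : (1 / a - 1 / b) / 2 = 2 * (p * q) / (a * b * (a + b)) := by
    field_simp
    linarith
  have lo : 2 * (r - t) ^ 3 ≤ a * b * (a + b) := by
    calc 2 * (r - t) ^ 3 = (r - t) * (r - t) * ((r - t) + (r - t)) := by ring
      _ ≤ _ := by gcongr <;> linarith
  have hi : a * b * (a + b) ≤ 2 * (r + t) ^ 3 := by
    calc a * b * (a + b) ≤ (r + t) * (r + t) * ((r + t) + (r + t)) := by gcongr <;> linarith
      _ = _ := by ring
  have lo' : r ^ 3 / 4 ≤ a * b * (a + b) := by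
    refine le_trans ?_ lo
    calc r ^ 3 / 4 = 2 * (r / 2) ^ 3 := by ring
      _ ≤ _ := by gcongr; linarith
  rw [e]
  generalize a * b * (a + b) = N at *
  have hN : 0 < N := lt_of_lt_of_le (by positivity) lo'
  have hp := abs_nonneg p
  constructor
  · rw [abs_div, abs_mul, abs_mul, abs_two, abs_of_pos hN]
    calc 2 * (|p| * |q|) / N ≤ 2 * (|p| * (r / 2)) / (r ^ 3 / 4) := by
          gcongr; linarith
      _ = _ := by field_simp
  · have e2 : 2 * (p * q) / N - p * q / r ^ 3 = p * q * (2 * r ^ 3 - N) / (N * r ^ 3) := by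
      field_simp
    have h5 : |2 * r ^ 3 - N| ≤ 10 * t * r ^ 2 := by
      have c1 : t * (r * t) ≤ t * (r * (r / 2)) := by gcongr
      have c2 : t * (t * t) ≤ t * ((r / 2) * (r / 2)) := by gcongr
      have c3 : 0 ≤ t * (r * t) := by positivity
      have c4 : 0 ≤ t * (t * t) := by positivity
      have c5 : 0 ≤ t * r ^ 2 := by positivity
      rw [abs_le]
      constructor <;> nlinarith
    rw [e2, abs_div, abs_mul, abs_mul, abs_of_pos (mul_pos hN (pow_pos hx 3))]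
    calc |p| * |q| * |2 * r ^ 3 - N| / (N * r ^ 3)
        ≤ |p| * t * (10 * t * r ^ 2) / (r ^ 3 / 4 * r ^ 3) := by gcongr
      _ = 40 * |p| * t ^ 2 / r ^ 4 := by field_simp; ring
      _ ≤ _ := by gcongr; norm_num

theorem Mu_pow {α : ℝ} (hα : 0 < α) (n : ℕ) :
    ∃ K : ℝ, 0 < K ∧ ∀ t : ℝ, 0 ≤ t → t ^ n ≤ K * Real.exp (α * t) := by
  refine ⟨n.factorial / α ^ n, by positivity, fun t ht => ?_⟩
  have h := Real.pow_div_factorial_le_exp (α * t) (by positivity) n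
  calc t ^ n = n.factorial / α ^ n * ((α * t) ^ n / n.factorial) := by
        rw [mul_pow]; field_simp
    _ ≤ _ := by gcongr

theorem Mu_jb (x : X) : 1 ≤ jb x ∧ ‖x‖ ≤ jb x :=
  ⟨Real.one_le_sqrt.2 (by nlinarith [sq_nonneg ‖x‖]), Real.le_sqrt_of_sq_le (by linarith)⟩

theorem Mu_jb2 (y : Y) : 1 ≤ jb2 y ∧ ‖y.1‖ + ‖y.2‖ ≤ jb2 y := by
  have h1 := Mu_jb y.1
  have h2 := Mu_jb y.2
  unfold jb2
  constructor <;> linarith [h1.1, h1.2, h2.1, h2.2]

theorem Mu_dz (y : Y) : |dz y| ≤ jb2 y :=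
  ((abs_add_le _ _).trans (add_le_add (abs_two_le _) (abs_two_le _))).trans (Mu_jb2 y).2

theorem Mu_far {r : ℝ} {y : Y} (h : y ∈ far r) : r ≤ 2 * jb2 y := by
  have h1 := (Mu_jb2 y).2
  have h2 := norm_nonneg y.1
  have h3 := norm_nonneg y.2
  rcases h with h | h <;> linarith

theorem Mu_nfar {r : ℝ} {y : Y} (h : y ∉ far r) : ‖y.1‖ ≤ r / 2 ∧ ‖y.2‖ ≤ r / 2 := by
  have h' := not_or.1 h
  exact ⟨(not_le.1 h'.1).le, (not_le.1 h'.2).le⟩

theorem Mu_mW (x : X) : Measurable fun y => W x y :=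
  measurable_W.comp (f := fun y : Y => ((x, y) : T)) measurable_prodMk_left

theorem Mu_mWo (x : X) : Measurable fun y => Wo x y :=
  measurable_Wo.comp (f := fun y : Y => ((x, y) : T)) measurable_prodMk_left

theorem Mu_mdz : Measurable dz := by
  unfold dz
  fun_prop

theorem Mu_Wo (x : X) (y : Y) : Wo x y = (1 / ‖x - y.1‖ - 1 / ‖x - P y.1‖) / 2 +
    (1 / ‖x - y.2‖ - 1 / ‖x - P y.2‖) / 2 := by
  simp only [Wo, W, PY]
  ring

/-- On `far` one gains any power of `‖x‖`. -/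
theorem Mu_gain {r j s S D : ℝ} (hr : 1 ≤ r) (hj : 1 ≤ j) (h : r ≤ 2 * j) {n : ℕ} (hn : n ≤ 4)
    (hS : 0 ≤ S) (hs : s ≤ S * j) (hD : 16 ≤ D) : s ≤ D / r ^ n * S * j ^ 5 := by
  have h1 : r ^ n ≤ 16 * j ^ 4 := by
    calc r ^ n ≤ r ^ 4 := pow_le_pow_right₀ hr hn
      _ ≤ (2 * j) ^ 4 := by gcongr
      _ = _ := by ring
  have h2 : 1 ≤ D / r ^ n * j ^ 4 := by
    rw [div_mul_eq_mul_div, one_le_div (by positivity)]
    exact h1.trans (by gcongr)
  calc s ≤ 1 * (S * j) := by linarith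
    _ ≤ D / r ^ n * j ^ 4 * (S * j) := by gcongr
    _ = _ := by ring

theorem Mu_loss {j s S D : ℝ} (hj : 1 ≤ j) (hD : 0 ≤ D) (hS : 1 ≤ S) (hs : s ≤ D * j ^ 2) :
    s ≤ D * S * j ^ 5 := by
  calc s ≤ D * 1 * j ^ 2 := by linarith
    _ ≤ _ := by gcongr; norm_num

theorem Mu_p1 {x : X} (hx : 1 ≤ ‖x‖) (y : Y) :
    |W x y - 2 / ‖x‖| ≤ 32 / ‖x‖ ^ 2 * (1 + W x y + W (P x) y) * jb2 y ^ 5 := by
  have h1 := W_nonneg x y
  have h2 := W_nonneg (P x) y
  obtain ⟨h3, h4⟩ := Mu_jb2 y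
  have hx0 : 0 < ‖x‖ := by linarith
  by_cases hf : y ∈ far ‖x‖
  · have h5 : 2 / ‖x‖ ≤ 2 := div_le_self (by norm_num) hx
    have h6 : 0 ≤ 2 / ‖x‖ := by positivity
    have := Mu_gain (s := |W x y - 2 / ‖x‖|) (S := 2 * (1 + W x y + W (P x) y)) (n := 2) hx h3
      (Mu_far hf) (by norm_num) (by positivity) (by
        rw [abs_le]; constructor <;> nlinarith) le_rfl
    refine this.trans (le_of_eq ?_)
    ring
  · obtain ⟨a, b⟩ := Mu_nfar hf
    refine Mu_loss h3 (by positivity) (by linarith) ?_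
    have e : W x y - 2 / ‖x‖ = (1 / ‖x - y.1‖ - 1 / ‖x‖) + (1 / ‖x - y.2‖ - 1 / ‖x‖) := by
      unfold W; ring
    rw [e]
    refine ((abs_add_le _ _).trans (add_le_add (mono_near hx0 a) (mono_near hx0 b))).trans ?_
    rw [← add_div, div_mul_eq_mul_div]
    gcongr
    nlinarith

theorem Mu_n2 {x : X} (hx : 0 < ‖x‖) {y : Y} (hf : y ∉ far ‖x‖) :
    |Wo x y| ≤ 8 * |x 2| / ‖x‖ ^ 2 ∧
      |Wo x y - x 2 / ‖x‖ ^ 3 * dz y| ≤ 100 * |x 2| / ‖x‖ ^ 4 * jb2 y ^ 2 := by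
  obtain ⟨a, b⟩ := Mu_nfar hf
  obtain ⟨a1, a2⟩ := dip_near hx a
  obtain ⟨b1, b2⟩ := dip_near hx b
  rw [Mu_Wo]
  generalize (1 / ‖x - y.1‖ - 1 / ‖x - P y.1‖) / 2 = A at *
  generalize (1 / ‖x - y.2‖ - 1 / ‖x - P y.2‖) / 2 = B at *
  constructor
  · refine ((abs_add_le _ _).trans (add_le_add a1 b1)).trans (le_of_eq ?_)
    ring
  · have e : A + B - x 2 / ‖x‖ ^ 3 * dz y =
        (A - x 2 * y.1 2 / ‖x‖ ^ 3) + (B - x 2 * y.2 2 / ‖x‖ ^ 3) := by
      unfold dz; ring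
    rw [e]
    refine ((abs_add_le _ _).trans (add_le_add a2 b2)).trans ?_
    have h1 : ‖y.1‖ ^ 2 + ‖y.2‖ ^ 2 ≤ jb2 y ^ 2 := by
      have h2 := norm_nonneg y.1
      have h3 := norm_nonneg y.2
      have h4 := pow_le_pow_left₀ (by positivity) (Mu_jb2 y).2 2
      nlinarith
    calc _ = 100 * |x 2| / ‖x‖ ^ 4 * (‖y.1‖ ^ 2 + ‖y.2‖ ^ 2) := by ring
      _ ≤ _ := by gcongr

theorem Mu_p2 {x : X} (hx : 1 ≤ ‖x‖) (y : Y) : |Wo x y - x 2 / ‖x‖ ^ 3 * dz y| ≤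
    100 * (1 + |x 2|) / ‖x‖ ^ 4 * (1 + W x y + W (P x) y) * jb2 y ^ 5 := by
  have h1 := W_nonneg x y
  have h2 := W_nonneg (P x) y
  obtain ⟨h3, h4⟩ := Mu_jb2 y
  have hx0 : 0 < ‖x‖ := by linarith
  have h0 := abs_nonneg (x 2)
  by_cases hf : y ∈ far ‖x‖
  · refine Mu_gain hx h3 (Mu_far hf) le_rfl (by positivity) ?_ (by linarith)
    have h5 : |x 2 / ‖x‖ ^ 3 * dz y| ≤ 1 * jb2 y := by
      rw [abs_mul]
      refine mul_le_mul ?_ (Mu_dz y) (abs_nonneg _) zero_le_one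
      rw [abs_div, abs_of_pos (pow_pos hx0 3), div_le_one (pow_pos hx0 3)]
      exact (abs_two_le x).trans (le_self_pow₀ hx (by norm_num))
    refine ((abs_sub _ _).trans (add_le_add (abs_Wo_le x y) h5)).trans ?_
    nlinarith
  · refine Mu_loss h3 (by positivity) (by linarith) ((Mu_n2 hx0 hf).2.trans ?_)
    gcongr
    linarith

theorem Mu_p3 {x : X} (hx : 1 ≤ ‖x‖) (y : Y) :
    |Wo x y| ≤ 101 * (1 + |x 2|) / ‖x‖ ^ 3 * (1 + W x y + W (P x) y) * jb2 y ^ 5 := by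
  have h1 := W_nonneg x y
  have h2 := W_nonneg (P x) y
  obtain ⟨h3, h4⟩ := Mu_jb2 y
  have hx0 : 0 < ‖x‖ := by linarith
  have h0 := abs_nonneg (x 2)
  by_cases hf : y ∈ far ‖x‖
  · refine Mu_gain hx h3 (Mu_far hf) (by norm_num) (by positivity) ?_ (by linarith)
    refine (abs_Wo_le x y).trans ?_
    nlinarith
  · refine Mu_loss h3 (by positivity) (by linarith) ?_
    have h5 : |x 2 / ‖x‖ ^ 3 * dz y| ≤ |x 2| / ‖x‖ ^ 3 * jb2 y ^ 2 := by
      rw [abs_mul, abs_div, abs_of_pos (pow_pos hx0 3)]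
      exact mul_le_mul_of_nonneg_left ((Mu_dz y).trans (le_self_pow₀ h3 (by norm_num)))
        (by positivity)
    have h6 : 100 * |x 2| / ‖x‖ ^ 4 * jb2 y ^ 2 ≤ 100 * |x 2| / ‖x‖ ^ 3 * jb2 y ^ 2 := by
      gcongr
      norm_num
    calc |Wo x y| = |(Wo x y - x 2 / ‖x‖ ^ 3 * dz y) + x 2 / ‖x‖ ^ 3 * dz y| := by
          rw [sub_add_cancel]
      _ ≤ 100 * |x 2| / ‖x‖ ^ 3 * jb2 y ^ 2 + |x 2| / ‖x‖ ^ 3 * jb2 y ^ 2 :=
          (abs_add_le _ _).trans (add_le_add ((Mu_n2 hx0 hf).2.trans h6) h5)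
      _ = 101 * |x 2| / ‖x‖ ^ 3 * jb2 y ^ 2 := by ring
      _ ≤ _ := by gcongr; linarith

theorem Mu_bd {α K C : ℝ} (hK : 0 ≤ K) (hKp : ∀ t : ℝ, 0 ≤ t → t ^ 5 ≤ K * Real.exp (α * t))
    {χ : Y → ℝ} {k : IY → Y → ℝ} (hχ : Measurable χ) (hw : WB eY jb2 α C χ k) (x : X)
    {m : Y → ℝ} (hm : Measurable m) {D : ℝ} (hD : 0 ≤ D)
    (h : ∀ y, |m y| ≤ D * (1 + W x y + W (P x) y) * jb2 y ^ 5) :
    MemLp (fun y => m y * χ y) 2 volume ∧ √(nsq fun y => m y * χ y) ≤ K * √(51 * C) * D := by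
  obtain ⟨h1, h2, h3⟩ := hw
  set φ : Y → ℝ := fun y => Real.exp (α * jb2 y) * χ y with hφ
  obtain ⟨a1, a2, -⟩ := hardy_Y h1 x
  obtain ⟨b1, b2, -⟩ := hardy_Y h1 (P x)
  have i0 := h1.integrable_sq
  have i1 := a1.integrable_sq
  have i2 := b1.integrable_sq
  have key := TS_memLp (w := fun y => m y * χ y) (hm.mul hχ)
    (b := fun y => 3 * (K * D) ^ 2 * φ y ^ 2 + 3 * (K * D) ^ 2 * (W x y * φ y) ^ 2 +
      3 * (K * D) ^ 2 * (W (P x) y * φ y) ^ 2)
    (((i0.const_mul _).add (i1.const_mul _)).add (i2.const_mul _)) fun y => ?_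
  · refine ⟨key.1, Real.sqrt_le_iff.2 ⟨by positivity, key.2.trans ?_⟩⟩
    have hC : 0 ≤ C := (nsq_nonneg _).trans h2
    rw [LWD_int3 i0 i1 i2, mul_pow, mul_pow, mul_pow, Real.sq_sqrt (by positivity)]
    have c0 : ∫ y, φ y ^ 2 ≤ C := h2
    have c1 : ∫ y, (W x y * φ y) ^ 2 ≤ 8 * C := a2.trans (by linarith)
    have c2 : ∫ y, (W (P x) y * φ y) ^ 2 ≤ 8 * C := b2.trans (by linarith)
    calc _ ≤ 3 * (K ^ 2 * D ^ 2) * C + 3 * (K ^ 2 * D ^ 2) * (8 * C) +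
          3 * (K ^ 2 * D ^ 2) * (8 * C) := by gcongr
      _ = _ := by ring
  · have w1 := W_nonneg x y
    have w2 := W_nonneg (P x) y
    have h4 : |m y| ≤ D * (1 + W x y + W (P x) y) * (K * Real.exp (α * jb2 y)) :=
      (h y).trans (mul_le_mul_of_nonneg_left (hKp _ (zero_le_one.trans (Mu_jb2 y).1))
        (by positivity))
    have h5 : m y ^ 2 ≤ (D * (1 + W x y + W (P x) y) * (K * Real.exp (α * jb2 y))) ^ 2 := by
      rw [← sq_abs (m y)]
      exact pow_le_pow_left₀ (abs_nonneg _) h4 2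
    have h6 : (1 + W x y + W (P x) y) ^ 2 ≤ 3 * (1 + W x y ^ 2 + W (P x) y ^ 2) := by
      nlinarith [sq_nonneg (1 - W x y), sq_nonneg (1 - W (P x) y), sq_nonneg (W x y - W (P x) y)]
    calc (m y * χ y) ^ 2 = m y ^ 2 * χ y ^ 2 := mul_pow _ _ _
      _ ≤ (D * (1 + W x y + W (P x) y) * (K * Real.exp (α * jb2 y))) ^ 2 * χ y ^ 2 := by gcongr
      _ = (K * D) ^ 2 * φ y ^ 2 * (1 + W x y + W (P x) y) ^ 2 := by simp only [hφ]; ring
      _ ≤ (K * D) ^ 2 * φ y ^ 2 * (3 * (1 + W x y ^ 2 + W (P x) y ^ 2)) := by gcongr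
      _ = _ := by ring

/-- Off `far ‖x‖` use the pointwise bounds and `‖y‖^j ≤ C exp (α jb2 y)`; on `far ‖x‖` use
`1 ≤ exp (-α r / 2) exp (α jb2 y)` and `hardy_Y` for the weighted function. -/
theorem mult_of_wb {α : ℝ} (hα : 0 < α) (C : ℝ) : ∃ C' : ℝ, ∀ C'' : ℝ, C' ≤ C'' →
    ∀ (χ : Y → ℝ) (k : IY → Y → ℝ), H1 eY χ k → dir k ≤ C → WB eY jb2 α C χ k → Mult α C'' χ := by
  obtain ⟨K, hK, hKp⟩ := Mu_pow hα 5
  refine ⟨|C| + 101 * (K * √(51 * C)), fun C'' hC χ k hχ _ hw => ?_⟩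
  have hA : 0 ≤ K * √(51 * C) := by positivity
  have hC0 := abs_nonneg C
  have bd := fun (x : X) {m : Y → ℝ} (hm : Measurable m) {D : ℝ} (hD : 0 ≤ D)
    (h : ∀ y, |m y| ≤ D * (1 + W x y + W (P x) y) * jb2 y ^ 5) =>
      Mu_bd hK.le hKp hχ.m hw x hm hD h
  have one : ∀ (x : X) (y : Y) (s : ℝ), s ≤ 1 + W x y + W (P x) y →
      s ≤ 1 * (1 + W x y + W (P x) y) * jb2 y ^ 5 := by
    intro x y s hs
    have h1 := W_nonneg x y
    have h2 := W_nonneg (P x) y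
    have h3 : 1 ≤ jb2 y ^ 5 := one_le_pow₀ (Mu_jb2 y).1
    nlinarith
  refine ⟨fun x => ?_, fun x hx => ?_, fun x hx => ?_, fun x hx => ?_, fun x => ?_, ?_, fun r => ?_⟩
  · have := bd x (Mu_mW x) zero_le_one fun y => one x y _ (by
      rw [abs_of_nonneg (W_nonneg x y)]; linarith [W_nonneg (P x) y])
    exact ⟨this.1, this.2.trans (by linarith)⟩
  · have := bd x ((Mu_mW x).sub_const (2 / ‖x‖)) (by positivity) (Mu_p1 hx)
    refine this.2.trans ?_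
    rw [← mul_div_assoc]
    gcongr
    linarith
  · have := bd x ((Mu_mWo x).sub (Mu_mdz.const_mul (x 2 / ‖x‖ ^ 3))) (by positivity) (Mu_p2 hx)
    refine this.2.trans ?_
    rw [← mul_div_assoc, ← mul_assoc]
    gcongr
    linarith
  · have := bd x (Mu_mWo x) (by positivity) (Mu_p3 hx)
    refine this.2.trans ?_
    rw [← mul_div_assoc, ← mul_assoc]
    gcongr
    linarith
  · exact (bd x (Mu_mWo x) zero_le_one fun y => one x y _ (by
      linarith [abs_Wo_le x y, W_nonneg x y, W_nonneg (P x) y])).1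
  · refine (bd 0 Mu_mdz zero_le_one fun y => ?_).1
    have h1 := W_nonneg 0 y
    have h2 := W_nonneg (P 0) y
    have h3 := Mu_jb2 y
    have h4 : jb2 y ^ 1 ≤ jb2 y ^ 5 := pow_le_pow_right₀ h3.1 (by norm_num)
    have h5 := Mu_dz y
    have h6 : 0 ≤ jb2 y ^ 5 := by have := h3.1; positivity
    nlinarith
  · have hi := hw.1.integrable_sq
    calc ∫ y in far r, χ y ^ 2
        ≤ ∫ y in far r, Real.exp (-α * r) * (Real.exp (α * jb2 y) * χ y) ^ 2 := by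
          refine setIntegral_mono_on hχ.integrable_sq.integrableOn
            (hi.const_mul _).integrableOn (measurableSet_far r) fun y hy => ?_
          have h1 := Mu_far hy
          have h2 : 1 ≤ Real.exp (-α * r) * Real.exp (α * jb2 y) ^ 2 := by
            rw [← Real.exp_nat_mul, ← Real.exp_add]
            apply Real.one_le_exp
            push_cast
            nlinarith
          rw [mul_pow, ← mul_assoc]
          exact le_mul_of_one_le_left (sq_nonneg _) h2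
      _ ≤ ∫ y, Real.exp (-α * r) * (Real.exp (α * jb2 y) * χ y) ^ 2 :=
          setIntegral_le_integral (hi.const_mul _) (Eventually.of_forall fun y => by positivity)
      _ ≤ _ := by
          rw [integral_const_mul, mul_comm]
          refine mul_le_mul_of_nonneg_right (hw.2.1.trans ?_) (Real.exp_pos _).le
          linarith [le_abs_self C]

theorem Mu_ip {u w : Y → ℝ} (hu : MemLp u 2 volume) (hw : MemLp w 2 volume) :
    |ip u w| ≤ √(nsq u) * √(nsq w) := by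
  rw [← Real.sqrt_mul (nsq_nonneg u)]
  exact Real.abs_le_sqrt (ip_sq_le hu hw)

theorem Mu_cs {u w : Y → ℝ} (hu : MemLp u 2 volume) (hw : MemLp w 2 volume) :
    ∫ y, |u y * w y| ≤ √(nsq u) * √(nsq w) := by
  have h := (le_abs_self _).trans (Mu_ip hu.abs hw.abs)
  simpa only [ip, nsq, Pi.abs_apply, sq_abs, abs_mul] using h

theorem Mu_tri {u w : Y → ℝ} (hu : MemLp u 2 volume) (hw : MemLp w 2 volume) :
    √(nsq fun y => 1 * u y + 1 * w y) ≤ √(nsq u) + √(nsq w) := by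
  refine Real.sqrt_le_iff.2 ⟨by positivity, ?_⟩
  have h := (le_abs_self _).trans (Mu_ip hu hw)
  rw [nsq_lin hu hw, add_sq, Real.sq_sqrt (nsq_nonneg u), Real.sq_sqrt (nsq_nonneg w)]
  linarith

/-- The cross term. -/
theorem cross_le {u w : Y → ℝ} {k : IY → Y → ℝ} (hu : MemLp u 2 volume) (hw : H1 eY w k) {x : X}
    (hx : 0 < ‖x‖) : Integrable (fun y => Wo x y * u y * w y) ∧
      |∫ y, Wo x y * u y * w y| ≤ 8 * |x 2| / ‖x‖ ^ 2 * √(nsq u) * √(nsq w) +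
        3 * √(dir k) * √(∫ y in far ‖x‖, u y ^ 2) := by
  obtain ⟨a1, a2, -⟩ := hardy_Y hw x
  obtain ⟨b1, b2, -⟩ := hardy_Y hw (P x)
  have i1 := a1.integrable_sq
  have i2 := b1.integrable_sq
  have key := TS_memLp (w := fun y => Wo x y * w y) ((Mu_mWo x).mul hw.m)
    (b := fun y => 1 / 2 * (W x y * w y) ^ 2 + 1 / 2 * (W (P x) y * w y) ^ 2)
    ((i1.const_mul _).add (i2.const_mul _)) fun y => by
      have h5 : Wo x y ^ 2 ≤ ((W x y + W (P x) y) / 2) ^ 2 := by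
        rw [← sq_abs (Wo x y)]
        exact pow_le_pow_left₀ (abs_nonneg _) (abs_Wo_le x y) 2
      have h6 : Wo x y ^ 2 ≤ 1 / 2 * W x y ^ 2 + 1 / 2 * W (P x) y ^ 2 := by
        nlinarith [sq_nonneg (W x y - W (P x) y)]
      calc (Wo x y * w y) ^ 2 = Wo x y ^ 2 * w y ^ 2 := mul_pow _ _ _
        _ ≤ (1 / 2 * W x y ^ 2 + 1 / 2 * W (P x) y ^ 2) * w y ^ 2 := by gcongr
        _ = _ := by ring
  have hd := dir_nonneg k
  have k2 : √(nsq fun y => Wo x y * w y) ≤ 3 * √(dir k) := by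
    refine Real.sqrt_le_iff.2 ⟨by positivity, key.2.trans ?_⟩
    rw [LWD_int2 i1 i2, mul_pow, Real.sq_sqrt hd]
    have c1 : ∫ y, (W x y * w y) ^ 2 ≤ 8 * dir k := a2
    have c2 : ∫ y, (W (P x) y * w y) ^ 2 ≤ 8 * dir k := b2
    linarith
  have hint : Integrable fun y => Wo x y * u y * w y :=
    (LWD_int_mul hu key.1).congr (Eventually.of_forall fun y => by ring)
  refine ⟨hint, ?_⟩
  have hind : MemLp ((far ‖x‖).indicator u) 2 volume := hu.indicator (measurableSet_far _)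
  have hn : nsq ((far ‖x‖).indicator u) = ∫ y in far ‖x‖, u y ^ 2 := by
    rw [← integral_indicator (measurableSet_far _)]
    refine integral_congr_ae (Eventually.of_forall fun y => ?_)
    by_cases hy : y ∈ far ‖x‖ <;> simp [hy]
  have j1 := (LWD_int_mul hu hw.l2).abs
  have j2 := (LWD_int_mul hind key.1).abs
  calc |∫ y, Wo x y * u y * w y| ≤ ∫ y, |Wo x y * u y * w y| := abs_integral_le_integral_abs
    _ ≤ ∫ y, (8 * |x 2| / ‖x‖ ^ 2 * |u y * w y| +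
          1 * |(far ‖x‖).indicator u y * (Wo x y * w y)|) := by
        refine integral_mono hint.abs ((j1.const_mul _).add (j2.const_mul _)) fun y => ?_
        by_cases hy : y ∈ far ‖x‖
        · simp only [indicator_of_mem hy]
          rw [show u y * (Wo x y * w y) = Wo x y * u y * w y by ring, one_mul]
          exact le_add_of_nonneg_left (by positivity)
        · simp only [indicator_of_notMem hy, zero_mul, abs_zero, mul_zero, add_zero]
          rw [mul_assoc, abs_mul]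
          exact mul_le_mul_of_nonneg_right (Mu_n2 hx hy).1 (abs_nonneg _)
    _ ≤ 8 * |x 2| / ‖x‖ ^ 2 * (√(nsq u) * √(nsq w)) +
          1 * (√(∫ y in far ‖x‖, u y ^ 2) * (3 * √(dir k))) := by
        rw [LWD_int2 j1 j2, ← hn]
        gcongr
        · exact Mu_cs hu hw.l2
        · exact (Mu_cs hind key.1).trans (mul_le_mul_of_nonneg_left k2 (Real.sqrt_nonneg _))
    _ = _ := by ring

theorem Mu_aa (o : One c) : MemLp (fun y => dz y * o.aa y) 2 volume ∧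
    ip o.sy (fun y => dz y * o.aa y) = √2 * ip o.b (fun x => x 2 * o.a x) ∧
    nsq (fun y => dz y * o.aa y) ≤ 8 * ip o.b (fun x => x 2 * o.a x) ^ 2 := by
  have hsg : 0 < √(o.eb - o.ea) := Real.sqrt_pos.2 o.g_pos
  obtain ⟨K, hK, hKp⟩ := Mu_pow hsg 1
  set z : X → ℝ := fun x => x 2 * o.a x with hz
  have mz : MemLp z 2 volume := by
    refine (TS_memLp (w := z) (Measurable.mul (by fun_prop) o.ha.m)
      (o.wa.integrable_sq.const_mul (K ^ 2)) fun x => ?_).1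
    have h1 : |x 2| ≤ K * Real.exp (√(o.eb - o.ea) * jb x) := by
      have := hKp _ (zero_le_one.trans (Mu_jb x).1)
      rw [pow_one] at this
      exact (abs_two_le x).trans ((Mu_jb x).2.trans this)
    have h2 := pow_le_pow_left₀ (abs_nonneg _) h1 2
    rw [sq_abs] at h2
    calc z x ^ 2 = x 2 ^ 2 * o.a x ^ 2 := mul_pow _ _ _
      _ ≤ (K * Real.exp (√(o.eb - o.ea) * jb x)) ^ 2 * o.a x ^ 2 := by gcongr
      _ = _ := by ring
  have ma := o.ha.l2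
  have mb := o.hb.l2
  have e : (fun y : Y => dz y * o.aa y) =
      fun y => 1 * (z y.1 * o.a y.2) + 1 * (o.a y.1 * z y.2) := by
    funext y
    simp only [hz, dz, One.aa]
    ring
  have es : o.sy = fun y : Y => (√2)⁻¹ * (o.a y.1 * o.b y.2) + (√2)⁻¹ * (o.b y.1 * o.a y.2) := by
    funext y
    simp only [One.sy]
    ring
  have p1 := LSlice_memLp_tensor mz ma
  have p2 := LSlice_memLp_tensor ma mz
  have q1 := LSlice_memLp_tensor ma mb
  have q2 := LSlice_memLp_tensor mb ma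
  have haa : ip o.a o.a = 1 := (TS_ip_self _).trans o.na
  have hba : ip o.b o.a = 0 := (TS_ip_comm _ _).trans o.ab
  have m0 : MemLp (fun y : Y => 1 * (z y.1 * o.a y.2) + 1 * (o.a y.1 * z y.2)) 2 volume :=
    (p1.const_mul 1).add (p2.const_mul 1)
  rw [e]
  refine ⟨m0, ?_, ?_⟩
  · rw [TP_ip_comm, es, TP_ip_lin q1 q2 m0, TP_ip_comm _ fun y : Y => o.a y.1 * o.b y.2,
      TP_ip_comm _ fun y : Y => o.b y.1 * o.a y.2, TP_ip_lin p1 p2 q1, TP_ip_lin p1 p2 q2,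
      ip_tensor, ip_tensor, ip_tensor, ip_tensor, haa, hba]
    have h2 : (√2)⁻¹ * 2 = √2 := by
      rw [inv_mul_eq_div]
      exact Real.div_sqrt
    linear_combination ip o.b z * h2
  · rw [nsq_lin p1 p2, ← TS_ip_self, ← TS_ip_self, ip_tensor, ip_tensor, ip_tensor, haa,
      TS_ip_self z, TS_ip_comm z o.a]
    have h1 := ip_sq_le ma mz
    rw [o.na] at h1
    have h2 : nsq z ≤ 2 * ip o.b z ^ 2 := o.dip
    nlinarith

/-- `⟨sy, dz aa⟩ = √2 κ`, `‖dz aa‖² = 2 ‖z a‖² ≤ 4 κ²`, `κ = ⟨b, z a⟩ ≥ 1`;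
`‖dz (χ0 - aa)‖² ≤ 4 L² ‖χ0 - aa‖² + sup_{t ≥ L} (t² exp (-2 al t)) · C'`. -/
theorem dip_close (o : One c) (C : ℝ) : ∃ C' ε₀ : ℝ, 0 < ε₀ ∧ ∀ (ε : ℝ) (tw : Two o C ε),
    ε ≤ ε₀ → (1 ≤ ip tw.χ1 fun y => dz y * tw.χ0 y) ∧ (ip tw.χ1 fun y => dz y * tw.χ0 y) ≤ C' ∧
      √(nsq fun y => dz y * tw.χ0 y) ≤ 3 * ip tw.χ1 fun y => dz y * tw.χ0 y := by
  obtain ⟨m0, e0, n0⟩ := Mu_aa o
  set κ := ip o.b (fun x => x 2 * o.a x) with hκ
  have hκ1 : 1 ≤ κ := o.dip1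
  have hsg : 0 < √o.g := Real.sqrt_pos.2 o.g_pos
  have hal : 0 < o.al := by unfold One.al; positivity
  obtain ⟨K, hK, hKp⟩ := Mu_pow (mul_pos two_pos hal) 4
  set Φ : Y → ℝ := fun y => Real.exp (√o.g * jb y.1) * o.a y.1 * (Real.exp (√o.g * jb y.2) * o.a y.2)
    with hΦ
  have mΦ : MemLp Φ 2 volume := LSlice_memLp_tensor o.wa o.wa
  have hA := nsq_nonneg Φ
  have hC0 := abs_nonneg C
  set M := 400 * (|C| + nsq Φ + 1) * K + 2 with hM
  have hM2 : 2 ≤ M := by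
    have : 0 ≤ 400 * (|C| + nsq Φ + 1) * K := by positivity
    linarith
  have hM0 : 0 < M := by linarith
  refine ⟨2 * κ, 1 / (200 * M * (|C| + 1)), by positivity, fun ε tw hε => ?_⟩
  have hC : 0 ≤ C := (dir_nonneg _).trans tw.d0
  rw [abs_of_nonneg hC] at hε hM
  have hCε : C * ε ≤ 1 / (200 * M) := by
    calc C * ε ≤ (C + 1) * (1 / (200 * M * (C + 1))) := by
          refine (mul_le_mul_of_nonneg_left hε hC).trans ?_
          gcongr
          linarith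
      _ = _ := by field_simp
  obtain ⟨ka, haa, -⟩ := aa_spec o
  obtain ⟨ks, hsy, -⟩ := sy_spec o
  have i0 := (tw.h0.sub haa).integrable_sq
  have i1 := tw.w0.1.integrable_sq
  have i2 := mΦ.integrable_sq
  have key := TS_memLp (w := fun y => dz y * (tw.χ0 y - o.aa y))
    (Mu_mdz.mul (tw.h0.m.sub haa.m))
    (b := fun y => M * (tw.χ0 y - o.aa y) ^ 2 +
      2 * K / M * (Real.exp (o.al * jb2 y) * tw.χ0 y) ^ 2 + 2 * K / M * Φ y ^ 2)
    (((i0.const_mul _).add (i1.const_mul _)).add (i2.const_mul _)) fun y => by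
      have hj := zero_le_one.trans (Mu_jb2 y).1
      have h1 : dz y ^ 2 ≤ jb2 y ^ 2 := by
        rw [← sq_abs (dz y)]
        exact pow_le_pow_left₀ (abs_nonneg _) (Mu_dz y) 2
      have h2 : jb2 y ^ 2 ≤ M + jb2 y ^ 4 / M := by
        rw [add_div' _ _ _ hM0.ne', le_div_iff₀ hM0]
        nlinarith [sq_nonneg (M - jb2 y ^ 2), mul_nonneg hM0.le (sq_nonneg (jb2 y))]
      have h3 : jb2 y ^ 4 ≤ K * Real.exp (o.al * jb2 y) ^ 2 := by
        rw [← Real.exp_nat_mul]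
        refine (hKp _ hj).trans (le_of_eq ?_)
        congr 2
        push_cast
        ring
      have h4 : dz y ^ 2 ≤ M + K / M * Real.exp (o.al * jb2 y) ^ 2 := by
        refine h1.trans (h2.trans ?_)
        rw [div_mul_eq_mul_div]
        gcongr
      have h5 : (Real.exp (o.al * jb2 y) * o.aa y) ^ 2 ≤ Φ y ^ 2 := by
        have : Φ y = Real.exp (√o.g * jb2 y) * o.aa y := by
          simp only [hΦ, jb2, One.aa, mul_add, Real.exp_add]
          ring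
        rw [this, mul_pow, mul_pow]
        gcongr
        unfold One.al
        linarith
      have h6 : (tw.χ0 y - o.aa y) ^ 2 ≤ 2 * tw.χ0 y ^ 2 + 2 * o.aa y ^ 2 := by
        nlinarith [sq_nonneg (tw.χ0 y + o.aa y)]
      calc (dz y * (tw.χ0 y - o.aa y)) ^ 2 = dz y ^ 2 * (tw.χ0 y - o.aa y) ^ 2 := mul_pow _ _ _
        _ ≤ (M + K / M * Real.exp (o.al * jb2 y) ^ 2) * (tw.χ0 y - o.aa y) ^ 2 := by gcongr
        _ = M * (tw.χ0 y - o.aa y) ^ 2 +
            K / M * Real.exp (o.al * jb2 y) ^ 2 * (tw.χ0 y - o.aa y) ^ 2 := by ring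
        _ ≤ M * (tw.χ0 y - o.aa y) ^ 2 +
            K / M * Real.exp (o.al * jb2 y) ^ 2 * (2 * tw.χ0 y ^ 2 + 2 * o.aa y ^ 2) := by gcongr
        _ = M * (tw.χ0 y - o.aa y) ^ 2 + 2 * K / M * (Real.exp (o.al * jb2 y) * tw.χ0 y) ^ 2 +
            2 * K / M * (Real.exp (o.al * jb2 y) * o.aa y) ^ 2 := by ring
        _ ≤ _ := by gcongr
  have hδ : √(nsq fun y => dz y * (tw.χ0 y - o.aa y)) ≤ 1 / 10 := by
    refine Real.sqrt_le_iff.2 ⟨by norm_num, key.2.trans ?_⟩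
    rw [LWD_int3 i0 i1 i2]
    have c0 : ∫ y, (tw.χ0 y - o.aa y) ^ 2 ≤ 1 / (200 * M) := tw.c0.trans hCε
    have c1 : ∫ y, (Real.exp (o.al * jb2 y) * tw.χ0 y) ^ 2 ≤ C := tw.w0.2.1
    have c2 : 2 * K / M * (C + nsq Φ) ≤ 1 / 200 := by
      rw [div_mul_eq_mul_div, div_le_iff₀ hM0, hM]
      nlinarith
    calc _ ≤ M * (1 / (200 * M)) + 2 * K / M * C + 2 * K / M * nsq Φ := by
          gcongr
          exact le_rfl
      _ = 1 / 200 + 2 * K / M * (C + nsq Φ) := by field_simp; ring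
      _ ≤ _ := by linarith
  have hη : √(nsq fun y => tw.χ1 y - o.sy y) ≤ 1 / 20 := by
    refine Real.sqrt_le_iff.2 ⟨by norm_num, tw.c1.trans (hCε.trans ?_)⟩
    rw [div_le_iff₀ (by positivity)]
    linarith
  have hn0 : √(nsq fun y => dz y * o.aa y) ≤ 3 * κ := by
    refine Real.sqrt_le_iff.2 ⟨by linarith, n0.trans ?_⟩
    nlinarith
  have ms := (tw.h1.sub hsy).l2
  have e1 : (fun y => dz y * tw.χ0 y) =
      fun y => 1 * (dz y * o.aa y) + 1 * (dz y * (tw.χ0 y - o.aa y)) := by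
    funext y; ring
  have e2 : ip tw.χ1 (fun y => dz y * o.aa y) =
      √2 * κ + ip (fun y => dz y * o.aa y) fun y => tw.χ1 y - o.sy y := by
    have := TP_ip_lin hsy.l2 ms m0 1 1
    rw [TP_ip_comm, ← e0, TP_ip_comm o.sy]
    simp only [one_mul, add_sub_cancel] at this
    exact this
  have t1 := abs_le.1 ((Mu_ip m0 ms).trans (mul_le_mul hn0 hη (Real.sqrt_nonneg _) (by linarith)))
  have t2 := Mu_ip tw.h1.l2 key.1
  rw [tw.n1, Real.sqrt_one, one_mul] at t2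
  have t3 := abs_le.1 (t2.trans hδ)
  have t4 := (Mu_tri m0 key.1).trans (add_le_add hn0 hδ)
  have s1 : 14 / 10 ≤ √2 := Real.le_sqrt_of_sq_le (by norm_num)
  have s2 : √2 ≤ 15 / 10 := Real.sqrt_le_iff.2 ⟨by norm_num, by norm_num⟩
  have s3 : 14 / 10 * κ ≤ √2 * κ := by gcongr
  have s4 : √2 * κ ≤ 15 / 10 * κ := by gcongr
  rw [e1, TP_ip_lin m0 key.1 tw.h1.l2, e2]
  refine ⟨by linarith, by linarith, by linarith⟩

theorem Two.exists_mono (tw : Two o C ε) (hε : 0 ≤ ε) {C' : ℝ} (h : C ≤ C') :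
    ∃ tw' : Two o C' ε, tw'.χ0 = tw.χ0 ∧ tw'.χ1 = tw.χ1 := by
  have h1 : C * ε ≤ C' * ε := mul_le_mul_of_nonneg_right h hε
  refine ⟨⟨tw.χ0, tw.χ1, tw.g0, tw.g1, tw.E2, tw.gS, tw.h0, tw.h1, tw.n0, tw.n1, tw.s0, tw.s1,
    tw.P0, tw.P1, tw.eig0, tw.eig1, fun u g hu => le_trans ?_ (tw.gap0 u g hu), tw.c0.trans h1,
    tw.c1.trans h1, tw.E2_near.trans h1, tw.gS_near.trans h1, tw.d0.trans h, tw.d1.trans h,
    ⟨tw.w0.1, tw.w0.2.1.trans h, tw.w0.2.2.trans h⟩,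
    ⟨tw.w1.1, tw.w1.2.1.trans h, tw.w1.2.2.trans h⟩⟩, rfl, rfl⟩
  have h2 := ip_sq_le tw.h0.l2 hu.l2
  rw [tw.n0, one_mul] at h2
  gcongr

theorem mb_exists (o : One c) : ∃ C ε₀ : ℝ, 0 < ε₀ ∧ ∀ ε, 0 < ε → ε ≤ ε₀ →
    Nonempty (MB o C ε) := by
  obtain ⟨C1, ε1, hC1, hε1, h1⟩ := two_exists o
  obtain ⟨C2, ε2, -, hε2, h2⟩ := three_exists o
  have hsg : 0 < √o.g := Real.sqrt_pos.2 o.g_pos
  have hal : 0 < o.al := by unfold One.al; positivity
  obtain ⟨C3, h3⟩ := mult_of_wb hal C1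
  obtain ⟨C4, ε4, hε4, h4⟩ := dip_close o C1
  set C := max (max C1 C2) (max C3 C4) with hC
  have a1 : C1 ≤ C := (le_max_left _ _).trans (le_max_left _ _)
  have a2 : C2 ≤ C := (le_max_right _ _).trans (le_max_left _ _)
  have a3 : C3 ≤ C := (le_max_left _ _).trans (le_max_right _ _)
  have a4 : C4 ≤ C := (le_max_right _ _).trans (le_max_right _ _)
  have hC0 : 0 < C := by linarith
  have hg := o.g_pos
  refine ⟨C, min (min ε1 ε2) (min ε4 (o.g / 1000 / C)), by positivity, fun ε hε hle => ?_⟩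
  simp only [le_min_iff] at hle
  obtain ⟨⟨b1, b2⟩, b3, b4⟩ := hle
  obtain ⟨tw⟩ := h1 C1 le_rfl ε hε b1
  obtain ⟨th⟩ := h2 C a2 ε hε b2
  obtain ⟨tw', e0, e1⟩ := tw.exists_mono hε.le a1
  obtain ⟨d1, d2, d3⟩ := h4 ε tw b3
  refine ⟨⟨tw', th, hε, hC1.trans a1, ?_, ?_, ?_, ?_, ?_, ?_⟩⟩
  · rw [le_div_iff₀ hC0] at b4
    linarith
  · rw [e0]; exact h3 C a3 _ _ tw.h0 tw.d0 tw.w0
  · rw [e1]; exact h3 C a3 _ _ tw.h1 tw.d1 tw.w1
  · rw [e0, e1]; exact d1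
  · rw [e0, e1]; exact d2.trans a4
  · rw [e0, e1]; exact d3

end Crest.Agent.R335
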