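import Crest.Agent.R335.CP
import Crest.Agent.R335.Mu

/-! Row 335. The scalar channels. -/

set_option autoImplicit false

open MeasureTheory Set Filter Topology
open scoped ENNReal

noncomputable section

namespace Crest.Agent.R335

variable {c : ℝ} {o : One c} {C ε : ℝ}

variable (m : MB o C ε)

theorem C1_abs_ip {u w : Y → ℝ} (hu : MemLp u 2 volume) (hw : MemLp w 2 volume) :
    |ip u w| ≤ √(nsq u) * √(nsq w) := by
  rw [← Real.sqrt_mul (nsq_nonneg u)]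
  exact Real.abs_le_sqrt (ip_sq_le hu hw)

theorem C1_sub {a χ u : Y → ℝ} (ha : MemLp (fun y => a y * χ y) 2 volume) (hχ : MemLp χ 2 volume)
    (hu : MemLp u 2 volume) (t : ℝ) : MemLp (fun y => (a y - t) * χ y) 2 volume ∧
      ip (fun y => (a y - t) * χ y) u = ip (fun y => a y * χ y) u - t * ip χ u := by
  constructor
  · simp only [sub_mul]
    exact ha.sub (hχ.const_mul t)
  · simp only [ip]
    rw [← integral_const_mul, ← integral_sub (LWD_int_mul ha hu) ((LWD_int_mul hχ hu).const_mul t)]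
    exact integral_congr_ae (.of_forall fun y => by ring)

theorem C1_odd (x : X) {χ u : Y → ℝ} (hχ : ∀ y, χ (PY y) = -χ y) (hu : ∀ y, u (PY y) = u y)
    (h : MemLp (fun y => W x y * χ y) 2 volume) (h' : MemLp (fun y => W (P x) y * χ y) 2 volume)
    (h2 : MemLp u 2 volume) :
    ip (fun y => W x y * χ y) u = ip (fun y => Wo x y * χ y) u := by
  simp only [ip, mul_assoc]
  refine integral_W_odd x (u := fun y => χ y * u y) (fun y => by rw [hχ, hu, neg_mul]) ?_ ?_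
  · simpa only [mul_assoc] using LWD_int_mul h h2
  · simpa only [mul_assoc] using LWD_int_mul h' h2

theorem C1_nsq {u : X → ℝ} {a b : ℝ} (h0 : 0 < ε) (h1 : ε ≤ 1 / 10000000) (hC : 1 ≤ C)
    (ha : a ≤ C) (hb : b = 1) (h : nsq u ≤ 8 * a * b) (t : ℝ) (ht : t = ε) :
    nsq (fun x => t * u x) ≤ C * ε := by
  subst ht hb
  have e : nsq (fun x => t * u x) = t ^ 2 * nsq u := by
    simp only [nsq, mul_pow, integral_const_mul]
  have h2 : t ^ 2 * nsq u ≤ t ^ 2 * (8 * C) :=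
    mul_le_mul_of_nonneg_left (by linarith) (sq_nonneg _)
  have h3 : 0 ≤ C * t * (1 - 8 * t) := mul_nonneg (by positivity) (by linarith)
  rw [e]
  nlinarith

theorem C1_dir {ψ : T → ℝ} {g : IT → T → ℝ} (h : H1 eT ψ g) {χ : Y → ℝ} (hm : Measurable χ)
    (hχ : MemLp χ 2 volume) (h1 : nsq χ = 1) :
    dir (fun (i : Fin 3) (x : X) => ∫ y, g (.inl i) (x, y) * χ y) ≤ dir g := by
  have i1 := TP_int_inl h
  have h2 : 0 ≤ ∫ p, ∑ j, g (.inr j) p ^ 2 := integral_nonneg fun p => by positivity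
  have h3 : dir (fun (i : Fin 3) (x : X) => ∫ y, g (.inl i) (x, y) * χ y) ≤
      ∫ x, ∫ y, ∑ i, g (.inl i) (x, y) ^ 2 := by
    refine integral_mono_ae (h.contract hm hχ).integrable_gs i1.integral_prod_left ?_
    filter_upwards [h.sl] with x hx
    rw [integral_finsetSum _ fun i _ => (hx.2 i).integrable_sq]
    refine Finset.sum_le_sum fun i _ => ?_
    have := ip_sq_le (hx.2 i) hχ
    rw [h1, mul_one] at this
    exact this
  have h4 : ∫ p, ∑ i, g (.inl i) p ^ 2 = ∫ x, ∫ y, ∑ i, g (.inl i) (x, y) ^ 2 := integral_prod _ i1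
  rw [TP_dir h, h4]
  linarith

theorem MB.C1_Sp (x : X) :
    m.Sp x = ε * ip (fun y => W x y * m.tw.χ0 y) (fun y => m.th.ψ (x, y)) := by
  simp only [MB.Sp, ip, mul_right_comm]

theorem MB.C1_p (x : X) : m.p x = -ip m.tw.χ0 (fun y => m.th.ψ (x, y)) := by
  simp only [MB.p, ip, mul_comm]

theorem MB.solp : Sol univ m.p m.gp (fun x => m.Sp x - (V o.D x + m.I) * m.p x) ∧
    MemLp m.Sp 2 volume ∧ nsq m.Sp ≤ C * ε ∧ dir m.gp ≤ C := by
  have hε := m.ε_le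
  obtain ⟨h1, h2, h3⟩ := chan_eq m.ε0.le (by linarith) m.th.hψ m.th.eig m.tw.h0 m.tw.eig0
  refine ⟨?_, h1.const_mul ε, C1_nsq m.ε0 hε m.C1 m.tw.d0 m.th.nψ h2 ε rfl, ?_⟩
  · convert h3.smul (-1) using 1
    · funext x
      simp only [MB.p, neg_mul, one_mul]
    · funext i x
      simp only [MB.gp, neg_mul, one_mul]
    · funext x
      simp only [MB.p, MB.Sp, MB.I]
      ring
  · refine le_trans (le_of_eq ?_) ((C1_dir m.th.hψ m.tw.h0.m m.tw.h0.l2 m.tw.n0).trans m.th.dψ)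
    simp only [dir, gs, MB.gp, neg_sq]

theorem MB.solq : Sol univ m.q m.gq (fun x => m.Sq x - (V o.D x + m.I + m.tw.gS) * m.q x) ∧
    MemLp m.Sq 2 volume ∧ nsq m.Sq ≤ C * ε ∧ dir m.gq ≤ C := by
  have hε := m.ε_le
  obtain ⟨h1, h2, h3⟩ := chan_eq m.ε0.le (by linarith) m.th.hψ m.th.eig m.tw.h1 m.tw.eig1
  refine ⟨?_, (h1.const_mul ε).neg, ?_,
    (C1_dir m.th.hψ m.tw.h1.m m.tw.h1.l2 m.tw.n1).trans m.th.dψ⟩
  · refine Eq.subst (motive := Sol univ m.q m.gq) ?_ h3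
    funext x
    simp only [MB.q, MB.Sq, MB.I]
    ring
  · refine le_trans (le_of_eq ?_) (C1_nsq m.ε0 hε m.C1 m.tw.d1 m.th.nψ h2 ε rfl)
    simp only [nsq, MB.Sq, neg_sq]

/-- `Sp + 2 ε p / r = ε ∫ (W - 2 / r) χ0 ψ`; `m1`. -/
theorem MB.Sp_ext : ∀ᵐ x, 1 ≤ ‖x‖ →
    |m.Sp x + 2 * ε / ‖x‖ * m.p x| ≤ ε * C / ‖x‖ ^ 2 * (|m.p x| + sn m.L x) := by
  filter_upwards [LSlice_memLp_right m.th.hψ.l2, m.slices] with x hψ hs hx
  obtain ⟨a1, a2⟩ := C1_sub (m.mu0.m0 x).1 m.tw.h0.l2 hψ (2 / ‖x‖)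
  have e : m.Sp x + 2 * ε / ‖x‖ * m.p x =
      ε * ip (fun y => (W x y - 2 / ‖x‖) * m.tw.χ0 y) (fun y => m.th.ψ (x, y)) := by
    rw [a2, m.C1_Sp, m.C1_p]
    ring
  have h1 := (C1_abs_ip a1 hψ).trans
    (mul_le_mul_of_nonneg_right (m.mu0.m1 x hx) (Real.sqrt_nonneg _))
  have h2 : √(nsq fun y => m.th.ψ (x, y)) ≤ |m.p x| + sn m.L x := by
    have h0 := sn_nonneg m.L x
    refine Real.sqrt_le_iff.2 ⟨by positivity, ?_⟩
    have h3 : (nsq fun y => m.th.ψ (x, y)) = sn m.th.ψ x ^ 2 := (sn_sq _ _).symm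
    rw [h3, hs.2.2.2.2.2.1, add_sq, sq_abs]
    have := mul_nonneg (abs_nonneg (m.p x)) h0
    linarith
  have hC : 0 ≤ C / ‖x‖ ^ 2 := div_nonneg (by linarith [m.C1]) (sq_nonneg _)
  rw [e, abs_mul, abs_of_pos m.ε0, mul_div_assoc, mul_assoc]
  exact mul_le_mul_of_nonneg_left (h1.trans (mul_le_mul_of_nonneg_left h2 hC)) m.ε0.le

theorem MB.Sp_bd : ∀ᵐ x, |m.Sp x| ≤ ε * C * sn m.th.ψ x := by
  filter_upwards [LSlice_memLp_right m.th.hψ.l2] with x hψ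
  rw [m.C1_Sp, abs_mul, abs_of_pos m.ε0, mul_assoc]
  exact mul_le_mul_of_nonneg_left ((C1_abs_ip (m.mu0.m0 x).1 hψ).trans
    (mul_le_mul_of_nonneg_right (m.mu0.m0 x).2 (Real.sqrt_nonneg _))) m.ε0.le

/-- `∫ W ψ χ1 = -p ∫ Wo χ0 χ1 + ∫ Wo χ1 E + 2 q / r + ∫ (W - 2 / r) χ1 (q χ1 + B)` (parity:
`∫ W u = ∫ Wo u` for odd `u`); `m2` for `χ0`, `m3` and `m1` for `χ1`. -/
theorem MB.Sq_ext : ∀ᵐ x : X, 1 ≤ ‖x‖ →
    |m.Sq x - ε * m.d * x 2 / ‖x‖ ^ 3 * m.p x + 2 * ε / ‖x‖ * m.q x| ≤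
      ε * C * ((1 + |x 2|) / ‖x‖ ^ 4 * |m.p x| + (|m.q x| + sn m.B x) / ‖x‖ ^ 2 +
        (1 + |x 2|) / ‖x‖ ^ 3 * sn m.E x) := by
  filter_upwards [LSlice_memLp_right m.orthE.h1.l2, LSlice_memLp_right m.orthB.h1.l2, m.slices]
    with x hE hB hs hx
  have h0 := m.tw.h0.l2
  have h1 := m.tw.h1.l2
  have hw := (m.mu1.m0 x).1
  have hw' := (m.mu1.m0 (P x)).1
  -- the decomposition
  have e1 : m.Sq x = -(ε * (-m.p x * ip (fun y => W x y * m.tw.χ1 y) m.tw.χ0 +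
      ip (fun y => W x y * m.tw.χ1 y) (fun y => m.E (x, y)) +
      m.q x * ip (fun y => W x y * m.tw.χ1 y) m.tw.χ1 +
      ip (fun y => W x y * m.tw.χ1 y) (fun y => m.B (x, y)))) := by
    have i1 := (LWD_int_mul hw h0).const_mul (-m.p x)
    have i2 := LWD_int_mul hw hE
    have i3 := (LWD_int_mul hw h1).const_mul (m.q x)
    have i4 := LWD_int_mul hw hB
    simp only [MB.Sq, ip, ← integral_const_mul (-m.p x), ← integral_const_mul (m.q x)]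
    rw [← integral_add' i1 i2, ← integral_add' (i1.add i2) i3,
      ← integral_add' ((i1.add i2).add i3) i4]
    congr 2
    refine integral_congr_ae (.of_forall fun y => ?_)
    simp only [(m.decomp x y).1, (m.decomp x y).2.1, Pi.add_apply]
    ring
  have e2 := C1_odd x m.tw.P1 m.tw.P0 hw hw' h0
  have e3 := C1_odd x m.tw.P1 (fun y => (m.decomp x y).2.2.1) hw hw' hE
  obtain ⟨a1, e4⟩ := C1_sub hw h1 h1 (2 / ‖x‖)
  obtain ⟨-, e5⟩ := C1_sub hw h1 hB (2 / ‖x‖)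
  have e6 : ip m.tw.χ1 (fun y => m.B (x, y)) = 0 := hs.2.2.2.1
  rw [TS_ip_self, m.tw.n1] at e4
  have a2 : MemLp (fun y => (Wo x y - x 2 / ‖x‖ ^ 3 * dz y) * m.tw.χ0 y) 2 volume := by
    have := (m.mu0.mo x).sub (m.mu0.mz.const_mul (x 2 / ‖x‖ ^ 3))
    refine Eq.subst (motive := fun f => MemLp f 2 volume) ?_ this
    funext y
    simp only [Pi.sub_apply]
    ring
  have e7 : ip (fun y => Wo x y * m.tw.χ1 y) m.tw.χ0 = x 2 / ‖x‖ ^ 3 * m.d +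
      ip (fun y => (Wo x y - x 2 / ‖x‖ ^ 3 * dz y) * m.tw.χ0 y) m.tw.χ1 := by
    simp only [MB.d, ip]
    rw [← integral_const_mul, ← integral_add ((LWD_int_mul h1 m.mu0.mz).const_mul _)
      (LWD_int_mul a2 h1)]
    exact integral_congr_ae (.of_forall fun y => by ring)
  have b1 := (C1_abs_ip a2 h1).trans
    (mul_le_mul_of_nonneg_right (m.mu0.m2 x hx) (Real.sqrt_nonneg _))
  have b2 := (C1_abs_ip (m.mu1.mo x) hE).trans
    (mul_le_mul_of_nonneg_right (m.mu1.m3 x hx) (Real.sqrt_nonneg _))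
  have b3 := (C1_abs_ip a1 h1).trans
    (mul_le_mul_of_nonneg_right (m.mu1.m1 x hx) (Real.sqrt_nonneg _))
  have b4 := (C1_abs_ip a1 hB).trans
    (mul_le_mul_of_nonneg_right (m.mu1.m1 x hx) (Real.sqrt_nonneg _))
  rw [m.tw.n1, Real.sqrt_one, mul_one] at b1 b3
  rw [show √(nsq fun y => m.E (x, y)) = sn m.E x from rfl] at b2
  rw [show √(nsq fun y => m.B (x, y)) = sn m.B x from rfl] at b4
  rw [e6, mul_zero, sub_zero] at e5
  generalize ip (fun y => (Wo x y - x 2 / ‖x‖ ^ 3 * dz y) * m.tw.χ0 y) m.tw.χ1 = R1 at e7 b1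
  generalize ip (fun y => Wo x y * m.tw.χ1 y) (fun y => m.E (x, y)) = R2 at e3 b2
  generalize ip (fun y => (W x y - 2 / ‖x‖) * m.tw.χ1 y) m.tw.χ1 = R3 at e4 b3
  generalize ip (fun y => (W x y - 2 / ‖x‖) * m.tw.χ1 y) (fun y => m.B (x, y)) = R4 at e5 b4
  have e : m.Sq x - ε * m.d * x 2 / ‖x‖ ^ 3 * m.p x + 2 * ε / ‖x‖ * m.q x =
      ε * (m.p x * R1 - R2 - m.q x * R3 - R4) := by
    rw [e1, e2, e3, e7, e4, e5]
    ring
  rw [e, abs_mul, abs_of_pos m.ε0, mul_assoc]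
  refine mul_le_mul_of_nonneg_left ?_ m.ε0.le
  have c1 : |m.p x * R1| ≤ |m.p x| * (C * (1 + |x 2|) / ‖x‖ ^ 4) := by
    rw [abs_mul]
    exact mul_le_mul_of_nonneg_left b1 (abs_nonneg _)
  have c3 : |m.q x * R3| ≤ |m.q x| * (C / ‖x‖ ^ 2) := by
    rw [abs_mul]
    exact mul_le_mul_of_nonneg_left b3 (abs_nonneg _)
  have d1 := abs_sub (m.p x * R1 - R2 - m.q x * R3) R4
  have d2 := abs_sub (m.p x * R1 - R2) (m.q x * R3)
  have d3 := abs_sub (m.p x * R1) R2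
  calc _ ≤ |m.p x| * (C * (1 + |x 2|) / ‖x‖ ^ 4) + C * (1 + |x 2|) / ‖x‖ ^ 3 * sn m.E x +
        |m.q x| * (C / ‖x‖ ^ 2) + C / ‖x‖ ^ 2 * sn m.B x := by linarith
    _ = _ := by ring

end Crest.Agent.R335
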