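import Crest.Agent.R335.CP
import Crest.Agent.R335.Mu

/-! Row 335. The subsolutions `s`, `nL`, `nD` (`Orth.zf`, `kato`). -/

set_option autoImplicit false

open MeasureTheory Set Filter Topology
open scoped ENNReal

noncomputable section

namespace Crest.Agent.R335

variable {c : ℝ} {o : One c} {C ε : ℝ}

variable (m : MB o C ε)

theorem C3_split {w : Y → ℝ} (hw : MemLp w 2 volume) {x : X} (hx : 1 ≤ ‖x‖) :
    |(∫ y, W x y * m.tw.χ0 y * w y) - 2 / ‖x‖ * ip m.tw.χ0 w| ≤ C / ‖x‖ ^ 2 * √(nsq w) := by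
  have h0 := (m.mu0.m0 x).1
  have h1 := m.mu0.m1 x hx
  have hA : MemLp (fun y => (W x y - 2 / ‖x‖) * m.tw.χ0 y) 2 volume := by
    simp only [sub_mul]
    exact h0.sub (m.tw.h0.l2.const_mul (2 / ‖x‖))
  have e : (∫ y, W x y * m.tw.χ0 y * w y) - 2 / ‖x‖ * ip m.tw.χ0 w =
      ip (fun y => (W x y - 2 / ‖x‖) * m.tw.χ0 y) w := by
    have := LWD_int2 (LWD_int_mul h0 hw) (LWD_int_mul m.tw.h0.l2 hw) 1 (-(2 / ‖x‖))
    rw [one_mul, neg_mul (2 / ‖x‖), ← sub_eq_add_neg] at this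
    refine this.symm.trans (integral_congr_ae (.of_forall fun y => ?_))
    beta_reduce
    ring
  rw [e]
  refine (Real.abs_le_sqrt (ip_sq_le hA hw)).trans ?_
  rw [Real.sqrt_mul (nsq_nonneg _)]
  gcongr

theorem C3_W_nonneg (x : X) (u : Y → ℝ) : 0 ≤ ∫ y, W x y * u y * u y :=
  integral_nonneg fun y => by
    simp only [Pi.zero_apply, mul_assoc]
    exact mul_nonneg (W_nonneg x y) (mul_self_nonneg _)

/-- `u = κ χ0 + Λ`: `qf u = E2 κ² + qf Λ`, `gap0`, and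
`∫ W u² ≥ κ² (2 / r - C / r²) - 2 |κ| (C / r²) ‖Λ‖` (`m1`, `W ≥ 0`). -/
theorem MB.op_bound {u : Y → ℝ} {k : IY → Y → ℝ} (hu : H1 eY u k) {x : X} (hx : 1 ≤ ‖x‖) :
    (m.tw.E2 + 2 * ε / ‖x‖ - ε * (2 * C) / ‖x‖ ^ 2) * nsq u ≤
      qf (U2 o.D ε) u k + ε * ∫ y, W x y * u y * u y := by
  have hχ := m.tw.h0
  set κ := ip m.tw.χ0 u with hκ
  have hΛ := hu.lin hχ 1 (-κ)
  have hS := hu.lin hχ 2 (-κ)
  have hc : ip u m.tw.χ0 = κ := TS_ip_comm _ _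
  have n1 := nsq_lin hu.l2 hχ.l2 2 (-κ)
  rw [m.tw.n0, hc] at n1
  have i1 := TP_ip_lin hu.l2 hχ.l2 hχ.l2 2 (-κ)
  rw [TS_ip_self, m.tw.n0, ← hκ] at i1
  have h1 := C3_split m hS.l2 hx
  rw [n1, i1] at h1
  have h2 := C3_W_nonneg x fun y => 1 * u y + -κ * m.tw.χ0 y
  have h3 : ∫ y, W x y * u y * u y =
      1 * (∫ y, W x y * (1 * u y + -κ * m.tw.χ0 y) * (1 * u y + -κ * m.tw.χ0 y)) +
        κ * ∫ y, W x y * m.tw.χ0 y * (2 * u y + -κ * m.tw.χ0 y) := by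
    refine Eq.trans (integral_congr_ae (.of_forall fun y => ?_))
      (LWD_int2 (LWD_int_mul (hardy_Y hΛ x).1 hΛ.l2) (LWD_int_mul (m.mu0.m0 x).1 hS.l2) 1 κ)
    beta_reduce
    ring
  have h4 := m.tw.gap0 u k hu
  rw [← hκ] at h4
  have h5 : κ ^ 2 ≤ nsq u := by
    have := ip_sq_le hχ.l2 hu.l2
    rwa [m.tw.n0, one_mul] at this
  have hC := m.C1
  have hε := m.ε0
  have hεC := m.εC
  have hδ : 0 ≤ C / ‖x‖ ^ 2 := by positivity
  have hr : 2 * ε / ‖x‖ ≤ 2 * ε := div_le_self (by positivity) hx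
  set S := 2 ^ 2 * nsq u + 2 * 2 * -κ * κ + (-κ) ^ 2 * 1 with hSdef
  have hS0 : 0 ≤ S := by rw [hSdef]; nlinarith
  have h6 : |κ| * √S ≤ (κ ^ 2 + S) / 2 := by
    nlinarith [sq_nonneg (|κ| - √S), Real.sq_sqrt hS0, sq_abs κ]
  set J := ∫ y, W x y * m.tw.χ0 y * (2 * u y + -κ * m.tw.χ0 y) with hJ
  have h7 : -(C / ‖x‖ ^ 2 * ((κ ^ 2 + S) / 2)) ≤ κ * (J - 2 / ‖x‖ * (2 * κ + -κ * 1)) := by
    refine (neg_le_neg ?_).trans (neg_abs_le _)
    rw [abs_mul]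
    calc _ ≤ |κ| * (C / ‖x‖ ^ 2 * √S) := by gcongr
      _ = C / ‖x‖ ^ 2 * (|κ| * √S) := by ring
      _ ≤ _ := by gcongr
  have h8 := mul_le_mul_of_nonneg_left h7 hε.le
  have h9 : 2 * ε / ‖x‖ * (nsq u - κ ^ 2) ≤ (o.g - C * ε) * (nsq u - κ ^ 2) :=
    mul_le_mul_of_nonneg_right (by nlinarith) (by linarith)
  have h10 := mul_nonneg hε.le h2
  have h11 : 0 ≤ ε * (C / ‖x‖ ^ 2) * κ ^ 2 := by positivity
  rw [h3]
  have e1 : ε * (2 * C) / ‖x‖ ^ 2 = 2 * (ε * (C / ‖x‖ ^ 2)) := by ring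
  have e2 : 2 * ε / ‖x‖ = ε * (2 / ‖x‖) := by ring
  rw [e1]
  rw [e2] at h9 ⊢
  rw [hSdef] at h8
  nlinarith

theorem memLp_ext_mul {R : ℝ} {a u : X → ℝ} (ha : Measurable a) {M : ℝ}
    (hM : ∀ x, R < ‖x‖ → |a x| ≤ M) (hu : MemLp u 2 volume) :
    MemLp (fun x => a x * u x) 2 (volume.restrict (ext R)) := by
  refine ((hu.restrict _).const_mul M).of_le
    (ha.aestronglyMeasurable.mul (hu.restrict _).aestronglyMeasurable) ?_
  refine (ae_restrict_iff' (measurableSet_ext R)).2 (.of_forall fun x hx => ?_)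
  rw [norm_mul, norm_mul]
  exact mul_le_mul_of_nonneg_right ((hM x hx).trans (le_abs_self M)) (norm_nonneg _)

theorem C3_pot (D : ℝ) (hD : 1 ≤ D) (a b d : ℝ) {u : X → ℝ} (hu : MemLp u 2 volume) :
    MemLp (fun x => (V D x + a + b / ‖x‖ - d / ‖x‖ ^ 2) * u x) 2
      (volume.restrict (ext (2 * D + 1))) := by
  refine memLp_ext_mul (M := 4 + |a| + |b| + |d|) ?_ (fun x hx => ?_) hu
  · have := measurable_V D
    fun_prop
  · have h1 : 1 ≤ ‖x‖ := by linarith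
    have h2 := (V_ext' hD (x := x) (by linarith)).trans (div_le_self (by norm_num) h1)
    have h3 : |b / ‖x‖| ≤ |b| := LBar_abs_div h1
    have h4 : |d / ‖x‖ ^ 2| ≤ |d| := LBar_abs_div (one_le_pow₀ h1)
    have h5 := abs_sub (V D x + a + b / ‖x‖) (d / ‖x‖ ^ 2)
    have h6 := abs_add_le (V D x + a) (b / ‖x‖)
    have h7 := abs_add_le (V D x) a
    linarith

theorem C3_pot' (D : ℝ) (hD : 1 ≤ D) (a b d : ℝ) {u : X → ℝ} (hu : MemLp u 2 volume) :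
    MemLp (fun x => (V D x + a + b - d) * u x) 2 (volume.restrict (ext (2 * D + 1))) := by
  have := C3_pot D hD (a + b - d) 0 0 hu
  simp only [zero_div, add_zero, sub_zero] at this
  convert this using 3
  ring

theorem C3_gap {u : Y → ℝ} {k : IY → Y → ℝ} (hu : H1 eY u k) (h0 : ip m.tw.χ0 u = 0) {C' : ℝ}
    (h : C ≤ C') : (m.tw.E2 + o.g - C' * ε) * nsq u ≤ qf (U2 o.D ε) u k := by
  have h1 := m.tw.gap0 u k hu
  have h2 := mul_le_mul_of_nonneg_right (mul_le_mul_of_nonneg_right h m.ε0.le) (nsq_nonneg u)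
  rw [h0] at h1
  nlinarith

/-- `Orth.refl` for `ψ` and for `ψ ∘ cyc` (`Eig.comp_cyc`), `Zf.smul`, `Zf.sqrt`. -/
theorem MB.subs {C' : ℝ} (h : 2 * C ≤ C') : Sub (ext o.Rs) m.s m.gr fun x =>
    -((V o.D x + m.I + 2 * ε / ‖x‖ - ε * C' / ‖x‖ ^ 2) * m.s x) := by
  have h0 := m.ε0.le
  have h1 : ε ≤ 1 := m.ε_le.trans (by norm_num)
  have hD := m.th.hψ.comp_cyc
  obtain ⟨i1, z1⟩ := Orth.zf h0 h1 m.th.hψ m.th.eig (Orth.refl _ m.th.hψ)
  obtain ⟨i2, z2⟩ := Orth.zf h0 h1 hD m.th.eig.comp_cyc (Orth.refl _ hD)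
  have hm := measurableSet_ext o.Rs
  have z3 := Zf.sqrt hm ((sn_spec m.th.hψ).1.smul √2) (sn_spec hD).1
    (i1.const_mul (√2 ^ 2)).integrableOn i2.integrableOn
    (z1.of_univ.smul (Real.sqrt_pos.2 two_pos)) z2.of_univ
  refine kato hm m.s_spec.1 (fun x => Real.sqrt_nonneg _)
    ((i1.const_mul (√2 ^ 2)).add i2).integrableOn z3
    (C3_pot o.D o.D1 _ _ _ m.s_spec.1.l2).neg (.of_forall fun x _ hx => by simp [hx]) ?_
  filter_upwards [m.th.hψ.sl, hD.sl] with x a1 a2 hx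
  have hr : 1 ≤ ‖x‖ := by
    have : o.Rs < ‖x‖ := hx
    linarith [o.Rs_ge]
  have b1 := m.op_bound a1.1 hr
  have b2 := m.op_bound a2.1 hr
  rw [← sn_sq] at b1 b2
  have e : m.s x * m.s x = 2 * sn m.th.ψ x ^ 2 + sn (fun p => m.th.ψ (cyc p)) x ^ 2 := by
    unfold MB.s
    rw [Real.mul_self_sqrt (by positivity), mul_pow, Real.sq_sqrt two_pos.le]
    rfl
  have b3 : ε * (2 * C) / ‖x‖ ^ 2 * (m.s x * m.s x) ≤ ε * C' / ‖x‖ ^ 2 * (m.s x * m.s x) := by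
    have := mul_self_nonneg (m.s x)
    gcongr
  simp only [Pi.add_apply]
  rw [neg_mul, neg_neg, mul_assoc _ (m.s x), Real.sq_sqrt two_pos.le]
  rw [e] at b3 ⊢
  simp only [sl] at b1 b2 ⊢
  unfold MB.I
  linarith

/-- `∫ W ψ L = -p ∫ (W - 2 / r) χ0 L + ∫ W L²`. -/
theorem MB.subL {C' : ℝ} (h : C ≤ C') : Sub (ext o.Rs) (sn m.L) (gsn m.L m.gL) fun x =>
    ε * C' / ‖x‖ ^ 2 * |m.p x| - (V o.D x + m.I + o.g - C' * ε) * sn m.L x := by
  have h0 := m.ε0.le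
  have h1 : ε ≤ 1 := m.ε_le.trans (by norm_num)
  have hL := m.orthL.h1
  obtain ⟨i1, z1⟩ := Orth.zf h0 h1 m.th.hψ m.th.eig m.orthL
  have hm := measurableSet_ext o.Rs
  have hC : 0 ≤ C' := by linarith [m.C1]
  have hp : MemLp (fun x => |m.p x|) 2 volume :=
    (m.th.hψ.contract m.tw.h0.m m.tw.h0.l2).l2.neg.abs
  have hf1 : MemLp (fun x => ε * C' / ‖x‖ ^ 2 * |m.p x|) 2 (volume.restrict (ext o.Rs)) :=
    memLp_ext_mul (M := |ε * C'|) (by fun_prop)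
      (fun x hx => LBar_abs_div (one_le_pow₀ (by linarith [o.Rs_ge]))) hp
  refine kato hm (sn_spec hL).1 (sn_nonneg _) i1.integrableOn z1.of_univ
    (hf1.sub (C3_pot' o.D o.D1 _ _ _ (sn_spec hL).1.l2))
    (.of_forall fun x _ hx => by rw [hx, mul_zero, sub_zero]; positivity) ?_
  filter_upwards [hL.sl, m.slices] with x a1 a2 hx
  have hr : 1 ≤ ‖x‖ := by
    have : o.Rs < ‖x‖ := hx
    linarith [o.Rs_ge]
  have b1 := C3_gap m a1.1 a2.1 h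
  have b2 := C3_split m a1.1.l2 hr
  rw [a2.1, mul_zero, sub_zero, ← sn_sq, Real.sqrt_sq (sn_nonneg _ _)] at b2
  rw [← sn_sq] at b1
  have b3 := C3_W_nonneg x (sl m.L x)
  have b4 : ∫ y, W x y * m.th.ψ (x, y) * m.L (x, y) =
      -m.p x * (∫ y, W x y * m.tw.χ0 y * sl m.L x y) +
        1 * ∫ y, W x y * sl m.L x y * sl m.L x y := by
    refine Eq.trans (integral_congr_ae (.of_forall fun y => ?_))
      (LWD_int2 (LWD_int_mul (m.mu0.m0 x).1 a1.1.l2) (LWD_int_mul (hardy_Y a1.1 x).1 a1.1.l2) _ _)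
    simp only [sl]
    rw [(m.decomp x y).1]
    ring
  have b5 : m.p x * (∫ y, W x y * m.tw.χ0 y * sl m.L x y) ≤
      |m.p x| * (C' / ‖x‖ ^ 2 * sn m.L x) := by
    refine (le_abs_self _).trans ?_
    rw [abs_mul]
    have := sn_nonneg m.L x
    gcongr
    exact b2.trans (by gcongr)
  have b6 := mul_le_mul_of_nonneg_left b5 h0
  have b7 := mul_nonneg h0 b3
  rw [b4]
  unfold MB.I
  have e : ε * C' / ‖x‖ ^ 2 = ε * (C' / ‖x‖ ^ 2) := by ring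
  rw [e]
  linarith

theorem MB.subD {C' : ℝ} (h : C ≤ C') : Sub (ext o.Rs) (sn m.Dn) (gsn m.Dn m.gDn) fun x =>
    -((V o.D x + m.I + o.g - C' * ε) * sn m.Dn x) := by
  have h0 := m.ε0.le
  have h1 : ε ≤ 1 := m.ε_le.trans (by norm_num)
  have hD : H1 eT m.Dn m.gDn := m.th.hψ.comp_cyc
  obtain ⟨i1, z1⟩ := Orth.zf h0 h1 hD m.th.eig.comp_cyc (Orth.refl _ hD)
  have hm := measurableSet_ext o.Rs
  refine kato hm (sn_spec hD).1 (sn_nonneg _) i1.integrableOn z1.of_univ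
    (C3_pot' o.D o.D1 _ _ _ (sn_spec hD).1.l2).neg (.of_forall fun x _ hx => by simp [hx]) ?_
  filter_upwards [hD.sl, m.slices] with x a1 a2 _
  have b1 := C3_gap m a1.1 a2.2.2.2.2.1 h
  rw [← sn_sq] at b1
  have b3 := mul_nonneg h0 (C3_W_nonneg x (sl m.Dn x))
  simp only [sl] at b1 b3 ⊢
  unfold MB.I
  linarith

end Crest.Agent.R335
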