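import Crest.Agent.R335.C5
import Crest.Agent.R335.C1

/-! Row 335. The subsolutions `nB`, `nE` (`Orth.zf`, `kato2`). -/

set_option autoImplicit false

open MeasureTheory Set Filter Topology
open scoped ENNReal

noncomputable section

namespace Crest.Agent.R335

variable {c : ℝ} {o : One c} {C ε : ℝ}

/-- Keep a part of the kinetic energy: `qf ≥ (1 - 4 ε) qf + ε (dir - 800 nsq)` (`FB.dir_le`). -/
theorem MB.gap_kin (m : MB o C ε) {u : Y → ℝ} {k : IY → Y → ℝ} (hu : H1 eY u k)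
    (h0 : ip m.tw.χ0 u = 0) :
    (m.tw.E2 + o.g - (C + 1000) * ε) * nsq u + ε * dir k ≤ qf (U2 o.D ε) u k := by
  have hε := m.ε0
  have hε1 := m.ε_le
  have h1 := m.tw.gap0 u k hu
  rw [h0] at h1
  have h2 := (fb_U2 o.D hε.le (by linarith)).dir_le hu
  have hN := nsq_nonneg u
  have h3 := abs_le.1 m.tw.E2_near
  have h4 := abs_le.1 o.ea_near
  have h5 := o.g_le
  have hl : m.tw.E2 + o.g - C * ε ≤ 1 := by linarith [h3.2, h4.2]
  set Q := qf (U2 o.D ε) u k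
  set N := nsq u
  set l := m.tw.E2 + o.g - C * ε with hl'
  have a1 : l * N ≤ Q := by rw [hl']; linarith
  have a2 : ε * dir k ≤ ε * (4 * (Q + 200 * N)) := mul_le_mul_of_nonneg_left h2 hε.le
  have a3 : (1 - 4 * ε) * (l * N) ≤ (1 - 4 * ε) * Q :=
    mul_le_mul_of_nonneg_left a1 (by linarith)
  have a4 : 0 ≤ ε * N * (50 - l) := mul_nonneg (mul_nonneg hε.le hN) (by linarith)
  have e : (m.tw.E2 + o.g - (C + 1000) * ε) = l - 1000 * ε := by rw [hl']; ring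
  rw [e]
  nlinarith

theorem C4_cs {a b : Y → ℝ} (ha : MemLp a 2 volume) (hb : MemLp b 2 volume) :
    |∫ y, a y * b y| ≤ √(nsq a) * √(nsq b) := by
  rw [← Real.sqrt_mul (nsq_nonneg a)]
  exact Real.abs_le_sqrt (ip_sq_le ha hb)

theorem C4_int (x : X) {a w : Y → ℝ} {k : IY → Y → ℝ} (ha : MemLp a 2 volume) (hw : H1 eY w k) :
    Integrable fun y => W x y * (a y * w y) :=
  (LNorm_int ha (hardy_Y hw x).1).congr (.of_forall fun y => by simp only; ring)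

theorem C4_odd (x : X) {a w : Y → ℝ} {k : IY → Y → ℝ} (ha : MemLp a 2 volume) (hw : H1 eY w k)
    (ho : ∀ y, a (PY y) * w (PY y) = -(a y * w y)) :
    ∫ y, W x y * (a y * w y) = ∫ y, Wo x y * (a y * w y) :=
  integral_W_odd x (u := fun y => a y * w y) ho (C4_int x ha hw) (C4_int (P x) ha hw)

theorem C4_mono {α K : ℝ} {χ w : Y → ℝ} (h : Mult α K χ) (hχ : MemLp χ 2 volume)
    (hw : MemLp w 2 volume) (h0 : ip χ w = 0) {x : X} (hx : 1 ≤ ‖x‖) :
    |∫ y, W x y * (χ y * w y)| ≤ K / ‖x‖ ^ 2 * √(nsq w) := by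
  have m1 : MemLp (fun y => (W x y - 2 / ‖x‖) * χ y) 2 volume := by
    have := (h.m0 x).1.sub (hχ.const_mul (2 / ‖x‖))
    refine this.ae_eq (.of_forall fun y => ?_)
    simp only [Pi.sub_apply]
    ring
  have e : ∫ y, W x y * (χ y * w y) = ∫ y, (W x y - 2 / ‖x‖) * χ y * w y := by
    have i1 := LNorm_int (h.m0 x).1 hw
    have i2 := (LNorm_int hχ hw).const_mul (2 / ‖x‖)
    have e1 : ∫ y, (W x y - 2 / ‖x‖) * χ y * w y =
        (∫ y, W x y * χ y * w y) - ∫ y, 2 / ‖x‖ * (χ y * w y) := by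
      rw [← integral_sub i1 i2]
      congr 1
      funext y
      ring
    have e2 : ∫ y, χ y * w y = 0 := h0
    rw [e1, integral_const_mul, e2, mul_zero, sub_zero]
    congr 1
    funext y
    ring
  rw [e]
  exact (C4_cs m1 hw).trans (mul_le_mul_of_nonneg_right (h.m1 x hx) (Real.sqrt_nonneg _))

theorem C4_m3 {α K : ℝ} {χ w : Y → ℝ} (h : Mult α K χ) (hw : MemLp w 2 volume) {x : X}
    (hx : 1 ≤ ‖x‖) :
    |∫ y, Wo x y * (χ y * w y)| ≤ K * (1 + |x 2|) / ‖x‖ ^ 3 * √(nsq w) := by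
  have e : ∫ y, Wo x y * (χ y * w y) = ∫ y, Wo x y * χ y * w y := by
    congr 1
    funext y
    ring
  rw [e]
  exact (C4_cs (h.mo x) hw).trans (mul_le_mul_of_nonneg_right (h.m3 x hx) (Real.sqrt_nonneg _))

theorem C4_dip {α K d : ℝ} {χ w : Y → ℝ} (h : Mult α K χ) (hw : MemLp w 2 volume)
    (hd : √(nsq fun y => dz y * χ y) ≤ 3 * d) {x : X} (hx : 1 ≤ ‖x‖) :
    |∫ y, Wo x y * (χ y * w y)| ≤
      (3 * d * |x 2| / ‖x‖ ^ 3 + K * (1 + |x 2|) / ‖x‖ ^ 4) * √(nsq w) := by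
  have m1 : MemLp (fun y => (Wo x y - x 2 / ‖x‖ ^ 3 * dz y) * χ y) 2 volume := by
    have := (h.mo x).sub (h.mz.const_mul (x 2 / ‖x‖ ^ 3))
    refine this.ae_eq (.of_forall fun y => ?_)
    simp only [Pi.sub_apply]
    ring
  have e : ∫ y, Wo x y * (χ y * w y) = x 2 / ‖x‖ ^ 3 * (∫ y, dz y * χ y * w y) +
      ∫ y, (Wo x y - x 2 / ‖x‖ ^ 3 * dz y) * χ y * w y := by
    rw [← integral_const_mul, ← integral_add ((LNorm_int h.mz hw).const_mul _) (LNorm_int m1 hw)]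
    congr 1
    funext y
    ring
  have a1 := (C4_cs m1 hw).trans (mul_le_mul_of_nonneg_right (h.m2 x hx) (Real.sqrt_nonneg _))
  have a2 := (C4_cs h.mz hw).trans (mul_le_mul_of_nonneg_right hd (Real.sqrt_nonneg _))
  have hr : 0 < ‖x‖ := by linarith
  rw [e]
  refine (abs_add_le _ _).trans ?_
  rw [abs_mul, abs_div, abs_of_pos (pow_pos hr 3), add_mul]
  refine add_le_add ?_ a1
  refine (mul_le_mul_of_nonneg_left a2 (by positivity)).trans (le_of_eq ?_)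
  ring

theorem C4_split (m : MB o C ε) (x : X) {w : Y → ℝ} {k : IY → Y → ℝ} (hw : H1 eY w k)
    (hE : MemLp (sl m.E x) 2 volume) (hB : MemLp (sl m.B x) 2 volume) :
    ∫ y, W x y * m.th.ψ (x, y) * w y = -m.p x * (∫ y, W x y * (m.tw.χ0 y * w y)) +
      (∫ y, W x y * (sl m.E x y * w y)) + m.q x * (∫ y, W x y * (m.tw.χ1 y * w y)) +
      ∫ y, W x y * (sl m.B x y * w y) := by
  have i1 := (C4_int x m.tw.h0.l2 hw).const_mul (-m.p x)
  have i2 := C4_int x hE hw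
  have i3 := (C4_int x m.tw.h1.l2 hw).const_mul (m.q x)
  have i4 := C4_int x hB hw
  have i12 : Integrable fun y => -m.p x * (W x y * (m.tw.χ0 y * w y)) +
      W x y * (sl m.E x y * w y) := i1.add i2
  have i123 : Integrable fun y => -m.p x * (W x y * (m.tw.χ0 y * w y)) +
      W x y * (sl m.E x y * w y) + m.q x * (W x y * (m.tw.χ1 y * w y)) := i12.add i3
  rw [← integral_const_mul, ← integral_const_mul, ← integral_add i1 i2, ← integral_add i12 i3,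
    ← integral_add i123 i4]
  congr 1
  funext y
  obtain ⟨d1, d2, -, -⟩ := m.decomp x y
  rw [d1, d2]
  simp only [sl]
  ring

theorem C4_sq_nonneg (x : X) (w : Y → ℝ) : 0 ≤ ∫ y, W x y * (w y * w y) :=
  integral_nonneg fun y => mul_nonneg (W_nonneg x y) (mul_self_nonneg _)

theorem C4_exp {κ : ℝ} (hκ : 0 < κ) {R : ℝ} (hR : 1 ≤ R) :
    IntegrableOn (fun x : X => Real.exp (-2 * κ * ‖x‖)) (ext R) := by
  have h := (memLp_bar 0 0 hκ).integrable_sq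
  have h2 : IntegrableOn (fun x : X => Real.exp (-2 * κ * ‖x‖)) (ext 1) := by
    refine h.congr (.of_forall fun x => ?_)
    simp only [pow_zero, Real.rpow_zero, one_mul]
    rw [← Real.exp_nat_mul]
    congr 1
    push_cast
    ring
  exact h2.mono_set fun x (hx : R < ‖x‖) => lt_of_le_of_lt hR hx

theorem C4_core (m : MB o C ε) {Φ : T → ℝ} {g : IT → T → ℝ}
    (hΦ : Orth (U2 o.D ε) m.th.ψ m.th.gψ Φ g) (h0 : ∀ᵐ x, ip m.tw.χ0 (sl Φ x) = 0)
    {a F : X → ℝ} (ha : MemLp a 2 (volume.restrict (ext o.Rs))) {C₂ C' : ℝ} (hC₂ : 0 < C₂)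
    (h1 : C + 1000 ≤ C') (h2 : 9 / 4 * C₂ ≤ C')
    (hF : ∀ᵐ x : X, F x ≤ C₂ * Real.exp (-2 * (√(2 * m.I) + 4 * o.g) * ‖x‖))
    (hb : ∀ᵐ x : X, x ∈ ext o.Rs → -(a x * sn Φ x) - ε * (3 * √(dir (gsl g x)) * √(F x)) ≤
      ε * ∫ y, W x y * m.th.ψ (x, y) * Φ (x, y)) :
    Sub2 (ext o.Rs) (sn Φ) (gsn Φ g)
      (fun x => a x - (V o.D x + m.I + o.g - C' * ε) * sn Φ x)
      fun x => ε * C' * Real.exp (-2 * (√(2 * m.I) + 4 * o.g) * ‖x‖) := by
  have hε := m.ε0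
  have hε1 : ε ≤ 1 := by linarith [m.ε_le]
  have hC' : 0 ≤ C' := by linarith
  obtain ⟨z1, z2⟩ := Orth.zf hε.le hε1 m.th.hψ m.th.eig hΦ
  have hs := (sn_spec hΦ.h1).1
  have hκ : 0 < √(2 * m.I) + 4 * o.g := by
    have := o.g_pos
    positivity
  refine kato2 (measurableSet_ext _) hs (sn_nonneg Φ) z1.integrableOn z2.of_univ ?_ ?_ ?_ ?_
  · have b1 := ((memLp_V_mul o.D hs).1.add (hs.l2.const_mul (m.I + o.g - C' * ε))).restrict
      (ext o.Rs)
    refine (ha.sub b1).ae_eq (.of_forall fun x => ?_)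
    simp only [Pi.sub_apply, Pi.add_apply]
    ring
  · exact (C4_exp hκ (by linarith [o.Rs_ge])).const_mul _
  · intro x
    positivity
  · filter_upwards [h0, hF, hb, hΦ.h1.sl] with x e0 eF eb es hx
    have g1 := m.gap_kin es.1 e0
    have g2 := eb hx
    rw [← sn_sq] at g1
    have hd := dir_nonneg (gsl g x)
    set e := Real.exp (-2 * (√(2 * m.I) + 4 * o.g) * ‖x‖)
    have he : 0 < e := Real.exp_pos _
    have g3 : 3 * √(dir (gsl g x)) * √(F x) ≤ dir (gsl g x) + C' * e := by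
      have t1 := Real.sq_sqrt hd
      have t2 : √(F x) ^ 2 ≤ C₂ * e := by
        rw [Real.sq_sqrt']
        exact max_le eF (by positivity)
      have t3 : 9 / 4 * C₂ * e ≤ C' * e := mul_le_mul_of_nonneg_right h2 he.le
      nlinarith [sq_nonneg (√(dir (gsl g x)) - 3 / 2 * √(F x))]
    have g4 := mul_le_mul_of_nonneg_left g3 hε.le
    have g5 : (C + 1000) * ε * sn Φ x ^ 2 ≤ C' * ε * sn Φ x ^ 2 := by gcongr
    have eI : m.I = m.tw.E2 - m.th.E3 := rfl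
    have g6 : -((a x - (V o.D x + m.I + o.g - C' * ε) * sn Φ x) * sn Φ x) =
        -(a x * sn Φ x) + (V o.D x - m.th.E3) * sn Φ x ^ 2 + (m.tw.E2 + o.g) * sn Φ x ^ 2 -
          C' * ε * sn Φ x ^ 2 := by
      rw [eI]
      ring
    rw [g6]
    nlinarith

theorem C4_coef {R : ℝ} (hR : 1 ≤ R) {n : ℕ} (hn : 1 ≤ n) {x : X} (hx : R < ‖x‖) :
    |x 2| / ‖x‖ ^ n ≤ 1 ∧ 1 / ‖x‖ ^ n ≤ 1 := by
  have h1 : 1 ≤ ‖x‖ := by linarith
  have h2 : ‖x‖ ≤ ‖x‖ ^ n := le_self_pow₀ h1 (by omega)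
  have h3 := abs_two_le x
  constructor
  · rw [div_le_one (by positivity)]
    linarith
  · rw [div_le_one (by positivity)]
    linarith

theorem C4_mz {R : ℝ} (hR : 1 ≤ R) {n : ℕ} (hn : 1 ≤ n) {u : X → ℝ} (hu : MemLp u 2 volume) :
    MemLp (fun x : X => |x 2| / ‖x‖ ^ n * u x) 2 (volume.restrict (ext R)) :=
  memLp_ext_mul (M := 1) (by fun_prop) (fun x hx => by
    rw [abs_of_nonneg (by positivity)]
    exact (C4_coef hR hn hx).1) hu

theorem C4_m1 {R : ℝ} (hR : 1 ≤ R) {n : ℕ} (hn : 1 ≤ n) {u : X → ℝ} (hu : MemLp u 2 volume) :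
    MemLp (fun x : X => 1 / ‖x‖ ^ n * u x) 2 (volume.restrict (ext R)) :=
  memLp_ext_mul (M := 1) (by fun_prop) (fun x hx => by
    rw [abs_of_nonneg (by positivity)]
    exact (C4_coef hR hn hx).2) hu

/-- `∫ W ψ B = -p ∫ Wo χ0 B + ∫ Wo E B + q ∫ (W - 2 / r) χ1 B + ∫ W B²`; `m2`, `d3`, `cross_le`,
`3 ε √dir · far ≤ ε dir + (9/4) ε far²`. -/
theorem subB (o : One c) (C : ℝ) : ∃ C₀ : ℝ, ∀ C' : ℝ, C₀ ≤ C' → ∀ (ε : ℝ) (m : MB o C ε),
    Sub2 (ext o.Rs) (sn m.B) (gsn m.B m.gB)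
      (fun x => ε * (3 * m.d * |x 2| / ‖x‖ ^ 3 + C' * (1 + |x 2|) / ‖x‖ ^ 4) * |m.p x| +
        ε * C' / ‖x‖ ^ 2 * |m.q x| + ε * C' * |x 2| / ‖x‖ ^ 2 * sn m.E x -
        (V o.D x + m.I + o.g - C' * ε) * sn m.B x)
      fun x => ε * C' * Real.exp (-2 * (√(2 * m.I) + 4 * o.g) * ‖x‖) := by
  obtain ⟨C₂, hC₂, hfar⟩ := far_bd o C
  refine ⟨max (C + 1000) (9 / 4 * C₂), fun C' hC' ε m => ?_⟩
  have h1 : C + 1000 ≤ C' := (le_max_left _ _).trans hC'
  have h2 : 9 / 4 * C₂ ≤ C' := (le_max_right _ _).trans hC'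
  have hε := m.ε0
  have hC := m.C1
  have hR : 1 ≤ o.Rs := by linarith [o.Rs_ge]
  have hp : MemLp (fun x => |m.p x|) 2 volume := m.solp.1.h1.l2.abs
  have hq : MemLp (fun x => |m.q x|) 2 volume := m.solq.1.h1.l2.abs
  have hE := (sn_spec m.orthE.h1).1.l2
  refine C4_core m m.orthB (m.slices.mono fun x h => h.2.2.1)
    (a := fun x => ε * (3 * m.d * |x 2| / ‖x‖ ^ 3 + C' * (1 + |x 2|) / ‖x‖ ^ 4) * |m.p x| +
      ε * C' / ‖x‖ ^ 2 * |m.q x| + ε * C' * |x 2| / ‖x‖ ^ 2 * sn m.E x)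
    (F := fun x => ∫ y in far ‖x‖, m.E (x, y) ^ 2) ?_ hC₂ h1 h2
    ((hfar ε m).mono fun x h => h.1) ?_
  · have b1 := (C4_mz hR (n := 3) (by norm_num) hp).const_mul (ε * (3 * m.d))
    have b2 := (C4_m1 hR (n := 4) (by norm_num) hp).const_mul (ε * C')
    have b3 := (C4_mz hR (n := 4) (by norm_num) hp).const_mul (ε * C')
    have b4 := (C4_m1 hR (n := 2) (by norm_num) hq).const_mul (ε * C')
    have b5 := (C4_mz hR (n := 2) (by norm_num) hE).const_mul (ε * C')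
    refine ((((b1.add b2).add b3).add b4).add b5).ae_eq (.of_forall fun x => ?_)
    simp only [Pi.add_apply]
    ring
  · filter_upwards [m.slices, m.orthE.h1.sl, m.orthB.h1.sl] with x hs sE sB hx
    have hx1 : 1 ≤ ‖x‖ := hR.trans (le_of_lt hx)
    have hx0 : 0 < ‖x‖ := by linarith
    have e := C4_split m x sB.1 sE.1.l2 sB.1.l2
    have o1 := C4_odd x m.tw.h0.l2 sB.1 (fun y => by
      simp only [sl]
      rw [m.tw.P0, (m.decomp x y).2.2.2]
      ring)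
    have o2 := C4_odd x sE.1.l2 sB.1 (fun y => by
      simp only [sl]
      rw [(m.decomp x y).2.2.1, (m.decomp x y).2.2.2]
      ring)
    have t1 := C4_dip (d := m.d) m.mu0 sB.1.l2 m.d3 hx1
    have t2 := (cross_le sE.1.l2 sB.1 hx0).2
    have t3 := C4_mono m.mu1 m.tw.h1.l2 sB.1.l2 hs.2.2.2.1 hx1
    have t4 := C4_sq_nonneg x (sl m.B x)
    have e2 : ∫ y, Wo x y * sl m.E x y * sl m.B x y = ∫ y, Wo x y * (sl m.E x y * sl m.B x y) := by
      simp only [mul_assoc]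
    rw [e2, ← o2] at t2
    rw [← o1] at t1
    have eB : √(nsq (sl m.B x)) = sn m.B x := rfl
    have eE : √(nsq (sl m.E x)) = sn m.E x := rfl
    have eF : ∫ y in far ‖x‖, sl m.E x y ^ 2 = ∫ y in far ‖x‖, m.E (x, y) ^ 2 := rfl
    have eW : ∫ y, W x y * m.th.ψ (x, y) * m.B (x, y) =
      ∫ y, W x y * m.th.ψ (x, y) * sl m.B x y := rfl
    rw [eB] at t1 t2 t3
    rw [eE, eF] at t2
    rw [eW, e]
    have nB := sn_nonneg m.B x
    have nE := sn_nonneg m.E x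
    set J1 := ∫ y, W x y * (m.tw.χ0 y * sl m.B x y)
    set J2 := ∫ y, W x y * (sl m.E x y * sl m.B x y)
    set J3 := ∫ y, W x y * (m.tw.χ1 y * sl m.B x y)
    set J4 := ∫ y, W x y * (sl m.B x y * sl m.B x y)
    set Z := 3 * √(dir (gsl m.gB x)) * √(∫ y in far ‖x‖, m.E (x, y) ^ 2)
    have u1 : |m.p x * J1| ≤
        (3 * m.d * |x 2| / ‖x‖ ^ 3 + C' * (1 + |x 2|) / ‖x‖ ^ 4) * |m.p x| * sn m.B x := by
      rw [abs_mul]
      refine (mul_le_mul_of_nonneg_left t1 (abs_nonneg _)).trans ?_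
      have : C ≤ C' := by linarith
      calc _ = (3 * m.d * |x 2| / ‖x‖ ^ 3 + C * (1 + |x 2|) / ‖x‖ ^ 4) * |m.p x| * sn m.B x := by
            ring
        _ ≤ _ := by gcongr
    have u2 : |J2| ≤ C' * |x 2| / ‖x‖ ^ 2 * sn m.E x * sn m.B x + Z := by
      refine t2.trans ?_
      have : 8 ≤ C' := by linarith
      gcongr
    have u3 : |m.q x * J3| ≤ C' / ‖x‖ ^ 2 * |m.q x| * sn m.B x := by
      rw [abs_mul]
      refine (mul_le_mul_of_nonneg_left t3 (abs_nonneg _)).trans ?_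
      have : C ≤ C' := by linarith
      calc _ = C / ‖x‖ ^ 2 * |m.q x| * sn m.B x := by ring
        _ ≤ _ := by gcongr
    have u : -((3 * m.d * |x 2| / ‖x‖ ^ 3 + C' * (1 + |x 2|) / ‖x‖ ^ 4) * |m.p x| * sn m.B x +
        C' / ‖x‖ ^ 2 * |m.q x| * sn m.B x + C' * |x 2| / ‖x‖ ^ 2 * sn m.E x * sn m.B x) - Z ≤
        -m.p x * J1 + J2 + m.q x * J3 + J4 := by
      have := (abs_le.1 u1).2
      have := (abs_le.1 u2).1
      have := (abs_le.1 u3).1
      linarith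
    refine le_trans (le_of_eq ?_) (mul_le_mul_of_nonneg_left u hε.le)
    ring

/-- `∫ W ψ E = -p ∫ (W - 2 / r) χ0 E + ∫ W E² + q ∫ Wo χ1 E + ∫ Wo B E`; `m1`, `m3`
(`(1 + |z|) / r ≤ 2`), `cross_le`. -/
theorem subE (o : One c) (C : ℝ) : ∃ C₀ : ℝ, ∀ C' : ℝ, C₀ ≤ C' → ∀ (ε : ℝ) (m : MB o C ε),
    Sub2 (ext o.Rs) (sn m.E) (gsn m.E m.gE)
      (fun x => ε * C' / ‖x‖ ^ 2 * (|m.p x| + |m.q x|) + ε * C' * |x 2| / ‖x‖ ^ 2 * sn m.B x -
        (V o.D x + m.I + o.g - C' * ε) * sn m.E x)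
      fun x => ε * C' * Real.exp (-2 * (√(2 * m.I) + 4 * o.g) * ‖x‖) := by
  obtain ⟨C₂, hC₂, hfar⟩ := far_bd o C
  refine ⟨max (2 * C + 1000) (9 / 4 * C₂), fun C' hC' ε m => ?_⟩
  have hC := m.C1
  have h1' : 2 * C + 1000 ≤ C' := (le_max_left _ _).trans hC'
  have h1 : C + 1000 ≤ C' := by linarith
  have h2 : 9 / 4 * C₂ ≤ C' := (le_max_right _ _).trans hC'
  have hε := m.ε0
  have hR : 1 ≤ o.Rs := by linarith [o.Rs_ge]
  have hp : MemLp (fun x => |m.p x|) 2 volume := m.solp.1.h1.l2.abs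
  have hq : MemLp (fun x => |m.q x|) 2 volume := m.solq.1.h1.l2.abs
  have hB := (sn_spec m.orthB.h1).1.l2
  refine C4_core m m.orthE (m.slices.mono fun x h => h.2.1)
    (a := fun x => ε * C' / ‖x‖ ^ 2 * (|m.p x| + |m.q x|) + ε * C' * |x 2| / ‖x‖ ^ 2 * sn m.B x)
    (F := fun x => ∫ y in far ‖x‖, m.B (x, y) ^ 2) ?_ hC₂ h1 h2
    ((hfar ε m).mono fun x h => h.2.1) ?_
  · have b2 := (C4_m1 hR (n := 2) (by norm_num) hp).const_mul (ε * C')
    have b4 := (C4_m1 hR (n := 2) (by norm_num) hq).const_mul (ε * C')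
    have b5 := (C4_mz hR (n := 2) (by norm_num) hB).const_mul (ε * C')
    refine ((b2.add b4).add b5).ae_eq (.of_forall fun x => ?_)
    simp only [Pi.add_apply]
    ring
  · filter_upwards [m.slices, m.orthE.h1.sl, m.orthB.h1.sl] with x hs sE sB hx
    have hx1 : 1 ≤ ‖x‖ := hR.trans (le_of_lt hx)
    have hx0 : 0 < ‖x‖ := by linarith
    have e := C4_split m x sE.1 sE.1.l2 sB.1.l2
    have o1 := C4_odd x m.tw.h1.l2 sE.1 (fun y => by
      simp only [sl]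
      rw [m.tw.P1, (m.decomp x y).2.2.1]
      ring)
    have o2 := C4_odd x sB.1.l2 sE.1 (fun y => by
      simp only [sl]
      rw [(m.decomp x y).2.2.1, (m.decomp x y).2.2.2]
      ring)
    have t1 := C4_mono m.mu0 m.tw.h0.l2 sE.1.l2 hs.2.1 hx1
    have t2 := (cross_le sB.1.l2 sE.1 hx0).2
    have t3 := C4_m3 m.mu1 sE.1.l2 hx1
    have t4 := C4_sq_nonneg x (sl m.E x)
    have e2 : ∫ y, Wo x y * sl m.B x y * sl m.E x y = ∫ y, Wo x y * (sl m.B x y * sl m.E x y) := by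
      simp only [mul_assoc]
    rw [e2, ← o2] at t2
    rw [← o1] at t3
    have eB : √(nsq (sl m.B x)) = sn m.B x := rfl
    have eE : √(nsq (sl m.E x)) = sn m.E x := rfl
    have eF : ∫ y in far ‖x‖, sl m.B x y ^ 2 = ∫ y in far ‖x‖, m.B (x, y) ^ 2 := rfl
    have eW : ∫ y, W x y * m.th.ψ (x, y) * m.E (x, y) =
      ∫ y, W x y * m.th.ψ (x, y) * sl m.E x y := rfl
    rw [eE] at t1 t2 t3
    rw [eB, eF] at t2
    rw [eW, e]
    have nB := sn_nonneg m.B x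
    have nE := sn_nonneg m.E x
    set J1 := ∫ y, W x y * (m.tw.χ0 y * sl m.E x y)
    set J2 := ∫ y, W x y * (sl m.B x y * sl m.E x y)
    set J3 := ∫ y, W x y * (m.tw.χ1 y * sl m.E x y)
    set J4 := ∫ y, W x y * (sl m.E x y * sl m.E x y)
    set Z := 3 * √(dir (gsl m.gE x)) * √(∫ y in far ‖x‖, m.B (x, y) ^ 2)
    have u1 : |m.p x * J1| ≤ C' / ‖x‖ ^ 2 * |m.p x| * sn m.E x := by
      rw [abs_mul]
      refine (mul_le_mul_of_nonneg_left t1 (abs_nonneg _)).trans ?_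
      have : C ≤ C' := by linarith
      calc _ = C / ‖x‖ ^ 2 * |m.p x| * sn m.E x := by ring
        _ ≤ _ := by gcongr
    have u2 : |J2| ≤ C' * |x 2| / ‖x‖ ^ 2 * sn m.B x * sn m.E x + Z := by
      refine t2.trans ?_
      have : 8 ≤ C' := by linarith
      gcongr
    have u3 : |m.q x * J3| ≤ C' / ‖x‖ ^ 2 * |m.q x| * sn m.E x := by
      rw [abs_mul]
      refine (mul_le_mul_of_nonneg_left t3 (abs_nonneg _)).trans ?_
      have v1 : C * (1 + |x 2|) / ‖x‖ ^ 3 ≤ C' / ‖x‖ ^ 2 := by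
        have v2 := abs_two_le x
        rw [div_le_div_iff₀ (by positivity) (by positivity)]
        have v3 : C * (1 + |x 2|) ≤ C' * ‖x‖ :=
          calc C * (1 + |x 2|) ≤ C * (2 * ‖x‖) := by gcongr; linarith
            _ = 2 * C * ‖x‖ := by ring
            _ ≤ _ := by gcongr; linarith
        calc _ ≤ C' * ‖x‖ * ‖x‖ ^ 2 := by gcongr
          _ = _ := by ring
      calc _ = C * (1 + |x 2|) / ‖x‖ ^ 3 * |m.q x| * sn m.E x := by ring
        _ ≤ _ := by gcongr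
    have u : -(C' / ‖x‖ ^ 2 * |m.p x| * sn m.E x +
        C' / ‖x‖ ^ 2 * |m.q x| * sn m.E x + C' * |x 2| / ‖x‖ ^ 2 * sn m.B x * sn m.E x) - Z ≤
        -m.p x * J1 + J4 + m.q x * J3 + J2 := by
      have := (abs_le.1 u1).2
      have := (abs_le.1 u2).1
      have := (abs_le.1 u3).1
      linarith
    refine le_trans (le_of_eq ?_) (mul_le_mul_of_nonneg_left u hε.le)
    ring

end Crest.Agent.R335
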