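import Crest.Agent.R335.C3
import Crest.Agent.R335.BarA

/-! Row 335. Decay of the weighted slice norm. -/

set_option autoImplicit false

open MeasureTheory Set Filter Topology
open scoped ENNReal

noncomputable section

namespace Crest.Agent.R335

variable {c : ℝ} {o : One c} {C ε : ℝ}

theorem C5_pd_inl {φ : Y → ℝ} (h : ContDiff ℝ 1 φ) (i : Fin 3) (p : T) :
    pd eT (fun p : T => φ p.2) (.inl i) p = 0 := by
  have := LSlice_fderiv_left (φ := fun p : T => φ p.2) (h.comp contDiff_snd) p.1 (eX i) p.2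
  change fderiv ℝ (fun p : T => φ p.2) (p.1, p.2) (eX i, 0) = 0
  rw [← this]
  simp

theorem C5_pd_inr {φ : Y → ℝ} (h : ContDiff ℝ 1 φ) (j : IY) (p : T) :
    pd eT (fun p : T => φ p.2) (.inr j) p = pd eY φ j p.2 :=
  (LSlice_fderiv_right (φ := fun p : T => φ p.2) (h.comp contDiff_snd) p.1 p.2 (eY j)).symm

theorem C5_al (o : One c) : 0 < o.al ∧ o.al ^ 2 = o.g / 16 ∧ 10 * o.g ≤ o.al := by
  have h1 := o.g_pos
  have h2 := o.g_le
  have h3 : 0 < √o.g := Real.sqrt_pos.2 h1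
  have h4 : √o.g ^ 2 = o.g := Real.sq_sqrt h1.le
  have h5 : √o.g ≤ 1 / 100 := by nlinarith
  unfold One.al
  refine ⟨by positivity, by rw [div_pow, h4]; norm_num, by nlinarith⟩

/-- multiplication by `exp (φ y)` -/
theorem C5_mul {φ : Y → ℝ} (h : ContDiff ℝ 1 φ) {B γ : ℝ} (hB : ∀ y, φ y ≤ B)
    (hg : ∀ y, gs (pd eY φ) y ≤ γ) {u : T → ℝ} {g : IT → T → ℝ} (hu : H1 eT u g) :
    H1 eT (fun p => Real.exp (φ p.2) * u p)
      (Sum.elim (fun i p => Real.exp (φ p.2) * g (.inl i) p)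
        fun j p => Real.exp (φ p.2) * (g (.inr j) p + pd eY φ j p.2 * u p)) := by
  have hφ : ContDiff ℝ 1 fun p : T => φ p.2 := h.comp contDiff_snd
  have hγ : 0 ≤ γ := (gs_nonneg _ 0).trans (hg 0)
  have hpd : ∀ i p, pd eT (fun p : T => Real.exp (φ p.2)) i p =
      Real.exp (φ p.2) * pd eT (fun p : T => φ p.2) i p :=
    fun i p => LGap_pd_comp hφ (Real.hasDerivAt_exp _) i
  have hb0 : ∀ p : T, |Real.exp (φ p.2)| ≤ Real.exp B * (1 + γ) := by
    intro p
    rw [abs_of_pos (Real.exp_pos _)]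
    have := Real.exp_le_exp.2 (hB p.2)
    nlinarith [Real.exp_pos B]
  have hb1 : ∀ i p, |pd eT (fun p : T => Real.exp (φ p.2)) i p| ≤ Real.exp B * (1 + γ) := by
    intro i p
    rw [hpd, abs_mul, abs_of_pos (Real.exp_pos _)]
    refine mul_le_mul (Real.exp_le_exp.2 (hB _)) ?_ (abs_nonneg _) (Real.exp_pos _).le
    rcases i with i | j
    · rw [C5_pd_inl h, abs_zero]
      linarith
    · rw [C5_pd_inr h]
      have h1 := (LGap_sq_le_gs (pd eY φ) j p.2).trans (hg _)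
      nlinarith [sq_abs (pd eY φ j p.2), sq_nonneg (|pd eY φ j p.2| - 1),
        abs_nonneg (pd eY φ j p.2)]
  have h1 := hu.mul_bdd hφ.exp hb0 hb1
  convert h1 using 1
  funext i p
  rw [hpd]
  rcases i with i | j
  · rw [C5_pd_inl h]
    simp
  · rw [C5_pd_inr h]
    simp only [Sum.elim_inr]
    ring

theorem C5_core (m : MB o C ε) {φ : Y → ℝ} (h : ContDiff ℝ 1 φ) {B : ℝ} (hB : ∀ y, φ y ≤ B)
    (hg : ∀ y, gs (pd eY φ) y ≤ 2 * o.al ^ 2) (hle : ∀ y, φ y ≤ o.al * jb2 y) : ∃ gn,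
    Sub univ (sn fun p => Real.exp (φ p.2) * m.th.ψ p) gn
        (fun x => -((V o.D x + m.I - o.al ^ 2) * sn (fun p => Real.exp (φ p.2) * m.th.ψ p) x)) ∧
      nsq (sn fun p => Real.exp (φ p.2) * m.th.ψ p) ≤ C ∧ dir gn ≤ 3 * C := by
  have hε0 := m.ε0.le
  have hε1 : ε ≤ 1 := m.ε_le.trans (by norm_num)
  obtain ⟨al0, al2, -⟩ := C5_al o
  have hu := C5_mul h hB hg m.th.hψ
  have hΞ := C5_mul h hB hg hu
  set u : T → ℝ := fun p => Real.exp (φ p.2) * m.th.ψ p with hud
  set gu : IT → T → ℝ := Sum.elim (fun i p => Real.exp (φ p.2) * m.th.gψ (.inl i) p)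
    fun j p => Real.exp (φ p.2) * (m.th.gψ (.inr j) p + pd eY φ j p.2 * m.th.ψ p) with hgu
  obtain ⟨s1, s2, s3, s4, -⟩ := sn_spec hu
  have hsl := hu.sl
  have hn2 : ∀ x, sn u x ^ 2 = ∫ y, u (x, y) ^ 2 := fun x => sn_sq u x
  obtain ⟨q1, q2⟩ := ct (fb_U3 o.D hε0 hε1) m.th.hψ (S := fun p => m.th.E3 * m.th.ψ p)
    (m.th.hψ.l2.const_mul _)
    (fun w k hw => by
      rw [m.th.eig w k hw]
      unfold ip
      rw [← integral_const_mul]
      simp only [mul_assoc])
    hΞ s1 (M := Real.exp B ^ 2)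
    (by
      filter_upwards [hsl] with x hx
      rw [hn2, ← integral_const_mul]
      refine integral_mono_of_nonneg (ae_of_all _ fun y => sq_nonneg _)
        (hx.1.integrable_sq.const_mul _) (ae_of_all _ fun y => ?_)
      change (Real.exp (φ y) * u (x, y)) ^ 2 ≤ Real.exp B ^ 2 * u (x, y) ^ 2
      rw [mul_pow]
      exact mul_le_mul_of_nonneg_right
        (pow_le_pow_left₀ (Real.exp_pos _).le (Real.exp_le_exp.2 (hB y)) 2) (sq_nonneg _))
    (by
      filter_upwards [s2] with x hx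
      refine hx.trans (le_of_eq ?_)
      congr 1
      funext y
      refine Finset.sum_congr rfl fun i _ => ?_
      simp only [hgu, Sum.elim_inl]
      ring)
    (by
      filter_upwards [hsl] with x hx i
      have e : ∫ y, m.th.gψ (.inl i) (x, y) * (Real.exp (φ y) * u (x, y)) =
          ∫ y, u (x, y) * gu (.inl i) (x, y) := by
        congr 1
        funext y
        simp only [hgu, Sum.elim_inl]
        ring
      change _ = ∫ y, m.th.gψ (.inl i) (x, y) * (Real.exp (φ y) * u (x, y))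
      rw [e, gsn]
      by_cases h0 : sn u x = 0
      · have h1 := ip_sq_le hx.1.l2 (hx.2 i)
        rw [← sn_sq, h0] at h1
        have h2 : ip (sl u x) (fun y => gu (.inl i) (x, y)) = 0 := by nlinarith
        rw [h0, zero_mul]
        exact h2.symm
      · field_simp)
  obtain ⟨w1, w2, w3⟩ := m.th.wψ
  have hj : ∀ p : T, Real.exp (φ p.2) ≤ Real.exp (o.al * jb3 p) := fun p => by
    refine Real.exp_le_exp.2 ((hle _).trans (mul_le_mul_of_nonneg_left ?_ al0.le))
    have : 0 ≤ jb p.1 := Real.sqrt_nonneg _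
    unfold jb3
    linarith
  refine ⟨gsn u gu, kato MeasurableSet.univ s1 (sn_nonneg u) q1.integrableOn q2 ?_
    (ae_of_all _ fun x _ h0 => by rw [h0]; simp) ?_, ?_, ?_⟩
  · rw [Measure.restrict_univ]
    have h1 := ((memLp_V_mul o.D s1).1.add (s1.l2.const_mul (m.I - o.al ^ 2))).neg
    convert h1 using 1
    funext x
    simp only [Pi.neg_apply, Pi.add_apply]
    ring
  · filter_upwards [hsl] with x hx _
    have hx1 := hx.1
    have i1 := hx1.integrable_gs
    have i2 := (fb_U2 o.D hε0 hε1).int _ _ hx1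
    have i3 := hx1.integrable_sq
    have i4 : Integrable fun y => W x y * sl u x y * sl u x y :=
      (hardy_Y hx1 x).1.integrable_mul hx1.l2
    have i5 : Integrable fun y => (o.al ^ 2 - gs (pd eY φ) y / 2) * sl u x y ^ 2 := by
      refine i3.bdd_mul (c := o.al ^ 2) ?_ (ae_of_all _ fun y => ?_)
      · refine (Continuous.aestronglyMeasurable (continuous_const.sub (Continuous.div_const ?_ _)))
        exact continuous_finsetSum _ fun j _ => (LWD_pd_cont h j).pow 2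
      · rw [Real.norm_eq_abs, abs_le]
        constructor <;> linarith [hg y, gs_nonneg (pd eY φ) y]
    have e : ∀ y, (∑ j, m.th.gψ (.inr j) (x, y) * (Real.exp (φ y) *
          (gu (.inr j) (x, y) + pd eY φ j y * u (x, y)))) / 2 +
        U3 o.D ε (x, y) * (m.th.ψ (x, y) * (Real.exp (φ y) * u (x, y))) -
          m.th.E3 * m.th.ψ (x, y) * (Real.exp (φ y) * u (x, y)) =
        (1 / 2 * gs (gsl gu x) y + 1 * (U2 o.D ε y * sl u x y ^ 2) +
          (V o.D x - m.th.E3 - o.al ^ 2) * sl u x y ^ 2) +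
        ((o.al ^ 2 - gs (pd eY φ) y / 2) * sl u x y ^ 2 + ε * (W x y * sl u x y * sl u x y)) := by
      intro y
      have e1 : ∑ j, m.th.gψ (.inr j) (x, y) * (Real.exp (φ y) *
          (gu (.inr j) (x, y) + pd eY φ j y * u (x, y))) =
          gs (gsl gu x) y - gs (pd eY φ) y * sl u x y ^ 2 := by
        simp only [gs, Finset.sum_mul, ← Finset.sum_sub_distrib]
        refine Finset.sum_congr rfl fun j _ => ?_
        simp only [gsl, sl, hgu, hud, Sum.elim_inr]
        ring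
      rw [e1]
      simp only [U3, sl, hud]
      ring
    have h1 := m.tw.gap0 _ _ hx1
    have h2 := ip_sq_le m.tw.h0.l2 hx1.l2
    rw [m.tw.n0, one_mul] at h2
    have h3 : 0 ≤ o.g - C * ε := by linarith [m.εC, o.g_pos]
    have h4 := mul_nonneg h3 (sub_nonneg.2 h2)
    have h5 : 0 ≤ ∫ y, ((o.al ^ 2 - gs (pd eY φ) y / 2) * sl u x y ^ 2 +
        ε * (W x y * sl u x y * sl u x y)) := integral_nonneg fun y => by
      have a1 : 0 ≤ (o.al ^ 2 - gs (pd eY φ) y / 2) * sl u x y ^ 2 :=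
        mul_nonneg (by linarith [hg y]) (sq_nonneg _)
      have a2 : 0 ≤ W x y * sl u x y * sl u x y := by
        rw [mul_assoc]
        exact mul_nonneg (W_nonneg x y) (mul_self_nonneg _)
      exact add_nonneg a1 (mul_nonneg hε0 a2)
    simp only [Sum.elim_inr]
    have i6 : Integrable fun y => 1 / 2 * gs (gsl gu x) y + 1 * (U2 o.D ε y * sl u x y ^ 2) +
        (V o.D x - m.th.E3 - o.al ^ 2) * sl u x y ^ 2 :=
      ((i1.const_mul _).add (i2.const_mul _)).add (i3.const_mul _)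
    have i7 : Integrable fun y => (o.al ^ 2 - gs (pd eY φ) y / 2) * sl u x y ^ 2 +
        ε * (W x y * sl u x y * sl u x y) := i5.add (i4.const_mul _)
    rw [integral_congr_ae (ae_of_all _ e), integral_add i6 i7, LWD_int3 i1 i2 i3]
    have e2 : -(-((V o.D x + m.I - o.al ^ 2) * sn u x) * sn u x) =
        (V o.D x + m.I - o.al ^ 2) * nsq (sl u x) := by
      rw [← sn_sq]
      ring
    rw [e2]
    unfold qf dir at h1
    unfold MB.I
    unfold nsq at h1 h4 ⊢
    nlinarith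
  · rw [s3]
    refine le_trans (integral_mono hu.integrable_sq w1.integrable_sq fun p => ?_) w2
    simp only [hud, mul_pow]
    exact mul_le_mul_of_nonneg_right (pow_le_pow_left₀ (Real.exp_pos _).le (hj p) 2) (sq_nonneg _)
  · refine s4.trans ?_
    have h1 : ∫ p, ∑ i, gu (.inl i) p ^ 2 ≤ ∫ p, (2 * gs (fun i x => Real.exp (o.al * jb3 x) *
        (m.th.gψ i x + o.al * pd eT jb3 i x * m.th.ψ x)) p +
          6 * o.al ^ 2 * (Real.exp (o.al * jb3 p) * m.th.ψ p) ^ 2) := by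
      refine integral_mono_of_nonneg (ae_of_all _ fun p => Finset.sum_nonneg fun i _ => sq_nonneg _)
        ((w1.integrable_gs.const_mul _).add (w1.integrable_sq.const_mul _)) (ae_of_all _ fun p => ?_)
      have a1 : ∑ i, gu (.inl i) p ^ 2 ≤ Real.exp (o.al * jb3 p) ^ 2 * gs m.th.gψ p := by
        have b1 : ∑ i, gu (.inl i) p ^ 2 =
            Real.exp (φ p.2) ^ 2 * ∑ i, m.th.gψ (.inl i) p ^ 2 := by
          simp only [hgu, Sum.elim_inl, mul_pow, Finset.mul_sum]
        rw [b1]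
        refine mul_le_mul (pow_le_pow_left₀ (Real.exp_pos _).le (hj p) 2) ?_
          (Finset.sum_nonneg fun i _ => sq_nonneg _) (sq_nonneg _)
        rw [gs_sum]
        exact le_add_of_nonneg_right (Finset.sum_nonneg fun i _ => sq_nonneg _)
      have a2 : Real.exp (o.al * jb3 p) ^ 2 * gs m.th.gψ p ≤
          2 * gs (fun i x => Real.exp (o.al * jb3 x) *
            (m.th.gψ i x + o.al * pd eT jb3 i x * m.th.ψ x)) p +
          2 * o.al ^ 2 * (Real.exp (o.al * jb3 p) * m.th.ψ p) ^ 2 * gs (pd eT jb3) p := by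
        simp only [gs, Finset.mul_sum, ← Finset.sum_add_distrib]
        refine Finset.sum_le_sum fun i _ => ?_
        nlinarith [sq_nonneg (Real.exp (o.al * jb3 p) *
          (m.th.gψ i p + 2 * (o.al * pd eT jb3 i p * m.th.ψ p)))]
      have a3 := mul_le_mul_of_nonneg_left (contDiff_jb3.2.1 p)
        (show 0 ≤ 2 * o.al ^ 2 * (Real.exp (o.al * jb3 p) * m.th.ψ p) ^ 2 by positivity)
      simp only
      linarith
    rw [LWD_int2 w1.integrable_gs w1.integrable_sq] at h1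
    unfold dir at w3
    unfold nsq at w2
    have h2 : 6 * o.al ^ 2 ≤ 1 := by linarith [o.g_le]
    have h3 := mul_le_mul h2 w2 (integral_nonneg fun p => sq_nonneg _) zero_le_one
    linarith

/-- Let `f = exp (al jb2 / (1 + jb2 / M))`, `n = sn (f ψ)`.  `ct` with `Ξ = f² ψ`:
`Q = qf (f ψ) - (1/2) ∫ |∇f|² ψ² + (V - E3) n² + ε ∫ W f² ψ² ≥ (V + I - al²) n²`.  The norms are
bounded by `wψ`: `f ≤ exp (al jb3)`, `exp (al jb3) |∇ψ| ≤ |∇(exp (al jb3) ψ)| + √3 al exp (al jb3) |ψ|`. -/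
theorem MB.na_sub (m : MB o C ε) {M : ℝ} (hM : 0 < M) : ∃ gn,
    Sub univ (sn fun p => Real.exp (o.al * (jb2 p.2 / (1 + jb2 p.2 / M))) * m.th.ψ p) gn
        (fun x => -((V o.D x + m.I - o.al ^ 2) *
          sn (fun p => Real.exp (o.al * (jb2 p.2 / (1 + jb2 p.2 / M))) * m.th.ψ p) x)) ∧
      nsq (sn fun p => Real.exp (o.al * (jb2 p.2 / (1 + jb2 p.2 / M))) * m.th.ψ p) ≤ C ∧
      dir gn ≤ 3 * C := by
  obtain ⟨j1, j2, j3, -, -⟩ := contDiff_jb2
  obtain ⟨al0, -, -⟩ := C5_al o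
  have hden1 : ∀ y, (1 : ℝ) ≤ 1 + jb2 y / M := fun y => by
    have := div_nonneg (j3 y) hM.le
    linarith
  have hden : ∀ y, (0 : ℝ) < 1 + jb2 y / M := fun y => one_pos.trans_le (hden1 y)
  have hpd : ∀ i y, pd eY (fun y => o.al * (jb2 y / (1 + jb2 y / M))) i y =
      o.al * (1 / (1 + jb2 y / M) ^ 2) * pd eY jb2 i y := by
    intro i y
    refine LGap_pd_comp (Φ := fun t => o.al * (t / (1 + t / M))) j1 ?_ i
    have h1 : HasDerivAt (fun t : ℝ => 1 + t / M) (1 / M) (jb2 y) :=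
      ((hasDerivAt_id (jb2 y)).div_const _).const_add 1
    have h2 := ((hasDerivAt_id (jb2 y)).div h1 (hden y).ne').const_mul o.al
    refine HasDerivAt.congr_deriv h2 ?_
    simp only [id]
    congr 2
    ring
  refine C5_core m (φ := fun y => o.al * (jb2 y / (1 + jb2 y / M)))
    (contDiff_const.mul (j1.div (contDiff_const.add (j1.div_const _)) fun y => (hden y).ne'))
    (B := o.al * M) (fun y => ?_) (fun y => ?_)
    fun y => mul_le_mul_of_nonneg_left (div_le_self (j3 y) (hden1 y)) al0.le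
  · refine mul_le_mul_of_nonneg_left ?_ al0.le
    rw [div_le_iff₀ (hden y), mul_add, mul_div_cancel₀ _ hM.ne']
    linarith
  · have e1 : gs (pd eY fun y => o.al * (jb2 y / (1 + jb2 y / M))) y =
        (1 / (1 + jb2 y / M) ^ 2) ^ 2 * (gs (pd eY jb2) y * o.al ^ 2) := by
      simp only [gs, hpd, Finset.sum_mul, Finset.mul_sum]
      exact Finset.sum_congr rfl fun i _ => by ring
    have h1 := mul_le_mul_of_nonneg_right (j2 y) (sq_nonneg o.al)
    have h2 : 0 ≤ gs (pd eY jb2) y * o.al ^ 2 := mul_nonneg (gs_nonneg _ _) (sq_nonneg _)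
    have h3 : (1 / (1 + jb2 y / M) ^ 2) ^ 2 ≤ 1 := by
      refine pow_le_one₀ (by positivity) ?_
      rw [div_le_one (pow_pos (hden y) 2)]
      exact one_le_pow₀ (hden1 y)
    rw [e1]
    nlinarith

theorem C5_dec (o : One c) (C : ℝ) : ∃ A : ℝ, 0 < A ∧ ∀ (ε : ℝ) (m : MB o C ε) (n : X → ℝ)
    (gn : Fin 3 → X → ℝ), Sub univ n gn (fun x => -((V o.D x + m.I - o.al ^ 2) * n x)) →
    nsq n ≤ C → dir gn ≤ 3 * C → ∀ᵐ x, n x ≤ A * Real.exp (-(√(2 * m.I) - o.g) * ‖x‖) := by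
  have hg := o.g_pos
  have hg' := o.g_le
  have hD := o.D1
  obtain ⟨al0, al2, -⟩ := C5_al o
  set R : ℝ := 2 * o.D + 5 / o.g with hR
  have hR0 : 0 < 5 / o.g := by positivity
  set A0 : ℝ := 1 + √C + 4 * √(98 * C) with hA0
  have hA : 0 < A0 := by positivity
  refine ⟨A0 * Real.exp (2 * (R + 1)), by positivity, fun ε m n gn h h1 h2 => ?_⟩
  obtain ⟨-, I1, I2⟩ := m.I_near
  have k2 : √(2 * m.I) ^ 2 = 2 * m.I := Real.sq_sqrt (by linarith)
  have k0 := Real.sqrt_nonneg (2 * m.I)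
  have k1 : 97 / 100 ≤ √(2 * m.I) := Real.le_sqrt_of_sq_le (by linarith)
  have k3 : √(2 * m.I) ≤ 2 := by nlinarith
  set κ := √(2 * m.I) - o.g with hκ
  have hκ0 : 0 < κ := by linarith
  have hκ2 : κ ^ 2 / 2 ≤ m.I - 9 / 10 * o.g := by rw [hκ]; nlinarith
  have hs : ∀ᵐ x, n x ≤ A0 := by
    filter_upwards [h.sup_le] with x hx
    obtain ⟨v1, v2⟩ := memLp_V_mul o.D h.h1
    have e : (fun x => -((V o.D x + m.I - o.al ^ 2) * n x)) =
        fun x => -(V o.D x * n x) + -(m.I - o.al ^ 2) * n x := by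
      funext x
      ring
    have a1 := LDuh_nsq_add v1.neg (h.h1.l2.const_mul (-(m.I - o.al ^ 2)))
    have a2 : nsq (-fun x => V o.D x * n x) = nsq fun x => V o.D x * n x := by
      simp only [nsq, Pi.neg_apply, neg_sq]
    have a3 : nsq (fun x => -(m.I - o.al ^ 2) * n x) = (m.I - o.al ^ 2) ^ 2 * nsq n := by
      simp only [nsq, mul_pow, neg_sq, integral_const_mul]
    have a4 : (m.I - o.al ^ 2) ^ 2 ≤ 1 := by
      rw [al2]
      nlinarith
    have a5 := mul_le_mul a4 h1 (nsq_nonneg n) zero_le_one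
    rw [a2, a3] at a1
    have a6 : nsq (fun x => -((V o.D x + m.I - o.al ^ 2) * n x)) ≤ 98 * C := by
      rw [e]
      refine le_trans a1 ?_
      linarith
    have := Real.sqrt_le_sqrt a6
    have := Real.sqrt_le_sqrt h1
    linarith
  have hin : ∀ x : X, ‖x‖ ≤ R + 1 →
      A0 ≤ A0 * Real.exp (2 * (R + 1)) * Real.exp (-κ * ‖x‖) := by
    intro x hx
    rw [mul_assoc, ← Real.exp_add]
    refine le_mul_of_one_le_right hA.le (Real.one_le_exp ?_)
    nlinarith [norm_nonneg x]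
  obtain ⟨U, g, f, b1, b2⟩ := bar_exp hκ0
  have hsub : ext R ⊆ ext 1 := fun x hx => by
    simp only [ext, mem_ofPred_eq] at hx ⊢
    linarith
  have hc := cmp_ext (R := R) (by linarith) (h.subset (subset_univ _))
    ((b1.smul (A0 * Real.exp (2 * (R + 1)))).sup.subset hsub)
    (by
      filter_upwards [hs] with x hx hx1 hx2
      rw [(b2 x (by linarith)).1]
      exact hx.trans (hin x hx2.le))
    (ae_of_all _ fun x hx1 hx2 => by
      obtain ⟨c1, c2⟩ := b2 x (by linarith)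
      have hx0 : 0 < ‖x‖ := by linarith
      have c3 := V_ext' hD (x := x) (by linarith)
      have c4 : 4 / ‖x‖ ≤ 4 / 5 * o.g := by
        rw [div_le_iff₀ hx0]
        have : 5 / o.g ≤ ‖x‖ := by linarith
        rw [div_le_iff₀ hg] at this
        linarith
      have c5 : κ ^ 2 / 2 ≤ V o.D x + m.I - o.al ^ 2 := by
        have := neg_abs_le (V o.D x)
        linarith
      have hApos : 0 < A0 * Real.exp (2 * (R + 1)) := by positivity
      have c6 : 0 ≤ A0 * Real.exp (2 * (R + 1)) * U x := by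
        rw [c1]
        positivity
      have c7 := mul_le_mul c5 hx2.le c6 (by linarith [sq_nonneg κ])
      have c8 := mul_nonneg hApos.le c2
      nlinarith)
  filter_upwards [hs, hc] with x hx hx'
  by_cases hxR : R < ‖x‖
  · rw [← (b2 x (by linarith)).1]
    exact hx' hxR
  · exact hx.trans (hin x (by linarith [not_lt.1 hxR]))

/-- `Sub.sup_le`, then `cmp_ext` with `A bar_exp`, `κ = √(2 I) - g` (`κ² / 2 ≤ I - (9/10) g`,
`al² = g / 16`, `R ≥ 5 / g`); let `M → ∞` (monotone convergence). -/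
theorem na_bd (o : One c) (C : ℝ) : ∃ C₁ : ℝ, 0 < C₁ ∧ ∀ (ε : ℝ) (m : MB o C ε), ∀ᵐ x,
    Integrable (fun y => Real.exp (2 * o.al * jb2 y) * m.th.ψ (x, y) ^ 2) ∧
      ∫ y, Real.exp (2 * o.al * jb2 y) * m.th.ψ (x, y) ^ 2 ≤
        C₁ * Real.exp (-2 * (√(2 * m.I) - o.g) * ‖x‖) := by
  obtain ⟨A, hA, hd⟩ := C5_dec o C
  refine ⟨A ^ 2, by positivity, fun ε m => ?_⟩
  obtain ⟨j1, -, j3, -, -⟩ := contDiff_jb2
  obtain ⟨al0, -, -⟩ := C5_al o
  have hM : ∀ k : ℕ, (0 : ℝ) < k + 1 := fun k => by positivity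
  have h1 : ∀ k : ℕ, ∀ᵐ x, sn (fun p => Real.exp (o.al * (jb2 p.2 / (1 + jb2 p.2 / (k + 1)))) *
      m.th.ψ p) x ≤ A * Real.exp (-(√(2 * m.I) - o.g) * ‖x‖) := fun k => by
    obtain ⟨gn, a1, a2, a3⟩ := m.na_sub (hM k)
    exact hd ε m _ gn a1 a2 a3
  filter_upwards [ae_all_iff.2 h1, m.th.hψ.sl] with x hx hx'
  have hden : ∀ (k : ℕ) y, (0 : ℝ) < 1 + jb2 y / (k + 1) := fun k y => by
    have := div_nonneg (j3 y) (hM k).le
    linarith
  have hl0 : ∀ y, Tendsto (fun n : ℕ => 1 + jb2 y / ((n : ℝ) + 1)) atTop (𝓝 1) := by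
    intro y
    have h1 : Tendsto (fun n : ℕ => jb2 y / ((n : ℝ) + 1)) atTop (𝓝 0) :=
      (tendsto_natCast_atTop_atTop.atTop_add tendsto_const_nhds).const_div_atTop _
    simpa using h1.const_add 1
  refine LGap_fatou (F := fun (k : ℕ) y =>
    (Real.exp (o.al * (jb2 y / (1 + jb2 y / (k + 1)))) * m.th.ψ (x, y)) ^ 2) (fun k => ?_)
    (fun k y => sq_nonneg _) (fun k => ?_) fun y => ?_
  · refine (LWD_memLp_mul (u := sl m.th.ψ x) (M := Real.exp (o.al * (k + 1))) hx'.1.l2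
      (ζ := fun y => Real.exp (o.al * (jb2 y / (1 + jb2 y / (k + 1))))) ?_ fun y => ?_).integrable_sq
    · exact (continuous_const.mul (j1.continuous.div
        (continuous_const.add (j1.continuous.div_const _)) fun y => (hden k y).ne')).rexp
    · rw [abs_of_pos (Real.exp_pos _)]
      refine Real.exp_le_exp.2 (mul_le_mul_of_nonneg_left ?_ al0.le)
      rw [div_le_iff₀ (hden k y), mul_add, mul_div_cancel₀ _ (hM k).ne']
      linarith [hM k]
  · have h2 := pow_le_pow_left₀ (sn_nonneg _ _) (hx k) 2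
    rw [sn_sq, mul_pow, ← Real.exp_nat_mul] at h2
    refine le_trans h2 (le_of_eq ?_)
    congr 2
    push_cast
    ring
  · have h2 := ((tendsto_const_nhds (x := jb2 y)).div (hl0 y) one_ne_zero).const_mul o.al
    rw [div_one] at h2
    have h3 := (((Real.continuous_exp.tendsto _).comp h2).mul_const (m.th.ψ (x, y))).pow 2
    rw [mul_pow, ← Real.exp_nat_mul, ← mul_assoc] at h3
    exact_mod_cast h3

theorem C5_far {α β : ℝ} (hα : α ^ 2 ≤ 1) (hβ : β ^ 2 ≤ 1) {χ u : Y → ℝ} (hχ : MemLp χ 2 volume)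
    (hn : nsq χ = 1) (hu : MemLp u 2 volume) (r : ℝ) :
    ∫ y in far r, prY α β χ u y ^ 2 ≤
      6 * (∫ y in far r, u y ^ 2) + 3 * nsq u * ∫ y in far r, χ y ^ 2 := by
  have hu' : MemLp (fun y => u (PY y)) 2 volume := hu.comp_measurePreserving mp_PY
  have e : ∫ y in far r, u (PY y) ^ 2 = ∫ y in far r, u y ^ 2 := by
    rw [← integral_indicator (measurableSet_far r), ← integral_indicator (measurableSet_far r),
      ← integral_PY ((far r).indicator fun y => u y ^ 2)]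
    congr 1
    funext y
    have : PY y ∈ far r ↔ y ∈ far r := by simp only [far, PY, mem_ofPred_eq, norm_P]
    by_cases hy : y ∈ far r
    · rw [indicator_of_mem hy, indicator_of_mem (this.2 hy)]
    · rw [indicator_of_notMem hy, indicator_of_notMem fun h => hy (this.1 h)]
  have i1 := hu.integrable_sq.integrableOn (s := far r)
  have i2 := hu'.integrable_sq.integrableOn (s := far r)
  have i3 := hχ.integrable_sq.integrableOn (s := far r)
  have hc := ip_sq_le hu hχ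
  rw [hn, mul_one] at hc
  have h1 : ∫ y in far r, prY α β χ u y ^ 2 ≤
      ∫ y in far r, (3 * u y ^ 2 + 3 * u (PY y) ^ 2 + 3 * nsq u * χ y ^ 2) := by
    refine integral_mono_of_nonneg (ae_of_all _ fun y => sq_nonneg _)
      (((i1.const_mul _).add (i2.const_mul _)).add (i3.const_mul _)) (ae_of_all _ fun y => ?_)
    have a1 := mul_le_mul_of_nonneg_right hα (sq_nonneg (u y))
    have a2 := mul_le_mul_of_nonneg_right hβ (sq_nonneg (u (PY y)))
    have a3 := mul_le_mul_of_nonneg_right hc (sq_nonneg (χ y))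
    change (α * u y + β * u (PY y) - ip u χ * χ y) ^ 2 ≤ _
    nlinarith [sq_nonneg (α * u y - β * u (PY y)), sq_nonneg (α * u y + ip u χ * χ y),
      sq_nonneg (β * u (PY y) + ip u χ * χ y)]
  have i4 : Integrable (fun y => 3 * u y ^ 2 + 3 * u (PY y) ^ 2) (volume.restrict (far r)) :=
    (i1.const_mul _).add (i2.const_mul _)
  rw [integral_add i4 (i3.const_mul _),
    integral_add (i1.const_mul _) (i2.const_mul _), integral_const_mul, integral_const_mul,
    integral_const_mul, e] at h1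
  linarith

/-- On `far r`: `1 ≤ exp (-al r) exp (2 al jb2)`; `far` is invariant under `PY`; `mf`;
`p², q² ≤ sn ψ²`; `al ≥ 10 g`. -/
theorem far_bd (o : One c) (C : ℝ) : ∃ C₂ : ℝ, 0 < C₂ ∧ ∀ (ε : ℝ) (m : MB o C ε), ∀ᵐ x,
    ∫ y in far ‖x‖, m.E (x, y) ^ 2 ≤ C₂ * Real.exp (-2 * (√(2 * m.I) + 4 * o.g) * ‖x‖) ∧
    ∫ y in far ‖x‖, m.B (x, y) ^ 2 ≤ C₂ * Real.exp (-2 * (√(2 * m.I) + 4 * o.g) * ‖x‖) ∧
    sn m.th.ψ x ≤ C₂ := by
  obtain ⟨C₁, hC, hd⟩ := na_bd o C
  refine ⟨(6 + 3 * |C|) * C₁ + 1, by positivity, fun ε m => ?_⟩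
  obtain ⟨-, -, j3, -, -⟩ := contDiff_jb2
  obtain ⟨al0, -, al3⟩ := C5_al o
  obtain ⟨-, I1, -⟩ := m.I_near
  have k1 : 97 / 100 ≤ √(2 * m.I) := Real.le_sqrt_of_sq_le (by linarith)
  filter_upwards [hd ε m, m.th.hψ.sl] with x hx hx'
  obtain ⟨i1, h1⟩ := hx
  have i2 := hx'.1.integrable_sq
  have hr := norm_nonneg x
  set S := C₁ * Real.exp (-2 * (√(2 * m.I) - o.g) * ‖x‖) with hS
  have hS0 : 0 ≤ S := by positivity
  have a1 : nsq (sl m.th.ψ x) ≤ S := by
    refine le_trans (integral_mono i2 i1 fun y => ?_) h1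
    exact le_mul_of_one_le_left (sq_nonneg _)
      (Real.one_le_exp (mul_nonneg (by linarith) (j3 y)))
  have a2 : ∫ y in far ‖x‖, sl m.th.ψ x y ^ 2 ≤ Real.exp (-o.al * ‖x‖) * S := by
    refine le_trans ?_ (mul_le_mul_of_nonneg_left h1 (Real.exp_pos _).le)
    rw [← integral_const_mul]
    refine le_trans (setIntegral_mono_on i2.integrableOn (i1.const_mul _).integrableOn
      (measurableSet_far _) fun y hy => ?_)
      (setIntegral_le_integral (i1.const_mul _) (ae_of_all _ fun y => by positivity))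
    rw [← mul_assoc, ← Real.exp_add]
    refine le_mul_of_one_le_left (sq_nonneg _) (Real.one_le_exp ?_)
    have b1 : ‖x‖ / 2 ≤ jb2 y := by
      have := norm_le_jb y.1
      have := norm_le_jb y.2
      have := norm_nonneg y.1
      have := norm_nonneg y.2
      unfold jb2
      rcases hy with hy | hy <;> linarith
    nlinarith
  have a3 : Real.exp (-o.al * ‖x‖) * S ≤
      C₁ * Real.exp (-2 * (√(2 * m.I) + 4 * o.g) * ‖x‖) := by
    rw [hS, mul_left_comm, ← Real.exp_add]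
    refine mul_le_mul_of_nonneg_left (Real.exp_le_exp.2 ?_) hC.le
    nlinarith
  have key : ∀ (α β : ℝ) (χ : Y → ℝ), α ^ 2 ≤ 1 → β ^ 2 ≤ 1 → MemLp χ 2 volume → nsq χ = 1 →
      Mult o.al C χ → ∫ y in far ‖x‖, prY α β χ (sl m.th.ψ x) y ^ 2 ≤
        ((6 + 3 * |C|) * C₁ + 1) * Real.exp (-2 * (√(2 * m.I) + 4 * o.g) * ‖x‖) := by
    intro α β χ hα hβ hχ hn hmu
    have b1 := C5_far hα hβ hχ hn hx'.1.l2 ‖x‖
    have b2 : ∫ y in far ‖x‖, χ y ^ 2 ≤ |C| * Real.exp (-o.al * ‖x‖) :=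
      (hmu.mf ‖x‖).trans (mul_le_mul_of_nonneg_right (le_abs_self C) (Real.exp_pos _).le)
    have b3 := mul_le_mul a1 b2 (integral_nonneg fun y => sq_nonneg _) hS0
    have b4 := mul_le_mul_of_nonneg_left a3 (abs_nonneg C)
    have b5 := Real.exp_pos (-2 * (√(2 * m.I) + 4 * o.g) * ‖x‖)
    nlinarith
  refine ⟨key _ _ _ (by norm_num) (by norm_num) m.tw.h0.l2 m.tw.n0 m.mu0,
    key _ _ _ (by norm_num) (by norm_num) m.tw.h1.l2 m.tw.n1 m.mu1, ?_⟩
  have b1 : S ≤ C₁ := mul_le_of_le_one_right hC.le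
    (Real.exp_le_one_iff.2 (by nlinarith [o.g_le]))
  rw [← sn_sq] at a1
  have b2 := mul_nonneg (abs_nonneg C) hC.le
  nlinarith [sq_nonneg (sn m.th.ψ x - 1)]

end Crest.Agent.R335
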