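import Crest.Agent.R335.C5
import Crest.Agent.R335.C1

/-! Row 335. Uniform closeness of the slices. -/

set_option autoImplicit false

open MeasureTheory Set Filter Topology
open scoped ENNReal

noncomputable section

namespace Crest.Agent.R335

variable {c : ℝ} {o : One c} {C ε : ℝ}

section C6gen

set_option linter.unusedSectionVars false

variable {E : Type} [NormedAddCommGroup E] [NormedSpace ℝ E] [FiniteDimensional ℝ E]
  [MeasureSpace E] [BorelSpace E] [(volume : Measure E).IsAddHaarMeasure]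

/-- The `L²` norm. -/
def C6_N (u : E → ℝ) : ℝ := √(nsq u)

theorem C6_N0 (u : E → ℝ) : 0 ≤ C6_N u := Real.sqrt_nonneg _

theorem C6_Nsq (u : E → ℝ) : C6_N u ^ 2 = nsq u := Real.sq_sqrt (nsq_nonneg u)

theorem C6_Nle {u : E → ℝ} {a : ℝ} (ha : 0 ≤ a) (h : nsq u ≤ a ^ 2) : C6_N u ≤ a :=
  Real.sqrt_le_iff.2 ⟨ha, h⟩

theorem C6_None {u : E → ℝ} (h : nsq u = 1) : C6_N u = 1 := by
  rw [C6_N, h, Real.sqrt_one]

theorem C6_Nle' {u : E → ℝ} {C ε : ℝ} (hC : 0 ≤ C) (h : nsq u ≤ C * ε) : C6_N u ≤ √C * √ε := by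
  rw [← Real.sqrt_mul hC]
  exact Real.sqrt_le_sqrt h

theorem C6_cs {u w : E → ℝ} (hu : MemLp u 2 volume) (hw : MemLp w 2 volume) :
    |ip u w| ≤ C6_N u * C6_N w := by
  refine abs_le_of_sq_le_sq' ?_ (mul_nonneg (C6_N0 u) (C6_N0 w)) |> abs_le.2
  rw [mul_pow, C6_Nsq, C6_Nsq]
  exact ip_sq_le hu hw

theorem C6_lin {u w : E → ℝ} (hu : MemLp u 2 volume) (hw : MemLp w 2 volume) (a b : ℝ) :
    C6_N (fun x => a * u x + b * w x) ≤ |a| * C6_N u + |b| * C6_N w := by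
  have h0 := C6_N0 u
  have h1 := C6_N0 w
  refine C6_Nle (by positivity) ?_
  rw [nsq_lin hu hw, ← C6_Nsq u, ← C6_Nsq w]
  have h2 : a * b * ip u w ≤ |a| * |b| * (C6_N u * C6_N w) := by
    refine (le_abs_self _).trans ?_
    rw [abs_mul, abs_mul]
    exact mul_le_mul_of_nonneg_left (C6_cs hu hw) (by positivity)
  rw [← sq_abs a, ← sq_abs b]
  nlinarith

theorem C6_mem {u w : E → ℝ} (hu : MemLp u 2 volume) (hw : MemLp w 2 volume) (a b : ℝ) :
    MemLp (fun x => a * u x + b * w x) 2 volume :=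
  (hu.const_mul a).add (hw.const_mul b)

theorem C6_mem3 {u w v : E → ℝ} (hu : MemLp u 2 volume) (hw : MemLp w 2 volume)
    (hv : MemLp v 2 volume) (a b c : ℝ) :
    MemLp (fun x => a * u x + b * w x + c * v x) 2 volume :=
  ((hu.const_mul a).add (hw.const_mul b)).add (hv.const_mul c)

theorem C6_lin3 {u w v : E → ℝ} (hu : MemLp u 2 volume) (hw : MemLp w 2 volume)
    (hv : MemLp v 2 volume) (a b c : ℝ) :
    C6_N (fun x => a * u x + b * w x + c * v x) ≤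
      |a| * C6_N u + |b| * C6_N w + |c| * C6_N v := by
  have h1 := C6_lin (C6_mem hu hw a b) hv 1 c
  have h2 := C6_lin hu hw a b
  simp only [one_mul, abs_one] at h1
  linarith

theorem C6_lin4 {u w v z : E → ℝ} (hu : MemLp u 2 volume) (hw : MemLp w 2 volume)
    (hv : MemLp v 2 volume) (hz : MemLp z 2 volume) (a b c d : ℝ) :
    C6_N (fun x => a * u x + b * w x + c * v x + d * z x) ≤
      |a| * C6_N u + |b| * C6_N w + |c| * C6_N v + |d| * C6_N z := by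
  have h1 := C6_lin (C6_mem3 hu hw hv a b c) hz 1 d
  have h2 := C6_lin3 hu hw hv a b c
  simp only [one_mul, abs_one] at h1
  linarith

theorem C6_rev {u w : E → ℝ} (hu : MemLp u 2 volume) (hw : MemLp w 2 volume) :
    |C6_N u - C6_N w| ≤ C6_N fun x => u x - w x := by
  have hd : MemLp (fun x => u x - w x) 2 volume := hu.sub hw
  have h1 := C6_lin hd hw 1 1
  have h2 := C6_lin hd hu (-1) 1
  simp only [one_mul, abs_one, abs_neg, sub_add_cancel, neg_mul, neg_sub] at h1 h2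
  exact abs_le.2 ⟨by linarith, by linarith⟩

theorem C6_smul {u : E → ℝ} (a : ℝ) : C6_N (fun x => a * u x) = |a| * C6_N u := by
  have : nsq (fun x => a * u x) = a ^ 2 * nsq u := by
    simp only [nsq, mul_pow, integral_const_mul]
  rw [C6_N, this, Real.sqrt_mul (sq_nonneg a), Real.sqrt_sq_eq_abs, C6_N]

theorem C6_congr {u w : E → ℝ} (h : u =ᵐ[volume] w) : nsq u = nsq w :=
  integral_congr_ae (h.mono fun x hx => by simp only [hx])

theorem C6_dir {ι : Type} [Fintype ι] {g : ι → E → ℝ} (h : ∀ i, MemLp (g i) 2 volume) :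
    dir g = ∑ i, nsq (g i) :=
  integral_finsetSum _ fun i _ => (h i).integrable_sq

theorem C6_ip3 {u w v z : E → ℝ} (hu : MemLp u 2 volume) (hw : MemLp w 2 volume)
    (hv : MemLp v 2 volume) (hz : MemLp z 2 volume) (a b c : ℝ) :
    ip (fun x => a * u x + b * w x + c * v x) z = a * ip u z + b * ip w z + c * ip v z := by
  unfold ip
  rw [← LWD_int3 (LWD_int_mul hu hz) (LWD_int_mul hw hz) (LWD_int_mul hv hz)]
  exact integral_congr_ae (.of_forall fun x => by ring)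

theorem C6_ipd {u v χ φ : E → ℝ} (hu : MemLp u 2 volume) (hv : MemLp v 2 volume)
    (hχ : MemLp χ 2 volume) (hφ : MemLp φ 2 volume) :
    ip u χ - ip v φ = ip (fun x => u x - v x) χ + ip v fun x => χ x - φ x := by
  have h1 : MemLp (fun x => u x - v x) 2 volume := hu.sub hv
  have h2 : MemLp (fun x => χ x - φ x) 2 volume := hχ.sub hφ
  unfold ip
  rw [← integral_sub (LWD_int_mul hu hχ) (LWD_int_mul hv hφ),
    ← integral_add (LWD_int_mul h1 hχ) (LWD_int_mul hv h2)]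
  exact integral_congr_ae (.of_forall fun x => by ring)

theorem C6_ipb {u v χ φ : E → ℝ} (hu : MemLp u 2 volume) (hv : MemLp v 2 volume)
    (hχ : MemLp χ 2 volume) (hφ : MemLp φ 2 volume) (hn : nsq χ = 1) :
    |ip u χ - ip v φ| ≤ (C6_N fun x => u x - v x) + C6_N v * C6_N fun x => χ x - φ x := by
  rw [C6_ipd hu hv hχ hφ]
  have h1 := C6_cs (hu.sub hv) hχ
  rw [C6_None hn, mul_one] at h1
  exact (abs_add_le _ _).trans (add_le_add h1 (C6_cs hv (hχ.sub hφ)))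

end C6gen

theorem C6_sn (Φ : T → ℝ) (x : X) : sn Φ x = C6_N (sl Φ x) := rfl

theorem C6_sn_mem {S : T → ℝ} (hm : Measurable S) (hS : MemLp S 2 volume) :
    MemLp (sn S) 2 volume ∧ nsq (sn S) ≤ nsq S := by
  obtain ⟨h1, -, h2, -⟩ := nsq_prod hS
  have h3 : Measurable (sn S) :=
    ((hm.pow_const 2).stronglyMeasurable.integral_prod_right' (ν := volume)).measurable.sqrt
  rw [h2]
  exact TS_memLp h3 h1 fun x => (sn_sq S x).le

theorem C6_contr {Φ : T → ℝ} (hm : Measurable Φ) (h : MemLp Φ 2 volume) {χ : Y → ℝ}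
    (hχm : Measurable χ) (hχ : MemLp χ 2 volume) :
    nsq (fun x => ∫ y, Φ (x, y) * χ y) ≤ nsq Φ * nsq χ := by
  obtain ⟨h1, -, h2, -⟩ := nsq_prod h
  rw [h2, ← integral_mul_const]
  refine integral_mono_ae (LSlice_memLp_contract hm h hχm hχ).integrable_sq (h1.mul_const _) ?_
  filter_upwards [LSlice_memLp_right h] with x hx
  exact ip_sq_le hx hχ

theorem C6_U3 (D ε : ℝ) (p : T) :
    U3 D ε p = U3 D 0 p + ε * (W p.1 p.2 + 1 / ‖p.2.1 - p.2.2‖) := by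
  simp only [U3, U2]
  ring

theorem C6_sub {D : ℝ} {Φ S : T → ℝ} {G : IT → T → ℝ} (hΦ : H1 eT Φ G) (hm : Measurable S)
    (hS : MemLp S 2 volume) (he : ∀ w k, H1 eT w k → bf (U3 D 0) Φ G w k = ip S w) :
    Sub univ (sn Φ) (gsn Φ G) fun x => 200 * sn Φ x + -1 * (V D x * sn Φ x) + 1 * sn S x := by
  obtain ⟨hn, hg, -⟩ := sn_spec hΦ
  obtain ⟨hQ, hZ⟩ := ct (fb_U3 D le_rfl zero_le_one) hΦ hS he hΦ hn (M := 1)
    (.of_forall fun x => by rw [one_mul, sn_sq]; rfl)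
    (by filter_upwards [hg] with x hx; simpa only [pow_two] using hx)
    (by
      filter_upwards [hΦ.sl] with x hx i
      have e : ∫ y, G (.inl i) (x, y) * Φ (x, y) = ∫ y, Φ (x, y) * G (.inl i) (x, y) :=
        integral_congr_ae (.of_forall fun y => mul_comm _ _)
      rw [e, gsn]
      by_cases h0 : sn Φ x = 0
      · have h1 := C6_cs hx.1.l2 (hx.2 i)
        rw [← C6_sn, h0, zero_mul] at h1
        rw [h0, zero_mul]
        exact (abs_nonpos_iff.1 h1).symm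
      · field_simp)
  refine kato MeasurableSet.univ hn (sn_nonneg Φ) hQ.integrableOn hZ ?_ ?_ ?_
  · rw [Measure.restrict_univ]
    exact C6_mem3 hn.l2 (memLp_V_mul D hn).1 (C6_sn_mem hm hS).1 _ _ _
  · refine .of_forall fun x _ h0 => ?_
    rw [h0]
    simpa using sn_nonneg S x
  · filter_upwards [hΦ.sl, LSlice_memLp_right hS] with x hx hSx _
    have hU := fb_U2 D (le_refl 0) zero_le_one
    have i1 := hx.1.integrable_gs
    have i2 := hU.int _ _ hx.1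
    have i3 := hx.1.integrable_sq
    have i4 := LWD_int_mul hSx hx.1.l2
    have e : ∫ y, ((∑ j, G (.inr j) (x, y) * G (.inr j) (x, y)) / 2 +
        U3 D 0 (x, y) * (Φ (x, y) * Φ (x, y)) - S (x, y) * Φ (x, y)) =
        qf (U2 D 0) (sl Φ x) (gsl G x) + V D x * nsq (sl Φ x) - ip (sl S x) (sl Φ x) := by
      unfold qf dir nsq ip
      have i5 : Integrable fun y => gs (gsl G x) y / 2 + U2 D 0 y * sl Φ x y ^ 2 :=
        (i1.div_const 2).add i2
      have i6 : Integrable fun y => gs (gsl G x) y / 2 + U2 D 0 y * sl Φ x y ^ 2 +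
          V D x * sl Φ x y ^ 2 := i5.add (i3.const_mul _)
      rw [← integral_div, ← integral_add (i1.div_const 2) i2, ← integral_const_mul,
        ← integral_add i5 (i3.const_mul _)]
      refine Eq.trans ?_ (integral_sub i6 i4)
      refine integral_congr_ae (.of_forall fun y => ?_)
      simp only [gs, gsl, sl, U3, pow_two]
      ring
    rw [e, ← sn_sq]
    have h1 := hU.dir_le hx.1
    have h2 := dir_nonneg (gsl G x)
    have h3 := (le_abs_self _).trans (C6_cs hSx hx.1.l2)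
    rw [← sn_sq] at h1
    change ip (sl S x) (sl Φ x) ≤ sn S x * sn Φ x at h3
    nlinarith

/-- `Φ = ψ - u` solves the equation with `U3 D 0` and the source
`S = a ψ - b u - ε (W + 1 / ‖y₁ - y₂‖) ψ = b Φ + (a - b) ψ - …` (`hardy_T`).  `ct` with `Ξ = Φ`:
`Q ≥ (V - 200) n² - sn S · n`; `kato`, `Sub.sup_le`, `memLp_V_mul`. -/
theorem sup_close (C : ℝ) : ∃ C₁ : ℝ, 0 < C₁ ∧ ∀ (D ε a b : ℝ) (ψ u : T → ℝ) (g k : IT → T → ℝ),
    0 < ε → ε ≤ 1 → H1 eT ψ g → H1 eT u k → Eig eT (U3 D ε) a ψ g → Eig eT (U3 D 0) b u k →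
    nsq ψ = 1 → dir g ≤ C → |b| ≤ 2 → |a - b| ≤ C * ε → nsq (fun p => ψ p - u p) ≤ C * ε →
    dir (fun i p => g i p - k i p) ≤ C * ε → ∀ᵐ x, sn (fun p => ψ p - u p) x ≤ C₁ * √ε := by
  refine ⟨900 * √C + 4 * |C| + 1, by positivity,
    fun D ε a b ψ u g k ε0 ε1 hψ hu eψ eu nψ dg hb hab hn hd => ?_⟩
  have hC : 0 ≤ C := (dir_nonneg g).trans dg
  have hΦ := hψ.sub hu
  obtain ⟨hR, hRn⟩ := hardy_T hψ
  have hRm : Measurable fun p : T => (W p.1 p.2 + 1 / ‖p.2.1 - p.2.2‖) * ψ p :=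
    (measurable_W.add (by fun_prop)).mul hψ.m
  have hS := C6_mem3 hΦ.l2 hψ.l2 hR b (a - b) (-ε)
  have hSm : Measurable fun p : T => b * (ψ p - u p) + (a - b) * ψ p +
      -ε * ((W p.1 p.2 + 1 / ‖p.2.1 - p.2.2‖) * ψ p) :=
    ((hΦ.m.const_mul b).add (hψ.m.const_mul _)).add (hRm.const_mul _)
  have hU0 := fb_U3 D (le_refl 0) zero_le_one
  have hsub := C6_sub (D := D) hΦ hSm hS fun w l hw => by
    have e1 := hU0.bf_lin hψ hu hw 1 (-1)
    simp only [one_mul, neg_mul, ← sub_eq_add_neg] at e1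
    rw [bf_comm, e1, bf_comm _ w u, eu w l hw, bf_comm, C6_ip3 hΦ.l2 hψ.l2 hR hw.l2]
    have e2 := eψ w l hw
    have e3 : bf (U3 D ε) ψ g w l = bf (U3 D 0) ψ g w l +
        ε * ip (fun p : T => (W p.1 p.2 + 1 / ‖p.2.1 - p.2.2‖) * ψ p) w := by
      unfold bf ip
      rw [add_assoc, ← integral_const_mul,
        ← integral_add (hU0.int_mul hψ hw) ((LWD_int_mul hR hw.l2).const_mul ε)]
      congr 1
      refine integral_congr_ae (.of_forall fun p => ?_)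
      simp only
      rw [C6_U3 D ε]
      ring
    have e4 : ip (fun p => ψ p - u p) w = ip ψ w - ip u w := by
      unfold ip
      rw [← integral_sub (LWD_int_mul hψ.l2 hw.l2) (LWD_int_mul hu.l2 hw.l2)]
      exact integral_congr_ae (.of_forall fun p => by ring)
    rw [e4]
    linarith
  obtain ⟨hsn, -, n1, -, n2⟩ := sn_spec hΦ
  obtain ⟨v1, v2⟩ := memLp_V_mul D hsn
  obtain ⟨s1, s2⟩ := C6_sn_mem hSm hS
  have sε : 0 < √ε := Real.sqrt_pos.2 ε0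
  have sε1 : ε ≤ √ε := by
    have h1 := Real.mul_self_sqrt ε0.le
    have h2 : √ε ≤ 1 := Real.sqrt_le_one.2 ε1
    nlinarith
  have sC := Real.sqrt_nonneg C
  have b1 : C6_N (fun p => ψ p - u p) ≤ √C * √ε := C6_Nle' hC hn
  have b2 : C6_N (sn fun p => ψ p - u p) ≤ √C * √ε := C6_Nle' hC (n1 ▸ hn)
  have b3 : C6_N (fun x => V D x * sn (fun p => ψ p - u p) x) ≤ 4 * (√C * √ε) := by
    refine C6_Nle (by positivity) ?_
    rw [mul_pow, mul_pow, Real.sq_sqrt hC, Real.sq_sqrt ε0.le]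
    linarith
  have b4 : C6_N (fun p : T => (W p.1 p.2 + 1 / ‖p.2.1 - p.2.2‖) * ψ p) ≤ 6 * √C := by
    refine C6_Nle (by positivity) ?_
    rw [mul_pow, Real.sq_sqrt hC]
    linarith
  have b5 := C6_lin3 hΦ.l2 hψ.l2 hR b (a - b) (-ε)
  rw [C6_None nψ, abs_neg, abs_of_pos ε0] at b5
  have b6 := (Real.sqrt_le_sqrt s2).trans b5
  have b7 := C6_lin3 hsn.l2 v1 s1 200 (-1) 1
  have b8 : |b| * C6_N (fun p => ψ p - u p) ≤ 2 * (√C * √ε) :=
    mul_le_mul hb b1 (C6_N0 _) zero_le_two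
  have b9 : ε * C6_N (fun p : T => (W p.1 p.2 + 1 / ‖p.2.1 - p.2.2‖) * ψ p) ≤ √ε * (6 * √C) :=
    mul_le_mul sε1 b4 (C6_N0 _) sε.le
  have b10 : C * ε ≤ C * √ε := mul_le_mul_of_nonneg_left sε1 hC
  filter_upwards [hsub.sup_le] with x hx
  refine hx.trans ?_
  rw [abs_of_nonneg hC]
  simp only [abs_neg, abs_one, one_mul, Nat.abs_ofNat] at b7
  unfold C6_N at *
  simp only [one_mul]
  have := mul_nonneg sC sε.le
  nlinarith

/-- Tensor products. -/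
def C6_t (a b : X → ℝ) (y : Y) : ℝ := a y.1 * b y.2

theorem C6_one (o : One c) : MemLp o.aa 2 volume ∧ MemLp (C6_t o.b o.a) 2 volume ∧
    MemLp (C6_t o.a o.b) 2 volume ∧ nsq o.aa = 1 ∧ nsq (C6_t o.b o.a) = 1 ∧
    nsq (C6_t o.a o.b) = 1 ∧ ip (C6_t o.b o.a) o.aa = 0 ∧ ip (C6_t o.a o.b) o.aa = 0 ∧
    ip (C6_t o.a o.b) (C6_t o.b o.a) = 0 := by
  have na : ip o.a o.a = 1 := (TS_ip_self _).trans o.na
  have nb : ip o.b o.b = 1 := (TS_ip_self _).trans o.nb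
  have ba : ip o.b o.a = 0 := (TS_ip_comm _ _).trans o.ab
  refine ⟨LSlice_memLp_tensor o.ha.l2 o.ha.l2, LSlice_memLp_tensor o.hb.l2 o.ha.l2,
    LSlice_memLp_tensor o.ha.l2 o.hb.l2, ?_, ?_, ?_, ?_, ?_, ?_⟩
  · rw [← TS_ip_self]
    exact ip_tensor.trans (by rw [na, mul_one])
  · rw [← TS_ip_self]
    exact ip_tensor.trans (by rw [na, nb, mul_one])
  · rw [← TS_ip_self]
    exact ip_tensor.trans (by rw [na, nb, mul_one])
  · exact ip_tensor.trans (by rw [ba, zero_mul])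
  · exact ip_tensor.trans (by rw [ba, mul_zero])
  · exact ip_tensor.trans (by rw [ba, mul_zero])

theorem C6_r : 0 < (√2)⁻¹ ∧ (√2)⁻¹ ≤ 1 := by
  have h : (1 : ℝ) ≤ √2 := Real.one_le_sqrt.2 one_le_two
  exact ⟨by positivity, inv_le_one_of_one_le₀ h⟩

theorem C6_u0 (o : One c) (x : X) : sl o.u0 x =
    fun y => o.a x * (√2)⁻¹ * C6_t o.b o.a y + -(o.b x * (√2)⁻¹) * o.aa y := by
  funext y
  simp only [sl, One.u0, slater, C6_t, One.aa]
  ring

theorem C6_sy (o : One c) :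
    o.sy = fun y => (√2)⁻¹ * C6_t o.a o.b y + (√2)⁻¹ * C6_t o.b o.a y := by
  funext y
  simp only [One.sy, C6_t]
  ring

theorem C6_u0_spec (o : One c) (x : X) : MemLp (sl o.u0 x) 2 volume ∧ MemLp o.sy 2 volume ∧
    ip (sl o.u0 x) o.aa = -(o.b x / √2) ∧ ip (sl o.u0 x) o.sy = o.a x / 2 ∧
    C6_N (sl o.u0 x) ≤ |o.a x| + |o.b x| := by
  obtain ⟨m1, m2, m3, n1, n2, n3, o1, o2, o3⟩ := C6_one o
  have hsy : MemLp o.sy 2 volume := C6_sy o ▸ C6_mem m3 m2 _ _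
  obtain ⟨r0, r1⟩ := C6_r
  refine ⟨C6_u0 o x ▸ C6_mem m2 m1 _ _, hsy, ?_, ?_, ?_⟩
  · rw [TS_ip_comm, C6_u0, TP_ip_lin m2 m1 m1, TS_ip_comm, o1, TS_ip_self, n1]
    ring
  · rw [TS_ip_comm, C6_u0, TP_ip_lin m2 m1 hsy, TS_ip_comm o.sy, TS_ip_comm o.sy, C6_sy,
      TP_ip_lin m3 m2 m2, TP_ip_lin m3 m2 m1, TS_ip_comm _ (C6_t o.a o.b), o3, TS_ip_self, n2,
      TS_ip_comm o.aa, TS_ip_comm o.aa, o1, o2]
    have := T2_two
    linear_combination o.a x * this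
  · rw [C6_u0]
    refine (C6_lin m2 m1 _ _).trans ?_
    rw [C6_None n1, C6_None n2, abs_neg, abs_mul, abs_mul, abs_of_pos r0]
    nlinarith [abs_nonneg (o.a x), abs_nonneg (o.b x)]

theorem C6_anti (o : One c) (α : ℝ) :
    MemLp (fun y => α * C6_t o.a o.b y + -α * C6_t o.b o.a y) 2 volume ∧
      nsq (fun y => α * C6_t o.a o.b y + -α * C6_t o.b o.a y) = 2 * α ^ 2 := by
  obtain ⟨m1, m2, m3, n1, n2, n3, o1, o2, o3⟩ := C6_one o
  refine ⟨C6_mem m3 m2 _ _, ?_⟩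
  rw [nsq_lin m3 m2, n2, n3, o3]
  ring

theorem C6_PY {u : Y → ℝ} (hu : MemLp u 2 volume) :
    MemLp (fun y => u (PY y)) 2 volume ∧ C6_N (fun y => u (PY y)) = C6_N u :=
  ⟨hu.comp_measurePreserving mp_PY, congrArg Real.sqrt (integral_PY fun y => u y ^ 2)⟩

theorem C6_dir_cyc (g : IT → T → ℝ) : dir (gcyc g) = dir g := by
  rw [← TS_dir TS_cyc g]
  congr 1
  funext i p
  rcases i with i | j | j <;> exact (one_mul _).symm

theorem C6_sup (o : One c) (C : ℝ) : ∃ C₁ : ℝ, 0 < C₁ ∧ ∀ (ε : ℝ) (m : MB o C ε), ∀ᵐ x,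
    sn (fun p => m.th.ψ p - o.u0 p) x ≤ C₁ * √ε ∧
      sn (fun p => m.Dn p - o.u0 (cyc p)) x ≤ C₁ * √ε := by
  obtain ⟨C₁, h0, h⟩ := sup_close C
  refine ⟨C₁, h0, fun ε m => ?_⟩
  have ε1 : ε ≤ 1 := m.ε_le.trans (by norm_num)
  have hb : |2 * o.ea + o.eb| ≤ 2 := by
    have h1 := abs_le.1 o.ea_near
    have h2 := o.gpos
    have h3 := o.gsm
    exact abs_le.2 ⟨by linarith [h1.1], by linarith [h1.2]⟩
  refine (h o.D ε _ _ _ _ _ _ m.ε0 ε1 m.th.hψ m.th.hu m.th.eig m.th.eigu m.th.nψ m.th.dψ hb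
    m.th.E3_near m.th.cl m.th.cd).and (h o.D ε _ _ _ _ _ _ m.ε0 ε1 m.th.hψ.comp_cyc
    m.th.hu.comp_cyc m.th.eig.comp_cyc m.th.eigu.comp_cyc ?_ ?_ hb m.th.E3_near ?_ ?_)
  · exact (TS_integral TS_cyc fun p => m.th.ψ p ^ 2).trans m.th.nψ
  · rw [C6_dir_cyc]
    exact m.th.dψ
  · exact (TS_integral TS_cyc fun p => (m.th.ψ p - o.u0 p) ^ 2).trans_le m.th.cl
  · refine le_of_eq_of_le ?_ m.th.cd
    rw [← C6_dir_cyc fun i p => m.th.gψ i p - m.th.gu i p]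
    congr 1
    funext i p
    rcases i with i | j | j <;> rfl

/-- The channels of `u0 (x, y) = (a x b y₁ - b x a y₁) a y₂ / √2`: `⟨aa, u0⟩ = -b x / √2`,
`⟨sy, u0⟩ = a x / 2`, the even part is `-b x aa / √2`, the odd part is `a x b y₁ a y₂ / √2`,
`‖b y₁ a y₂ / √2 - sy / 2‖² = 1/4`, and the slices of `u0 ∘ cyc` have the norm `a x`.  Triangle
inequalities in `L²(Y)`; `One.bdd`. -/
theorem chan_close (o : One c) (C : ℝ) : ∃ C₀ : ℝ, ∀ C' : ℝ, C₀ ≤ C' → ∀ (ε : ℝ) (m : MB o C ε),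
    ∀ᵐ x, |m.p x - o.b x / √2| ≤ C' * √ε ∧ |m.q x - o.a x / 2| ≤ C' * √ε ∧
      |sn m.B x - o.a x / 2| ≤ C' * √ε ∧ sn m.E x ≤ C' * √ε ∧ |sn m.Dn x - o.a x| ≤ C' * √ε ∧
      m.s x ≤ C' := by
  obtain ⟨C₁, h0, h⟩ := C6_sup o C
  obtain ⟨M, hM⟩ := o.bdd
  have hM0 : 0 ≤ M := (abs_nonneg _).trans (hM 0).1
  refine ⟨3 * C₁ + 3 * M * √C + 5 * M, fun C' hC' ε m => ?_⟩
  have hC : 0 ≤ C := zero_le_one.trans m.C1
  have sε : 0 < √ε := Real.sqrt_pos.2 m.ε0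
  have sε1 : √ε ≤ 1 := Real.sqrt_le_one.2 (m.ε_le.trans (by norm_num))
  have sC := Real.sqrt_nonneg C
  obtain ⟨m1, m2, m3, n1, n2, n3, o1, o2, o3⟩ := C6_one o
  obtain ⟨r0, r1⟩ := C6_r
  have g0 : C6_N (fun y => m.tw.χ0 y - o.aa y) ≤ √C * √ε := C6_Nle' hC m.tw.c0
  have g1 : C6_N (fun y => m.tw.χ1 y - o.sy y) ≤ √C * √ε := C6_Nle' hC m.tw.c1
  have hK : (3 * C₁ + 3 * M * √C + 5 * M) * √ε ≤ C' * √ε := mul_le_mul_of_nonneg_right hC' sε.le
  have k1 : 0 ≤ C₁ * √ε := by positivity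
  have k2 : 0 ≤ M * (√C * √ε) := by positivity
  have k3 : 0 ≤ M * √ε := by positivity
  have k4 : C₁ * √ε ≤ C₁ := mul_le_of_le_one_right h0.le sε1
  have k5 : 0 ≤ M * √C := by positivity
  filter_upwards [h ε m, LSlice_memLp_right m.th.hψ.l2, LSlice_memLp_right m.th.hψ.comp_cyc.l2]
    with x ⟨d1, d2⟩ hu hD
  obtain ⟨hv, hsy, e1, e2, nv⟩ := C6_u0_spec o x
  obtain ⟨Ma, Mb⟩ := hM x
  have ha := o.apos x
  change MemLp (sl m.th.ψ x) 2 volume at hu
  change MemLp (sl m.Dn x) 2 volume at hD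
  change C6_N (fun y => sl m.th.ψ x y - sl o.u0 x y) ≤ _ at d1
  have hΦ : MemLp (fun y => sl m.th.ψ x y - sl o.u0 x y) 2 volume := hu.sub hv
  obtain ⟨hP, nP⟩ := C6_PY hΦ
  have nv' : C6_N (sl o.u0 x) ≤ 2 * M := by linarith
  have bp : |m.p x - o.b x / √2| ≤ C₁ * √ε + 2 * M * (√C * √ε) := by
    have h1 := C6_ipb hu hv m.tw.h0.l2 m1 m.tw.n0
    have h2 : m.p x - o.b x / √2 = -(ip (sl m.th.ψ x) m.tw.χ0 - ip (sl o.u0 x) o.aa) := by
      rw [e1]
      change -ip (sl m.th.ψ x) m.tw.χ0 - _ = _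
      ring
    rw [h2, abs_neg]
    exact h1.trans (add_le_add d1 (mul_le_mul nv' g0 (C6_N0 _) (by positivity)))
  have bq : |m.q x - o.a x / 2| ≤ C₁ * √ε + 2 * M * (√C * √ε) := by
    have h1 := C6_ipb hu hv m.tw.h1.l2 hsy m.tw.n1
    rw [e2] at h1
    exact h1.trans (add_le_add d1 (mul_le_mul nv' g1 (C6_N0 _) (by positivity)))
  have bB : |sn m.B x - o.a x / 2| ≤ 2 * (C₁ * √ε) + 3 * M * (√C * √ε) := by
    obtain ⟨t1, t2⟩ := C6_anti o (-(o.a x * (√2)⁻¹ / 2))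
    have hB : MemLp (sl m.B x) 2 volume := by
      rw [MB.B, sl_prj]
      exact m.ppB.memLp hu
    have h1 := C6_rev hB t1
    have h2 : C6_N (fun y => -(o.a x * (√2)⁻¹ / 2) * C6_t o.a o.b y +
        - -(o.a x * (√2)⁻¹ / 2) * C6_t o.b o.a y) = o.a x / 2 := by
      rw [C6_N, t2, Real.sqrt_eq_iff_mul_self_eq (by positivity) (by positivity)]
      have := T2_two
      linear_combination (o.a x ^ 2 / 2) * this
    have h3 := C6_lin4 hΦ hP m.tw.h1.l2 (m.tw.h1.l2.sub hsy) (1 / 2) (-1 / 2)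
      (-(m.q x - o.a x / 2)) (-(o.a x / 2))
    rw [nP, C6_None m.tw.n1, abs_neg, abs_neg] at h3
    have h4 : |o.a x / 2| * C6_N (fun y => m.tw.χ1 y - o.sy y) ≤ M * (√C * √ε) := by
      refine mul_le_mul ?_ g1 (C6_N0 _) hM0
      rw [abs_div, abs_two]
      linarith [abs_nonneg (o.a x)]
    rw [h2] at h1
    refine h1.trans ((le_of_eq_of_le (congrArg C6_N (funext fun y => ?_)) h3).trans ?_)
    · simp only [sl, MB.B, prj, MB.q, One.u0, slater, C6_t, One.sy, PY, o.aP, o.bP, Pi.sub_apply]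
      ring
    · have a1 : |(1 / 2 : ℝ)| = 1 / 2 := abs_of_pos (by norm_num)
      have a2 : |(-1 / 2 : ℝ)| = 1 / 2 := by rw [abs_of_neg (by norm_num)]; norm_num
      rw [a1, a2]
      change _ + |o.a x / 2| * C6_N (fun y => m.tw.χ1 y - o.sy y) ≤ _
      linarith
  have bE : sn m.E x ≤ 2 * (C₁ * √ε) + 3 * M * (√C * √ε) := by
    have h3 := C6_lin4 hΦ hP m.tw.h0.l2 (m.tw.h0.l2.sub m1) (1 / 2) (1 / 2)
      (m.p x - o.b x / √2) (o.b x / √2)
    rw [nP, C6_None m.tw.n0] at h3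
    have h4 : |o.b x / √2| * C6_N (fun y => m.tw.χ0 y - o.aa y) ≤ M * (√C * √ε) := by
      refine mul_le_mul ?_ g0 (C6_N0 _) hM0
      rw [div_eq_mul_inv, abs_mul, abs_of_pos r0]
      exact (mul_le_of_le_one_right (abs_nonneg _) r1).trans Mb
    rw [C6_sn]
    refine (le_of_eq_of_le (congrArg C6_N (funext fun y => ?_)) h3).trans ?_
    · simp only [sl, MB.E, prj, MB.p, One.u0, slater, One.aa, PY, o.aP, o.bP, Pi.sub_apply]
      ring
    · have a1 : |(1 / 2 : ℝ)| = 1 / 2 := abs_of_pos (by norm_num)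
      rw [a1]
      change _ + |o.b x / √2| * C6_N (fun y => m.tw.χ0 y - o.aa y) ≤ _
      linarith
  have bD : |sn m.Dn x - o.a x| ≤ C₁ * √ε := by
    obtain ⟨t1, t2⟩ := C6_anti o (o.a x * (√2)⁻¹)
    have h1 := C6_rev hD t1
    have h2 : C6_N (fun y => o.a x * (√2)⁻¹ * C6_t o.a o.b y +
        -(o.a x * (√2)⁻¹) * C6_t o.b o.a y) = o.a x := by
      rw [C6_N, t2, Real.sqrt_eq_iff_mul_self_eq (by positivity) ha.le]
      have := T2_two
      linear_combination (2 * o.a x ^ 2) * this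
    rw [h2] at h1
    refine h1.trans (le_of_eq_of_le (congrArg C6_N (funext fun y => ?_)) d2)
    simp only [sl, One.u0, slater, C6_t, cyc]
    ring
  have bs : m.s x ≤ 3 * C₁ + 5 * M := by
    have h1 := (abs_le.1 (C6_rev hu hv)).2
    have h2 := (abs_le.1 bD).2
    have h3 := le_abs_self (o.a x)
    have h4 := sn_nonneg m.th.ψ x
    have h5 := sn_nonneg m.Dn x
    rw [← C6_sn m.th.ψ] at h1
    have h6 : m.s x ≤ 2 * sn m.th.ψ x + sn m.Dn x := by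
      refine Real.sqrt_le_iff.2 ⟨by positivity, ?_⟩
      rw [mul_pow, Real.sq_sqrt zero_le_two]
      nlinarith [mul_nonneg h4 h5]
    linarith
  refine ⟨?_, ?_, ?_, ?_, ?_, ?_⟩ <;> linarith

theorem C6_inl {G : IT → T → ℝ} (h : ∀ i, MemLp (G i) 2 volume) :
    ∑ i, nsq (G (.inl i)) ≤ dir G := by
  rw [C6_dir h, Fintype.sum_sum_type]
  exact le_add_of_nonneg_right (Finset.sum_nonneg fun _ _ => nsq_nonneg _)

theorem C6_add {E : Type} [NormedAddCommGroup E] [NormedSpace ℝ E] [FiniteDimensional ℝ E]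
    [MeasureSpace E] [BorelSpace E] [(volume : Measure E).IsAddHaarMeasure] {u w : E → ℝ}
    (hu : MemLp u 2 volume) (hw : MemLp w 2 volume) {s : ℝ} (hs : s ^ 2 = 1) :
    nsq (fun x => s * u x + -1 * w x) ≤ 2 * nsq u + 2 * nsq w := by
  have h1 := nsq_nonneg fun x => s * u x + 1 * w x
  rw [nsq_lin hu hw] at h1 ⊢
  rw [hs] at h1 ⊢
  linarith

theorem C6_w (m : MB o C ε) : nsq (fun x => 1 * m.p x + -(√2)⁻¹ * o.b x) ≤ 10 * C ^ 2 * ε ∧
    dir (fun i x => 1 * m.gp i x + -(√2)⁻¹ * o.gb i x) ≤ 10 * C ^ 2 * ε := by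
  have hC := m.C1
  have ε0 := m.ε0
  have hCε : C * ε ≤ 1 := by linarith [m.εC, o.g_le]
  have hCε0 : 0 ≤ C * ε := by positivity
  have hΦ := m.th.hψ.sub m.th.hu
  have m1 := (C6_one o).1
  have am : Measurable o.aa := (o.ha.m.comp measurable_fst).mul (o.ha.m.comp measurable_snd)
  have dm : Measurable fun y => m.tw.χ0 y - o.aa y := m.tw.h0.m.sub am
  have d2 : MemLp (fun y => m.tw.χ0 y - o.aa y) 2 volume := m.tw.h0.l2.sub m1
  have c1 := hΦ.contract m.tw.h0.m m.tw.h0.l2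
  have c2 := m.th.hu.contract dm d2
  have c3 := c1.lin c2 (-1) (-1)
  have hw := m.solp.1.h1.lin o.hb 1 (-(√2)⁻¹)
  have e1 : (fun x => 1 * m.p x + -(√2)⁻¹ * o.b x) =ᵐ[volume] fun x =>
      -1 * (∫ y, (m.th.ψ (x, y) - o.u0 (x, y)) * m.tw.χ0 y) +
        -1 * ∫ y, o.u0 (x, y) * (m.tw.χ0 y - o.aa y) := by
    filter_upwards [LSlice_memLp_right m.th.hψ.l2] with x hu
    obtain ⟨hv, -, e, -⟩ := C6_u0_spec o x
    have h := C6_ipd hu hv m.tw.h0.l2 m1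
    rw [e] at h
    change _ = -1 * ip (fun y => m.th.ψ (x, y) - sl o.u0 x y) m.tw.χ0 +
      -1 * ip (sl o.u0 x) fun y => m.tw.χ0 y - o.aa y
    change 1 * -ip (fun y => m.th.ψ (x, y)) m.tw.χ0 + _ = _
    rw [div_eq_mul_inv] at h
    linarith
  have e2 := hw.h1l.grad_ae c3.h1l e1
  have nu : nsq o.u0 ≤ 4 := by
    have h := C6_add m.th.hψ.l2 hΦ.l2 (s := 1) (by norm_num)
    simp only [one_mul, neg_mul, ← sub_eq_add_neg, sub_sub_cancel] at h
    have := m.th.nψ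
    have := m.th.cl
    exact h.trans (by linarith)
  have du : dir m.th.gu ≤ 4 * C := by
    have h : ∀ i, nsq (m.th.gu i) ≤ 2 * nsq (m.th.gψ i) +
        2 * nsq fun p => m.th.gψ i p - m.th.gu i p := fun i => by
      have h := C6_add (m.th.hψ.gl2 i) (hΦ.gl2 i) (s := 1) (by norm_num)
      simpa only [one_mul, neg_mul, ← sub_eq_add_neg, sub_sub_cancel] using h
    have h1 := Finset.sum_le_sum fun i (_ : i ∈ Finset.univ) => h i
    rw [Finset.sum_add_distrib, ← Finset.mul_sum, ← Finset.mul_sum, ← C6_dir m.th.hu.gl2,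
      ← C6_dir m.th.hψ.gl2, ← C6_dir hΦ.gl2] at h1
    have := m.th.dψ
    have := m.th.cd
    linarith
  have hCC : C * ε ≤ C ^ 2 * ε := by nlinarith
  constructor
  · rw [C6_congr e1]
    have h1 := C6_add c1.l2 c2.l2 (s := -1) (by norm_num)
    have h2 := C6_contr hΦ.m hΦ.l2 m.tw.h0.m m.tw.h0.l2
    have h3 := C6_contr m.th.hu.m m.th.hu.l2 dm d2
    rw [m.tw.n0, mul_one] at h2
    have h4 := mul_le_mul nu m.tw.c0 (nsq_nonneg _) (by norm_num)
    have := m.th.cl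
    linarith
  · rw [C6_dir hw.gl2]
    have h : ∀ i, nsq (fun x => 1 * m.gp i x + -(√2)⁻¹ * o.gb i x) ≤
        2 * nsq (fun p => m.th.gψ (.inl i) p - m.th.gu (.inl i) p) +
          2 * (C * ε) * nsq (m.th.gu (.inl i)) := fun i => by
      rw [C6_congr (e2.mono fun x hx => hx i)]
      have h1 := C6_add (c1.gl2 i) (c2.gl2 i) (s := -1) (by norm_num)
      have h2 := C6_contr (hΦ.gm (.inl i)) (hΦ.gl2 _) m.tw.h0.m m.tw.h0.l2
      have h3 := C6_contr (m.th.hu.gm (.inl i)) (m.th.hu.gl2 _) dm d2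
      rw [m.tw.n0, mul_one] at h2
      have h4 := mul_le_mul_of_nonneg_left m.tw.c0 (nsq_nonneg (m.th.gu (.inl i)))
      linarith
    have h1 := Finset.sum_le_sum fun i (_ : i ∈ Finset.univ) => h i
    rw [Finset.sum_add_distrib, ← Finset.mul_sum, ← Finset.mul_sum] at h1
    have h2 := C6_inl hΦ.gl2
    have h3 := mul_le_mul_of_nonneg_left ((C6_inl m.th.hu.gl2).trans du) hCε0
    have := m.th.cd
    nlinarith

/-- `odd_bound` for `w = p - b / √2` with `f = Sp - (V + I) w - (I + eb) b / √2`; `Sp_bd`, `far_bd`,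
`V_ext'`.  `dir (gp - gb / √2) ≤ C' ε`: `gb i / √2 = -∫ gu (inl i) aa` almost everywhere
(`H1.contract`, uniqueness of the gradient). -/
theorem chan_close_z (o : One c) (C : ℝ) : ∃ C₀ : ℝ, ∀ C' : ℝ, C₀ ≤ C' →
    ∀ (ε : ℝ) (m : MB o C ε),
      ∀ᵐ x : X, 2 * o.Rs + 10 ≤ ‖x‖ → |m.p x - o.b x / √2| ≤ C' * √ε * |x 2| := by
  obtain ⟨K, hK, hodd⟩ := odd_bound
  obtain ⟨C₀, hC₀⟩ := chan_close o C
  obtain ⟨C₂, hC₂, hfar⟩ := far_bd o C
  obtain ⟨M, hM⟩ := o.bdd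
  have hM0 : 0 ≤ M := (abs_nonneg _).trans (hM 0).1
  refine ⟨K * (C * C₂ + 5 * |C₀| + 2 * C * M + 27 * C), fun C' hC' ε m => ?_⟩
  have hC := m.C1
  have ε0 := m.ε0
  have ε1 : ε ≤ 1 := m.ε_le.trans (by norm_num)
  have sε : 0 < √ε := Real.sqrt_pos.2 ε0
  have sε2 : √ε ^ 2 = ε := Real.sq_sqrt ε0.le
  have sε1 : ε ≤ √ε := by
    have h2 : √ε ≤ 1 := Real.sqrt_le_one.2 ε1
    nlinarith
  obtain ⟨r0, r1⟩ := C6_r
  obtain ⟨sp, Sp2, Spn, -⟩ := m.solp
  obtain ⟨I0, I1, I2⟩ := m.I_near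
  have hs := sp.lin MeasurableSet.univ (Eig.sol o.hb o.eigb) 1 (-(√2)⁻¹)
  obtain ⟨nw, dw⟩ := C6_w m
  obtain ⟨v1, v2⟩ := memLp_V_mul o.D hs.h1
  have ef : (fun x => 1 * (m.Sp x - (V o.D x + m.I) * m.p x) +
      -(√2)⁻¹ * ((o.eb - V o.D x) * o.b x)) = fun x => 1 * m.Sp x +
        -1 * (V o.D x * (1 * m.p x + -(√2)⁻¹ * o.b x)) + -m.I * (1 * m.p x + -(√2)⁻¹ * o.b x) +
          -((m.I + o.eb) * (√2)⁻¹) * o.b x := funext fun x => by ring
  have hIe : |(m.I + o.eb) * (√2)⁻¹| ≤ 2 * C * √ε := by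
    rw [abs_mul, abs_of_pos r0]
    refine (mul_le_of_le_one_right (abs_nonneg _) r1).trans (I0.trans ?_)
    exact mul_le_mul_of_nonneg_left sε1 (by positivity)
  have b1 : C6_N (fun x => 1 * m.p x + -(√2)⁻¹ * o.b x) ≤ 4 * C * √ε := by
    refine C6_Nle (by positivity) (nw.trans ?_)
    rw [mul_pow, mul_pow, sε2]
    nlinarith [mul_nonneg (sq_nonneg C) ε0.le]
  have b2 : C6_N (fun x => V o.D x * (1 * m.p x + -(√2)⁻¹ * o.b x)) ≤ 16 * C * √ε := by
    refine C6_Nle (by positivity) (v2.trans ?_)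
    rw [mul_pow, mul_pow, sε2]
    nlinarith [mul_nonneg (sq_nonneg C) ε0.le]
  have b3 : C6_N m.Sp ≤ C * √ε := by
    refine C6_Nle (by positivity) (Spn.trans ?_)
    rw [mul_pow, sε2]
    exact mul_le_mul_of_nonneg_right (by nlinarith) ε0.le
  have b4 := C6_lin4 Sp2 v1 hs.h1.l2 o.hb.l2 1 (-1) (-m.I) (-((m.I + o.eb) * (√2)⁻¹))
  rw [← ef, C6_None o.nb, abs_neg, abs_neg, abs_neg, abs_one, abs_of_pos (by linarith : 0 < m.I)]
    at b4
  have b5 : m.I * C6_N (fun x => 1 * m.p x + -(√2)⁻¹ * o.b x) ≤ 1 * (4 * C * √ε) :=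
    mul_le_mul (by linarith) b1 (C6_N0 _) zero_le_one
  have hR := o.Rs_ge
  have ha : 0 ≤ (C * C₂ + 5 * |C₀| + 2 * C * M) * √ε := by positivity
  have key := hodd _ _ _ o.Rs _ (by linarith) ha hs
    (.of_forall fun x => by simp only [(m.parity x).1, o.bP]; ring)
    (.of_forall fun x => by
      simp only [(m.parity x).1, (m.parity x).2.2.2.2.1, o.bP, V_P]; ring)
    (by
      filter_upwards [hC₀ _ (le_abs_self C₀) ε m, hfar ε m, m.Sp_bd] with x h1 h2 h3 hx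
      have h4 : 2 * o.D ≤ ‖x‖ := by unfold One.Rs at hx; linarith
      have h5 := V_ext' o.D1 h4
      have h6 : 4 / ‖x‖ ≤ 4 := div_le_self (by norm_num) (by linarith)
      have h7 : |V o.D x + m.I| ≤ 5 := (abs_add_le _ _).trans (by
        rw [abs_of_pos (by linarith : 0 < m.I)]; linarith)
      have e : 1 * (m.Sp x - (V o.D x + m.I) * m.p x) + -(√2)⁻¹ * ((o.eb - V o.D x) * o.b x) =
          m.Sp x - (V o.D x + m.I) * (m.p x - o.b x / √2) - (m.I + o.eb) * (√2)⁻¹ * o.b x := by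
        ring
      have h8 : |m.Sp x| ≤ √ε * C * C₂ := h3.trans (mul_le_mul
        (mul_le_mul_of_nonneg_right sε1 (by linarith)) h2.2.2 (sn_nonneg _ _) (by positivity))
      have h9 := mul_le_mul h7 h1.1 (abs_nonneg _) (by norm_num)
      have h10 := mul_le_mul hIe (hM x).2 (abs_nonneg _) (by positivity)
      rw [← abs_mul] at h9 h10
      rw [e]
      refine (abs_sub _ _).trans ((add_le_add_left (abs_sub _ _) _).trans ?_)
      linarith)
  filter_upwards [key] with x hx h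
  have e : m.p x - o.b x / √2 = 1 * m.p x + -(√2)⁻¹ * o.b x := by ring
  rw [e]
  refine (hx h).trans (mul_le_mul_of_nonneg_right ?_ (abs_nonneg _))
  refine le_trans ?_ (mul_le_mul_of_nonneg_right hC' sε.le)
  rw [mul_assoc K]
  refine mul_le_mul_of_nonneg_left ?_ hK.le
  unfold C6_N at b1 b2 b3 b4 b5
  linarith

end Crest.Agent.R335
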