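import Crest.Agent.R335.CP

/-! Row 335. The natural pair. -/

set_option autoImplicit false

open MeasureTheory Set Filter Topology
open scoped ENNReal

noncomputable section

namespace Crest.Agent.R335

variable {c : ℝ} {o : One c} {C ε : ℝ}

/-- Even and odd parts in the first variable. -/
def evn (Φ : T → ℝ) (p : T) : ℝ := (Φ p + Φ (P p.1, p.2)) / 2
def odd (Φ : T → ℝ) (p : T) : ℝ := (Φ p - Φ (P p.1, p.2)) / 2

/-- the reflection of the first electron -/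
def C7_P : Sym eT fun p => (P p.1, p.2) := TS_prod TS_P (TS_refl eY)

theorem C7_memLp {Φ : T → ℝ} (h : MemLp Φ 2 volume) :
    MemLp (fun p : T => Φ (P p.1, p.2)) 2 volume := h.comp_measurePreserving (TS_mp C7_P)

theorem C7_evn (Φ : T → ℝ) : evn Φ = fun p => 1 / 2 * Φ p + 1 / 2 * Φ (P p.1, p.2) := by
  funext p
  unfold evn
  ring

theorem C7_odd (Φ : T → ℝ) : odd Φ = fun p => 1 / 2 * Φ p + -1 / 2 * Φ (P p.1, p.2) := by
  funext p
  unfold odd
  ring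

theorem C7_nsq_evn {Φ : T → ℝ} (h : MemLp Φ 2 volume) : nsq (evn Φ) ≤ nsq Φ := by
  have h1 : nsq (fun p : T => Φ (P p.1, p.2)) = nsq Φ := TS_integral C7_P fun p => Φ p ^ 2
  have h2 := nsq_nonneg (odd Φ)
  rw [C7_odd, nsq_lin h (C7_memLp h), h1] at h2
  rw [C7_evn, nsq_lin h (C7_memLp h), h1]
  linarith

theorem C7_close {u w : T → ℝ} (hu : MemLp u 2 volume) (hw : MemLp w 2 volume) (h1 : nsq u ≤ 1)
    (h2 : nsq w ≤ 1) {δ : ℝ} (hδ : 0 ≤ δ) (h : nsq (fun p => u p - w p) ≤ δ ^ 2) :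
    |nsq u - nsq w| ≤ 2 * δ := by
  have e : (fun p => u p - w p) = fun p => 1 * u p + -1 * w p := by
    funext p
    ring
  have h3 := nsq_nonneg fun p => u p - w p
  rw [e, nsq_lin hu hw] at h h3
  have h4 := ip_sq_le hu hw
  have h5 := nsq_nonneg u
  have h6 := nsq_nonneg w
  refine abs_le_of_sq_le_sq' ?_ (by positivity) |> abs_le.mpr
  calc (nsq u - nsq w) ^ 2 ≤ (nsq u - 2 * ip u w + nsq w) * (nsq u + 2 * ip u w + nsq w) := by
        nlinarith
    _ ≤ (nsq u - 2 * ip u w + nsq w) * 4 := mul_le_mul_of_nonneg_left (by linarith) (by linarith)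
    _ ≤ (2 * δ) ^ 2 := by nlinarith

theorem evn_odd {Φ : T → ℝ} {g : IT → T → ℝ} (h : H1 eT Φ g) : ∃ k l, H1 eX (sn (evn Φ)) k ∧
    H1 eX (sn (odd Φ)) l ∧ Van (sn (odd Φ)) ∧
    (∀ᵐ x, sn (evn Φ) x ^ 2 + sn (odd Φ) x ^ 2 = (sn Φ x ^ 2 + sn Φ (P x) ^ 2) / 2) ∧
    dir k + dir l ≤ ∫ p, ∑ i, g (.inl i) p ^ 2 ∧ nsq (sn (evn Φ)) = nsq (evn Φ) ∧
    MemLp (evn Φ) 2 volume := by
  have h' := TS_H1 C7_P h
  have he := h.lin h' (1 / 2) (1 / 2)
  have ho := h.lin h' (1 / 2) (-1 / 2)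
  have ie := TP_int_inl he
  have io := TP_int_inl ho
  have i1 := TP_int_inl h
  have i2 := TP_int_inl h'
  rw [← C7_evn] at he
  rw [← C7_odd] at ho
  obtain ⟨a1, -, a2, a3, -⟩ := sn_spec he
  obtain ⟨b1, -, -, b3, -⟩ := sn_spec ho
  refine ⟨_, _, a1, b1, ?_, ?_, ?_, a2, he.l2⟩
  · refine van_norm ho.m (fun i => ho.gm (.inl i)) ho.l2 (fun i => ho.gl2 (.inl i))
      ho.slice_left (.of_forall fun y => .of_forall fun x => ?_)
    simp only [odd, P_P]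
    ring
  · filter_upwards [LSlice_memLp_right h.l2, ae_P (LSlice_memLp_right h.l2)] with x hx hx'
    have e1 : sl (evn Φ) x = fun y => 1 / 2 * sl Φ x y + 1 / 2 * sl Φ (P x) y := by
      rw [C7_evn]
      rfl
    have e2 : sl (odd Φ) x = fun y => 1 / 2 * sl Φ x y + -1 / 2 * sl Φ (P x) y := by
      rw [C7_odd]
      rfl
    have hy : MemLp (sl Φ x) 2 volume := hx
    have hy' : MemLp (sl Φ (P x)) 2 volume := hx'
    rw [sn_sq, sn_sq, sn_sq, sn_sq, e1, e2, nsq_lin hy hy', nsq_lin hy hy']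
    ring
  · refine (add_le_add a3 b3).trans (le_of_eq ?_)
    have e1 : ∫ p : T, ∑ i, (C7_P.sgn (.inl i) * g (C7_P.σ (.inl i)) (P p.1, p.2)) ^ 2 =
        ∫ p, ∑ i, g (.inl i) p ^ 2 := by
      rw [← TS_integral C7_P fun p => ∑ i, g (.inl i) p ^ 2]
      refine integral_congr_ae (.of_forall fun p => Finset.sum_congr rfl fun i _ => ?_)
      rw [mul_pow, C7_P.hsg, one_mul]
      rfl
    refine (integral_add ie io).symm.trans ?_
    have e2 := LWD_int2 i1 i2 (1 / 2) (1 / 2)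
    rw [e1] at e2
    refine Eq.trans (integral_congr_ae (.of_forall fun p => ?_)) (e2.trans (by ring))
    simp only [Finset.mul_sum, ← Finset.sum_add_distrib]
    exact Finset.sum_congr rfl fun i _ => by ring

theorem C7_fub {D : ℝ} {Φ : T → ℝ} {g : IT → T → ℝ} (h : H1 eT Φ g) :
    Integrable (fun x => V D x * ∫ y, Φ (x, y) ^ 2) ∧
      ∫ x, V D x * ∫ y, Φ (x, y) ^ 2 = ∫ p : T, V D p.1 * Φ p ^ 2 := by
  have i1 : Integrable (fun p : T => V D p.1 * Φ p ^ 2) (volume.prod volume) :=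
    ((fb_V D).fst h).1
  have e : (fun x => V D x * ∫ y, Φ (x, y) ^ 2) = fun x => ∫ y, V D x * Φ (x, y) ^ 2 := by
    funext x
    rw [integral_const_mul]
  rw [e]
  exact ⟨i1.integral_prod_left, (integral_prod _ i1).symm⟩

/-- By the antisymmetry the first two electrons contribute equally. -/
theorem anti_split {ψ : T → ℝ} {g : IT → T → ℝ} (h : H1 eT ψ g) (ha : Anti ψ) (D : ℝ) :
    2 * (∫ p, ∑ i, g (.inl i) p ^ 2) + ∫ p, ∑ i, gcyc g (.inl i) p ^ 2 = dir g ∧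
      ∫ x, V D x * rho3 ψ x = ∫ p, U3 D 0 p * ψ p ^ 2 := by
  have hs : ∀ p : T, ψ (p.2.1, p.1, p.2.2) = -ψ p := fun p => ha p.1 p.2.1 p.2.2
  have h' := TS_H1 TS_12 h
  constructor
  · have hg := h'.h1l.grad_ae h.neg.h1l (.of_forall hs)
    have e1 : ∫ p, ∑ i, g (.inr (.inl i)) p ^ 2 = ∫ p, ∑ i, g (.inl i) p ^ 2 := by
      rw [← TS_integral TS_12 fun p => ∑ i, g (.inr (.inl i)) p ^ 2]
      refine integral_congr_ae (hg.mono fun p hp => Finset.sum_congr rfl fun i _ => ?_)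
      have := hp (.inl i)
      change 1 * g (.inr (.inl i)) (p.2.1, p.1, p.2.2) = _ at this
      rw [one_mul] at this
      rw [this, neg_sq]
    have e2 : ∫ p, ∑ i, gcyc g (.inl i) p ^ 2 = ∫ p, ∑ i, g (.inr (.inr i)) p ^ 2 :=
      TS_integral TS_cyc fun p => ∑ i, g (.inr (.inr i)) p ^ 2
    have i1 : Integrable fun p => ∑ i, g (.inr (.inl i)) p ^ 2 :=
      integrable_finsetSum _ fun i _ => (h.gl2 _).integrable_sq
    have i2 : Integrable fun p => ∑ i, g (.inr (.inr i)) p ^ 2 :=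
      integrable_finsetSum _ fun i _ => (h.gl2 _).integrable_sq
    rw [TS_dir_sum h, e2]
    simp only [Fintype.sum_sum_type]
    rw [integral_add i1 i2, e1]
    ring
  · obtain ⟨a1, a2⟩ := C7_fub (D := D) h
    obtain ⟨b1, b2⟩ := C7_fub (D := D) h.comp_cyc
    have i1 : Integrable fun p : T => V D p.1 * ψ p ^ 2 := ((fb_V D).fst h).1
    have i2 : Integrable fun p : T => V D p.2.1 * ψ p ^ 2 :=
      TS_integrable TS_12 ((fb_V D).fst h').1
    have i3 : Integrable fun p : T => V D p.2.2 * ψ p ^ 2 :=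
      TS_integrable TS_cyc ((fb_V D).fst h.comp_cyc).1
    have e2 : ∫ p : T, V D p.2.1 * ψ p ^ 2 = ∫ p : T, V D p.1 * ψ p ^ 2 := by
      rw [← TS_integral TS_12 fun p => V D p.2.1 * ψ p ^ 2]
      refine integral_congr_ae (.of_forall fun p => ?_)
      simp only [hs, neg_sq]
    have e3 : ∫ p : T, V D p.1 * ψ (cyc p) ^ 2 = ∫ p : T, V D p.2.2 * ψ p ^ 2 :=
      TS_integral TS_cyc fun p => V D p.2.2 * ψ p ^ 2
    have e4 := LWD_int2 a1 b1 2 1
    have e5 := LWD_int3 i1 i2 i3 1 1 1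
    rw [a2, b2, e3] at e4
    rw [e2] at e5
    calc _ = ∫ x, (2 * (V D x * ∫ y, ψ (x, y) ^ 2) + 1 * (V D x * ∫ y, ψ (cyc (x, y)) ^ 2)) :=
          integral_congr_ae (.of_forall fun x => by simp only [rho3]; ring)
      _ = ∫ p : T, (1 * (V D p.1 * ψ p ^ 2) + 1 * (V D p.2.1 * ψ p ^ 2) +
            1 * (V D p.2.2 * ψ p ^ 2)) := by rw [e4, e5]; ring
      _ = _ := integral_congr_ae (.of_forall fun p => by simp only [U3_zero]; ring)

theorem C7_dir_smul (a : ℝ) (g : Fin 3 → X → ℝ) : dir (fun i x => a * g i x) = a ^ 2 * dir g := by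
  unfold dir gs
  rw [← integral_const_mul]
  refine integral_congr_ae (.of_forall fun x => ?_)
  simp only [mul_pow, Finset.mul_sum]

theorem C7_comb {u w : X → ℝ} {g k : Fin 3 → X → ℝ} (h : H1 eX u g) (h' : H1 eX w k) :
    ∃ l, H1 eX (fun x => √((√2 * u x) ^ 2 + w x ^ 2)) l ∧ dir l ≤ 2 * dir g + dir k ∧
      nsq (fun x => √((√2 * u x) ^ 2 + w x ^ 2)) = 2 * nsq u + nsq w := by
  have h1 := h.smul √2
  have h2 := h1.sqrt_sq_add h'
  have e2 : √2 ^ 2 = (2 : ℝ) := Real.sq_sqrt (by norm_num)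
  refine ⟨_, h2, ?_, ?_⟩
  · have e := C7_dir_smul √2 g
    rw [e2] at e
    rw [← e]
    unfold dir
    rw [← integral_add h1.integrable_gs h'.integrable_gs]
    exact integral_mono h2.integrable_gs (h1.integrable_gs.add h'.integrable_gs) fun x =>
      gs_sqrt_le (fun x => √2 * u x) w _ _ x
  · have := LWD_int2 h.integrable_sq h'.integrable_sq 2 1
    unfold nsq
    rw [one_mul] at this
    rw [← this]
    refine integral_congr_ae (.of_forall fun x => ?_)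
    simp only
    rw [Real.sq_sqrt (by positivity), mul_pow, e2, one_mul]

theorem C7_u0 (o : One c) : nsq o.u0 = 1 ∧ nsq (evn o.u0) = 1 / 2 ∧
    evn (fun p => o.u0 (cyc p)) = fun p => o.u0 (cyc p) := by
  refine ⟨?_, ?_, ?_⟩
  · obtain ⟨k, -, h, -⟩ := slater_spec (fb_V o.D) o.ha o.hb o.ha o.na o.nb o.na o.ab
    exact h
  · have e2 : √2 ^ 2 = (2 : ℝ) := Real.sq_sqrt (by norm_num)
    have h1 := ip_tensor (a := o.b) (a' := o.b) (b := o.a) (b' := o.a)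
    have h2 := ip_tensor (a := o.a) (a' := o.a) (b := fun y : Y => o.b y.1 * o.a y.2)
      (b' := fun y : Y => o.b y.1 * o.a y.2)
    rw [h1, TS_ip_self, TS_ip_self, TS_ip_self, o.na, o.nb] at h2
    have h3 : nsq (evn o.u0) = 1 / 2 * nsq fun p : T => o.a p.1 * (o.b p.2.1 * o.a p.2.2) := by
      unfold nsq
      rw [← integral_const_mul]
      refine integral_congr_ae (.of_forall fun p => ?_)
      simp only [evn, One.u0, slater, o.aP, o.bP]
      have : √2 ≠ 0 := by positivity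
      field_simp
      rw [e2]
      ring
    rw [h3, h2]
    norm_num
  · funext p
    simp only [evn, One.u0, slater, cyc, o.aP]
    ring

/-- `t = √(2 ‖ψ_e‖² + ‖ψ↓_e‖²)`, `β = √(2 ‖ψ_o‖² + ‖ψ↓_o‖²)`; `nsq (evn u0) = 1/2`,
`nsq (evn (u0 ∘ cyc)) = 1`; `qf_U3`. -/
theorem pair_nat (o : One c) (C : ℝ) : ∃ C₀ : ℝ, ∀ C' : ℝ, C₀ ≤ C' → ∀ (ε : ℝ) (m : MB o C ε),
    ∃ t gt β gβ, IsPair m.s t gt β gβ ∧ |nsq t - 2| ≤ C' * √ε ∧
      (dir gt + dir gβ) / 2 + ∫ x, V o.D x * m.s x ^ 2 ≤ 2 * o.ea + o.eb + C' * ε := by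
  refine ⟨6 * C, fun C' hC ε m => ?_⟩
  have C1 := m.C1
  have ε0 := m.ε0
  have hψ := m.th.hψ
  have hD : H1 eT m.Dn m.gDn := hψ.comp_cyc
  obtain ⟨k, l, a1, a2, a3, a4, a5, a6, a7⟩ := evn_odd hψ
  obtain ⟨k', l', b1, b2, b3, b4, b5, b6, b7⟩ := evn_odd hD
  obtain ⟨gt, t1, t2, t3⟩ := C7_comb a1 b1
  obtain ⟨gβ, β1, β2, -⟩ := C7_comb a2 b2
  have e2 : √2 ^ 2 = (2 : ℝ) := Real.sq_sqrt (by norm_num)
  refine ⟨_, gt, _, gβ, ⟨t1, β1, ?_, ?_⟩, ?_, ?_⟩
  · refine Van.sqrt (a3.mono a2.l2 (C := √2) (.of_forall fun x => ?_)) b3 (a2.smul √2).l2 b2.l2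
    rw [abs_mul, abs_of_nonneg (Real.sqrt_nonneg _)]
  · filter_upwards [a4, b4] with x h1 h2
    have h3 : ∀ x, m.s x ^ 2 = 2 * sn m.th.ψ x ^ 2 + sn m.Dn x ^ 2 := fun x => by
      unfold MB.s
      rw [Real.sq_sqrt (by positivity), mul_pow, e2]
    have h4 := h3 (P x)
    rw [(m.parity x).2.2.1] at h4
    have h5 := h3 x
    rw [Real.sq_sqrt (by positivity), Real.sq_sqrt (by positivity), mul_pow, mul_pow, e2]
    linarith
  · obtain ⟨u1, u2, u3⟩ := C7_u0 o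
    have hu := m.th.hu
    have hδ : C * ε ≤ (C * √ε) ^ 2 := by
      rw [mul_pow, Real.sq_sqrt ε0.le]
      exact mul_le_mul_of_nonneg_right (by nlinarith) ε0.le
    have hδ0 : 0 ≤ C * √ε := by positivity
    have hev : ∀ u w : T → ℝ, (fun p => evn u p - evn w p) = evn fun p => u p - w p :=
      fun u w => by
        funext p
        simp only [evn]
        ring
    obtain ⟨-, -, -, -, -, -, -, -, c7⟩ := evn_odd hu
    obtain ⟨-, -, -, -, -, -, -, -, d7⟩ := evn_odd hu.comp_cyc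
    have n1 : nsq m.Dn = 1 := (TS_integral TS_cyc fun p => m.th.ψ p ^ 2).trans m.th.nψ
    have n2 : nsq (fun p => o.u0 (cyc p)) = 1 := (TS_integral TS_cyc fun p => o.u0 p ^ 2).trans u1
    have n3 : nsq (fun p => m.Dn p - o.u0 (cyc p)) ≤ C * ε :=
      (TS_integral TS_cyc fun p => (m.th.ψ p - o.u0 p) ^ 2).trans_le m.th.cl
    have c1 := C7_close a7 c7 ((C7_nsq_evn hψ.l2).trans m.th.nψ.le)
      ((C7_nsq_evn hu.l2).trans u1.le) hδ0
      (by rw [hev]; exact (C7_nsq_evn (hψ.sub hu).l2).trans (m.th.cl.trans hδ))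
    have c2 := C7_close b7 d7 ((C7_nsq_evn hD.l2).trans n1.le)
      ((C7_nsq_evn hu.comp_cyc.l2).trans n2.le) hδ0
      (by rw [hev]; exact (C7_nsq_evn (hD.sub hu.comp_cyc).l2).trans (n3.trans hδ))
    rw [u2] at c1
    rw [u3, n2] at c2
    rw [t3, a6, b6]
    have h6 : 6 * C * √ε ≤ C' * √ε := mul_le_mul_of_nonneg_right hC (Real.sqrt_nonneg _)
    rw [abs_le] at c1 c2 ⊢
    constructor <;> linarith [c1.1, c1.2, c2.1, c2.2]
  · obtain ⟨s1, s2⟩ := anti_split hψ m.th.anti o.D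
    have q1 := (qf_U3 o.D ε0.le hψ).1
    have q2 := m.th.eig _ _ hψ
    rw [bf_self, TS_ip_self, m.th.nψ, mul_one] at q2
    have q3 := (abs_le.mp m.th.E3_near).2
    have q4 : C * ε ≤ C' * ε := mul_le_mul_of_nonneg_right (by linarith) ε0.le
    have q5 : ∫ x, V o.D x * m.s x ^ 2 = ∫ p, U3 o.D 0 p * m.th.ψ p ^ 2 := by
      simp only [m.s_sq]
      exact s2
    have q6 : qf (U3 o.D 0) m.th.ψ m.th.gψ =
        dir m.th.gψ / 2 + ∫ p, U3 o.D 0 p * m.th.ψ p ^ 2 := rfl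
    have q7 : ∫ p, ∑ i, m.gDn (.inl i) p ^ 2 = ∫ p, ∑ i, gcyc m.th.gψ (.inl i) p ^ 2 := rfl
    linarith

end Crest.Agent.R335
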