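import Crest.Agent.R335.LLim0

/-! Row 335. Limits in `H¹`, square roots, quotients. -/

set_option autoImplicit false

open MeasureTheory Set Filter Topology
open scoped ENNReal

noncomputable section

namespace Crest.Agent.R335

variable {E : Type} [NormedAddCommGroup E] [NormedSpace ℝ E] [FiniteDimensional ℝ E]
  [MeasureSpace E] [BorelSpace E] [(volume : Measure E).IsAddHaarMeasure]
  {ι : Type} [Fintype ι] {e : ι → E}

theorem LLim_l2l_add {u w : E → ℝ} (h : L2l u) (h' : L2l w) : L2l fun x => u x + w x :=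
  fun K hK => (h K hK).add (h' K hK)

theorem LLim_l2l_abs {u : E → ℝ} (h : L2l u) : L2l fun x => |u x| :=
  fun K hK => (h K hK).abs

theorem LLim_l2l_loc {u w : E → ℝ} (h : L2l w) (hu : Measurable u)
    (hle : ∀ K : Set E, IsCompact K → ∃ C : ℝ, ∀ᵐ x, x ∈ K → |u x| ≤ C * |w x|) : L2l u := by
  intro K hK
  obtain ⟨C, hC⟩ := hle K hK
  refine (h K hK).of_le_mul (c := C) hu.aestronglyMeasurable ?_
  rw [ae_restrict_iff' hK.measurableSet]
  filter_upwards [hC] with x hx hxK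
  simpa only [Real.norm_eq_abs] using hx hxK

/-- dominated limits of weakly differentiable functions, with a locally square integrable bound -/
theorem LLim_dom {u : ℕ → E → ℝ} {g : ℕ → ι → E → ℝ} (h : ∀ n i, WD (e i) (u n) (g n i))
    {w : E → ℝ} {k : ι → E → ℝ} (hm : Measurable w) (hm' : ∀ i, Measurable (k i))
    {a : E → ℝ} {b : ι → E → ℝ} (ha : L2l a) (hb : ∀ i, L2l (b i))
    (hu : ∀ᵐ x, ∀ n, |u n x| ≤ a x) (hg : ∀ i, ∀ᵐ x, ∀ n, |g n i x| ≤ b i x)
    (h1 : ∀ᵐ x, Tendsto (fun n => u n x) atTop (𝓝 (w x)))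
    (h2 : ∀ i, ∀ᵐ x, Tendsto (fun n => g n i x) atTop (𝓝 (k i x))) : H1l e w k := by
  refine ⟨hm, hm', ha.of_le hm.aestronglyMeasurable (C := 1) ?_,
    fun i => (hb i).of_le (hm' i).aestronglyMeasurable (C := 1) ?_, fun i => ?_⟩
  · filter_upwards [hu, h1] with x h3 h4
    rw [one_mul]
    exact (le_of_tendsto' h4.abs h3).trans (le_abs_self _)
  · filter_upwards [hg i, h2 i] with x h3 h4
    rw [one_mul]
    exact (le_of_tendsto' h4.abs h3).trans (le_abs_self _)
  · refine WD.of_dominated (b := fun x => |a x| + |b i x|) (fun n => h n i)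
      (LLim_l2l_add (LLim_l2l_abs ha) (LLim_l2l_abs (hb i))).locallyIntegrable
      (fun n => ?_) (fun n => ?_) h1 (h2 i)
    · filter_upwards [hu] with x hx
      linarith [hx n, le_abs_self (a x), abs_nonneg (b i x)]
    · filter_upwards [hg i] with x hx
      linarith [hx n, le_abs_self (b i x), abs_nonneg (a x)]

/-- the parameters -/
def LLim_d (n : ℕ) : ℝ := 1 / ((n : ℝ) + 1)

theorem LLim_d_pos (n : ℕ) : 0 < LLim_d n := Nat.one_div_pos_of_nat

theorem LLim_d_le (n : ℕ) : LLim_d n ≤ 1 := by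
  rw [LLim_d, div_le_one (by positivity)]
  linarith [Nat.cast_nonneg (α := ℝ) n]

theorem LLim_d_lim : Tendsto LLim_d atTop (𝓝 0) := tendsto_one_div_add_atTop_nhds_zero_nat

/-- regularised inverse -/
def LLim_F (d s : ℝ) : ℝ := s / (s ^ 2 + d)

/-- its derivative -/
def LLim_F' (d s : ℝ) : ℝ := (d - s ^ 2) / (s ^ 2 + d) ^ 2

theorem LLim_deriv {d : ℝ} (hd : 0 < d) (s : ℝ) : HasDerivAt (LLim_F d) (LLim_F' d s) s := by
  have h0 : s ^ 2 + d ≠ 0 := by positivity
  have h1 : HasDerivAt (fun s : ℝ => s ^ 2 + d) (2 * s) s := by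
    simpa using (hasDerivAt_pow 2 s).add_const d
  refine ((hasDerivAt_id' s).div h1 h0).congr_deriv ?_
  rw [LLim_F']
  congr 1
  ring

theorem LLim_cont {d : ℝ} (hd : 0 < d) : Continuous (LLim_F' d) := by
  unfold LLim_F'
  exact Continuous.div (by fun_prop) (by fun_prop) fun s => by positivity

theorem LLim_F'_le {d : ℝ} (hd : 0 < d) (s : ℝ) : |LLim_F' d s| ≤ 1 / (s ^ 2 + d) := by
  have h0 : 0 < s ^ 2 + d := by positivity
  rw [LLim_F', abs_div, abs_of_pos (pow_pos h0 2), div_le_div_iff₀ (pow_pos h0 2) h0, one_mul, sq (s ^ 2 + d)]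
  refine mul_le_mul_of_nonneg_right (abs_le.2 ⟨?_, ?_⟩) h0.le <;> nlinarith [sq_nonneg s]

theorem LLim_F'_le' {d : ℝ} (hd : 0 < d) (s : ℝ) : |LLim_F' d s| ≤ 1 / d :=
  (LLim_F'_le hd s).trans (one_div_le_one_div_of_le hd (by nlinarith [sq_nonneg s]))

theorem LLim_F_le {d : ℝ} (hd : 0 < d) (a s : ℝ) : |a * LLim_F d s| ≤ |a / s| := by
  rw [div_eq_mul_inv, abs_mul, abs_mul]
  refine mul_le_mul_of_nonneg_left ?_ (abs_nonneg a)
  by_cases hs : s = 0
  · simp [hs, LLim_F]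
  have h0 : 0 < s ^ 2 + d := by positivity
  have h1 : 0 < |s| := abs_pos.2 hs
  rw [LLim_F, abs_div, abs_of_pos h0, abs_inv, ← one_div, div_le_div_iff₀ h0 h1, ← sq, sq_abs]
  linarith

theorem LLim_F_le' {d : ℝ} (hd : 0 < d) (s : ℝ) : |LLim_F d s| ≤ 1 + 1 / d := by
  have h0 : 0 < s ^ 2 + d := by positivity
  rw [LLim_F, abs_div, abs_of_pos h0, div_le_iff₀ h0]
  have h1 : 1 / d * d = 1 := one_div_mul_cancel hd.ne'
  have h2 : 0 ≤ 1 / d * s ^ 2 := by positivity
  nlinarith [sq_nonneg (|s| - 1), sq_abs s, sq_nonneg s]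

theorem LLim_sF'_le {d : ℝ} (hd : 0 < d) (s : ℝ) : |s| * |LLim_F' d s| ≤ 1 + 1 / d := by
  have h0 : 0 < s ^ 2 + d := by positivity
  refine (mul_le_mul_of_nonneg_left (LLim_F'_le hd s) (abs_nonneg s)).trans ?_
  have := LLim_F_le' hd s
  rwa [LLim_F, abs_div, abs_of_pos h0, div_eq_mul_one_div] at this

theorem LLim_aF'_le {d : ℝ} (hd : 0 < d) {a s : ℝ} (h : s = 0 → a = 0) :
    |a * LLim_F' d s| ≤ |a / s / s| := by
  by_cases hs : s = 0
  · simp [h hs]
  rw [div_div, ← sq, div_eq_mul_one_div, abs_mul, abs_mul]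
  refine mul_le_mul_of_nonneg_left ((LLim_F'_le hd s).trans ?_) (abs_nonneg a)
  have h1 : 0 < s ^ 2 := by positivity
  rw [abs_of_pos (one_div_pos.2 h1)]
  exact one_div_le_one_div_of_le h1 (by linarith)

theorem LLim_F_lim (a s : ℝ) : Tendsto (fun n => a * LLim_F (LLim_d n) s) atTop (𝓝 (a / s)) := by
  by_cases hs : s = 0
  · simp [hs, LLim_F]
  have h1 : Tendsto (fun n => a * (s / (s ^ 2 + LLim_d n))) atTop (𝓝 (a * (s / (s ^ 2 + 0)))) :=
    (tendsto_const_nhds.div (tendsto_const_nhds.add LLim_d_lim) (by positivity)).const_mul a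
  have h2 : a * (s / (s ^ 2 + 0)) = a / s := by
    rw [add_zero]; field_simp
  rw [h2] at h1
  exact h1

theorem LLim_F'_lim {a s : ℝ} (h : s = 0 → a = 0) :
    Tendsto (fun n => a * LLim_F' (LLim_d n) s) atTop (𝓝 (-(a / s / s))) := by
  by_cases hs : s = 0
  · simp [h hs]
  have h1 : Tendsto (fun n => a * ((LLim_d n - s ^ 2) / (s ^ 2 + LLim_d n) ^ 2)) atTop
      (𝓝 (a * ((0 - s ^ 2) / (s ^ 2 + 0) ^ 2))) :=
    ((LLim_d_lim.sub tendsto_const_nhds).div ((tendsto_const_nhds.add LLim_d_lim).pow 2)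
      (by positivity)).const_mul a
  have h2 : a * ((0 - s ^ 2) / (s ^ 2 + 0) ^ 2) = -(a / s / s) := by
    rw [add_zero, zero_sub]; field_simp
  rw [h2] at h1
  exact h1

theorem LLim_comp {w : E → ℝ} {k : ι → E → ℝ} (h : H1l e w k) (n : ℕ) :
    H1l e (fun x => LLim_F (LLim_d n) (w x)) fun i x => LLim_F' (LLim_d n) (w x) * k i x :=
  h.comp (LLim_deriv (LLim_d_pos n)) (LLim_cont (LLim_d_pos n)) (LLim_F'_le' (LLim_d_pos n))

theorem LLim_div {u w : E → ℝ} {g k : ι → E → ℝ} (h : H1l e u g) (h' : H1l e w k)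
    (h0 : ∀ᵐ x, w x = 0 → u x = 0) (h1 : L2l fun x => u x / w x)
    (h2 : ∀ i, L2l fun x => g i x / w x) (h3 : ∀ i, L2l fun x => u x * k i x / w x / w x) :
    H1l e (fun x => u x / w x) fun i x => (g i x - u x / w x * k i x) / w x := by
  refine LLim_dom (fun n i => h.wd_mul (LLim_comp h' n) i) (h.m.div h'.m)
    (fun i => ((h.gm i).sub ((h.m.div h'.m).mul (h'.gm i))).div h'.m) (LLim_l2l_abs h1)
    (fun i => LLim_l2l_add (LLim_l2l_abs (h2 i)) (LLim_l2l_abs (h3 i)))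
    (Eventually.of_forall fun x n => LLim_F_le (LLim_d_pos n) _ _) (fun i => ?_)
    (Eventually.of_forall fun x => LLim_F_lim _ _) fun i => ?_
  · filter_upwards [h0] with x hx n
    refine (abs_add_le _ _).trans (add_le_add (LLim_F_le (LLim_d_pos n) _ _) ?_)
    rw [show u x * (LLim_F' (LLim_d n) (w x) * k i x) =
      u x * k i x * LLim_F' (LLim_d n) (w x) by ring]
    exact LLim_aF'_le (LLim_d_pos n) fun h => by rw [hx h, zero_mul]
  · filter_upwards [h0] with x hx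
    have := (LLim_F_lim (g i x) (w x)).add
      (LLim_F'_lim (a := u x * k i x) (s := w x) fun h => by rw [hx h, zero_mul])
    convert this using 2
    · ring
    · ring

theorem LLim_abs_div {a s M : ℝ} (h : |a| ≤ M * |s|) : |a / s| ≤ |M| := by
  by_cases hs : s = 0
  · simp [hs]
  rw [abs_div, div_le_iff₀ (abs_pos.2 hs)]
  exact h.trans (mul_le_mul_of_nonneg_right (le_abs_self M) (abs_nonneg s))

theorem LLim_div_le {a s c : ℝ} (hc : 0 < c) (h : c ≤ s) : |a / s| ≤ 1 / c * |a| := by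
  rw [abs_div, abs_of_pos (hc.trans_le h), div_eq_mul_one_div, mul_comm]
  exact mul_le_mul_of_nonneg_right (one_div_le_one_div_of_le hc h) (abs_nonneg a)

theorem LLim_div_on {u w : E → ℝ} {g k : ι → E → ℝ} (h : H1l e u g) (h' : H1l e w k) {A : Set E}
    (hA : ∀ᵐ x, x ∉ A → u x = 0)
    (hp : ∀ K : Set E, IsCompact K → ∃ c : ℝ, 0 < c ∧ ∀ᵐ x, x ∈ K → x ∈ A → c ≤ w x)
    (hM : ∀ K : Set E, IsCompact K → ∃ M : ℝ, ∀ᵐ x, x ∈ K → |u x| ≤ M * |w x|) :
    H1l e (fun x => u x / w x) fun i x => (g i x - u x / w x * k i x) / w x := by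
  refine LLim_div h h' ?_ ?_ (fun i => ?_) fun i => ?_
  · have h1 : ∀ n : ℕ, ∀ᵐ x, x ∈ Metric.closedBall (0 : E) n → w x = 0 → u x = 0 := fun n => by
      obtain ⟨M, hM⟩ := hM _ (isCompact_closedBall (0 : E) n)
      filter_upwards [hM] with x hx h1 h2
      simpa [h2] using hx h1
    filter_upwards [ae_all_iff.2 h1] with x hx
    obtain ⟨n, hn⟩ := exists_nat_ge ‖x‖
    exact hx n (mem_closedBall_zero_iff.2 hn)
  · refine LLim_l2l_loc (L2l.of_continuous (continuous_const (y := (1 : ℝ)))) (h.m.div h'.m)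
      fun K hK => ?_
    obtain ⟨M, hM⟩ := hM K hK
    refine ⟨|M|, ?_⟩
    filter_upwards [hM] with x hx hxK
    simpa using LLim_abs_div (hx hxK)
  · refine LLim_l2l_loc (h.gl2 i) ((h.gm i).div h'.m) fun K hK => ?_
    obtain ⟨c, hc, hc'⟩ := hp K hK
    refine ⟨1 / c, ?_⟩
    filter_upwards [hc', hA, h.grad_zero] with x h1 h2 h3 hxK
    by_cases hx : x ∈ A
    · exact LLim_div_le hc (h1 hxK hx)
    · simp [h3 (h2 hx) i]
  · refine LLim_l2l_loc (h'.gl2 i) (((h.m.mul (h'.gm i)).div h'.m).div h'.m) fun K hK => ?_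
    obtain ⟨c, hc, hc'⟩ := hp K hK
    obtain ⟨M, hM⟩ := hM K hK
    refine ⟨1 / c * |M|, ?_⟩
    filter_upwards [hc', hA, hM] with x h1 h2 h3 hxK
    by_cases hx : x ∈ A
    · refine (LLim_div_le hc (h1 hxK hx)).trans ?_
      rw [mul_assoc, mul_div_right_comm, abs_mul]
      exact mul_le_mul_of_nonneg_left (mul_le_mul_of_nonneg_right (LLim_abs_div (h3 hxK))
        (abs_nonneg _)) (by positivity)
    · simp only [h2 hx, zero_mul, zero_div, abs_zero]
      positivity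

theorem LLim_mul_div {u φ t : E → ℝ} {l g k : ι → E → ℝ} (hu : H1 e u l) (h : H1 e φ g)
    (h' : H1 e t k) (ht : ∀ᵐ x, 0 ≤ t x) {M : ℝ} (hM : ∀ᵐ x, |φ x| ≤ M * t x)
    (hM' : ∀ᵐ x, |u x| ≤ M * t x) :
    H1 e (fun x => u x * φ x / t x)
      fun i x => φ x / t x * l i x + u x / t x * g i x - u x / t x * (φ x / t x) * k i x := by
  have hb : ∀ᵐ x, |φ x| ≤ M * |t x| ∧ |u x| ≤ M * |t x| := by
    filter_upwards [ht, hM, hM'] with x h1 h2 h3
    rw [abs_of_nonneg h1]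
    exact ⟨h2, h3⟩
  have hψ : ∀ n, H1l e (fun x => φ x * LLim_F (LLim_d n) (t x)) fun i x =>
      g i x * LLim_F (LLim_d n) (t x) + φ x * (LLim_F' (LLim_d n) (t x) * k i x) := fun n => by
    have hF := LLim_comp h'.h1l n
    refine h.h1l.mul hF ?_ fun i => LLim_l2l_add ?_ ?_
    · refine h.h1l.l2.of_le (h.m.mul hF.m).aestronglyMeasurable (C := 1 + 1 / LLim_d n)
        (Eventually.of_forall fun x => ?_)
      rw [abs_mul, mul_comm]
      exact mul_le_mul_of_nonneg_right (LLim_F_le' (LLim_d_pos n) _) (abs_nonneg _)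
    · refine (h.h1l.gl2 i).of_le ((h.gm i).mul hF.m).aestronglyMeasurable
        (C := 1 + 1 / LLim_d n) (Eventually.of_forall fun x => ?_)
      rw [abs_mul, mul_comm]
      exact mul_le_mul_of_nonneg_right (LLim_F_le' (LLim_d_pos n) _) (abs_nonneg _)
    · refine (h'.h1l.gl2 i).of_le (h.m.mul (hF.gm i)).aestronglyMeasurable
        (C := |M| * (1 + 1 / LLim_d n)) ?_
      filter_upwards [hb] with x hx
      rw [← mul_assoc, abs_mul, abs_mul]
      refine mul_le_mul_of_nonneg_right ?_ (abs_nonneg _)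
      calc |φ x| * |LLim_F' (LLim_d n) (t x)|
          ≤ |M| * |t x| * |LLim_F' (LLim_d n) (t x)| :=
            mul_le_mul_of_nonneg_right (hx.1.trans
              (mul_le_mul_of_nonneg_right (le_abs_self M) (abs_nonneg _))) (abs_nonneg _)
        _ ≤ _ := by
            rw [mul_assoc]
            exact mul_le_mul_of_nonneg_left (LLim_sF'_le (LLim_d_pos n) _) (abs_nonneg _)
  have hm : Measurable fun x => u x * φ x / t x := (hu.m.mul h.m).div h'.m
  have hm' : ∀ i, Measurable fun x =>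
      φ x / t x * l i x + u x / t x * g i x - u x / t x * (φ x / t x) * k i x := fun i =>
    (((h.m.div h'.m).mul (hu.gm i)).add ((hu.m.div h'.m).mul (h.gm i))).sub
      (((hu.m.div h'.m).mul (h.m.div h'.m)).mul (h'.gm i))
  have ha : MemLp (fun x => |M| * |u x|) 2 volume := hu.l2.abs.const_mul _
  have hB : ∀ i, MemLp (fun x => |M| * |l i x| + |M| * |g i x| + |M| * |M| * |k i x|) 2 volume :=
    fun i => (((hu.gl2 i).abs.const_mul _).add ((h.gl2 i).abs.const_mul _)).add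
      ((h'.gl2 i).abs.const_mul _)
  have e1 : ∀ᵐ x, ∀ n, |u x * (φ x * LLim_F (LLim_d n) (t x))| ≤ |M| * |u x| := by
    filter_upwards [hb] with x hx n
    rw [abs_mul, mul_comm]
    exact mul_le_mul_of_nonneg_right ((LLim_F_le (LLim_d_pos n) _ _).trans (LLim_abs_div hx.1))
      (abs_nonneg _)
  have e2 : ∀ i, ∀ᵐ x, ∀ n, |l i x * (φ x * LLim_F (LLim_d n) (t x)) + u x *
      (g i x * LLim_F (LLim_d n) (t x) + φ x * (LLim_F' (LLim_d n) (t x) * k i x))| ≤
      |M| * |l i x| + |M| * |g i x| + |M| * |M| * |k i x| := fun i => by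
    filter_upwards [hb] with x hx n
    have h1 := (LLim_F_le (LLim_d_pos n) _ _).trans (LLim_abs_div hx.1)
    have h2 := (LLim_F_le (LLim_d_pos n) _ _).trans (LLim_abs_div hx.2)
    have h3 : |u x * φ x * LLim_F' (LLim_d n) (t x)| ≤ |M| * |M| := by
      refine (LLim_aF'_le (LLim_d_pos n) fun h0 => ?_).trans ?_
      · have : u x = 0 := by simpa [h0] using hx.2
        rw [this, zero_mul]
      · rw [show u x * φ x / t x / t x = u x / t x * (φ x / t x) by ring, abs_mul]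
        exact mul_le_mul (LLim_abs_div hx.2) (LLim_abs_div hx.1) (abs_nonneg _) (abs_nonneg _)
    rw [show l i x * (φ x * LLim_F (LLim_d n) (t x)) + u x *
      (g i x * LLim_F (LLim_d n) (t x) + φ x * (LLim_F' (LLim_d n) (t x) * k i x)) =
      (φ x * LLim_F (LLim_d n) (t x)) * l i x + (u x * LLim_F (LLim_d n) (t x)) * g i x +
        (u x * φ x * LLim_F' (LLim_d n) (t x)) * k i x by ring]
    refine (abs_add_three _ _ _).trans ?_
    rw [abs_mul _ (l i x), abs_mul _ (g i x), abs_mul _ (k i x)]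
    gcongr
  have t1 : ∀ᵐ x, Tendsto (fun n => u x * (φ x * LLim_F (LLim_d n) (t x))) atTop
      (𝓝 (u x * φ x / t x)) := Eventually.of_forall fun x => by
    simpa only [mul_assoc] using LLim_F_lim (u x * φ x) (t x)
  have t2 : ∀ i, ∀ᵐ x, Tendsto (fun n => l i x * (φ x * LLim_F (LLim_d n) (t x)) + u x *
      (g i x * LLim_F (LLim_d n) (t x) + φ x * (LLim_F' (LLim_d n) (t x) * k i x))) atTop
      (𝓝 (φ x / t x * l i x + u x / t x * g i x - u x / t x * (φ x / t x) * k i x)) := fun i => by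
    filter_upwards [hb] with x hx
    have := ((LLim_F_lim (l i x * φ x) (t x)).add (LLim_F_lim (u x * g i x) (t x))).add
      (LLim_F'_lim (a := u x * φ x * k i x) (s := t x) fun h0 => by
        have : u x = 0 := by simpa [h0] using hx.2
        rw [this, zero_mul, zero_mul])
    convert this using 2
    · ring
    · ring
  refine (LLim_dom (fun n i => hu.h1l.wd_mul (hψ n) i) hm hm' (L2l.of_memLp ha)
    (fun i => L2l.of_memLp (hB i)) e1 e2 t1 t2).h1 ?_ fun i => ?_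
  · refine ha.of_le hm.aestronglyMeasurable ?_
    filter_upwards [e1, t1] with x h3 h4
    exact (le_of_tendsto' h4.abs h3).trans (le_abs_self _)
  · refine (hB i).of_le (hm' i).aestronglyMeasurable ?_
    filter_upwards [e2 i, t2 i] with x h3 h4
    exact (le_of_tendsto' h4.abs h3).trans (le_abs_self _)

theorem LLim_sqrt_fderiv {d : ℝ} (hd : 0 < d) (p q : ℝ × ℝ) :
    fderiv ℝ (fun p : ℝ × ℝ => √(p.1 ^ 2 + p.2 ^ 2 + d)) p q =
      (p.1 * q.1 + p.2 * q.2) / √(p.1 ^ 2 + p.2 ^ 2 + d) := by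
  have h1 := (((hasFDerivAt_fst (𝕜 := ℝ) (p := p)).pow 2).add
    ((hasFDerivAt_snd (𝕜 := ℝ) (p := p)).pow 2)).add_const d
  have h2 := h1.sqrt (by
    show p.1 ^ 2 + p.2 ^ 2 + d ≠ 0
    positivity)
  have h3 := h2.fderiv
  simp only [Pi.add_apply] at h3
  rw [h3]
  have h0 : 0 < √(p.1 ^ 2 + p.2 ^ 2 + d) := Real.sqrt_pos.2 (by positivity)
  simp
  field_simp

theorem LLim_cs (a b α β : ℝ) {d : ℝ} (hd : 0 ≤ d) :
    ((a * α + b * β) / √(a ^ 2 + b ^ 2 + d)) ^ 2 ≤ α ^ 2 + β ^ 2 := by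
  have h0 : 0 ≤ a ^ 2 + b ^ 2 + d := by positivity
  rw [div_pow, Real.sq_sqrt h0]
  refine div_le_of_le_mul₀ h0 (by positivity) ?_
  nlinarith [sq_nonneg (a * β - b * α), mul_nonneg hd (add_nonneg (sq_nonneg α) (sq_nonneg β))]

theorem LLim_cs' (a b α β : ℝ) {d : ℝ} (hd : 0 ≤ d) :
    |(a * α + b * β) / √(a ^ 2 + b ^ 2 + d)| ≤ |α| + |β| := by
  refine abs_le_of_sq_le_sq' ((LLim_cs a b α β hd).trans ?_) (by positivity) |> abs_le.2
  nlinarith [sq_abs α, sq_abs β, mul_nonneg (abs_nonneg α) (abs_nonneg β)]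

theorem LLim_sqrt_le (a b : ℝ) {d : ℝ} (c : ℝ) (hc : d ≤ c ^ 2) (hc' : 0 ≤ c) :
    |√(a ^ 2 + b ^ 2 + d)| ≤ |a| + |b| + c := by
  rw [abs_of_nonneg (Real.sqrt_nonneg _)]
  refine Real.sqrt_le_iff.2 ⟨by positivity, ?_⟩
  nlinarith [sq_abs a, sq_abs b, mul_nonneg (abs_nonneg a) (abs_nonneg b),
    mul_nonneg (abs_nonneg a) hc', mul_nonneg (abs_nonneg b) hc']

/-- `H1l.comp2` with `√(a² + b² + δ²) - δ` and `WD.of_dominated`. -/
theorem H1.sqrt_sq_add {u w : E → ℝ} {g k : ι → E → ℝ} (h : H1 e u g) (h' : H1 e w k) :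
    H1 e (fun x => √(u x ^ 2 + w x ^ 2))
      fun i x => (u x * g i x + w x * k i x) / √(u x ^ 2 + w x ^ 2) := by
  have hn : ∀ n, H1l e (fun x => √(u x ^ 2 + w x ^ 2 + LLim_d n))
      fun i x => (u x * g i x + w x * k i x) / √(u x ^ 2 + w x ^ 2 + LLim_d n) := fun n => by
    have hd := LLim_d_pos n
    have h1 := h.h1l.comp2 h'.h1l (Φ := fun p : ℝ × ℝ => √(p.1 ^ 2 + p.2 ^ 2 + LLim_d n))
      (ContDiff.sqrt (by fun_prop) fun p => by positivity) (M := 2) fun p => by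
        refine ContinuousLinearMap.opNorm_le_bound _ (by norm_num) fun q => ?_
        rw [LLim_sqrt_fderiv hd, Real.norm_eq_abs]
        have h2 := norm_fst_le q
        have h3 := norm_snd_le q
        rw [Real.norm_eq_abs] at h2 h3
        linarith [LLim_cs' p.1 p.2 q.1 q.2 hd.le]
    simpa only [LLim_sqrt_fderiv hd] using h1
  have hm : Measurable fun x => √(u x ^ 2 + w x ^ 2) :=
    ((h.m.pow_const 2).add (h'.m.pow_const 2)).sqrt
  have hm' : ∀ i, Measurable fun x => (u x * g i x + w x * k i x) / √(u x ^ 2 + w x ^ 2) :=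
    fun i => ((h.m.mul (h.gm i)).add (h'.m.mul (h'.gm i))).div hm
  have hs : ∀ x, Tendsto (fun n => √(u x ^ 2 + w x ^ 2 + LLim_d n)) atTop
      (𝓝 √(u x ^ 2 + w x ^ 2)) := fun x => by
    simpa using (LLim_d_lim.const_add (u x ^ 2 + w x ^ 2)).sqrt
  refine (LLim_dom (fun n i => (hn n).wd i) hm hm' (a := fun x => |u x| + |w x| + 1)
    (b := fun i x => |g i x| + |k i x|)
    (LLim_l2l_add (L2l.of_memLp (h.l2.abs.add h'.l2.abs)) (L2l.of_continuous continuous_const))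
    (fun i => L2l.of_memLp ((h.gl2 i).abs.add (h'.gl2 i).abs))
    (Eventually.of_forall fun x n =>
      LLim_sqrt_le _ _ 1 (by simpa using LLim_d_le n) zero_le_one)
    (fun i => Eventually.of_forall fun x n => LLim_cs' _ _ _ _ (LLim_d_pos n).le)
    (Eventually.of_forall hs) fun i => Eventually.of_forall fun x => ?_).h1 ?_ fun i => ?_
  · by_cases h0 : u x ^ 2 + w x ^ 2 = 0
    · have h1 : u x = 0 := by nlinarith [sq_nonneg (u x), sq_nonneg (w x)]
      have h2 : w x = 0 := by nlinarith [sq_nonneg (u x), sq_nonneg (w x)]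
      simp [h1, h2]
    · refine tendsto_const_nhds.div (hs x) ?_
      exact (Real.sqrt_pos.2 (lt_of_le_of_ne (by positivity) (Ne.symm h0))).ne'
  · refine (h.l2.abs.add h'.l2.abs).of_le hm.aestronglyMeasurable
      (Eventually.of_forall fun x => ?_)
    have := LLim_sqrt_le (u x) (w x) (d := 0) 0 (by simp) le_rfl
    rw [add_zero, add_zero] at this
    exact this.trans (le_abs_self _)
  · refine ((h.gl2 i).abs.add (h'.gl2 i).abs).of_le (hm' i).aestronglyMeasurable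
      (Eventually.of_forall fun x => ?_)
    have := LLim_cs' (u x) (w x) (g i x) (k i x) le_rfl
    rw [add_zero] at this
    exact this.trans (le_abs_self _)

theorem gs_sqrt_le (u w : E → ℝ) (g k : ι → E → ℝ) (x : E) :
    gs (fun i x => (u x * g i x + w x * k i x) / √(u x ^ 2 + w x ^ 2)) x ≤ gs g x + gs k x := by
  unfold gs
  rw [← Finset.sum_add_distrib]
  refine Finset.sum_le_sum fun i _ => ?_
  simpa only [add_zero] using LLim_cs (u x) (w x) (g i x) (k i x) le_rfl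

/-- On a compact set where `w ≥ c` replace `1 / w` by `Φ (w)` with `Φ` of class `C¹` with bounded
derivative. -/
theorem H1l.inv {w : E → ℝ} {k : ι → E → ℝ} (h : H1l e w k) (hp : LocPos w) :
    H1l e (fun x => (w x)⁻¹) fun i x => -k i x / w x ^ 2 := by
  have h1 := LLim_div_on (H1l.const (e := e) 1) h (A := univ) (by simp)
    (fun K hK => by
      obtain ⟨c, hc, hc'⟩ := hp K hK
      exact ⟨c, hc, hc'.mono fun x hx h1 _ => hx h1⟩)
    (fun K hK => by
      obtain ⟨c, hc, hc'⟩ := hp K hK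
      refine ⟨1 / c, hc'.mono fun x hx h1 => ?_⟩
      rw [abs_one, one_div_mul_eq_div, le_div_iff₀ hc, one_mul]
      exact (hx h1).trans (le_abs_self _))
  convert h1 using 2
  · rw [one_div]
  · funext x
    ring

theorem H1l.div {u w : E → ℝ} {g k : ι → E → ℝ} (h : H1l e u g) (h' : H1l e w k) (hp : LocPos w)
    {M : ℝ} (hM : ∀ᵐ x, |u x| ≤ M * w x) :
    H1l e (fun x => u x / w x) fun i x => (g i x - u x / w x * k i x) / w x := by
  refine LLim_div_on h h' (A := univ) (by simp) (fun K hK => ?_) fun K _ => ⟨|M|, ?_⟩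
  · obtain ⟨c, hc, hc'⟩ := hp K hK
    exact ⟨c, hc, hc'.mono fun x hx h1 _ => hx h1⟩
  · filter_upwards [hM] with x hx _
    rw [← abs_mul]
    exact hx.trans (le_abs_self _)

/-- The same when `w ≥ 0` is only known to dominate `u` and to be locally bounded below on a set
outside of which `u` vanishes: compare with `max w c`. -/
theorem H1l.div_on {u w : E → ℝ} {g k : ι → E → ℝ} (h : H1l e u g) (h' : H1l e w k) {A : Set E}
    (hA : ∀ᵐ x, x ∉ A → u x = 0)
    (hp : ∀ K : Set E, IsCompact K → ∃ c : ℝ, 0 < c ∧ ∀ᵐ x, x ∈ K → x ∈ A → c ≤ w x)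
    {M : ℝ} (hM : ∀ᵐ x, |u x| ≤ M * |w x|) :
    H1l e (fun x => u x / w x) fun i x => (g i x - u x / w x * k i x) / w x :=
  LLim_div_on h h' hA hp fun _ _ => ⟨M, hM.mono fun _ hx _ => hx⟩

/-- `φ² / t ∈ H¹` if `|φ| ≤ M t` (limit of `φ² / (t + δ)`). -/
theorem H1.sq_div {φ t : E → ℝ} {g k : ι → E → ℝ} (h : H1 e φ g) (h' : H1 e t k)
    (ht : ∀ᵐ x, 0 ≤ t x) {M : ℝ} (hM : ∀ᵐ x, |φ x| ≤ M * t x) :
    H1 e (fun x => φ x ^ 2 / t x)
      fun i x => 2 * (φ x / t x) * g i x - (φ x / t x) ^ 2 * k i x := by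
  convert LLim_mul_div h h h' ht hM hM using 2
  · rw [sq]
  · funext x
    ring

/-- `u φ / t ∈ H¹` if `|φ| ≤ M t` and `|u| ≤ M t` (polarisation of `H1.sq_div`). -/
theorem H1.mul_div {u φ t : E → ℝ} {l g k : ι → E → ℝ} (hu : H1 e u l) (h : H1 e φ g)
    (h' : H1 e t k) (ht : ∀ᵐ x, 0 ≤ t x) {M : ℝ} (hM : ∀ᵐ x, |φ x| ≤ M * t x)
    (hM' : ∀ᵐ x, |u x| ≤ M * t x) :
    H1 e (fun x => u x * φ x / t x)
      fun i x => φ x / t x * l i x + u x / t x * g i x - u x / t x * (φ x / t x) * k i x :=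
  LLim_mul_div hu h h' ht hM hM'

end Crest.Agent.R335
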