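import Crest.Agent.R335.LDG
import Crest.Agent.R335.LLim

/-! Row 335. De Giorgi: weighted subsolutions; from measure to pointwise bounds. -/

set_option autoImplicit false

open MeasureTheory Set Filter Topology
open scoped ENNReal

noncomputable section

namespace Crest.Agent.R335

theorem LMP_int {f φ : X → ℝ} (hf : LocallyIntegrable f volume) (hφ : Continuous φ) {K : Set X}
    (hK : IsCompact K) (h0 : ∀ x ∉ K, φ x = 0) : Integrable fun x => φ x * f x :=
  hf.integrable_smul_left_of_hasCompactSupport hφ (HasCompactSupport.intro hK h0)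

theorem LMP_gd {g k : Fin 3 → X → ℝ} (hg : ∀ i, L2l (g i)) (hk : ∀ i, L2l (k i)) :
    LocallyIntegrable (gd g k) volume :=
  locallyIntegrable_finsetSum Finset.univ fun i _ => (hg i).mul_locallyIntegrable (hk i)

theorem LMP_sq {u : X → ℝ} (hu : L2l u) : LocallyIntegrable (fun x => u x ^ 2) volume := by
  simpa only [sq] using hu.mul_locallyIntegrable hu

theorem LMP_gs {g : Fin 3 → X → ℝ} (hg : ∀ i, L2l (g i)) : LocallyIntegrable (gs g) volume :=
  locallyIntegrable_finsetSum Finset.univ fun i _ => LMP_sq (hg i)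

theorem LMP_gs_ite (p : X → Prop) [DecidablePred p] (g : Fin 3 → X → ℝ) (x : X) :
    gs (fun i x => if p x then g i x else 0) x = if p x then gs g x else 0 := by
  by_cases h : p x <;> simp [gs, h]

theorem LMP_pd_zero {η : X → ℝ} {x : X} (hx : x ∉ tsupport η) (i : Fin 3) : pd eX η i x = 0 := by
  simp [pd, fderiv_of_notMem_tsupport ℝ hx]

theorem LMP_log {θ : X → ℝ} {g : Fin 3 → X → ℝ} (hθ : H1l eX θ g) (h0 : ∀ᵐ x, 0 ≤ θ x) {δ : ℝ}
    (hδ : 0 < δ) (a : ℝ) :
    H1l eX (fun x => Real.log a - Real.log (θ x + δ)) fun i x => -(g i x / (θ x + δ)) := by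
  have hc : Continuous fun s : ℝ => (|s| + δ)⁻¹ :=
    (continuous_abs.add continuous_const).inv₀ fun s =>
      (add_pos_of_nonneg_of_pos (abs_nonneg s) hδ).ne'
  have h1 := hθ.comp (Φ := fun s => Real.log a - Real.log δ - ∫ t in (0 : ℝ)..s, (|t| + δ)⁻¹)
    (Φ' := fun s => -(|s| + δ)⁻¹)
    (fun s => (hc.integral_hasStrictDerivAt 0 s).hasDerivAt.const_sub _) hc.neg (M := δ⁻¹)
    fun s => by
      rw [abs_neg, abs_of_nonneg (by positivity)]
      exact inv_anti₀ hδ (by linarith [abs_nonneg s])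
  refine h1.congr (measurable_const.sub (hθ.m.add_const δ).log)
    (fun i => ((hθ.gm i).div (hθ.m.add_const δ)).neg) ?_ fun i => ?_
  · filter_upwards [h0] with x hx
    rw [intervalIntegral.integral_eq_sub_of_hasDerivAt (f := fun s => Real.log (s + δ)) _
      (hc.intervalIntegrable _ _)]
    · simp
    · intro s hs
      rw [uIcc_of_le hx] at hs
      rw [abs_of_nonneg hs.1]
      simpa using ((hasDerivAt_id s).add_const δ).log (by simp only [id]; linarith [hs.1])
  · filter_upwards [h0] with x hx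
    rw [abs_of_nonneg hx]
    ring

/-- The Caccioppoli inequality obtained from the test function `η² u`. -/
theorem LMP_key {θ ρ u η w q : X → ℝ} {g ku kk : Fin 3 → X → ℝ} {O : Set X} {m Λ M σ τ : ℝ}
    (hθ : H1l eX θ g) (hρm : Measurable ρ) (hm : 0 < m)
    (hρ : ∀ᵐ x, x ∈ O → m ≤ ρ x ∧ ρ x ≤ Λ * m) (hu : H1l eX u ku) (hM : ∀ᵐ x, 0 ≤ u x ∧ u x ≤ M)
    (hη : ContDiff ℝ 1 η) (hηc : HasCompactSupport η) (hηs : tsupport η ⊆ O)
    (hη1 : ∀ x, 0 ≤ η x ∧ η x ≤ 1)
    (hyp : ∀ ξ k, H1l eX ξ k → (∀ᵐ x, 0 ≤ ξ x ∧ ξ x ≤ M) → (∀ᵐ x, x ∉ tsupport η → ξ x = 0) →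
      (∀ᵐ x, u x = 0 → ξ x = 0) → 0 ≤ ∫ x, (σ * (ρ x * gd g k x) + τ * (ρ x * θ x * ξ x)))
    (hkk : ∀ i, L2l (kk i)) (hw : L2l w) (hq : L2l q)
    (h1 : ∀ᵐ x, σ * gd g ku x ≤ -gs kk x) (h2 : ∀ᵐ x, ∀ i, σ * u x * g i x = -w x * kk i x)
    (h3 : ∀ᵐ x, τ * θ x * u x ≤ q x ∧ 0 ≤ q x) :
    ∫ x, η x ^ 2 * gs kk x ≤
      4 * Λ * (∫ x, w x ^ 2 * gs (pd eX η) x) + 2 * Λ * ∫ x, q x * η x ^ 2 := by
  have hK : IsCompact (tsupport η) := hηc
  have hηK : ∀ x ∉ tsupport η, η x = 0 := fun x hx => image_eq_zero_of_notMem_tsupport hx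
  have hpd : ∀ i x, pd eX (fun x => η x ^ 2) i x = 2 * η x * pd eX η i x := fun i x => by
    have := ((hη.differentiable one_ne_zero x).hasFDerivAt.pow 2).fderiv
    simp only [pd]
    rw [this]
    simp
  have hξ := hu.mul_contDiff (hη.pow 2)
  simp only [hpd] at hξ
  have h0 := hyp _ _ hξ (by
      filter_upwards [hM] with x hx
      exact ⟨mul_nonneg (sq_nonneg _) hx.1,
        (mul_le_of_le_one_left hx.1 (pow_le_one₀ (hη1 x).1 (hη1 x).2)).trans hx.2⟩)
    (Eventually.of_forall fun x hx => by simp [hηK x hx])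
    (Eventually.of_forall fun x hx => by simp [hx])
  have hρK : ∀ {f : X → ℝ}, LocallyIntegrable f volume → (∀ x ∉ tsupport η, f x = 0) →
      Integrable fun x => ρ x * f x := by
    intro f hf hf0
    refine IntegrableOn.integrable_of_ae_notMem_eq_zero (s := tsupport η)
      (Integrable.bdd_mul (c := Λ * m) (hf.integrableOn_isCompact hK) hρm.aestronglyMeasurable ?_)
      (Eventually.of_forall fun x hx => by rw [hf0 x hx, mul_zero])
    refine (ae_restrict_iff' hK.measurableSet).2 ?_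
    filter_upwards [hρ] with x hx hxK
    have := hx (hηs hxK)
    rw [Real.norm_of_nonneg (by linarith)]
    exact this.2
  have i1 := hρK (LMP_gd hθ.gl2 hξ.gl2) fun x hx => by simp [gd, hηK x hx]
  have i2 := hρK (hθ.l2.mul_locallyIntegrable hξ.l2) fun x hx => by simp [hηK x hx]
  simp only [← mul_assoc (ρ _)] at i2
  have j1 : Integrable fun x => η x ^ 2 * gs kk x :=
    LMP_int (LMP_gs hkk) (hη.continuous.pow 2) hK fun x hx => by simp [hηK x hx]
  have j2 : Integrable fun x => w x ^ 2 * gs (pd eX η) x := by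
    simp only [mul_comm (w _ ^ 2)]
    refine LMP_int (LMP_sq hw) (continuous_finsetSum _ fun i _ => ?_) hK
      fun x hx => by simp [gs, LMP_pd_zero hx]
    exact ((hη.continuous_fderiv one_ne_zero).clm_apply continuous_const).pow 2
  have j3 : Integrable fun x => q x * η x ^ 2 := by
    simp only [mul_comm (q _)]
    exact LMP_int hq.locallyIntegrable (hη.continuous.pow 2) hK fun x hx => by simp [hηK x hx]
  have h4 := h0.trans (integral_mono_ae ((i1.const_mul σ).add (i2.const_mul τ))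
    (g := fun x => -(m / 2) * (η x ^ 2 * gs kk x) + (2 * Λ * m * (w x ^ 2 * gs (pd eX η) x) +
      Λ * m * (q x * η x ^ 2)))
    ((j1.const_mul _).add ((j2.const_mul _).add (j3.const_mul _))) ?_)
  · rw [integral_add (j1.const_mul _) (by exact (j2.const_mul _).add (j3.const_mul _)),
      integral_add (j2.const_mul _) (j3.const_mul _), integral_const_mul, integral_const_mul,
      integral_const_mul] at h4
    refine le_of_mul_le_mul_left ?_ (half_pos hm)
    linarith
  filter_upwards [hρ, h1, h2, h3] with x a0 a1 a2 a3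
  by_cases hx : x ∈ tsupport η
  swap
  · simp [gd, gs, hηK x hx, LMP_pd_zero hx]
  obtain ⟨b1, b2⟩ := a0 (hηs hx)
  have e1 : σ * gd g (fun i x => η x ^ 2 * ku i x + 2 * η x * pd eX η i x * u x) x =
      η x ^ 2 * (σ * gd g ku x) - 2 * η x * w x * gd kk (pd eX η) x := by
    simp only [gd, Fin.sum_univ_three]
    linear_combination 2 * η x * (pd eX η 0 x * a2 0 + pd eX η 1 x * a2 1 + pd eX η 2 x * a2 2)
  have e2 : -(2 * η x * w x * gd kk (pd eX η) x) ≤
      η x ^ 2 * gs kk x / 2 + 2 * (w x ^ 2 * gs (pd eX η) x) := by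
    simp only [gd, gs, Fin.sum_univ_three]
    nlinarith [sq_nonneg (η x * kk 0 x + 2 * w x * pd eX η 0 x),
      sq_nonneg (η x * kk 1 x + 2 * w x * pd eX η 1 x),
      sq_nonneg (η x * kk 2 x + 2 * w x * pd eX η 2 x)]
  have e3 := mul_le_mul_of_nonneg_left a1 (sq_nonneg (η x))
  have e4 := mul_le_mul_of_nonneg_left a3.1 (sq_nonneg (η x))
  have p1 : 0 ≤ η x ^ 2 * gs kk x := mul_nonneg (sq_nonneg _) (gs_nonneg _ _)
  have p2 : 0 ≤ w x ^ 2 * gs (pd eX η) x := mul_nonneg (sq_nonneg _) (gs_nonneg _ _)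
  have p3 : 0 ≤ q x * η x ^ 2 := mul_nonneg a3.2 (sq_nonneg _)
  have e5 : σ * gd g (fun i x => η x ^ 2 * ku i x + 2 * η x * pd eX η i x * u x) x +
      τ * (θ x * (η x ^ 2 * u x)) ≤
      -(η x ^ 2 * gs kk x / 2) + (2 * (w x ^ 2 * gs (pd eX η) x) + q x * η x ^ 2) := by
    rw [e1]
    linarith
  have e6 := mul_le_mul_of_nonneg_left e5 (hm.le.trans b1)
  have e7 := mul_le_mul_of_nonneg_right b1 p1
  have e8 := mul_le_mul_of_nonneg_right b2 p2
  have e9 := mul_le_mul_of_nonneg_right b2 p3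
  linarith

/-- Test with `(θ - κ)₊ η²` and apply `dg` (with `b = 0`). -/
theorem dg_w (Λ : ℝ) (hΛ : 1 ≤ Λ) : ∃ C : ℝ, 0 < C ∧ ∀ (θ ρ : X → ℝ) (g : Fin 3 → X → ℝ)
    (x₀ : X) (r m B : ℝ), 0 < r → 0 < m → H1l eX θ g → (∀ᵐ x, |θ x| ≤ B) → Measurable ρ →
    (∀ᵐ x, x ∈ Metric.ball x₀ (2 * r) → m ≤ ρ x ∧ ρ x ≤ Λ * m) →
    (∀ (ξ : X → ℝ) (k : Fin 3 → X → ℝ) (M : ℝ) (K : Set X), H1l eX ξ k → IsCompact K →
      K ⊆ Metric.ball x₀ (2 * r) → (∀ᵐ x, 0 ≤ ξ x ∧ ξ x ≤ M) → (∀ᵐ x, x ∉ K → ξ x = 0) →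
      ∫ x, ρ x * gd g k x ≤ 0) →
    ∀ᵐ x, x ∈ Metric.ball x₀ r →
      θ x ≤ C * √((∫ y in Metric.ball x₀ (2 * r), θ y ^ 2) / r ^ 3) := by
  obtain ⟨C, hC, hdg⟩ := dg (4 * Λ) (by linarith)
  refine ⟨C, hC, fun θ ρ g x₀ r m B hr hm hθ hB hρm hρ hyp => ?_⟩
  have key := hdg θ g x₀ r 0 hr le_rfl hθ fun κ η hκ hη hηc hηs hη1 => by
    have hW := hθ.posPart_sub κ
    have := LMP_key (σ := -1) (τ := 0) (M := B) (q := fun _ => 0) hθ hρm hm hρ hW ?_ hη hηc hηs hη1
      (fun ξ k h1 h2 h3 _ => ?_) hW.gl2 hW.l2 (L2l.of_continuous continuous_const)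
      (Eventually.of_forall fun x => ?_) (Eventually.of_forall fun x i => ?_)
      (Eventually.of_forall fun x => by simp)
    · simp only [LMP_gs_ite, zero_mul, integral_zero, mul_zero, add_zero] at this
      simpa only [zero_mul, add_zero] using this
    · filter_upwards [hB] with x hx
      have := abs_le.1 hx
      exact ⟨le_max_right _ _, max_le (by linarith) (by linarith)⟩
    · have := hyp ξ k B _ h1 hηc hηs h2 h3
      simp only [zero_mul, add_zero, integral_const_mul]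
      linarith
    · by_cases hx : κ < θ x <;> simp [gd, gs, hx, sq]
    · by_cases hx : κ < θ x
      · simp [hx]
      · simp [hx, max_eq_right (sub_nonpos.2 (not_lt.1 hx))]
  filter_upwards [key] with x hx hxb
  refine (hx hxb).trans ?_
  rw [zero_mul, add_zero]
  have hI : ∀ {u : X → ℝ}, L2l u → IntegrableOn (fun y => u y ^ 2) (Metric.ball x₀ (2 * r)) :=
    fun hu => ((LMP_sq hu).integrableOn_isCompact (isCompact_closedBall x₀ (2 * r))).mono_set
      Metric.ball_subset_closedBall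
  refine mul_le_mul_of_nonneg_left (Real.sqrt_le_sqrt (div_le_div_of_nonneg_right
    (integral_mono (hI hθ.posPart.l2) (hI hθ.l2) fun y => ?_) (by positivity))) hC.le
  rcases le_total (θ y) 0 with h | h
  · simp only [max_eq_right h]
    nlinarith [sq_nonneg (θ y)]
  · simp only [max_eq_left h, le_refl]

/-- `v = log₊ (a / (θ + δ))`, `0 < δ < a`.  (1) The test `η² (1 / (θ + δ) - 1 / a)₊` with `η` from
`exists_cut_set` gives `∫ ρ η² |∇v|² ≤ 4 ∫ ρ |∇η|² + 4 lam ∫ ρ η²`.  (2) `v = 0` on `{a ≤ θ}`, so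
`poinc_zero` bounds `∫_S v² / r³`.  (3) The tests `(v - κ)₊ η² / (θ + δ)` give the hypothesis of
`dg` with `b` a multiple of `lam`.  Hence `v ≤ C` on the ball; let `δ → 0`. -/
theorem mp (Λ μ N : ℝ) (hΛ : 1 ≤ Λ) (hμ : 0 < μ) : ∃ c : ℝ, 0 < c ∧ ∀ (θ ρ : X → ℝ)
    (g : Fin 3 → X → ℝ) (S : Set X) (x₀ : X) (r m lam a : ℝ), 0 < r → 0 < m → 0 ≤ lam →
    lam * r ^ 2 ≤ 1 → 0 < a → a ≤ 1 → Convex ℝ S → MeasurableSet S →
    (∀ x ∈ S, ∀ y ∈ S, dist x y ≤ N * r) → Metric.ball x₀ (2 * r) ⊆ S → H1l eX θ g →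
    (∀ᵐ x, 0 ≤ θ x) → Measurable ρ →
    (∀ᵐ x, x ∈ Metric.thickening r S → m ≤ ρ x ∧ ρ x ≤ Λ * m) →
    (∀ (ξ : X → ℝ) (k : Fin 3 → X → ℝ) (M : ℝ) (K : Set X), H1l eX ξ k → IsCompact K →
      K ⊆ Metric.thickening r S → (∀ᵐ x, 0 ≤ ξ x ∧ ξ x ≤ M) → (∀ᵐ x, x ∉ K → ξ x = 0) →
      (∀ᵐ x, 1 ≤ θ x → ξ x = 0) →
      0 ≤ ∫ x, (ρ x * gd g k x + 2 * lam * (ρ x * θ x * ξ x))) →
    μ * r ^ 3 ≤ volume.real {x | x ∈ S ∧ a ≤ θ x} →
    ∀ᵐ x, x ∈ Metric.ball x₀ r → c * a ≤ θ x := by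
  obtain ⟨C, hC, hdg⟩ := dg (4 * Λ) (by linarith)
  obtain ⟨M₀, hM₀, hcut⟩ := exists_cut_set
  set V : ℝ := volume.real (Metric.ball (0 : X) 1) * (|N| + 1) ^ 3 with hV
  have hV0 : 0 ≤ V := by positivity
  set Q : ℝ := 16 * N ^ 2 * V * (4 * Λ * V * (M₀ + 1)) / μ with hQ
  set C₁ : ℝ := C * (√Q + 4 * Λ) with hC₁
  refine ⟨Real.exp (-C₁) / 2, by positivity,
    fun θ ρ g S x₀ r m lam a hr hm hlam hlr ha ha1 hS hSm hSd hBS hθ hθ0 hρm hρ hyp hμS => ?_⟩
  set δ : ℝ := Real.exp (-C₁) / 2 * a with hδd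
  have hδ : 0 < δ := by positivity
  have hΛ0 : 0 ≤ Λ := by linarith
  set O := Metric.thickening r S with hO
  have hSO : S ⊆ O := Metric.self_subset_thickening hr S
  have hx₀ : x₀ ∈ S := hBS (Metric.mem_ball_self (by linarith))
  have hOB : O ⊆ Metric.closedBall x₀ ((|N| + 1) * r) := fun x hx => by
    obtain ⟨z, hz, hxz⟩ := Metric.mem_thickening_iff.1 hx
    have h1 := hSd z hz x₀ hx₀
    have h2 := dist_triangle x z x₀
    have h3 : N * r ≤ |N| * r := mul_le_mul_of_nonneg_right (le_abs_self N) hr.le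
    rw [Metric.mem_closedBall]
    linarith
  have hK := isCompact_closedBall x₀ ((|N| + 1) * r)
  have hKv : volume.real (Metric.closedBall x₀ ((|N| + 1) * r)) = V * r ^ 3 := by
    rw [Measure.addHaar_real_closedBall _ _ (by positivity), finrank_euclideanSpace_fin, hV]
    ring
  have hvol : ∀ A ⊆ O, volume.real A ≤ V * r ^ 3 := fun A hA =>
    hKv ▸ measureReal_mono (hA.trans hOB) hK.measure_lt_top.ne
  have hL := LMP_log hθ hθ0 hδ a
  set L : X → ℝ := fun x => Real.log a - Real.log (θ x + δ) with hLd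
  have ht : H1l eX (fun x => θ x + δ) g := by
    simpa using hθ.lin (H1l.const δ) 1 1
  have hinv := ht.inv fun K _ => ⟨δ, hδ, by filter_upwards [hθ0] with x hx _ using by linarith⟩
  have hLpos : ∀ x, 0 ≤ θ x → (0 < L x ↔ θ x + δ < a) := fun x hx => by
    simp only [hLd, sub_pos]
    exact Real.log_lt_log_iff (by linarith) ha
  have hyp' : ∀ {u η : X → ℝ} {M : ℝ}, HasCompactSupport η → tsupport η ⊆ O →
      (∀ᵐ x, 1 ≤ θ x → u x = 0) → ∀ ξ k, H1l eX ξ k → (∀ᵐ x, 0 ≤ ξ x ∧ ξ x ≤ M) →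
      (∀ᵐ x, x ∉ tsupport η → ξ x = 0) → (∀ᵐ x, u x = 0 → ξ x = 0) →
      0 ≤ ∫ x, (1 * (ρ x * gd g k x) + 2 * lam * (ρ x * θ x * ξ x)) := by
    intro u η M hηc hηs hu ξ k h1 h2 h3 h4
    simp only [one_mul]
    refine hyp ξ k M _ h1 hηc hηs h2 h3 ?_
    filter_upwards [hu, h4] with x a1 a2 a3 using a2 (a1 a3)
  -- step 1
  have hv := hL.posPart
  have step1 : ∫ x in S, gs (fun i x => if 0 < L x then -(g i x / (θ x + δ)) else 0) x ≤
      4 * Λ * V * (M₀ + 1) * r := by
    obtain ⟨η, hη, hηc, hη1, hηS, hηs, hηg⟩ := hcut S r hr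
      (Metric.isBounded_closedBall.subset (hSO.trans hOB))
    have hu := hinv.posPart_sub a⁻¹
    have hiff : ∀ x, 0 ≤ θ x → (a⁻¹ < (θ x + δ)⁻¹ ↔ θ x + δ < a) := fun x hx =>
      inv_lt_inv₀ ha (by linarith)
    have hw1 : ∀ᵐ x, 0 ≤ max ((θ x + δ)⁻¹ - a⁻¹) 0 * (θ x + δ) ∧
        max ((θ x + δ)⁻¹ - a⁻¹) 0 * (θ x + δ) ≤ 1 := by
      filter_upwards [hθ0] with x hx
      have h1 : 0 < θ x + δ := by linarith
      refine ⟨mul_nonneg (le_max_right _ _) h1.le, ?_⟩
      rw [← le_div_iff₀ h1, one_div]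
      exact max_le (sub_le_self _ (inv_pos.2 ha).le) (inv_pos.2 h1).le
    have hw : L2l fun x => max ((θ x + δ)⁻¹ - a⁻¹) 0 * (θ x + δ) := by
      refine (L2l.of_continuous (continuous_const (y := (1 : ℝ)))).of_le
        (hu.m.mul ht.m).aestronglyMeasurable (C := 1) ?_
      filter_upwards [hw1] with x hx
      rw [abs_of_nonneg hx.1, abs_one, mul_one]
      exact hx.2
    have key := LMP_key (σ := 1) (τ := 2 * lam) (M := δ⁻¹) (q := fun _ => 2 * lam) hθ hρm hm hρ hu
      ?_ hη hηc hηs hη1 (hyp' hηc hηs ?_) hv.gl2 hw (L2l.of_continuous continuous_const) ?_ ?_ ?_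
    · have hηK : ∀ x ∉ tsupport η, η x = 0 := fun x hx => image_eq_zero_of_notMem_tsupport hx
      have hfin : volume (tsupport η) ≠ ∞ := hηc.isCompact.measure_lt_top.ne
      have hb : ∀ {f : X → ℝ} {c : ℝ}, 0 ≤ c → (∀ᵐ x, |f x| ≤ c) → (∀ x ∉ tsupport η, f x = 0) →
          ∫ x, f x ≤ c * (V * r ^ 3) := by
        intro f c hc h1 h2
        rw [← setIntegral_eq_integral_of_forall_compl_eq_zero h2]
        exact (Real.le_norm_self _).trans ((norm_setIntegral_le_of_norm_le_const_ae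
          hfin.lt_top (ae_restrict_of_ae h1)).trans (mul_le_mul_of_nonneg_left (hvol _ hηs) hc))
      have b1 := hb (f := fun x => (max ((θ x + δ)⁻¹ - a⁻¹) 0 * (θ x + δ)) ^ 2 * gs (pd eX η) x)
        (c := M₀ / r ^ 2) (by positivity) (by
          filter_upwards [hw1] with x hx
          have := gs_nonneg (pd eX η) x
          rw [abs_of_nonneg (by positivity)]
          exact (mul_le_of_le_one_left this (pow_le_one₀ hx.1 hx.2)).trans (hηg x))
        fun x hx => by simp [gs, LMP_pd_zero hx]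
      have b2 := hb (f := fun x => 2 * lam * η x ^ 2) (c := 2 * lam) (by positivity)
        (Eventually.of_forall fun x => by
          rw [abs_of_nonneg (by positivity)]
          exact mul_le_of_le_one_right (by positivity) (pow_le_one₀ (hη1 x).1 (hη1 x).2))
        fun x hx => by simp [hηK x hx]
      have b3 : ∫ x in S, gs (fun i x => if 0 < L x then -(g i x / (θ x + δ)) else 0) x ≤
          ∫ x, η x ^ 2 * gs (fun i x => if 0 < L x then -(g i x / (θ x + δ)) else 0) x := by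
        rw [setIntegral_congr_fun hSm (g := fun x => η x ^ 2 *
          gs (fun i x => if 0 < L x then -(g i x / (θ x + δ)) else 0) x)
          fun x hx => by simp only [hηS x hx, one_pow, one_mul]]
        refine setIntegral_le_integral ?_ (Eventually.of_forall fun x =>
          mul_nonneg (sq_nonneg _) (gs_nonneg _ _))
        exact LMP_int (LMP_gs hv.gl2) (hη.continuous.pow 2) hηc fun x hx => by simp [hηK x hx]
      have e1 : M₀ / r ^ 2 * (V * r ^ 3) = M₀ * V * r := by field_simp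
      have e2 : 2 * lam * (V * r ^ 3) ≤ 2 * V * r := by
        have : 0 ≤ V * r := by positivity
        nlinarith
      rw [e1] at b1
      have b4 := mul_le_mul_of_nonneg_left b1 (by positivity : 0 ≤ 4 * Λ)
      have b5 := mul_le_mul_of_nonneg_left (b2.trans e2) (by positivity : 0 ≤ 2 * Λ)
      linarith
    · filter_upwards [hθ0] with x hx
      have h1 : (θ x + δ)⁻¹ ≤ δ⁻¹ := inv_anti₀ hδ (by linarith)
      have h2 := inv_pos.2 ha
      exact ⟨le_max_right _ _, max_le (by linarith) (inv_pos.2 hδ).le⟩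
    · filter_upwards [hθ0] with x hx h1
      exact max_eq_right (sub_nonpos.2 (not_lt.1 fun h => by linarith [(hiff x hx).1 h]))
    · filter_upwards [hθ0] with x hx
      have h1 : 0 < θ x + δ := by linarith
      by_cases h : θ x + δ < a
      · simp only [gd, gs, hLpos x hx, hiff x hx, h, if_true, Fin.sum_univ_three]
        refine le_of_eq ?_
        field_simp
        ring
      · simp [gd, gs, hLpos x hx, hiff x hx, h]
    · filter_upwards [hθ0] with x hx i
      have h1 : 0 < θ x + δ := by linarith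
      by_cases h : θ x + δ < a
      · simp only [hLpos x hx, h, if_true]
        field_simp
      · rw [max_eq_right (sub_nonpos.2 (not_lt.1 fun h' => h ((hiff x hx).1 h')))]
        simp
    · filter_upwards [hθ0, hw1] with x hx h1
      refine ⟨?_, by positivity⟩
      have h2 : 0 ≤ max ((θ x + δ)⁻¹ - a⁻¹) 0 * δ := mul_nonneg (le_max_right _ _) hδ.le
      have h3 : θ x * max ((θ x + δ)⁻¹ - a⁻¹) 0 ≤ 1 := by nlinarith [h1.2]
      rw [mul_assoc (2 * lam)]
      exact mul_le_of_le_one_right (by positivity) h3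
  -- step 2
  have hIS : IntegrableOn (fun x => max (L x) 0 ^ 2) S :=
    ((LMP_sq hv.l2).integrableOn_isCompact hK).mono_set (hSO.trans hOB)
  have step2 : (∫ y in Metric.ball x₀ (2 * r), max (L y) 0 ^ 2) / r ^ 3 ≤ Q := by
    have h1 := poinc_zero hv hS hSm hSd (A := {x | x ∈ S ∧ a ≤ θ x})
      (hSm.inter (measurableSet_le measurable_const hθ.m)) (fun x hx => hx.1) (by
        filter_upwards [hθ0] with x hx h
        exact max_eq_right (not_lt.1 fun h' => by linarith [(hLpos x hx).1 h', h.2]))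
    have h2 : ∫ y in Metric.ball x₀ (2 * r), max (L y) 0 ^ 2 ≤ ∫ y in S, max (L y) 0 ^ 2 :=
      setIntegral_mono_set hIS (Eventually.of_forall fun x => sq_nonneg _) hBS.eventuallyLE
    have h3 : 0 ≤ ∫ y in S, max (L y) 0 ^ 2 := integral_nonneg fun x => sq_nonneg _
    have h4 : 16 * (N * r) ^ 2 * volume.real S *
        ∫ x in S, gs (fun i x => if 0 < L x then -(g i x / (θ x + δ)) else 0) x ≤
        16 * (N * r) ^ 2 * (V * r ^ 3) * (4 * Λ * V * (M₀ + 1) * r) :=
      mul_le_mul (mul_le_mul_of_nonneg_left (hvol S hSO) (by positivity)) step1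
        (integral_nonneg fun x => gs_nonneg _ _) (by positivity)
    have h5 := (mul_le_mul_of_nonneg_right hμS h3).trans (h1.trans h4)
    have hr3 : 0 < r ^ 3 := by positivity
    rw [div_le_iff₀ hr3]
    refine h2.trans (le_of_mul_le_mul_left (h5.trans_eq ?_) (mul_pos hμ hr3))
    rw [hQ]
    field_simp
  -- step 3
  have step3 := hdg L _ x₀ r (4 * lam * Λ) hr (by positivity) hL fun κ η hκ hη hηc hηs hη1 => by
    have hW := hL.posPart_sub κ
    have hWb : ∀ᵐ x, 0 ≤ max (L x - κ) 0 ∧ max (L x - κ) 0 ≤ |Real.log a - Real.log δ| := by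
      filter_upwards [hθ0] with x hx
      refine ⟨le_max_right _ _, max_le ?_ (abs_nonneg _)⟩
      have h1 : Real.log δ ≤ Real.log (θ x + δ) := Real.log_le_log hδ (by linarith)
      have h2 := le_abs_self (Real.log a - Real.log δ)
      simp only [hLd]
      linarith
    have hib : ∀ᵐ x, 0 ≤ (θ x + δ)⁻¹ ∧ (θ x + δ)⁻¹ ≤ δ⁻¹ := by
      filter_upwards [hθ0] with x hx
      exact ⟨by positivity, inv_anti₀ hδ (by linarith)⟩
    have hu := hW.mul_locbdd hinv
      (fun K _ => ⟨_, by filter_upwards [hWb] with x hx _ using (abs_of_nonneg hx.1).trans_le hx.2⟩)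
      (fun K _ => ⟨_, by filter_upwards [hib] with x hx _ using (abs_of_nonneg hx.1).trans_le hx.2⟩)
    have hηO := hηs.trans (hBS.trans hSO)
    have hq : L2l fun x => 2 * lam * max (L x - κ) 0 :=
      hW.l2.of_le (hW.m.const_mul _).aestronglyMeasurable (C := 2 * lam)
        (Eventually.of_forall fun x => by rw [abs_mul, abs_of_nonneg (by positivity)])
    have key := LMP_key (σ := 1) (τ := 2 * lam) (M := |Real.log a - Real.log δ| * δ⁻¹) hθ hρm hm hρ
      hu ?_ hη hηc hηO hη1 (hyp' hηc hηO ?_) hW.gl2 hW.l2 hq ?_ ?_ ?_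
    · simp only [LMP_gs_ite, mul_assoc (2 * lam), integral_const_mul] at key
      refine key.trans_eq ?_
      ring
    · filter_upwards [hWb, hib] with x h1 h2
      exact ⟨mul_nonneg h1.1 h2.1, mul_le_mul h1.2 h2.2 h2.1 (abs_nonneg _)⟩
    · filter_upwards [hθ0] with x hx h1
      have h2 : L x ≤ 0 := not_lt.1 fun h => by linarith [(hLpos x hx).1 h]
      rw [max_eq_right (by linarith), zero_mul]
    · filter_upwards [hθ0] with x hx
      have h1 : 0 < θ x + δ := by linarith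
      have h2 : 0 ≤ max (L x - κ) 0 * (gs g x / (θ x + δ) ^ 2) :=
        mul_nonneg (le_max_right _ _) (div_nonneg (gs_nonneg _ _) (sq_nonneg _))
      refine le_trans (le_of_eq ?_) (sub_le_self _ h2)
      by_cases h : κ < L x
      · simp only [gd, gs, h, if_true, Fin.sum_univ_three]
        field_simp
        ring
      · simp only [gd, gs, h, if_false, Fin.sum_univ_three]
        field_simp
        ring
    · filter_upwards [hθ0] with x hx i
      by_cases h : κ < L x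
      · simp only [h, if_true]
        ring
      · rw [max_eq_right (sub_nonpos.2 (not_lt.1 h))]
        simp
    · filter_upwards [hθ0, hWb] with x hx h1
      have h0 : 0 < θ x + δ := by linarith
      have h2 : θ x * (θ x + δ)⁻¹ ≤ 1 := by
        rw [← div_eq_mul_inv, div_le_one h0]
        linarith
      refine ⟨?_, mul_nonneg (by positivity) h1.1⟩
      rw [mul_assoc (2 * lam)]
      refine mul_le_mul_of_nonneg_left ?_ (by positivity)
      nlinarith [h1.1]
  filter_upwards [step3, hθ0] with x hx hx0 hxb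
  have h1 : L x ≤ C₁ := by
    refine (hx hxb).trans (mul_le_mul_of_nonneg_left (add_le_add (Real.sqrt_le_sqrt step2) ?_) hC.le)
    nlinarith
  have h2 : Real.exp (-C₁) * a ≤ θ x + δ := by
    rw [← Real.exp_log ha, ← Real.exp_add, ← Real.le_log_iff_exp_le (by linarith)]
    simp only [hLd] at h1
    linarith
  linarith

end Crest.Agent.R335
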