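import Crest.Agent.R335.BarB

/-! Row 335. Two-sided bounds for the odd channel `p` (`cmp_up`). -/

set_option autoImplicit false

open MeasureTheory Set Filter Topology
open scoped ENNReal

noncomputable section

namespace Crest.Agent.R335

variable {c : ℝ} {o : One c} {C ε : ℝ}

theorem StA2_key {r z h E A B : ℝ} (hr : 1 ≤ r) (hE : (200 * E) ^ 2 ≤ r) (hz : 0 ≤ z)
    (hh : 0 ≤ h) (hA : 0 ≤ A) (hB : 100 * B ≤ A) :
    E / r ^ 2 * (A * (2 * z * h)) + B * h / r ^ 3 ≤ A * ((1 + z) * h / (100 * r * √r)) := by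
  have hr0 : 0 < r := by linarith
  have hs : 0 < √r := Real.sqrt_pos.2 hr0
  have hs2 : √r * √r = r := Real.mul_self_sqrt hr0.le
  have h1 : 200 * E ≤ √r := Real.le_sqrt_of_sq_le hE
  have h2 : √r ≤ r := by
    rw [Real.sqrt_le_left hr0.le]
    nlinarith
  have h3 : 2 * E / r ^ 2 ≤ 1 / (100 * r * √r) := by
    rw [div_le_div_iff₀ (by positivity) (by positivity)]
    have := mul_le_mul_of_nonneg_right h1 (mul_nonneg hr0.le hs.le)
    nlinarith
  have h4 : B / r ^ 3 ≤ A / (100 * r * √r) := by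
    refine (div_le_div_of_nonneg_right (show B ≤ A / 100 by linarith) (by positivity)).trans ?_
    rw [div_div]
    refine div_le_div_of_nonneg_left hA (by positivity) ?_
    have h5 : r * √r ≤ r * r := mul_le_mul_of_nonneg_left h2 hr0.le
    have h6 : r * r * 1 ≤ r * r * r := mul_le_mul_of_nonneg_left hr (by positivity)
    nlinarith
  have h5 := mul_le_mul_of_nonneg_right h3 (mul_nonneg hA (mul_nonneg hz hh))
  have h6 := mul_le_mul_of_nonneg_right h4 hh
  have e1 : E / r ^ 2 * (A * (2 * z * h)) + B * h / r ^ 3 =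
      2 * E / r ^ 2 * (A * (z * h)) + B / r ^ 3 * h := by ring
  have e2 : A * ((1 + z) * h / (100 * r * √r)) =
      1 / (100 * r * √r) * (A * (z * h)) + A / (100 * r * √r) * h := by ring
  rw [e1, e2]
  exact add_le_add h5 h6

theorem StA2_εC (ch : Chan o C ε) : 0 ≤ ε * C ∧ ε * C ≤ 1 := by
  have h1 := ch.εC
  have h2 := o.g_le
  have h3 := ch.ε0
  have h4 := ch.C1
  exact ⟨by positivity, by linarith⟩

theorem StA2_est (ch : Chan o C ε) {R₀ A₀ : ℝ} (hR : 2 * o.Rs + 10 ≤ R₀)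
    (hL : ∀ᵐ x : X, R₀ < ‖x‖ → ch.nL x ≤ A₀ / ‖x‖ * ch.h x) : ∀ᵐ x : X, R₀ < ‖x‖ →
    |ch.Sp x - (V o.D x + ch.I) * ch.p x + (ch.I - (2 - 2 * ε) / ‖x‖) * ch.p x| ≤
      (4 * o.D + 1) / ‖x‖ ^ 2 * |ch.p x| + ε * C * |A₀| * ch.h x / ‖x‖ ^ 3 := by
  filter_upwards [hL, ch.Sp_ext] with x h1 h2 hx
  have h3 := o.Rs_ge
  have hD := o.D1
  have hRs : o.Rs = 2 * o.D + 1 := rfl
  have hr : 0 < ‖x‖ := by linarith
  have h4 := h2 (by linarith)
  have h5 := V_ext hD (x := x) (by linarith)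
  obtain ⟨h6, h7⟩ := StA2_εC ch
  have hh := (ch.h_pos hr).le
  have h8 : ch.nL x ≤ |A₀| / ‖x‖ * ch.h x :=
    (h1 hx).trans (mul_le_mul_of_nonneg_right
      (div_le_div_of_nonneg_right (le_abs_self _) hr.le) hh)
  have e : ch.Sp x - (V o.D x + ch.I) * ch.p x + (ch.I - (2 - 2 * ε) / ‖x‖) * ch.p x =
      (ch.Sp x + 2 * ε / ‖x‖ * ch.p x) - (V o.D x + 2 / ‖x‖) * ch.p x := by ring
  rw [e]
  refine (abs_sub _ _).trans ?_
  rw [abs_mul]
  have h9 := mul_le_mul_of_nonneg_right h5 (abs_nonneg (ch.p x))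
  have h10 : ε * C / ‖x‖ ^ 2 * |ch.p x| ≤ 1 / ‖x‖ ^ 2 * |ch.p x| :=
    mul_le_mul_of_nonneg_right (div_le_div_of_nonneg_right h7 (by positivity)) (abs_nonneg _)
  have h11 : ε * C / ‖x‖ ^ 2 * ch.nL x ≤ ε * C / ‖x‖ ^ 2 * (|A₀| / ‖x‖ * ch.h x) :=
    mul_le_mul_of_nonneg_left h8 (by positivity)
  have e2 : ε * C / ‖x‖ ^ 2 * (|A₀| / ‖x‖ * ch.h x) = ε * C * |A₀| * ch.h x / ‖x‖ ^ 3 := by
    field_simp
  have e3 : (4 * o.D + 1) / ‖x‖ ^ 2 * |ch.p x| =
      4 * o.D / ‖x‖ ^ 2 * |ch.p x| + 1 / ‖x‖ ^ 2 * |ch.p x| := by ring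
  rw [mul_add] at h4
  linarith

theorem StA2_Q (ch : Chan o C ε) {r : ℝ} (h1 : 100 ≤ r) (h2 : (200 * (4 * o.D + 1)) ^ 2 ≤ r) :
    0 ≤ (4 * o.D + 1) / r ^ 2 ∧ (4 * o.D + 1) / r ^ 2 ≤ ch.I - (2 - 2 * ε) / r := by
  have hD := o.D1
  have hr : 0 < r := by linarith
  have h3 := ch.I_bd.1
  have h4 := ch.ε0
  have h5 : (4 * o.D + 1) / r ^ 2 ≤ 1 / 100 := by
    rw [div_le_div_iff₀ (by positivity) (by positivity)]
    nlinarith
  have h6 : (2 - 2 * ε) / r ≤ 2 / 100 := by
    rw [div_le_div_iff₀ hr (by positivity)]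
    nlinarith
  exact ⟨by positivity, by linarith⟩

theorem StA2_up_ext {R : ℝ} (hR : 1 ≤ R) : up R ⊆ ext 1 := fun _ hx => lt_of_le_of_lt hR hx.1

theorem StA2_van (ch : Chan o C ε) : Van ch.p := van_of_odd ch.solp.h1 (ae_of_all _ ch.pP)

/-- Compare `p` and `-p` with `A * bar_pa` on `up R` (`van_of_odd`).  With
`f = Sp - (V + I) p`: `|f + (I - κ₀ / r) p| ≤ (4 D + C) |p| / r² + ε C nL / r²`.  Shell: `cpz` and
`One.b_le`.  Lower half space by `pP`, `ae_P`. -/
theorem stA_phi (o : One c) (C R₀ A₀ : ℝ) (hR : 2 * o.Rs + 10 ≤ R₀) : ∃ R A : ℝ, R₀ ≤ R ∧ 1 ≤ A ∧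
    ∀ (ε : ℝ) (ch : Chan o C ε), (∀ᵐ x : X, R₀ < ‖x‖ → ch.nL x ≤ A₀ / ‖x‖ * ch.h x) →
      ∀ᵐ x : X, R < ‖x‖ → |ch.p x| ≤ A * |x 2| * ch.h x := by
  obtain ⟨M, hM, hb⟩ := o.b_le
  have h3 := o.Rs_ge
  have hsq := sq_nonneg (200 * (4 * o.D + 1))
  set R := R₀ + 100 + (200 * (4 * o.D + 1)) ^ 2 with hRd
  set A := 1 + 100 * |A₀| + 2 * (M + |C|) * Real.exp (2 * (R + 1)) with hAd
  have hA0 : 0 ≤ 2 * (M + |C|) * Real.exp (2 * (R + 1)) := by positivity
  have hA1 := abs_nonneg A₀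
  have hA : 0 ≤ A := by linarith
  refine ⟨R, 2 * A, by linarith, by linarith, fun ε ch hL => ?_⟩
  obtain ⟨U, g, f, hU, hbar⟩ := ch.bar_pa
  obtain ⟨h6, h7⟩ := StA2_εC ch
  have key : ∀ σ : ℝ, |σ| = 1 → ∀ᵐ x, x ∈ up R → σ * ch.p x ≤ A * U x := by
    intro σ hσ
    have hab : ∀ t : ℝ, |σ * t| = |t| := fun t => by rw [abs_mul, hσ, one_mul]
    have hle : ∀ t : ℝ, σ * t ≤ |t| := fun t => (le_abs_self _).trans (hab t).le
    refine cmp_up (by linarith) ((ch.solp.smul σ).sub.subset (subset_univ _))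
      ((hU.smul A).sup.subset (StA2_up_ext (by linarith))) ?_ (StA2_van ch) ch.solp.h1.l2
      (ae_of_all _ fun x hx => ?_) ?_
    · filter_upwards [hb, ch.cpz] with x h1 h2 hx hx' hz
      have h4 := h1 (by linarith)
      have h5 := h2 (by linarith)
      rw [abs_of_pos hz] at h4 h5
      have h8 : |o.b x / √2| ≤ |o.b x| := by
        rw [abs_div, abs_of_nonneg (Real.sqrt_nonneg 2)]
        exact div_le_self (abs_nonneg _) (Real.one_le_sqrt.2 (by norm_num))
      have h9 : |ch.p x| ≤ |ch.p x - o.b x / √2| + |o.b x / √2| := by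
        have := abs_add_le (ch.p x - o.b x / √2) (o.b x / √2)
        rwa [sub_add_cancel] at this
      have h10 : C * √ε ≤ |C| := by
        have h11 : √ε ≤ 1 := Real.sqrt_le_one.2 (by linarith [ch.ε_le])
        have h12 := ch.C1
        rw [abs_of_nonneg (by linarith : 0 ≤ C)]
        exact mul_le_of_le_one_right (by linarith) h11
      have h11 := mul_le_mul_of_nonneg_right h10 hz.le
      have h12 : |ch.p x| ≤ (M + |C|) * x 2 := by linarith
      have h13 : Real.exp (-2 * (R + 1)) ≤ ch.h x :=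
        (Real.exp_le_exp.2 (by linarith)).trans (ch.h_ge (by linarith))
      have h14 : Real.exp (2 * (R + 1)) * Real.exp (-2 * (R + 1)) = 1 := by
        rw [← Real.exp_add]; simp
      have h15 : 2 * (M + |C|) * Real.exp (2 * (R + 1)) * Real.exp (-2 * (R + 1)) ≤ A * ch.h x :=
        mul_le_mul (by linarith) h13 (Real.exp_pos _).le hA
      rw [mul_assoc, h14, mul_one] at h15
      have h16 := mul_le_mul_of_nonneg_right h15 hz.le
      have h17 := mul_le_mul_of_nonneg_left (hbar x (by linarith) hz.le).1 hA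
      have h18 := hle (ch.p x)
      linarith
    · have hx1 : R < ‖x‖ := hx.1
      have h1 := (hbar x (by linarith) hx.2.le).1
      have h2 : 0 ≤ x 2 * ch.h x / 2 := by
        have := hx.2
        have := ch.h_pos (x := x) (by linarith)
        positivity
      have h4 := mul_nonneg hA (h2.trans h1)
      have h5 := hle (ch.p x)
      linarith
    · filter_upwards [StA2_est ch hR hL] with x h1 hx hlt
      have hx1 : R < ‖x‖ := hx.1
      have hz := hx.2
      have hh := ch.h_pos (x := x) (by linarith)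
      obtain ⟨b1, b2, b3⟩ := hbar x (by linarith) hz.le
      obtain ⟨q1, q2⟩ := StA2_Q ch (r := ‖x‖) (by linarith) (by linarith)
      have h2 := h1 (by linarith)
      have h4 : 0 ≤ A * U x := mul_nonneg hA (le_trans (by positivity) b1)
      have h5 : |ch.p x| = σ * ch.p x := by rw [← hab, abs_of_nonneg (h4.trans hlt.le)]
      have h8 := (hle _).trans h2
      have h9 := StA2_key (r := ‖x‖) (z := x 2) (h := ch.h x) (E := 4 * o.D + 1) (A := A)
        (B := ε * C * |A₀|) (by linarith) (by linarith) hz.le hh.le hA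
        (by nlinarith [mul_le_mul_of_nonneg_right h7 hA1])
      have h10 := mul_le_mul_of_nonneg_left b3 hA
      have h11 := mul_le_mul_of_nonneg_left (mul_le_mul_of_nonneg_left b2 hA) q1
      have h12 := mul_le_mul_of_nonneg_left hlt.le (sub_nonneg.2 q2)
      rw [h5] at h8
      linarith
  have hup : ∀ᵐ x : X, x ∈ up R → |ch.p x| ≤ 2 * A * |x 2| * ch.h x := by
    filter_upwards [key 1 abs_one, key (-1) (by simp)] with x h1 h2 hx
    have hx1 : R < ‖x‖ := hx.1
    have h4 := mul_le_mul_of_nonneg_left (hbar x (by linarith) hx.2.le).2.1 hA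
    have h5 := h1 hx
    have h8 := h2 hx
    rw [abs_of_pos hx.2, abs_le]
    constructor <;> linarith
  filter_upwards [hup, ae_P hup, ae_two_ne] with x h1 h2 hz hx
  rcases hz.lt_or_gt with hz | hz
  · have h4 := h2 ⟨by rwa [norm_P], by rw [P_two]; linarith⟩
    rwa [ch.pP, abs_neg, P_two, abs_neg, ch.h_P] at h4
  · exact h1 ⟨hx, hz⟩

/-- Compare `w = c' * bar_ps` with `p` on `up R`.  Where `p < w` distinguish the sign of `p`.
`w - p ≤ |w 1_{up R}| + |p|`, which vanishes on the plane (`van_of_le_z`, `van_of_odd`, `Van.add`).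
Shell: `cpz`, `One.bpos` and `ε` small. -/
theorem stA_plo (o : One c) (C R₀ A₀ : ℝ) (hR : 2 * o.Rs + 10 ≤ R₀) :
    ∃ R A ε₀ : ℝ, R₀ ≤ R ∧ 1 ≤ A ∧ 0 < ε₀ ∧ ∀ (ε : ℝ) (ch : Chan o C ε), ε ≤ ε₀ →
      (∀ᵐ x : X, R₀ < ‖x‖ → ch.nL x ≤ A₀ / ‖x‖ * ch.h x) →
      ∀ᵐ x : X, R < ‖x‖ → 0 < x 2 → x 2 * ch.h x ≤ A * ch.p x := by
  have h3 := o.Rs_ge
  have hsq := sq_nonneg (200 * (4 * o.D + 1))
  set R := R₀ + 100 + (200 * (4 * o.D + 1)) ^ 2 with hRd
  obtain ⟨c₁, hc₁, hb⟩ := o.bpos (R + 1)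
  set a := c₁ / 8 with had
  have ha : 0 < a := by positivity
  have hA1 := abs_nonneg A₀
  have hC1 := abs_nonneg C
  refine ⟨R, 1 + 2 / a, min ((c₁ / (4 * (|C| + 1))) ^ 2) (a / (100 * (|C| * |A₀| + 1))),
    by linarith, by have := div_pos two_pos ha; linarith, by positivity, fun ε ch hε hL => ?_⟩
  obtain ⟨U, g, f, hU, hbar⟩ := ch.bar_ps
  obtain ⟨h6, h7⟩ := StA2_εC ch
  have hC : |C| = C := abs_of_nonneg (by linarith [ch.C1])
  have hε1 : C * √ε ≤ c₁ / 4 := by
    have h1 : √ε ≤ c₁ / (4 * (|C| + 1)) :=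
      Real.sqrt_le_iff.2 ⟨by positivity, hε.trans (min_le_left _ _)⟩
    rw [le_div_iff₀ (by positivity), hC] at h1
    nlinarith [Real.sqrt_nonneg ε]
  have hε2 : 100 * (ε * C * |A₀|) ≤ a := by
    have h1 := hε.trans (min_le_right _ _)
    rw [le_div_iff₀ (by positivity), hC] at h1
    nlinarith [ch.ε0]
  have hU0 : ∀ x ∈ up R, 0 ≤ U x := by
    intro x hx
    have hx1 : R < ‖x‖ := hx.1
    have hz := hx.2
    have hh := ch.h_pos (x := x) (by linarith)
    exact le_trans (by positivity) (hbar x (by linarith) hz.le).1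
  have hw2 : MemLp ((up R).indicator fun x => a * U x) 2 volume :=
    (hU.smul a).h1.l2.indicator (measurableSet_up R)
  have hp2 : MemLp (fun x => |ch.p x|) 2 volume := ch.solp.h1.l2.abs
  have hv1 : Van ((up R).indicator fun x => a * U x) := by
    have hh2 : MemLp ((ext 1).indicator fun x : X => (1 + ‖x‖) ^ 0 * ch.h x) 2 volume :=
      (memLp_indicator_iff_restrict (measurableSet_ext 1)).2 (ch.memLp_h 0)
    refine van_of_le_z hh2 (C := 2 * a) (ae_of_all _ fun x => ?_)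
    by_cases hx : x ∈ up R
    · have hx1 : R < ‖x‖ := hx.1
      have hh := ch.h_pos (x := x) (by linarith)
      rw [indicator_of_mem hx, indicator_of_mem (StA2_up_ext (by linarith) hx), pow_zero, one_mul,
        abs_of_nonneg (mul_nonneg ha.le (hU0 x hx)), abs_of_pos hx.2, abs_of_pos hh]
      have := mul_le_mul_of_nonneg_left (hbar x (by linarith) hx.2.le).2.1 ha.le
      linarith
    · rw [indicator_of_notMem hx, abs_zero]
      positivity
  have hv2 : Van fun x => |ch.p x| :=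
    (StA2_van ch).mono ch.solp.h1.l2 (C := 1) (ae_of_all _ fun x => by simp)
  have key : ∀ᵐ x, x ∈ up R → a * U x ≤ ch.p x := by
    refine cmp_up (by linarith) ((hU.smul a).sub.subset (StA2_up_ext (by linarith)))
      (ch.solp.sup.subset (subset_univ _)) ?_ (hv1.add hv2 hw2 hp2) (hw2.add hp2)
      (ae_of_all _ fun x hx => ?_) ?_
    · filter_upwards [ch.cpz] with x h2 hx hx' hz
      have h4 := hb x hx'.le hz.le
      have h5 := h2 (by linarith)
      rw [abs_of_pos hz] at h5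
      have h8 : c₁ * x 2 / 2 ≤ o.b x / √2 := by
        refine div_le_div₀ (le_trans (by positivity) h4) h4 (by positivity) ?_
        rw [Real.sqrt_le_left (by norm_num)]
        norm_num
      have h9 := (abs_le.1 h5).1
      have h10 := mul_le_mul_of_nonneg_right hε1 hz.le
      have h11 := mul_le_mul_of_nonneg_left (hbar x (by linarith) hz.le).2.1 ha.le
      have h12 := mul_le_mul_of_nonneg_left (ch.h_le_one (x := x) (by linarith))
        (mul_nonneg ha.le hz.le)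
      have h13 : a * x 2 = c₁ * x 2 / 8 := by rw [had]; ring
      linarith
    · refine le_trans ?_ (le_abs_self _)
      rw [indicator_of_mem hx]
      linarith [neg_abs_le (ch.p x)]
    · filter_upwards [StA2_est ch hR hL] with x h1 hx hlt
      have hx1 : R < ‖x‖ := hx.1
      have hz := hx.2
      have hh := ch.h_pos (x := x) (by linarith)
      obtain ⟨b1, b2, b3⟩ := hbar x (by linarith) hz.le
      obtain ⟨q1, q2⟩ := StA2_Q ch (r := ‖x‖) (by linarith) (by linarith)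
      have h2 := (abs_le.1 (h1 (by linarith))).1
      have h4 : 0 ≤ a * U x := mul_nonneg ha.le (hU0 x hx)
      have h9 := StA2_key (r := ‖x‖) (z := x 2) (h := ch.h x) (E := 4 * o.D + 1) (A := a)
        (B := ε * C * |A₀|) (by linarith) (by linarith) hz.le hh.le ha.le hε2
      have h10 := mul_le_mul_of_nonneg_left b3 ha.le
      have h11 := mul_le_mul_of_nonneg_left (mul_le_mul_of_nonneg_left b2 ha.le) q1
      rcases le_total 0 (ch.p x) with hp | hp
      · rw [abs_of_nonneg hp] at h2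
        have h12 := mul_le_mul_of_nonneg_left hlt.le (q1.trans q2)
        have h13 := mul_le_mul_of_nonneg_left hlt.le q1
        linarith
      · rw [abs_of_nonpos hp] at h2
        have h12 := mul_nonneg (sub_nonneg.2 q2) (neg_nonneg.2 hp)
        have h13 := mul_nonneg (q1.trans q2) h4
        have h14 := mul_nonneg q1 h4
        linarith
  filter_upwards [key] with x h1 hx hz
  have h2 := h1 ⟨hx, hz⟩
  have h4 := mul_le_mul_of_nonneg_left (hbar x (by linarith) hz.le).1 ha.le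
  have h5 : 0 ≤ ch.p x := (mul_nonneg ha.le (hU0 x ⟨hx, hz⟩)).trans h2
  have h8 : x 2 * ch.h x ≤ 2 / a * ch.p x := by
    rw [div_mul_eq_mul_div, le_div_iff₀ ha]
    linarith
  linarith

end Crest.Agent.R335
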