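import Crest.Agent.R335.BarA

/-! Row 335. Two-sided bounds for the even channel `q` (`cmp_ext`). -/

set_option autoImplicit false

open MeasureTheory Set Filter Topology
open scoped ENNReal

noncomputable section

namespace Crest.Agent.R335

variable {c : ℝ} {o : One c} {C ε : ℝ}

/-- The error terms of `Sq_ext`. -/
theorem Chan.Sq_err (ch : Chan o C ε) {R₀ A₀ : ℝ} (hR : o.Rs ≤ R₀) (hA : 0 ≤ A₀)
    (h1 : ∀ᵐ x : X, R₀ < ‖x‖ → |ch.p x| ≤ A₀ * |x 2| * ch.h x)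
    (h2 : ∀ᵐ x : X, R₀ < ‖x‖ → ch.nL x ≤ A₀ * (1 + |x 2|) / ‖x‖ ^ 2 * ch.h x) :
    ∀ᵐ x : X, R₀ < ‖x‖ →
      |ch.Sq x - ε * ch.d * x 2 / ‖x‖ ^ 3 * ch.p x + 2 * ε / ‖x‖ * ch.q x| ≤
        ε * C / ‖x‖ ^ 2 * |ch.q x| + 6 * C * A₀ * (ε * (1 + x 2 ^ 2) / ‖x‖ ^ 4 * ch.h x) := by
  filter_upwards [h1, h2, ch.Sq_ext, ch.p_le_s] with x h1 h2 h3 h4 hx
  have hr : 1 ≤ ‖x‖ := by linarith [o.Rs_ge]
  have hr0 : 0 < ‖x‖ := by linarith
  have hh := (ch.h_pos hr0).le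
  have hε := ch.ε0.le
  have hC : 0 ≤ C := by linarith [ch.C1]
  obtain ⟨-, -, -, hB, hE, -⟩ := h4
  have h1 := h1 hx
  have h2 := h2 hx
  refine (h3 (by linarith)).trans ?_
  have hz := abs_nonneg (x 2)
  have hz2 : x 2 ^ 2 = |x 2| ^ 2 := (sq_abs _).symm
  rw [hz2]
  generalize |x 2| = z at *
  generalize ‖x‖ = r at *
  generalize ch.h x = h at *
  have hT : 0 ≤ A₀ * (h / r ^ 4) := by positivity
  have e1 : (1 + z) / r ^ 4 * |ch.p x| ≤ 2 * (1 + z ^ 2) * (A₀ * (h / r ^ 4)) := by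
    calc (1 + z) / r ^ 4 * |ch.p x| ≤ (1 + z) / r ^ 4 * (A₀ * z * h) := by gcongr
      _ = (1 + z) * z * (A₀ * (h / r ^ 4)) := by ring
      _ ≤ _ := mul_le_mul_of_nonneg_right (by nlinarith [sq_nonneg (z - 1)]) hT
  have e2 : ch.nB x / r ^ 2 ≤ 2 * (1 + z ^ 2) * (A₀ * (h / r ^ 4)) := by
    calc ch.nB x / r ^ 2 ≤ (A₀ * (1 + z) / r ^ 2 * h) / r ^ 2 := by gcongr; exact hB.trans h2
      _ = (1 + z) * (A₀ * (h / r ^ 4)) := by ring
      _ ≤ _ := mul_le_mul_of_nonneg_right (by nlinarith [sq_nonneg (z - 1)]) hT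
  have e3 : (1 + z) / r ^ 3 * ch.nE x ≤ 2 * (1 + z ^ 2) * (A₀ * (h / r ^ 4)) := by
    calc (1 + z) / r ^ 3 * ch.nE x ≤ (1 + z) / r ^ 3 * (A₀ * (1 + z) / r ^ 2 * h) := by
          gcongr; exact hE.trans h2
      _ = (1 + z) ^ 2 * (A₀ * (h / r ^ 4)) / r := by ring
      _ ≤ (1 + z) ^ 2 * (A₀ * (h / r ^ 4)) := div_le_self (by positivity) hr
      _ ≤ _ := mul_le_mul_of_nonneg_right (by nlinarith [sq_nonneg (z - 1)]) hT
  have e4 : ε * C / r ^ 2 * |ch.q x| + 6 * C * A₀ * (ε * (1 + z ^ 2) / r ^ 4 * h) =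
      ε * C * (|ch.q x| / r ^ 2 + 6 * (1 + z ^ 2) * (A₀ * (h / r ^ 4))) := by ring
  rw [e4, add_div |ch.q x|]
  gcongr ε * C * ?_
  linarith

/-- The equation of `q` with the multipole expansion inserted. -/
theorem StA3_f (ch : Chan o C ε) {R₀ A₀ : ℝ} (hR : o.Rs ≤ R₀) (hA : 0 ≤ A₀)
    (h1 : ∀ᵐ x : X, R₀ < ‖x‖ → |ch.p x| ≤ A₀ * |x 2| * ch.h x)
    (h2 : ∀ᵐ x : X, R₀ < ‖x‖ → ch.nL x ≤ A₀ * (1 + |x 2|) / ‖x‖ ^ 2 * ch.h x) :
    ∀ᵐ x : X, R₀ < ‖x‖ →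
      |ch.Sq x - (V o.D x + ch.I + ch.gS) * ch.q x - ε * ch.d * x 2 / ‖x‖ ^ 3 * ch.p x +
          (ch.I + ch.gS - (2 - 2 * ε) / ‖x‖) * ch.q x| ≤
        (4 * o.D + 1) / ‖x‖ ^ 2 * |ch.q x| +
          6 * C * A₀ * (ε * (1 + x 2 ^ 2) / ‖x‖ ^ 4 * ch.h x) := by
  filter_upwards [ch.Sq_err hR hA h1 h2] with x h hx
  have hx2 : 2 * o.D ≤ ‖x‖ := by
    have : o.Rs = 2 * o.D + 1 := rfl
    linarith
  have hV := V_ext o.D1 hx2
  have e : ch.Sq x - (V o.D x + ch.I + ch.gS) * ch.q x - ε * ch.d * x 2 / ‖x‖ ^ 3 * ch.p x +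
      (ch.I + ch.gS - (2 - 2 * ε) / ‖x‖) * ch.q x =
      (ch.Sq x - ε * ch.d * x 2 / ‖x‖ ^ 3 * ch.p x + 2 * ε / ‖x‖ * ch.q x) -
        (V o.D x + 2 / ‖x‖) * ch.q x := by ring
  have h3 : |(V o.D x + 2 / ‖x‖) * ch.q x| ≤ 4 * o.D / ‖x‖ ^ 2 * |ch.q x| := by
    rw [abs_mul]; gcongr
  have h4 : ε * C / ‖x‖ ^ 2 * |ch.q x| ≤ 1 / ‖x‖ ^ 2 * |ch.q x| := by
    gcongr
    linarith [ch.εC, o.g_le, mul_comm ε C]
  rw [e]
  refine (abs_sub _ _).trans ?_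
  rw [add_div (4 * o.D), add_mul (4 * o.D / ‖x‖ ^ 2)]
  linarith [h hx]

/-- The conditions on the radius. -/
theorem StA3_R (o : One c) (B : ℝ) : ∃ R : ℝ, B ≤ R ∧ 16 ≤ R ∧ ∀ r, R ≤ r →
    16 / r + (4 * o.D + 1) / r ^ 2 ≤ 9 / 100 * o.g ∧
      2 * ((4 * o.D + 1) / r ^ 2) ≤ 1 / (8 * r * √r) := by
  have hg := o.g_pos
  have hD := o.D1
  refine ⟨max (max B 16) (max ((16 * (4 * o.D + 1)) ^ 2) ((4 * o.D + 17) / (9 / 100 * o.g))),
    le_max_of_le_left (le_max_left _ _), le_max_of_le_left (le_max_right _ _), fun r hr => ?_⟩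
  simp only [max_le_iff] at hr
  obtain ⟨⟨-, h1⟩, h2, h3⟩ := hr
  have hr0 : 0 < r := by linarith
  constructor
  · rw [div_le_iff₀ (by positivity), mul_comm r, ← div_le_iff₀ hr0] at h3
    refine le_trans ?_ h3
    have : (4 * o.D + 1) / r ^ 2 ≤ (4 * o.D + 1) / r := by
      gcongr; nlinarith
    rw [show (4 * o.D + 17) / r = 16 / r + (4 * o.D + 1) / r by ring]
    linarith
  · have hs : 16 * (4 * o.D + 1) ≤ √r := Real.le_sqrt_of_sq_le h2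
    have hs0 : 0 < √r := Real.sqrt_pos.2 hr0
    have hs2 : √r * √r = r := Real.mul_self_sqrt hr0.le
    rw [← mul_div_assoc, div_le_div_iff₀ (by positivity) (by positivity)]
    calc 2 * (4 * o.D + 1) * (8 * r * √r) = 16 * (4 * o.D + 1) * (r * √r) := by ring
      _ ≤ √r * (r * √r) := by gcongr
      _ = r * (√r * √r) := by ring
      _ = 1 * r ^ 2 := by rw [hs2]; ring

/-- Barrier `A' (bar_Ha + ε bar_Z)` with `l = 4 / g`:
`f + (I + gS - κ₀ / r - (4 D + C) / r²) Z ≥ -h / r³ + (9/10) g Z ≥ (9/10) g (1 + z²) h / r³`. -/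
theorem stA_qhi (o : One c) (C R₀ A₀ : ℝ) (hR : 2 * o.Rs + 10 ≤ R₀) (hA : 0 ≤ A₀) :
    ∃ R A : ℝ, R₀ ≤ R ∧ 1 ≤ A ∧ ∀ (ε : ℝ) (ch : Chan o C ε),
      (∀ᵐ x : X, R₀ < ‖x‖ → |ch.p x| ≤ A₀ * |x 2| * ch.h x) →
      (∀ᵐ x : X, R₀ < ‖x‖ → ch.nL x ≤ A₀ * (1 + |x 2|) / ‖x‖ ^ 2 * ch.h x) →
      ∀ᵐ x : X, R < ‖x‖ → ch.q x ≤ A * ch.Q0 x := by
  obtain ⟨R, hR₀, hR16, hRr⟩ := StA3_R o R₀
  have hg := o.g_pos
  have hg1 := o.g_le
  have hD := o.D1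
  have hRs := o.Rs_ge
  obtain ⟨A', hA'⟩ : ∃ A' : ℝ, A' = 1 + 8 * |C| * A₀ / o.g + 2 * |C| * Real.exp (2 * (R + 1)) :=
    ⟨_, rfl⟩
  have hA1 : 0 ≤ 8 * |C| * A₀ / o.g := by positivity
  have hA2 : 0 ≤ 2 * |C| * Real.exp (2 * (R + 1)) := by positivity
  have hl : 1 ≤ 4 / o.g := by rw [le_div_iff₀ hg]; linarith
  have hA'1 : 1 ≤ A' := by linarith
  refine ⟨R, A' * (4 / o.g), hR₀, one_le_mul_of_one_le_of_one_le hA'1 hl, fun ε ch h1 h2 => ?_⟩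
  have hε := ch.ε0
  have hε1 := ch.ε_le
  have hC := ch.C1
  rw [abs_of_nonneg (by linarith : 0 ≤ C)] at hA' hA1 hA2
  obtain ⟨U, gU, fU, sU, hU⟩ := ch.bar_Ha
  obtain ⟨Z, gZ, fZ, sZ, hZ⟩ := ch.bar_Z (l := 4 / o.g) (by linarith)
  have hsub : ext R ⊆ ext 1 := fun x (hx : R < ‖x‖) => show 1 < ‖x‖ by linarith
  have sW := ((sU.lin (measurableSet_ext 1) sZ A' (A' * ε)).subset hsub).sup
  have key := cmp_ext (by linarith) (ch.solq.subset (subset_univ (ext R))).sub sW ?_ ?_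
  · filter_upwards [key] with x h hx
    have hr0 : 0 < ‖x‖ := by linarith
    have hH := ch.H_pos hr0
    have hh := ch.h_pos hr0
    refine (h hx).trans ?_
    rw [(hZ x (by linarith)).1, Chan.Q0]
    have e1 : U x ≤ 4 / o.g * ch.H x := (hU x (by linarith)).2.1.trans (le_mul_of_one_le_left hH.le hl)
    have e2 : ε * ((4 / o.g + x 2 ^ 2) / ‖x‖ ^ 3 * ch.h x) ≤
        4 / o.g * (ε * (1 + x 2 ^ 2) / ‖x‖ ^ 3 * ch.h x) := by
      rw [show 4 / o.g * (ε * (1 + x 2 ^ 2) / ‖x‖ ^ 3 * ch.h x) =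
        ε * ((4 / o.g + 4 / o.g * x 2 ^ 2) / ‖x‖ ^ 3 * ch.h x) by ring]
      gcongr
      exact le_mul_of_one_le_left (sq_nonneg _) hl
    rw [mul_assoc, mul_assoc, ← mul_add, mul_add (4 / o.g)]
    gcongr
  · filter_upwards [ch.p_le_s, ch.sbd] with x h3 h4 hx hx'
    have hr0 : 0 < ‖x‖ := by linarith
    have hh := ch.h_pos hr0
    have e1 : 0 ≤ A' * ε * Z x := by rw [(hZ x (by linarith)).1]; positivity
    have e2 : Real.exp (-2 * (R + 1)) / 2 ≤ U x := by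
      refine le_trans ?_ (hU x (by linarith)).1
      gcongr
      refine le_trans ?_ (ch.H_ge' (by linarith))
      exact Real.exp_le_exp.2 (by linarith)
    have e3 : C ≤ A' * U x := by
      calc C = 2 * C * Real.exp (2 * (R + 1)) * (Real.exp (-2 * (R + 1)) / 2) := by
            rw [neg_mul, Real.exp_neg]; field_simp
        _ ≤ A' * U x := by gcongr; linarith
    linarith [le_abs_self (ch.q x), h3.2.1]
  · filter_upwards [StA3_f ch (by linarith) hA h1 h2, h1] with x h3 h1 hx hw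
    have hr0 : 0 < ‖x‖ := by linarith
    have hr1 : 1 ≤ ‖x‖ := by linarith
    have hH := ch.H_pos hr0
    have hh := ch.h_pos hr0
    obtain ⟨u1, u2, u3⟩ := hU x (by linarith)
    obtain ⟨z1, z2⟩ := hZ x hr1
    obtain ⟨r1, r2⟩ := hRr ‖x‖ hx.le
    have h3 := (abs_le.1 (h3 (by linarith))).2
    have h1 := h1 (by linarith)
    have hZ0 : 0 ≤ Z x := by rw [z1]; positivity
    have hw0 : 0 < A' * U x + A' * ε * Z x := by
      have : 0 < U x := by linarith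
      positivity
    rw [abs_of_pos (hw0.trans hw)] at h3
    obtain ⟨δ, hδ⟩ : ∃ δ, δ = (4 * o.D + 1) / ‖x‖ ^ 2 := ⟨_, rfl⟩
    obtain ⟨κ, hκ⟩ : ∃ κ, κ = (2 - 2 * ε) / ‖x‖ := ⟨_, rfl⟩
    obtain ⟨T, hT⟩ : ∃ T, T = (1 + x 2 ^ 2) / ‖x‖ ^ 3 * ch.h x := ⟨_, rfl⟩
    have hδ0 : 0 ≤ δ := by rw [hδ]; positivity
    have hT0 : 0 ≤ T := by rw [hT]; positivity
    have hκ2 : κ + 14 / ‖x‖ ≤ 16 / ‖x‖ := by
      rw [hκ, ← add_div]; gcongr; linarith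
    have h14 : 0 ≤ 14 / ‖x‖ := by positivity
    rw [← hδ] at h3 r1 r2
    rw [← hκ] at h3 u3
    have hI := ch.I_bd.1
    have hgS := ch.gS_bd.1
    have hm : 0 ≤ ch.I + ch.gS - κ - δ := by linarith
    -- the source
    have s1 : ε * ch.d * x 2 / ‖x‖ ^ 3 * ch.p x ≤ C * A₀ * (ε * T) := by
      have hd : 0 ≤ ch.d := by linarith [ch.d1]
      calc ε * ch.d * x 2 / ‖x‖ ^ 3 * ch.p x = ε * ch.d / ‖x‖ ^ 3 * (x 2 * ch.p x) := by ring
        _ ≤ ε * ch.d / ‖x‖ ^ 3 * (|x 2| * |ch.p x|) := by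
            gcongr _ * ?_; rw [← abs_mul]; exact le_abs_self _
        _ ≤ ε * C / ‖x‖ ^ 3 * (|x 2| * (A₀ * |x 2| * ch.h x)) := by gcongr; exact ch.dC
        _ = C * A₀ * (ε * (|x 2| ^ 2 / ‖x‖ ^ 3 * ch.h x)) := by ring
        _ ≤ _ := by rw [hT, sq_abs]; gcongr; linarith
    have s2 : ε * (1 + x 2 ^ 2) / ‖x‖ ^ 4 * ch.h x ≤ ε * T := by
      rw [show ε * (1 + x 2 ^ 2) / ‖x‖ ^ 4 * ch.h x = ε * T / ‖x‖ by rw [hT]; ring]
      exact div_le_self (by positivity) hr1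
    have s3 : 6 * C * A₀ * (ε * (1 + x 2 ^ 2) / ‖x‖ ^ 4 * ch.h x) ≤ 6 * C * A₀ * (ε * T) := by
      gcongr
    -- the barrier
    have b1 : 0 ≤ fU x + (ch.I + ch.gS - κ - δ) * U x := by
      have : δ * U x ≤ ch.H x / (8 * ‖x‖ * √‖x‖) := by
        calc δ * U x ≤ 1 / (8 * ‖x‖ * √‖x‖) * ch.H x :=
              mul_le_mul (by linarith) u2 (by linarith) (by positivity)
          _ = _ := by ring
      linarith
    have b2 : 9 / 10 * o.g * T ≤ fZ x + (ch.I + ch.gS - κ - δ) * Z x := by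
      have a1 := (abs_le.1 z2).1
      have a2 : 9 / 10 * o.g * Z x ≤ (ch.gS - κ - δ - 14 / ‖x‖) * Z x := by gcongr; linarith
      have a3 : 9 / 10 * o.g * Z x - ch.h x / ‖x‖ ^ 3 - 9 / 10 * o.g * T =
          (13 / 5 - 9 / 10 * o.g) * (ch.h x / ‖x‖ ^ 3) := by
        rw [z1, hT]; field_simp; ring
      have a4 : 0 ≤ (13 / 5 - 9 / 10 * o.g) * (ch.h x / ‖x‖ ^ 3) :=
        mul_nonneg (by linarith) (by positivity)
      linarith
    have b3 : 7 * C * A₀ * (ε * T) ≤ A' * ε * (9 / 10 * o.g * T) := by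
      have a1 : 8 * C * A₀ ≤ A' * o.g := by rw [← div_le_iff₀ hg]; linarith
      have a2 : 0 ≤ C * A₀ := by positivity
      rw [show A' * ε * (9 / 10 * o.g * T) = 9 / 10 * (A' * o.g) * (ε * T) by ring]
      gcongr ?_ * _
      linarith
    have b4 := mul_le_mul_of_nonneg_left hw.le hm
    have b5 := mul_nonneg (by linarith : 0 ≤ A') b1
    have b6 := mul_le_mul_of_nonneg_left b2 (by positivity : 0 ≤ A' * ε)
    linarith

/-- Subsolution `w = c' bar_Hs + c'' ε bar_Z` with `l = 1 / (4 g)`, `c'' = 1 / (4 g A₀)`: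
`f + (I + gS - κ₀ / r + (4 D + C) / r²) Z ≤ (2 g z² - 1/2) h / r³`, and the source is at least
`ε z² h / (A₀ r³)` (`d ≥ 1`, `z p ≥ z² h / A₀` in both half spaces).  Where `q < w` distinguish the
sign of `q`.  Shell: `cq`, `One.a_lb` and `ε` small. -/
theorem stA_qlo (o : One c) (C R₀ A₀ : ℝ) (hR : 2 * o.Rs + 10 ≤ R₀) (hA : 1 ≤ A₀) :
    ∃ R A ε₀ : ℝ, R₀ ≤ R ∧ 1 ≤ A ∧ 0 < ε₀ ∧ ∀ (ε : ℝ) (ch : Chan o C ε), ε ≤ ε₀ →
      (∀ᵐ x : X, R₀ < ‖x‖ → 0 < x 2 → x 2 * ch.h x ≤ A₀ * ch.p x) →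
      (∀ᵐ x : X, R₀ < ‖x‖ → |ch.p x| ≤ A₀ * |x 2| * ch.h x) →
      (∀ᵐ x : X, R₀ < ‖x‖ → ch.nL x ≤ A₀ * (1 + |x 2|) / ‖x‖ ^ 2 * ch.h x) →
      ∀ᵐ x : X, R < ‖x‖ → ch.Q0 x ≤ A * ch.q x := by
  obtain ⟨R, hR₀, hR16, hRr⟩ := StA3_R o (R₀ + 12 * |C| * A₀ ^ 2)
  have hg := o.g_pos
  have hg1 := o.g_le
  have hD := o.D1
  have hRs := o.Rs_ge
  have hA0 : 0 < A₀ := by linarith
  have hB : 0 ≤ 12 * |C| * A₀ ^ 2 := by positivity
  obtain ⟨m, hm0, hm⟩ := o.a_lb (R + 1)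
  obtain ⟨l, hl⟩ : ∃ l : ℝ, l = 1 / (4 * o.g) := ⟨_, rfl⟩
  have hl1 : 1 ≤ l := by rw [hl, le_div_iff₀ (by positivity)]; linarith
  have hlg : o.g * l = 1 / 4 := by rw [hl]; field_simp
  obtain ⟨K, hK⟩ : ∃ K : ℝ, K = l / A₀ * (l + 1) + |C| := ⟨_, rfl⟩
  have hK0 : 0 < K := by rw [hK]; positivity
  have hm8 : 0 < 8 / m := by positivity
  have hAl : 0 < A₀ / l := by positivity
  refine ⟨R, 1 + 8 / m + A₀ / l, (m / (4 * K)) ^ 2, by linarith, by linarith, by positivity,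
    fun ε ch hεs h0 h1 h2 => ?_⟩
  have hε := ch.ε0
  have hε1 := ch.ε_le
  have hC := ch.C1
  rw [abs_of_nonneg (by linarith : 0 ≤ C)] at hK hR₀ hB
  obtain ⟨U, gU, fU, sU, hU⟩ := ch.bar_Hs
  obtain ⟨Z, gZ, fZ, sZ, hZ⟩ := ch.bar_Z (l := l) (by linarith)
  have hsub : ext R ⊆ ext 1 := fun x (hx : R < ‖x‖) => show 1 < ‖x‖ by linarith
  have sW := ((sU.lin (measurableSet_ext 1) sZ (m / 8) (l / A₀ * ε)).subset hsub).sub
  have key := cmp_ext (by linarith) sW (ch.solq.subset (subset_univ (ext R))).sup ?_ ?_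
  · filter_upwards [key] with x h hx
    have hr0 : 0 < ‖x‖ := by linarith
    have hH := ch.H_pos hr0
    have hh := ch.h_pos hr0
    have u1 := (hU x (by linarith)).1
    have z1 := (hZ x (by linarith)).1
    have hZ0 : 0 ≤ Z x := by rw [z1]; positivity
    have e1 : ε * (1 + x 2 ^ 2) / ‖x‖ ^ 3 * ch.h x ≤ ε * Z x := by
      rw [z1, mul_div_assoc, mul_assoc]; gcongr
    have hU0 : 0 < U x := by linarith
    have e2 : 0 ≤ m / 8 * U x := by positivity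
    have e3 : 0 ≤ l / A₀ * ε * Z x := by positivity
    have e4 : U x = 8 / m * (m / 8 * U x) := by field_simp
    have e5 : ε * Z x = A₀ / l * (l / A₀ * ε * Z x) := by field_simp
    calc ch.Q0 x ≤ U x + ε * Z x := add_le_add u1 e1
      _ ≤ (1 + 8 / m + A₀ / l) * (m / 8 * U x + l / A₀ * ε * Z x) := by
          have := mul_nonneg hm8.le e3
          have := mul_nonneg hAl.le e2
          linarith
      _ ≤ _ := by gcongr; exact h hx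
  · filter_upwards [ch.cq] with x h3 hx hx'
    have hr0 : 0 < ‖x‖ := by linarith
    have hr1 : 1 ≤ ‖x‖ := by linarith
    have hh := ch.h_pos hr0
    have e1 : U x ≤ 2 := by linarith [(hU x (by linarith)).2.1, ch.H_le_one hr1]
    have e2 : Z x ≤ l + 1 := by
      rw [(hZ x hr1).1]
      have a1 : x 2 ^ 2 ≤ ‖x‖ ^ 3 := by
        rw [← sq_abs]
        exact (pow_le_pow_left₀ (abs_nonneg _) (abs_two_le x) 2).trans
          (pow_le_pow_right₀ hr1 (by norm_num))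
      have a2 : (l + x 2 ^ 2) / ‖x‖ ^ 3 ≤ l + 1 := by
        rw [div_le_iff₀ (by positivity)]
        have := le_mul_of_one_le_right (by linarith : 0 ≤ l) (one_le_pow₀ hr1 (n := 3))
        linarith
      exact (mul_le_of_le_one_right (by positivity) (ch.h_le_one hr1)).trans a2
    have e3 : √ε ≤ m / (4 * K) := Real.sqrt_le_iff.2 ⟨by positivity, hεs⟩
    have e4 : ε ≤ √ε := Real.le_sqrt_of_sq_le (by nlinarith)
    have e5 : K * √ε ≤ m / 4 := by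
      calc K * √ε ≤ K * (m / (4 * K)) := by gcongr
        _ = m / 4 := by field_simp
    have e6 : l / A₀ * ε * Z x ≤ l / A₀ * √ε * (l + 1) := by
      have hZ0 : 0 ≤ Z x := by rw [(hZ x hr1).1]; positivity
      gcongr
    have e7 : m / 8 * U x ≤ m / 8 * 2 := by gcongr
    rw [hK] at e5
    linarith [(abs_le.1 h3).1, hm x hx'.le]
  · filter_upwards [StA3_f ch (by linarith) hA0.le h1 h2, h0, ae_P h0] with x h3 h0 h0' hx hw
    have hr0 : 0 < ‖x‖ := by linarith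
    have hr1 : 1 ≤ ‖x‖ := by linarith
    have hH := ch.H_pos hr0
    have hh := ch.h_pos hr0
    obtain ⟨u1, u2, u3⟩ := hU x (by linarith)
    obtain ⟨z1, z2⟩ := hZ x hr1
    obtain ⟨r1, r2⟩ := hRr ‖x‖ hx.le
    have h3 := (abs_le.1 (h3 (by linarith))).1
    have hZ0 : 0 ≤ Z x := by rw [z1]; positivity
    have hw0 : 0 < m / 8 * U x + l / A₀ * ε * Z x := by
      have : 0 < U x := by linarith
      positivity
    have hzp : x 2 ^ 2 * ch.h x ≤ A₀ * (x 2 * ch.p x) := by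
      rcases lt_trichotomy (x 2) 0 with hz | hz | hz
      · have a := h0' (by rw [norm_P]; linarith) (by rw [P_two]; linarith)
        rw [P_two, ch.h_P, ch.pP] at a
        nlinarith [mul_le_mul_of_nonneg_left a (neg_nonneg.2 hz.le)]
      · simp [hz]
      · nlinarith [mul_le_mul_of_nonneg_left (h0 (by linarith) hz) hz.le]
    obtain ⟨δ, hδ⟩ : ∃ δ, δ = (4 * o.D + 1) / ‖x‖ ^ 2 := ⟨_, rfl⟩
    obtain ⟨κ, hκ⟩ : ∃ κ, κ = (2 - 2 * ε) / ‖x‖ := ⟨_, rfl⟩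
    obtain ⟨T, hT⟩ : ∃ T, T = ch.h x / ‖x‖ ^ 3 := ⟨_, rfl⟩
    have hδ0 : 0 ≤ δ := by rw [hδ]; positivity
    have hT0 : 0 ≤ T := by rw [hT]; positivity
    have hκ0 : 0 ≤ κ := by rw [hκ]; exact div_nonneg (by linarith) hr0.le
    have hκ2 : κ + 14 / ‖x‖ ≤ 16 / ‖x‖ := by
      rw [hκ, ← add_div]; gcongr; linarith
    have h14 : 0 ≤ 14 / ‖x‖ := by positivity
    rw [← hδ] at h3 r1 r2
    rw [← hκ] at h3 u3
    rw [← hT] at z2
    have hI := ch.I_bd.1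
    have hgS := ch.gS_bd
    have hm : 0 ≤ ch.I + ch.gS - κ - δ := by linarith
    -- the source
    have s1 : ε * T * (x 2 ^ 2 / A₀) ≤ ε * ch.d * x 2 / ‖x‖ ^ 3 * ch.p x := by
      have a1 : x 2 ^ 2 * ch.h x / A₀ ≤ x 2 * ch.p x := by rw [div_le_iff₀ hA0]; linarith
      calc ε * T * (x 2 ^ 2 / A₀) = ε * 1 / ‖x‖ ^ 3 * (x 2 ^ 2 * ch.h x / A₀) := by rw [hT]; ring
        _ ≤ ε * ch.d / ‖x‖ ^ 3 * (x 2 * ch.p x) := by
            have hd := ch.d1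
            gcongr
        _ = _ := by ring
    have s2 : 6 * C * A₀ * (ε * (1 + x 2 ^ 2) / ‖x‖ ^ 4 * ch.h x) ≤
        ε * T * ((1 + x 2 ^ 2) / (2 * A₀)) := by
      have a1 : 6 * C * A₀ / ‖x‖ ≤ 1 / (2 * A₀) := by
        rw [div_le_div_iff₀ hr0 (by positivity)]; linarith
      calc 6 * C * A₀ * (ε * (1 + x 2 ^ 2) / ‖x‖ ^ 4 * ch.h x) =
            ε * T * (1 + x 2 ^ 2) * (6 * C * A₀ / ‖x‖) := by rw [hT]; ring
        _ ≤ ε * T * (1 + x 2 ^ 2) * (1 / (2 * A₀)) := by gcongr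
        _ = _ := by ring
    -- the barrier
    have b1 : fU x + (ch.I + ch.gS - κ + δ) * U x ≤ 0 := by
      have : δ * U x ≤ ch.H x / (8 * ‖x‖ * √‖x‖) := by
        calc δ * U x ≤ δ * (2 * ch.H x) := by gcongr
          _ = 2 * δ * ch.H x := by ring
          _ ≤ 1 / (8 * ‖x‖ * √‖x‖) * ch.H x := by gcongr
          _ = _ := by ring
      linarith
    have b2 : fZ x + (ch.I + ch.gS - κ + δ) * Z x ≤ (2 * o.g * x 2 ^ 2 - 1 / 2) * T := by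
      have a1 := (abs_le.1 z2).2
      have a2 : (ch.gS - κ + δ + 14 / ‖x‖) * Z x ≤ 2 * o.g * Z x := by gcongr; linarith
      have a3 : 2 * o.g * Z x = (2 * (o.g * l) + 2 * o.g * x 2 ^ 2) * T := by
        rw [z1, hT]; ring
      rw [hlg] at a3
      linarith
    have b3 : l / A₀ * ε * ((2 * o.g * x 2 ^ 2 - 1 / 2) * T) ≤
        ε * T * (x 2 ^ 2 / A₀) - ε * T * ((1 + x 2 ^ 2) / (2 * A₀)) := by
      have a1 : l / A₀ * ε * ((2 * o.g * x 2 ^ 2 - 1 / 2) * T) =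
          ε * T / A₀ * (2 * (o.g * l) * x 2 ^ 2 - l / 2) := by ring
      have a2 : ε * T * (x 2 ^ 2 / A₀) - ε * T * ((1 + x 2 ^ 2) / (2 * A₀)) =
          ε * T / A₀ * (x 2 ^ 2 / 2 - 1 / 2) := by field_simp; ring
      rw [a1, a2, hlg]
      gcongr
      linarith
    have b4 : -((ch.I + ch.gS - κ + δ) * (m / 8 * U x + l / A₀ * ε * Z x)) ≤
        -((ch.I + ch.gS - κ) * ch.q x) - δ * |ch.q x| := by
      rcases le_total 0 (ch.q x) with hq | hq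
      · rw [abs_of_nonneg hq]
        have := mul_le_mul_of_nonneg_left hw.le (by linarith : 0 ≤ ch.I + ch.gS - κ + δ)
        linarith
      · rw [abs_of_nonpos hq]
        have a1 := mul_nonneg (by linarith : 0 ≤ ch.I + ch.gS - κ + δ) hw0.le
        have a2 := mul_nonneg hm (neg_nonneg.2 hq)
        linarith
    have b5 := mul_nonneg (by positivity : 0 ≤ m / 8) (neg_nonneg.2 b1)
    have b6 := mul_le_mul_of_nonneg_left b2 (by positivity : 0 ≤ l / A₀ * ε)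
    linarith

end Crest.Agent.R335
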