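import Crest.Agent.R335.StA1
import Crest.Agent.R335.StA2
import Crest.Agent.R335.StA3

/-! Row 335. Stage A: assembly. -/

set_option autoImplicit false

open MeasureTheory Set Filter Topology
open scoped ENNReal

noncomputable section

namespace Crest.Agent.R335

variable {c : ℝ} {o : One c} {C ε : ℝ}

theorem StA_lo {a A A' p : ℝ} (ha : 0 < a) (hA : 1 ≤ A) (hA' : A ≤ A') (h : a ≤ A * p) :
    a ≤ A' * p :=
  h.trans (mul_le_mul_of_nonneg_right hA'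
    (nonneg_of_mul_nonneg_right (ha.le.trans h) (by linarith)))

theorem StA_vec {n : ℕ} (v w : Fin n → ℝ) {s t r : ℝ} (hs : 0 ≤ s) (ht : 0 ≤ t) (hr : 0 ≤ r)
    (e1 : s ^ 2 = ∑ i, v i ^ 2) (e2 : t ^ 2 = ∑ i, w i ^ 2) (e3 : ∑ i, (v i - w i) ^ 2 ≤ r ^ 2) :
    |s - t| ≤ r := by
  have h1 := Finset.sum_mul_sq_le_sq_mul_sq Finset.univ v w
  rw [← e1, ← e2, ← mul_pow] at h1
  have h2 := (abs_le_of_sq_le_sq' h1 (mul_nonneg hs ht)).2
  have h3 : ∑ i, (v i - w i) ^ 2 = ∑ i, v i ^ 2 + ∑ i, w i ^ 2 - 2 * ∑ i, v i * w i := by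
    rw [Finset.mul_sum, ← Finset.sum_add_distrib, ← Finset.sum_sub_distrib]
    exact Finset.sum_congr rfl fun i _ => by ring
  refine abs_le_of_sq_le_sq ?_ hr
  nlinarith

theorem stA (o : One c) (C : ℝ) : ∃ R A ε₀ : ℝ, 0 < ε₀ ∧
    ∀ (ε : ℝ) (ch : Chan o C ε), ε ≤ ε₀ → ch.FA R A := by
  obtain ⟨R1, A1, r1, -, h1⟩ := stA_s o C
  obtain ⟨R2, A2, r2, -, h2⟩ := stA_L1 o C R1 A1 r1
  obtain ⟨R3, A3, r3, a3, h3⟩ := stA_phi o C R2 A2 (r1.trans r2)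
  obtain ⟨R4, A4, ε4, r4, a4, e4, h4⟩ := stA_plo o C R2 A2 (r1.trans r2)
  obtain ⟨R5, A5, r5, a5, h5⟩ := stA_L2 o C R3 A3 (r1.trans (r2.trans r3))
  obtain ⟨R6, r64, r65⟩ : ∃ R6, R4 ≤ R6 ∧ R5 ≤ R6 := ⟨max R4 R5, le_max_left _ _, le_max_right _ _⟩
  have r6 : 2 * o.Rs + 10 ≤ R6 := by linarith
  obtain ⟨R7, A7, r7, a7, h7⟩ := stA_qhi o C R6 (A3 + A4 + A5) r6 (by linarith)
  obtain ⟨R8, A8, ε8, r8, a8, e8, h8⟩ := stA_qlo o C R6 (A3 + A4 + A5) r6 (by linarith)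
  obtain ⟨R9, r97, r98⟩ : ∃ R9, R7 ≤ R9 ∧ R8 ≤ R9 := ⟨max R7 R8, le_max_left _ _, le_max_right _ _⟩
  refine ⟨R9, A3 + A4 + A5 + A7 + A8, min ε4 ε8, lt_min e4 e8, fun ε ch hε => ?_⟩
  have hRs := o.Rs_ge
  have k2 := h2 ε ch (h1 ε ch)
  have k3 := h3 ε ch k2
  have k4 := h4 ε ch (hε.trans (min_le_left _ _)) k2
  have k5 := h5 ε ch k3
  have m3 : ∀ R A : ℝ, R6 ≤ R → A3 ≤ A → ∀ᵐ x : X, R < ‖x‖ → |ch.p x| ≤ A * |x 2| * ch.h x := by
    intro R A hR hA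
    filter_upwards [k3] with x hx hx'
    have := ch.h_pos (x := x) (by linarith)
    exact (hx (by linarith)).trans (by gcongr)
  have m4 : ∀ R A : ℝ, R6 ≤ R → A4 ≤ A →
      ∀ᵐ x : X, R < ‖x‖ → 0 < x 2 → x 2 * ch.h x ≤ A * ch.p x := by
    intro R A hR hA
    filter_upwards [k4] with x hx hx' hz
    exact StA_lo (mul_pos hz (ch.h_pos (by linarith))) a4 hA (hx (by linarith) hz)
  have m5 : ∀ R A : ℝ, R6 ≤ R → A5 ≤ A →
      ∀ᵐ x : X, R < ‖x‖ → ch.nL x ≤ A * (1 + |x 2|) / ‖x‖ ^ 2 * ch.h x := by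
    intro R A hR hA
    filter_upwards [k5] with x hx hx'
    have := ch.h_pos (x := x) (by linarith)
    exact (hx (by linarith)).trans (by gcongr)
  have k7 := h7 ε ch (m3 _ _ le_rfl (by linarith)) (m5 _ _ le_rfl (by linarith))
  have k8 := h8 ε ch (hε.trans (min_le_right _ _)) (m4 _ _ le_rfl (by linarith))
    (m3 _ _ le_rfl (by linarith)) (m5 _ _ le_rfl (by linarith))
  refine ⟨by linarith, by linarith, m4 _ _ (by linarith) (by linarith),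
    m3 _ _ (by linarith) (by linarith), ?_, ?_, m5 _ _ (by linarith) (by linarith)⟩
  · filter_upwards [k8] with x hx hx'
    exact StA_lo (ch.Q0_pos (by linarith)) a8 (by linarith) (hx (by linarith))
  · filter_upwards [k7] with x hx hx'
    exact (hx (by linarith)).trans
      (mul_le_mul_of_nonneg_right (by linarith) (ch.Q0_pos (by linarith)).le)

/-- On the ball of radius `R + 1` use `rho`, `cD`, `One.a_lb`; outside `q_lo` and `H_ge'`. -/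
theorem s_locpos (o : One c) (C R A : ℝ) : ∃ ε₀ : ℝ, 0 < ε₀ ∧
    ∀ (ε : ℝ) (ch : Chan o C ε), ε ≤ ε₀ → ch.FA R A → LocPos ch.s := by
  obtain ⟨m, hm, hma⟩ := o.a_lb R
  refine ⟨(m / (2 * (|C| + 1))) ^ 2, by positivity, fun ε ch hε hF K hK => ?_⟩
  have hC := ch.C1
  have hA := hF.A1
  have h1 : C * √ε ≤ m / 2 := by
    have h2 : √ε ≤ m / (2 * (|C| + 1)) := Real.sqrt_le_iff.2 ⟨by positivity, hε⟩
    rw [abs_of_pos (by linarith), le_div_iff₀ (by positivity)] at h2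
    nlinarith [Real.sqrt_nonneg ε]
  obtain ⟨ρ, hρ⟩ := hK.isBounded.exists_norm_le
  refine ⟨min (m / 2) (Real.exp (-2 * ρ) / A), lt_min (half_pos hm) (by positivity), ?_⟩
  filter_upwards [ch.rho, ch.cD, hF.q_lo, ch.p_le_s] with x e1 e2 e3 e4 hx
  rcases le_or_gt ‖x‖ R with h2 | h2
  · refine (min_le_left _ _).trans ?_
    have h4 : ch.nD x ^ 2 ≤ ch.s x ^ 2 := by
      rw [e1]
      exact le_add_of_nonneg_left (by positivity)
    have h3 := (abs_le_of_sq_le_sq' h4 (ch.s0 x)).2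
    linarith [(abs_le.1 e2).1, hma x h2]
  · refine (min_le_right _ _).trans ?_
    have h3 : 1 ≤ ‖x‖ := by linarith [hF.R1, o.Rs_ge]
    rw [div_le_iff₀' (by linarith)]
    calc Real.exp (-2 * ρ) ≤ Real.exp (-2 * ‖x‖) := Real.exp_le_exp.2 (by linarith [hρ x hx])
      _ ≤ A * ch.q x := (ch.H_ge' h3).trans ((ch.H_le_Q0 x).trans (e3 h2))
      _ ≤ A * ch.s x := mul_le_mul_of_nonneg_left ((le_abs_self _).trans e4.2.1) (by linarith)

/-- `s² = 2 (p² + nE² + q² + nB²) + nD²` is the squared length of a vector which is close to the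
vector with `p = b / √2`, `nE = 0`, `q = nB = a / 2`, `nD = a`. -/
theorem Chan.s_close (ch : Chan o C ε) :
    ∀ᵐ x, |ch.s x - √(2 * o.a x ^ 2 + o.b x ^ 2)| ≤ 3 * C * √ε := by
  have hC := ch.C1
  filter_upwards [ch.rho, ch.cp, ch.cq, ch.cB, ch.cE, ch.cD] with x e1 e2 e3 e4 e5 e6
  have h0 : 0 ≤ C * √ε := by positivity
  have e5' : |ch.nE x| ≤ C * √ε := by rwa [abs_of_nonneg (ch.subE.nn x)]
  have h2 := sq_le_sq' (abs_le.1 e2).1 (abs_le.1 e2).2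
  have h3 := sq_le_sq' (abs_le.1 e3).1 (abs_le.1 e3).2
  have h4 := sq_le_sq' (abs_le.1 e4).1 (abs_le.1 e4).2
  have h5 := sq_le_sq' (abs_le.1 e5').1 (abs_le.1 e5').2
  have h6 := sq_le_sq' (abs_le.1 e6).1 (abs_le.1 e6).2
  refine StA_vec
    ![ch.p x, ch.p x, ch.nE x, ch.nE x, ch.q x, ch.q x, ch.nB x, ch.nB x, ch.nD x]
    ![o.b x / √2, o.b x / √2, 0, 0, o.a x / 2, o.a x / 2, o.a x / 2, o.a x / 2, o.a x]
    (ch.s0 x) (Real.sqrt_nonneg _) (by positivity) ?_ ?_ ?_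
  · simp only [Fin.sum_univ_succ, Matrix.cons_val_zero, Matrix.cons_val_succ, Finset.univ_eq_empty,
      Finset.sum_empty]
    linarith
  · simp only [Fin.sum_univ_succ, Matrix.cons_val_zero, Matrix.cons_val_succ, Finset.univ_eq_empty,
      Finset.sum_empty]
    rw [Real.sq_sqrt (by positivity), div_pow, Real.sq_sqrt two_pos.le]
    ring
  · simp only [Fin.sum_univ_succ, Matrix.cons_val_zero, Matrix.cons_val_succ, Finset.univ_eq_empty,
      Finset.sum_empty, sub_zero]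
    nlinarith

end Crest.Agent.R335
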