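import Crest.Agent.R335.PrB
import Crest.Agent.R335.StA
import Crest.Agent.R335.LMP

/-! Row 335. `t` is comparable to `σ_g` on a large ball. -/

set_option autoImplicit false

open MeasureTheory Set Filter Topology
open scoped ENNReal

noncomputable section

namespace Crest.Agent.R335

variable {c : ℝ} {o : One c} {C ε C' : ℝ} {ch : Chan o C ε}

private theorem CO_s {a₀ b₀ a b s : ℝ} (h0 : 0 < a₀) (ha : |a - a₀| ≤ a₀ / 100)
    (hb : |b - b₀| ≤ a₀ / 100) (hs : |s - √(2 * a ^ 2 + b ^ 2)| ≤ a₀ / 100) :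
    √(2 * a₀ ^ 2 + b₀ ^ 2) / 2 ≤ s ∧ s ≤ 2 * √(2 * a₀ ^ 2 + b₀ ^ 2) := by
  have h1 : a₀ ≤ √(2 * a₀ ^ 2 + b₀ ^ 2) := Real.le_sqrt_of_sq_le (by nlinarith [sq_nonneg b₀])
  have e0 := Real.sq_sqrt (show 0 ≤ 2 * a₀ ^ 2 + b₀ ^ 2 by positivity)
  set s₀ := √(2 * a₀ ^ 2 + b₀ ^ 2)
  have u1 : (a - a₀) ^ 2 ≤ (a₀ / 100) ^ 2 := by
    rw [← sq_abs]; exact pow_le_pow_left₀ (abs_nonneg _) ha 2
  have u2 : (b - b₀) ^ 2 ≤ (a₀ / 100) ^ 2 := by
    rw [← sq_abs]; exact pow_le_pow_left₀ (abs_nonneg _) hb 2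
  have h2 : √(2 * a ^ 2 + b ^ 2) ≤ 3 / 2 * s₀ := by
    refine Real.sqrt_le_iff.2 ⟨by linarith, ?_⟩
    nlinarith [sq_nonneg (a - 2 * a₀), sq_nonneg (b - 2 * b₀), sq_nonneg a₀, sq_nonneg b₀]
  have h3 : 3 / 5 * s₀ ≤ √(2 * a ^ 2 + b ^ 2) := by
    refine Real.le_sqrt_of_sq_le ?_
    nlinarith [sq_nonneg (2 * a - a₀), sq_nonneg (2 * b - b₀), sq_nonneg a₀, sq_nonneg b₀]
  have := abs_le.1 hs
  constructor <;> linarith [this.1, this.2]

private theorem CO_vol (x₀ : X) {r : ℝ} (hr : 0 < r) :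
    volume.real (Metric.ball x₀ (2 * r)) = 8 * volume.real (Metric.ball (0 : X) 1) * r ^ 3 := by
  rw [← Measure.addHaar_real_closedBall_eq_addHaar_real_ball,
    Measure.addHaar_real_closedBall _ _ (by positivity), finrank_euclideanSpace_fin]
  ring

private theorem CO_v : 0 < volume.real (Metric.ball (0 : X) 1) :=
  ENNReal.toReal_pos (Metric.measure_ball_pos _ _ one_pos).ne' measure_ball_lt_top.ne

private theorem CO_lo : ∃ K : ℝ, 0 < K ∧ ∀ (s : X → ℝ) (pr : Pair1 s) (a : X → ℝ) (x₀ : X)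
    (r a₀ s₀ B : ℝ), Measurable s → (∀ x, 0 ≤ s x) → (∀ᵐ x, s x ≤ B) → 0 ≤ pr.lam →
    pr.lam * r ^ 2 ≤ 1 → 0 < r → 0 < a₀ → a₀ ≤ s₀ →
    (∀ᵐ y, y ∈ Metric.ball x₀ (3 * r) → s₀ / 2 ≤ s y ∧ s y ≤ 2 * s₀) →
    (∀ y ∈ Metric.ball x₀ (3 * r), |a y - a₀| ≤ a₀ / 100) →
    Integrable (fun x => (pr.t x - √2 * a x) ^ 2) →
    ∫ x, (pr.t x - √2 * a x) ^ 2 ≤ a₀ ^ 2 / 16 * (volume.real (Metric.ball (0 : X) 1) * r ^ 3) →
    ∀ᵐ y, y ∈ Metric.ball x₀ r → a y ≤ K * pr.t y := by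
  obtain ⟨c, hc, hmp⟩ := mp 16 (volume.real (Metric.ball (0 : X) 1)) 4 (by norm_num) CO_v
  refine ⟨16 / c, by positivity,
    fun s pr a x₀ r a₀ s₀ B hm h0 hB hl hlr hr ha₀ has hs ha hint hcl => ?_⟩
  have hs₀ : 0 < s₀ := by linarith
  have hth : Metric.thickening r (Metric.ball x₀ (2 * r)) ⊆ Metric.ball x₀ (3 * r) :=
    (Metric.thickening_ball x₀ r (2 * r)).trans (Metric.ball_subset_ball (by linarith))
  have h23 : Metric.ball x₀ (2 * r) ⊆ Metric.ball x₀ (3 * r) :=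
    Metric.ball_subset_ball (by linarith)
  have hv := CO_v
  set v := volume.real (Metric.ball (0 : X) 1) with hvd
  have hsq : (7 / 5 : ℝ) ≤ √2 := Real.le_sqrt_of_sq_le (by norm_num)
  have hmeas : v * r ^ 3 ≤
      volume.real {x | x ∈ Metric.ball x₀ (2 * r) ∧ a₀ / (2 * s₀) ≤ pr.θ x} := by
    set ν : Measure X := volume.restrict (Metric.ball x₀ (2 * r)) with hν
    have : IsFiniteMeasure ν := ⟨by
      rw [hν, Measure.restrict_apply_univ]; exact measure_ball_lt_top⟩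
    have c1 := mul_meas_ge_le_integral_of_nonneg (μ := ν)
      (f := fun x => (pr.t x - √2 * a x) ^ 2) (Eventually.of_forall fun x => sq_nonneg _)
      hint.integrableOn (a₀ ^ 2 / 16)
    have c2 : ∫ x, (pr.t x - √2 * a x) ^ 2 ∂ν ≤ ∫ x, (pr.t x - √2 * a x) ^ 2 :=
      setIntegral_le_integral hint (Eventually.of_forall fun x => sq_nonneg _)
    have c3 : ν.real {x | a₀ ^ 2 / 16 ≤ (pr.t x - √2 * a x) ^ 2} ≤ v * r ^ 3 :=
      le_of_mul_le_mul_left (c1.trans (c2.trans hcl)) (by positivity)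
    have c4 : ν.real univ = 8 * v * r ^ 3 := by
      rw [hν, measureReal_restrict_apply_univ, CO_vol x₀ hr]
    have c5 : (univ : Set X) =ᵐ[ν] ({x | a₀ / (2 * s₀) ≤ pr.θ x} ∪
        {x | a₀ ^ 2 / 16 ≤ (pr.t x - √2 * a x) ^ 2} : Set X) := by
      refine (ae_eq_univ.2 ?_).symm
      rw [← mem_ae_iff, hν]
      refine (ae_restrict_iff' measurableSet_ball).2 ?_
      filter_upwards [hs, pr.t_ge h0] with y h1 h2 hy
      by_cases h : a₀ ^ 2 / 16 ≤ (pr.t y - √2 * a y) ^ 2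
      · exact Or.inr h
      left
      have h3 : |pr.t y - √2 * a y| < a₀ / 4 :=
        abs_lt_of_sq_lt_sq (by linarith [not_le.1 h]) (by linarith)
      have h4 := abs_le.1 (ha y (h23 hy))
      have h5 := (abs_lt.1 h3).1
      have h6 := (h1 (h23 hy)).2
      have h7 : 7 / 5 * a y ≤ √2 * a y := mul_le_mul_of_nonneg_right hsq (by linarith [h4.1])
      have h8 : s y * pr.θ y ≤ 2 * s₀ * pr.θ y := mul_le_mul_of_nonneg_right h6 (pr.θ0 y).1
      show a₀ / (2 * s₀) ≤ pr.θ y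
      rw [div_le_iff₀ (by positivity)]
      linarith [h2.2.1, h4.1]
    have c6 := measureReal_union_le (μ := ν) {x | a₀ / (2 * s₀) ≤ pr.θ x}
      {x | a₀ ^ 2 / 16 ≤ (pr.t x - √2 * a x) ^ 2}
    rw [← measureReal_congr c5, c4] at c6
    have c7 : ν.real {x | a₀ / (2 * s₀) ≤ pr.θ x} =
        volume.real {x | x ∈ Metric.ball x₀ (2 * r) ∧ a₀ / (2 * s₀) ≤ pr.θ x} := by
      rw [hν, measureReal_restrict_apply' measurableSet_ball, inter_comm]
      rfl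
    have : 0 < v * r ^ 3 := by positivity
    linarith
  have key := hmp pr.θ (fun x => s x ^ 2) pr.gθ (Metric.ball x₀ (2 * r)) x₀ r (s₀ ^ 2 / 4) pr.lam
    (a₀ / (2 * s₀)) hr (by positivity) hl hlr (by positivity)
    (by rw [div_le_one (by positivity)]; linarith) (convex_ball _ _) measurableSet_ball
    (fun x hx y hy => by
      have := dist_triangle_right x y x₀
      rw [Metric.mem_ball] at hx hy
      linarith)
    subset_rfl pr.hθ (Eventually.of_forall fun x => (pr.θ0 x).1) (hm.pow_const 2)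
    (by
      filter_upwards [hs] with y hy hy'
      obtain ⟨h1, h2⟩ := hy (hth hy')
      constructor <;> nlinarith)
    (fun ξ k M K hξ hK _ hM hK0 hv => pr.mp_hyp hm h0 hB hl hξ hK hM hK0 hv) hmeas
  filter_upwards [key, hs, pr.t_ge h0] with y h1 h2 h3 hy
  have hy3 : y ∈ Metric.ball x₀ (3 * r) := Metric.ball_subset_ball (by linarith) hy
  have h4 := h1 hy
  have h5 := (h2 hy3).1
  have h6 := abs_le.1 (ha y hy3)
  have h7 : s₀ / 2 * (c * (a₀ / (2 * s₀))) ≤ s y * pr.θ y :=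
    mul_le_mul h5 h4 (by positivity) (h0 y)
  have h8 : s₀ / 2 * (c * (a₀ / (2 * s₀))) = c * a₀ / 4 := by field_simp; ring
  rw [div_mul_eq_mul_div, le_div_iff₀ hc]
  have h9 : a y * c ≤ 2 * a₀ * c := mul_le_mul_of_nonneg_right (by linarith [h6.2]) hc.le
  linarith [h3.1]

private theorem CO_hi : ∃ K : ℝ, 0 < K ∧ ∀ (s : X → ℝ) (pr : Pair1 s) (a : X → ℝ) (x₀ : X)
    (r a₀ s₀ B : ℝ), Measurable s → (∀ x, 0 ≤ s x) → (∀ᵐ x, s x ≤ B) → 0 ≤ pr.lam →
    0 < r → 0 < a₀ → a₀ ≤ s₀ →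
    (∀ᵐ y, y ∈ Metric.ball x₀ (3 * r) → s₀ / 2 ≤ s y ∧ s y ≤ 2 * s₀) →
    (∀ y ∈ Metric.ball x₀ (3 * r), |a y - a₀| ≤ a₀ / 100) →
    (∀ y ∈ Metric.ball x₀ (3 * r), y 2 ≠ 0) →
    Integrable (fun x => (pr.t x - √2 * a x) ^ 2) →
    ∫ x, (pr.t x - √2 * a x) ^ 2 ≤ a₀ ^ 2 / 16 * (volume.real (Metric.ball (0 : X) 1) * r ^ 3) →
    ∀ᵐ y, y ∈ Metric.ball x₀ r → pr.t y ≤ K * a y := by
  obtain ⟨C, hC, hdg⟩ := dg_w 16 (by norm_num)
  have hv := CO_v
  set v := volume.real (Metric.ball (0 : X) 1) with hvd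
  refine ⟨4 * C * √(2050 * v), by positivity,
    fun s pr a x₀ r a₀ s₀ B hm h0 hB hl hr ha₀ has hs ha hz hint hcl => ?_⟩
  have hs₀ : 0 < s₀ := by linarith
  have h23 : Metric.ball x₀ (2 * r) ⊆ Metric.ball x₀ (3 * r) :=
    Metric.ball_subset_ball (by linarith)
  have key := hdg pr.θ (fun x => s x ^ 2) pr.gθ x₀ r (s₀ ^ 2 / 4) (Real.pi / 2) hr (by positivity)
    pr.hθ (Eventually.of_forall fun x => by rw [abs_of_nonneg (pr.θ0 x).1]; exact (pr.θ0 x).2)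
    (hm.pow_const 2)
    (by
      filter_upwards [hs] with y hy hy'
      obtain ⟨h1, h2⟩ := hy (h23 hy')
      constructor <;> nlinarith)
    (fun ξ k M K hξ hK hKs hM hK0 => by
      obtain ⟨i1, i2, e⟩ := pr.el_c hm h0 hB (M := M) hξ hK
        (by filter_upwards [hM] with x hx; rw [abs_of_nonneg hx.1]; exact hx.2) hK0
        (Or.inl fun x hx => hz x (h23 (hKs hx)))
      rw [integral_add i1 (i2.const_mul _), integral_const_mul] at e
      have : 0 ≤ ∫ x, pr.t x * pr.β x * ξ x := integral_nonneg_of_ae (by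
        filter_upwards [hM] with x hx
        exact mul_nonneg (mul_nonneg (pr.t0 x) (pr.β0 x)) hx.1)
      have := mul_nonneg (mul_nonneg zero_le_two hl) this
      show ∫ x, s x ^ 2 * gd pr.gθ k x ≤ 0
      linarith)
  have hI : ∫ y in Metric.ball x₀ (2 * r), pr.θ y ^ 2 ≤ (a₀ / s₀) ^ 2 * (2050 * v) * r ^ 3 := by
    have hfin : volume (Metric.ball x₀ (2 * r)) ≠ ∞ := measure_ball_lt_top.ne
    have i0 : IntegrableOn (fun _ : X => 256 * a₀ ^ 2 / s₀ ^ 2) (Metric.ball x₀ (2 * r)) :=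
      integrableOn_const hfin
    have c1 : ∫ y in Metric.ball x₀ (2 * r), pr.θ y ^ 2 ≤ ∫ y in Metric.ball x₀ (2 * r),
        (32 / s₀ ^ 2 * (pr.t y - √2 * a y) ^ 2 + 256 * a₀ ^ 2 / s₀ ^ 2) := by
      refine integral_mono_of_nonneg (Eventually.of_forall fun x => sq_nonneg _)
        ((hint.integrableOn.const_mul _).add i0) ?_
      refine (ae_restrict_iff' measurableSet_ball).2 ?_
      filter_upwards [hs, pr.t_ge h0] with y h1 h2 hy
      have h3 := (h1 (h23 hy)).1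
      have h4 := abs_le.1 (ha y (h23 hy))
      have h5 : s₀ / 2 * pr.θ y ≤ s y * pr.θ y := mul_le_mul_of_nonneg_right h3 (pr.θ0 y).1
      have h6 : (s₀ * pr.θ y) ^ 2 ≤ (4 * pr.t y) ^ 2 :=
        pow_le_pow_left₀ (mul_nonneg hs₀.le (pr.θ0 y).1) (by linarith [h2.1]) 2
      have h7 : (√2 * a y) ^ 2 = 2 * a y ^ 2 := by rw [mul_pow, Real.sq_sqrt zero_le_two]
      have h8 : a y ^ 2 ≤ (2 * a₀) ^ 2 :=
        pow_le_pow_left₀ (by linarith [h4.1]) (by linarith [h4.2]) 2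
      have h9 : pr.t y ^ 2 ≤ 2 * (pr.t y - √2 * a y) ^ 2 + 2 * (√2 * a y) ^ 2 := by
        nlinarith [sq_nonneg (pr.t y - 2 * (√2 * a y))]
      show pr.θ y ^ 2 ≤ _
      rw [div_mul_eq_mul_div, ← add_div, le_div_iff₀ (by positivity)]
      nlinarith
    rw [integral_add (hint.integrableOn.const_mul _) i0, integral_const_mul, setIntegral_const,
      CO_vol x₀ hr, smul_eq_mul, ← hvd] at c1
    have c2 : ∫ x in Metric.ball x₀ (2 * r), (pr.t x - √2 * a x) ^ 2 ≤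
        ∫ x, (pr.t x - √2 * a x) ^ 2 :=
      setIntegral_le_integral hint (Eventually.of_forall fun x => sq_nonneg _)
    have c3 := mul_le_mul_of_nonneg_left (c2.trans hcl) (by positivity : 0 ≤ 32 / s₀ ^ 2)
    refine c1.trans ((add_le_add_left c3 _).trans (le_of_eq ?_))
    field_simp
    ring
  have hJ : √((∫ y in Metric.ball x₀ (2 * r), pr.θ y ^ 2) / r ^ 3) ≤ a₀ / s₀ * √(2050 * v) := by
    rw [← Real.sqrt_sq (by positivity : 0 ≤ a₀ / s₀), ← Real.sqrt_mul (sq_nonneg _)]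
    exact Real.sqrt_le_sqrt ((div_le_iff₀ (by positivity)).2 hI)
  filter_upwards [key, hs, pr.t_ge h0] with y h1 h2 h3 hy
  have hy3 : y ∈ Metric.ball x₀ (3 * r) := Metric.ball_subset_ball (by linarith) hy
  have h4 := (h1 hy).trans (mul_le_mul_of_nonneg_left hJ hC.le)
  have h5 := (h2 hy3).2
  have h6 := abs_le.1 (ha y hy3)
  have h7 : s y * pr.θ y ≤ 2 * s₀ * (C * (a₀ / s₀ * √(2050 * v))) :=
    mul_le_mul h5 h4 (pr.θ0 y).1 (by positivity)
  have h8 : 2 * s₀ * (C * (a₀ / s₀ * √(2050 * v))) = 2 * C * √(2050 * v) * a₀ := by field_simp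
  have h9 : 2 * C * √(2050 * v) * a₀ ≤ 2 * C * √(2050 * v) * (2 * a y) :=
    mul_le_mul_of_nonneg_left (by linarith [h6.1]) (by positivity)
  linarith [h3.2.1]

private theorem CO_small {C η ε : ℝ} (hη : 0 < η) (hε : ε ≤ (η / (|C| + 1)) ^ 2) : C * √ε ≤ η := by
  have h1 : √ε ≤ η / (|C| + 1) := Real.sqrt_le_iff.2 ⟨by positivity, hε⟩
  rw [le_div_iff₀ (by positivity)] at h1
  have h2 := mul_le_mul_of_nonneg_right (le_abs_self C) (Real.sqrt_nonneg ε)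
  have h3 := Real.sqrt_nonneg ε
  nlinarith

/-- Let `m` be the minimum of `a` on the ball of radius `R + 1`, and `r ≤ 1/4` so small that the
oscillations of `a` and `b` on balls of radius `4 r` are at most `m / 100` (uniform continuity).
Fix `x₀`, `a₀ = a x₀`, `s₀ = √(2 a₀² + b x₀²)`.  For small `ε` (`s_close`): `s₀ / 2 ≤ s ≤ 2 s₀` on
the ball of radius `3 r`.  Lower bound: `|t - √2 a| ≤ m / 4` outside a set of measure
`≤ 16 C' √ε / m² ≤ r³`, there `θ ≥ t / s ≥ a₀ / (2 s₀)`; `mp` with `S = ball x₀ (2 r)`, `N = 4`,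
`μ = 1`, `Λ = 16` (`Pair1.mp_hyp`); `s θ ≤ 2 t`.  Upper bound: if `|b x₀| ≤ a₀` then `t ≤ s ≤ 4 a₀`.
Otherwise `b ≠ 0` on the ball, which therefore does not meet the plane (`b = 0` there, by `bP`);
`dg_w` (`Pair1.el_c`, `lam ≥ 0`), `θ ≤ 2 t / s ≤ 4 t / s₀`,
`∫_B t² ≤ 2 C' √ε + 4 ∫_B a²`; `t ≤ s θ`.  Finish with `ae_of_local`. -/
theorem core : ∃ Kc : ℝ, 1 ≤ Kc ∧ ∀ (c : ℝ) (o : One c) (C C' R : ℝ), ∃ ε₀ : ℝ, 0 < ε₀ ∧
    ∀ (ε : ℝ) (ch : Chan o C ε) (pr : Pair ch C'), ε ≤ ε₀ → pr.Core R Kc := by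
  obtain ⟨K₁, hK₁, hlo⟩ := CO_lo
  obtain ⟨K₂, hK₂, hhi⟩ := CO_hi
  refine ⟨K₁ + K₂ + 8, by linarith, fun c o C C' R => ?_⟩
  have hK := isCompact_closedBall (0 : X) (|R| + 1)
  obtain ⟨z, -, hz⟩ := hK.exists_isMinOn (Metric.nonempty_closedBall.2 (by positivity))
    o.ca.continuousOn
  set m := o.a z with hmd
  have hm : 0 < m := o.apos z
  obtain ⟨δa, hδa, ha⟩ := Metric.uniformContinuousOn_iff.1
    (hK.uniformContinuousOn_of_continuous o.ca.continuousOn) (m / 100) (by positivity)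
  obtain ⟨δb, hδb, hb⟩ := Metric.uniformContinuousOn_iff.1
    (hK.uniformContinuousOn_of_continuous o.cb.continuousOn) (m / 100) (by positivity)
  obtain ⟨r, hr, hra, hrb, hr1⟩ : ∃ r : ℝ, 0 < r ∧ 3 * r ≤ δa ∧ 3 * r ≤ δb ∧ 3 * r ≤ 1 := by
    refine ⟨min (min δa δb) 1 / 3, by positivity, ?_, ?_, ?_⟩
    · linarith [min_le_left (min δa δb) 1, min_le_left δa δb]
    · linarith [min_le_left (min δa δb) 1, min_le_right δa δb]
    · linarith [min_le_right (min δa δb) 1]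
  have hv := CO_v
  set v := volume.real (Metric.ball (0 : X) 1) with hvd
  refine ⟨min ((m / 300 / (|C| + 1)) ^ 2) ((m ^ 2 / 16 * (v * r ^ 3) / (|C'| + 1)) ^ 2),
    by positivity, fun ε ch pr hε => ?_⟩
  have e1 : C * √ε ≤ m / 300 := CO_small (by positivity) (hε.trans (min_le_left _ _))
  have e2 : C' * √ε ≤ m ^ 2 / 16 * (v * r ^ 3) :=
    CO_small (by positivity) (hε.trans (min_le_right _ _))
  have hsm : Measurable ch.s := ch.subs.h1.m
  have hg : 0 < o.g := sub_pos.2 o.gpos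
  have hg1 : o.g ≤ 1 / 10000 := o.gsm
  have hl : 0 ≤ pr.lam := by linarith [pr.lam_lo]
  have hlr : pr.lam * r ^ 2 ≤ 1 := by
    have : r ^ 2 ≤ 1 := pow_le_one₀ hr.le (by linarith)
    nlinarith [pr.lam_hi]
  have hint : Integrable fun x => (pr.t x - √2 * o.a x) ^ 2 :=
    (pr.pair.ht.l2.sub (o.ha.l2.const_mul √2)).integrable_sq
  refine ae_of_local (S := {x | ‖x‖ ≤ R}) fun x₀ hx₀ => ⟨r, hr, ?_⟩
  have hx₀' : ‖x₀‖ ≤ |R| := le_trans hx₀ (le_abs_self R)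
  have hx₀K : x₀ ∈ Metric.closedBall (0 : X) (|R| + 1) := by
    rw [mem_closedBall_zero_iff]; linarith
  have hBK : ∀ y ∈ Metric.ball x₀ (3 * r), y ∈ Metric.closedBall (0 : X) (|R| + 1) := by
    intro y hy
    rw [mem_closedBall_zero_iff]
    rw [mem_ball_iff_norm] at hy
    linarith [norm_le_insert' y x₀]
  have hma : m ≤ o.a x₀ := hz hx₀K
  have ha₀ := o.apos x₀
  have ha' : ∀ y ∈ Metric.ball x₀ (3 * r), |o.a y - o.a x₀| ≤ o.a x₀ / 100 := fun y hy => by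
    have := ha y (hBK y hy) x₀ hx₀K (lt_of_lt_of_le (Metric.mem_ball.1 hy) hra)
    rw [Real.dist_eq] at this
    linarith
  have hb' : ∀ y ∈ Metric.ball x₀ (3 * r), |o.b y - o.b x₀| ≤ o.a x₀ / 100 := fun y hy => by
    have := hb y (hBK y hy) x₀ hx₀K (lt_of_lt_of_le (Metric.mem_ball.1 hy) hrb)
    rw [Real.dist_eq] at this
    linarith
  have has : o.a x₀ ≤ √(2 * o.a x₀ ^ 2 + o.b x₀ ^ 2) :=
    Real.le_sqrt_of_sq_le (by nlinarith [sq_nonneg (o.b x₀)])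
  have hs : ∀ᵐ y, y ∈ Metric.ball x₀ (3 * r) → √(2 * o.a x₀ ^ 2 + o.b x₀ ^ 2) / 2 ≤ ch.s y ∧
      ch.s y ≤ 2 * √(2 * o.a x₀ ^ 2 + o.b x₀ ^ 2) := by
    filter_upwards [ch.s_close] with y h1 hy
    exact CO_s ha₀ (ha' y hy) (hb' y hy) (by linarith)
  have hcl : ∫ x, (pr.t x - √2 * o.a x) ^ 2 ≤ o.a x₀ ^ 2 / 16 * (v * r ^ 3) := by
    refine (pr.close.trans e2).trans (mul_le_mul_of_nonneg_right ?_ (by positivity))
    have := pow_le_pow_left₀ hm.le hma 2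
    linarith
  have k1 := hlo ch.s pr.toPair1 o.a x₀ r _ _ C hsm ch.s0 ch.sbd hl hlr hr ha₀ has hs ha' hint hcl
  have k2 : ∀ᵐ y, y ∈ Metric.ball x₀ r → pr.t y ≤ (K₂ + 8) * o.a y := by
    rcases le_or_gt |o.b x₀| (o.a x₀) with h | h
    · have h1 : √(2 * o.a x₀ ^ 2 + o.b x₀ ^ 2) ≤ 2 * o.a x₀ := by
        refine Real.sqrt_le_iff.2 ⟨by linarith, ?_⟩
        have := pow_le_pow_left₀ (abs_nonneg _) h 2
        rw [sq_abs] at this
        nlinarith
      filter_upwards [hs, pr.toPair1.t_ge ch.s0] with y h2 h3 hy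
      have hy3 : y ∈ Metric.ball x₀ (3 * r) := Metric.ball_subset_ball (by linarith) hy
      have h4 := (abs_le.1 (ha' y hy3)).1
      have h5 := mul_pos hK₂ (o.apos y)
      linarith [(h2 hy3).2, h3.2.2.1]
    · have hz : ∀ y ∈ Metric.ball x₀ (3 * r), y 2 ≠ 0 := fun y hy h0 => by
        have h1 : P y = y := by
          ext i
          fin_cases i <;> simp [P, h0]
        have h2 := o.bP y
        rw [h1] at h2
        have h3 := hb' y hy
        rw [show o.b y = 0 by linarith, zero_sub, abs_neg] at h3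
        linarith
      filter_upwards [hhi ch.s pr.toPair1 o.a x₀ r _ _ C hsm ch.s0 ch.sbd hl hr ha₀ has hs ha' hz
        hint hcl] with y h1 hy
      have := o.apos y
      linarith [h1 hy]
  filter_upwards [k1, k2] with y h1 h2 hy
  have h3 := mul_nonneg (by linarith : 0 ≤ K₂ + 8) (pr.t0 y)
  have h4 := mul_pos hK₁ (o.apos y)
  constructor
  · linarith [h1 hy]
  · linarith [h2 hy]

end Crest.Agent.R335
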