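import Crest.Agent.R335.GP
import Crest.Agent.R335.StA3

/-! Row 335. Stage B: representation of `q`. -/

set_option autoImplicit false

open MeasureTheory Set Filter Topology
open scoped ENNReal

noncomputable section

namespace Crest.Agent.R335

variable {c : ℝ} {o : One c} {C ε : ℝ}

theorem GQ_inv3 {r ρ s : ℝ} (hr : 1 ≤ r) (hρ : 1 ≤ ρ) (hs : 0 ≤ s) (h1 : |r - ρ| ≤ s)
    (h2 : ρ ≤ (1 + s) * r) : |1 / r ^ 3 - 1 / ρ ^ 3| ≤ 3 * (1 + s) ^ 4 / ρ ^ 4 := by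
  have hr0 : 0 < r := by linarith
  have hρ0 : 0 < ρ := by linarith
  have ha : r⁻¹ ≤ (1 + s) * ρ⁻¹ := by
    rw [← div_eq_mul_inv, le_div_iff₀ hρ0, ← div_eq_inv_mul, div_le_iff₀ hr0]
    exact h2
  have hb : ρ⁻¹ ≤ (1 + s) * ρ⁻¹ := le_mul_of_one_le_left (by positivity) (by linarith)
  have e : 1 / r ^ 3 - 1 / ρ ^ 3 =
      (ρ - r) * (r⁻¹ * ρ⁻¹) * (r⁻¹ * r⁻¹ + r⁻¹ * ρ⁻¹ + ρ⁻¹ * ρ⁻¹) := by
    field_simp
    ring
  rw [e, abs_mul, abs_mul, abs_sub_comm, abs_of_nonneg (by positivity : 0 ≤ r⁻¹ * ρ⁻¹),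
    abs_of_nonneg (by positivity : 0 ≤ r⁻¹ * r⁻¹ + r⁻¹ * ρ⁻¹ + ρ⁻¹ * ρ⁻¹)]
  calc _ ≤ (1 + s) * ((1 + s) * ρ⁻¹ * ρ⁻¹) * ((1 + s) * ρ⁻¹ * ((1 + s) * ρ⁻¹) +
        (1 + s) * ρ⁻¹ * ((1 + s) * ρ⁻¹) + (1 + s) * ρ⁻¹ * ((1 + s) * ρ⁻¹)) := by
        gcongr
        linarith
    _ = _ := by
        field_simp
        ring

theorem GQ_poly {s : ℝ} (hs : 0 ≤ s) : (1 + s) ^ 8 ≤ 65536 * Real.exp (2 * s) := by
  have h1 : 1 + s ≤ 4 * Real.exp (s / 4) := by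
    have := Real.add_one_le_exp (s / 4)
    linarith
  calc (1 + s) ^ 8 ≤ (4 * Real.exp (s / 4)) ^ 8 := by gcongr
    _ = _ := by
      rw [mul_pow, ← Real.exp_nat_mul]
      norm_num
      ring

theorem GQ_hQ (ch : Chan o C ε) {w : X} (hw : 0 < ‖w‖) :
    ε * (1 + w 2 ^ 2) / ‖w‖ ^ 3 * ch.h w ≤ ch.Q0 w := by
  have := ch.H_pos hw
  unfold Chan.Q0
  linarith

theorem GQ_pt1 (ch : Chan o C ε) {A : ℝ} (hA : 1 ≤ A) {w : X} (hw : 1 ≤ ‖w‖)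
    (hD : 2 * o.D ≤ ‖w‖)
    (h1 : |ch.Sq w - ε * ch.d * w 2 / ‖w‖ ^ 3 * ch.p w + 2 * ε / ‖w‖ * ch.q w| ≤
      ε * C / ‖w‖ ^ 2 * |ch.q w| + 6 * C * A * (ε * (1 + w 2 ^ 2) / ‖w‖ ^ 4 * ch.h w))
    (h2 : |ch.q w| ≤ A * ch.Q0 w) :
    |ch.Sq w - V o.D w * ch.q w - ε * ch.d * w 2 / ‖w‖ ^ 3 * ch.p w| ≤
      (7 * C * A + 6 * A) * (ch.Q0 w / ‖w‖) := by
  have hw0 : 0 < ‖w‖ := by linarith
  have hε := ch.ε0
  have hε1 : ε ≤ 1 := ch.ε_le.trans (by norm_num)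
  have hC := ch.C1
  have hQ := ch.Q0_pos hw0
  have hV := V_ext' o.D1 hD
  have a1 : ε * C / ‖w‖ ^ 2 * |ch.q w| ≤ C * A * (ch.Q0 w / ‖w‖) := by
    calc _ ≤ 1 * C / ‖w‖ ^ 1 * (A * ch.Q0 w) := by
          gcongr
          norm_num
      _ = _ := by ring
  have a2 : ε * (1 + w 2 ^ 2) / ‖w‖ ^ 4 * ch.h w ≤ ch.Q0 w / ‖w‖ := by
    have := GQ_hQ ch hw0
    calc _ = ε * (1 + w 2 ^ 2) / ‖w‖ ^ 3 * ch.h w / ‖w‖ := by
          field_simp
      _ ≤ _ := by gcongr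
  have a3 : |2 * ε / ‖w‖ * ch.q w| ≤ 2 * A * (ch.Q0 w / ‖w‖) := by
    rw [abs_mul, abs_of_nonneg (by positivity : 0 ≤ 2 * ε / ‖w‖)]
    calc _ ≤ 2 * 1 / ‖w‖ * (A * ch.Q0 w) := by gcongr
      _ = _ := by ring
  have a4 : |V o.D w * ch.q w| ≤ 4 * A * (ch.Q0 w / ‖w‖) := by
    rw [abs_mul]
    calc _ ≤ 4 / ‖w‖ * (A * ch.Q0 w) := by gcongr
      _ = _ := by ring
  have a5 : 6 * C * A * (ε * (1 + w 2 ^ 2) / ‖w‖ ^ 4 * ch.h w) ≤ 6 * C * A * (ch.Q0 w / ‖w‖) := by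
    gcongr
  rw [abs_le] at h1 a3 a4 ⊢
  constructor <;> nlinarith [h1.1, h1.2, a3.1, a3.2, a4.1, a4.2]

theorem GQ_pt2 (ch : Chan o C ε) {A C₂ E : ℝ} (hA : 1 ≤ A) (hC₂ : 0 < C₂) {z w : X}
    (hz : 1 ≤ ‖z‖) (hz2 : z 2 = 0) (hw : 1 ≤ ‖w‖) (h3 : |ch.p w| ≤ A * |w 2| * ch.h w)
    (h4 : |ch.p w - E| ≤ C₂ / ‖w‖ * (1 + |w 2|) * ch.h w) :
    |ε * ch.d * w 2 / ‖w‖ ^ 3 * ch.p w - ε * ch.d / ‖z‖ ^ 3 * (w 2 * E)| ≤
      65536 * C * (3 * A + C₂) * (ch.Q0 z / ‖z‖) * Real.exp (4 * ‖z - w‖) := by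
  have hw0 : 0 < ‖w‖ := by linarith
  have hz0 : 0 < ‖z‖ := by linarith
  have hε := ch.ε0
  have hC := ch.C1
  have hd := ch.d1
  have hdC := ch.dC
  have hhw := ch.h_pos hw0
  have hhz := ch.h_pos hz0
  have hs := norm_nonneg (z - w)
  have b1 : |w 2| ≤ ‖z - w‖ := by
    have := LDuh_abs z w 2
    simpa [hz2] using this
  have b2 : |‖w‖ - ‖z‖| ≤ ‖z - w‖ := by
    rw [norm_sub_rev]
    exact abs_norm_sub_norm_le w z
  have b3 : ‖z‖ ≤ (1 + ‖z - w‖) * ‖w‖ := Chan.norm_ratio hw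
  have b4 := GQ_inv3 hw hz hs b2 b3
  have b5 : 1 / ‖w‖ ≤ (1 + ‖z - w‖) / ‖z‖ := by
    rw [div_le_div_iff₀ hw0 hz0]
    linarith
  have b6 : ch.h w ≤ ch.h z * ((1 + ‖z - w‖) * Real.exp (2 * ‖z - w‖)) := by
    refine (ch.h_ratio hz hw).trans ?_
    have : ch.k * (‖z‖ - ‖w‖) ≤ 2 * ‖z - w‖ := by
      have := ch.k_bd
      have := abs_le.1 b2
      nlinarith
    gcongr
  have b7 : ε / ‖z‖ ^ 3 * ch.h z ≤ ch.Q0 z := by
    have := GQ_hQ ch hz0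
    simpa [hz2] using this
  generalize ‖z - w‖ = s at *
  have b8 : |w 2| ≤ 1 + s := by linarith
  have e : ε * ch.d * w 2 / ‖w‖ ^ 3 * ch.p w - ε * ch.d / ‖z‖ ^ 3 * (w 2 * E) =
      ε * ch.d * w 2 * ((1 / ‖w‖ ^ 3 - 1 / ‖z‖ ^ 3) * ch.p w + 1 / ‖z‖ ^ 3 * (ch.p w - E)) := by
    ring
  have c1 : |(1 / ‖w‖ ^ 3 - 1 / ‖z‖ ^ 3) * ch.p w| ≤ 3 * A * ((1 + s) ^ 5 / ‖z‖ ^ 4 * ch.h w) := by
    rw [abs_mul]
    calc _ ≤ 3 * (1 + s) ^ 4 / ‖z‖ ^ 4 * (A * (1 + s) * ch.h w) := by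
          gcongr
          exact h3.trans (by gcongr)
      _ = _ := by ring
  have c2 : |1 / ‖z‖ ^ 3 * (ch.p w - E)| ≤ C₂ * ((1 + s) ^ 5 / ‖z‖ ^ 4 * ch.h w) := by
    rw [abs_mul, abs_of_nonneg (by positivity : 0 ≤ 1 / ‖z‖ ^ 3)]
    have : (1 + s) ^ 2 ≤ (1 + s) ^ 5 := pow_le_pow_right₀ (by linarith) (by norm_num)
    calc _ ≤ 1 / ‖z‖ ^ 3 * (C₂ * (1 / ‖w‖) * (1 + |w 2|) * ch.h w) := by
          gcongr
          exact h4.trans_eq (by ring)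
      _ ≤ 1 / ‖z‖ ^ 3 * (C₂ * ((1 + s) / ‖z‖) * (1 + s) * ch.h w) := by gcongr
      _ = C₂ * ((1 + s) ^ 2 / ‖z‖ ^ 4 * ch.h w) := by ring
      _ ≤ _ := by gcongr
  have c3 : (1 + s) ^ 7 ≤ 65536 * Real.exp (2 * s) :=
    (pow_le_pow_right₀ (by linarith) (by norm_num)).trans (GQ_poly hs)
  rw [e, abs_mul, abs_mul, abs_of_nonneg (by positivity : 0 ≤ ε * ch.d)]
  calc _ ≤ ε * C * (1 + s) * ((3 * A + C₂) * ((1 + s) ^ 5 / ‖z‖ ^ 4 * ch.h w)) := by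
        gcongr
        exact (abs_add_le _ _).trans (by linarith)
    _ ≤ ε * C * (1 + s) * ((3 * A + C₂) * ((1 + s) ^ 5 / ‖z‖ ^ 4 *
          (ch.h z * ((1 + s) * Real.exp (2 * s))))) := by gcongr
    _ = C * (3 * A + C₂) * (ε / ‖z‖ ^ 3 * ch.h z / ‖z‖) * ((1 + s) ^ 7 * Real.exp (2 * s)) := by
        ring
    _ ≤ C * (3 * A + C₂) * (ch.Q0 z / ‖z‖) * (65536 * Real.exp (2 * s) * Real.exp (2 * s)) := by
        have := ch.Q0_pos hz0
        gcongr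
    _ = _ := by
        rw [show 4 * s = 2 * s + 2 * s by ring, Real.exp_add]
        ring

theorem GQ_pt3 (ch : Chan o C ε) {z w : X} (hz : 1 ≤ ‖z‖) (hw : 1 ≤ ‖w‖) :
    ch.Q0 w / ‖w‖ ≤ 10000 * (ch.Q0 z / ‖z‖) * Real.exp (4 * ‖z - w‖) := by
  have hw0 : 0 < ‖w‖ := by linarith
  have hz0 : 0 < ‖z‖ := by linarith
  have b3 : ‖z‖ ≤ (1 + ‖z - w‖) * ‖w‖ := Chan.norm_ratio hw
  have b5 : 1 / ‖w‖ ≤ (1 + ‖z - w‖) / ‖z‖ := by
    rw [div_le_div_iff₀ hw0 hz0]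
    linarith
  have b6 := ch.Q0_ratio hz hw
  have b7 : 1 + ‖z - w‖ ≤ Real.exp ‖z - w‖ := by
    have := Real.add_one_le_exp ‖z - w‖
    linarith
  have := ch.Q0_pos hz0
  have := ch.Q0_pos hw0
  calc _ = ch.Q0 w * (1 / ‖w‖) := by ring
    _ ≤ 10000 * ch.Q0 z * Real.exp (3 * ‖z - w‖) * (Real.exp ‖z - w‖ / ‖z‖) := by
        have b8 : 1 / ‖w‖ ≤ Real.exp ‖z - w‖ / ‖z‖ := b5.trans (by gcongr)
        exact mul_le_mul b6 b8 (by positivity) (by positivity)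
    _ = _ := by
        rw [show 4 * ‖z - w‖ = 3 * ‖z - w‖ + ‖z - w‖ by ring, Real.exp_add]
        ring

theorem GQ_duh {m t B₁ B₂ κ : ℝ} (hm : 0 ≤ m) (ht : 0 < t) {u u' S M : X → ℝ}
    (hu : MemLp u 2 volume) (hu' : MemLp u' 2 volume) (hS : MemLp S 2 volume)
    (hM : MemLp M 2 volume) (x : X) (h1 : |Gc t (fun y => 1 * u y + -1 * u' y) x| ≤ B₁)
    (h2 : ∀ σ, 0 < σ → σ ≤ t → |Gc σ (fun y => 1 * S y + -κ * M y) x| ≤ B₂) :
    |duh m t u S x - (Real.exp (-m * t) * Gc t u' x +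
      κ * ∫ σ in Ioc 0 t, Real.exp (-m * σ) * Gc σ M x)| ≤ B₁ + t * B₂ := by
  have he : ∀ σ, 0 < σ → Real.exp (-m * σ) ≤ 1 := fun σ hσ =>
    Real.exp_le_one_iff.2 (by nlinarith)
  have e : duh m t u S x - (Real.exp (-m * t) * Gc t u' x +
      κ * ∫ σ in Ioc 0 t, Real.exp (-m * σ) * Gc σ M x) =
      Real.exp (-m * t) * Gc t (fun y => 1 * u y + -1 * u' y) x +
      ∫ σ in Ioc 0 t, (Real.exp (-m * σ) * Gc σ S x - κ * (Real.exp (-m * σ) * Gc σ M x)) := by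
    rw [Gc_lin ht hu hu', integral_sub (integrableOn_Gc m hS x)
      ((integrableOn_Gc m hM x).const_mul κ), integral_const_mul, duh]
    ring
  rw [e]
  refine (abs_add_le _ _).trans (add_le_add ?_ ?_)
  · rw [abs_mul, abs_of_pos (Real.exp_pos _)]
    exact (mul_le_of_le_one_left (abs_nonneg _) (he t ht)).trans h1
  · have := norm_setIntegral_le_of_norm_le_const (μ := volume) (s := Ioc 0 t) (C := B₂)
      (f := fun σ => Real.exp (-m * σ) * Gc σ S x - κ * (Real.exp (-m * σ) * Gc σ M x))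
      (by simp) fun σ hσ => by
        have h3 := h2 σ hσ.1 hσ.2
        rw [Gc_lin hσ.1 hS hM] at h3
        rw [Real.norm_eq_abs, show Real.exp (-m * σ) * Gc σ S x -
          κ * (Real.exp (-m * σ) * Gc σ M x) =
          Real.exp (-m * σ) * (1 * Gc σ S x + -κ * Gc σ M x) by ring, abs_mul,
          abs_of_pos (Real.exp_pos _)]
        exact (mul_le_of_le_one_left (abs_nonneg _) (he σ hσ.1)).trans h3
    rw [Real.norm_eq_abs, Real.volume_real_Ioc_of_le ht.le, sub_zero, mul_comm] at this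
    exact this

theorem GQ_split {σ t R a b : ℝ} (hσ : 0 < σ) (hσt : σ ≤ t) (ha : 0 ≤ a) {f : X → ℝ}
    (hf : MemLp f 2 volume) {x : X}
    (h1 : |Gc σ ((Metric.closedBall (0 : X) R).indicator f) x| ≤ b)
    (h2 : ∀ᵐ y, R < ‖y‖ → |f y| ≤ a * Real.exp (4 * ‖y - x‖)) :
    |Gc σ f x| ≤ b + 3 * Real.exp (16 * t) * a := by
  have hm : MeasurableSet (Metric.closedBall (0 : X) R) := Metric.isClosed_closedBall.measurableSet
  have e : f = fun y => 1 * (Metric.closedBall (0 : X) R).indicator f y +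
      1 * (Metric.closedBall (0 : X) R)ᶜ.indicator f y := by
    funext y
    simp
  have h3 := (Gc_temp (a := a) (x := x) hσ (hf.indicator hm.compl).1 (by
    filter_upwards [h2] with y hy
    by_cases h : y ∈ Metric.closedBall (0 : X) R
    · rw [indicator_of_notMem (by simpa using h), abs_zero]
      positivity
    · rw [indicator_of_mem (by simpa using h)]
      exact hy (by simpa using h))).2
  rw [e, Gc_lin hσ (hf.indicator hm) (hf.indicator hm.compl), one_mul, one_mul]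
  refine (abs_add_le _ _).trans (add_le_add h1 (h3.trans ?_))
  gcongr

theorem GQ_nsq {R κ : ℝ} {S g : X → ℝ} (hS : MemLp S 2 volume) (hg : MemLp g 2 volume) :
    nsq ((Metric.closedBall (0 : X) R).indicator fun y => 1 * S y + -κ * (y 2 * g y)) ≤
      2 * nsq S + 2 * (κ * R) ^ 2 * nsq g := by
  unfold nsq
  rw [← integral_const_mul, ← integral_const_mul, ← integral_add
    (hS.integrable_sq.const_mul _) (hg.integrable_sq.const_mul _)]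
  refine integral_mono_of_nonneg (Eventually.of_forall fun y => sq_nonneg _)
    ((hS.integrable_sq.const_mul _).add (hg.integrable_sq.const_mul _))
    (Eventually.of_forall fun y => ?_)
  by_cases h : y ∈ Metric.closedBall (0 : X) R
  · have h1 : |y 2| ≤ R := by
      have := LDuh_abs y 0 2
      simp only [sub_zero] at this
      exact this.trans (by simpa using h)
    have h2 : y 2 ^ 2 ≤ R ^ 2 := by
      rw [← sq_abs]
      gcongr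
    have h3 : (κ * (y 2 * g y)) ^ 2 ≤ (κ * R) ^ 2 * g y ^ 2 := by
      calc _ = κ ^ 2 * g y ^ 2 * y 2 ^ 2 := by ring
        _ ≤ κ ^ 2 * g y ^ 2 * R ^ 2 := by gcongr
        _ = _ := by ring
    simp only [indicator_of_mem h]
    nlinarith [sq_nonneg (S y + κ * (y 2 * g y))]
  · simp only [indicator_of_notMem h]
    rw [zero_pow two_ne_zero]
    positivity

/-- `duh_eq` with `m = m1`, `S = Sq - V q`.  Write `S = S₁ + S₂ + M` with `S₁` the part inside the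
ball of radius `R₀`, `M w = ε d w₂ pt w / ‖w‖³`, `|S₂ w| ≤ C' Q0 w / ‖w‖` (`Sq_err`, `V_ext'`).
Compare `M` with `M' w = ε d ‖pl x‖⁻³ exp (-I N) w₂ Gc N pt w`: outside the ball given by `rep_p`,
`|M - M'| ≤ ε C' h (pl x) ‖pl x‖⁻⁴ exp (4 ‖w - x‖)` (use
`|‖w‖⁻³ - ρ⁻³| ≤ 3 |‖w‖ - ρ| (1 + ‖w - pl x‖)⁴ ρ⁻⁴`); inside it is bounded in `L²` (`memLp_Gc`).
`Gc_temp`, `Q0_ratio`, `Gc_far`, `gauss_small`, `H_ge'`. -/
theorem rep_q (o : One c) (C R₀ A : ℝ) {N : ℕ} (hN : 1 ≤ N) {t : ℝ} (ht : 1 ≤ t) :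
    ∃ R C₃ : ℝ, R₀ + 1 ≤ R ∧ 0 < C₃ ∧ ∀ (ε : ℝ) (ch : Chan o C ε), ch.FA R₀ A →
      ∀ᵐ x : X, R ≤ ‖pl x‖ → |x 2| ≤ 1 →
        |ch.q x - ch.qm R₀ N t x| ≤ C₃ / ‖pl x‖ * ch.Q0 (pl x) := by
  have hN0 : (0 : ℝ) < N := by exact_mod_cast hN
  have ht0 : 0 < t := by linarith
  obtain ⟨R₁, C₂, hR₁, hC₂, hp⟩ := rep_p o C R₀ A (t := N) (by exact_mod_cast hN)
  obtain ⟨Cf, hCf, hfar⟩ := Gc_far
  obtain ⟨Rg, hRg, hg⟩ := gauss_small (t := t) (η := 1) ht0 one_pos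
  refine ⟨max (max (R₀ + 1) (2 * R₁ + 10)) Rg, |Cf * √3 + t * (Cf * √(68 * C + 6 * (C * R₁) ^ 2) +
    3 * Real.exp (16 * t) * ((10000 * (7 * C * A + 6 * A) + 65536 * C * (3 * A + C₂)) *
      Real.exp 4))| + 1, (le_max_left _ _).trans (le_max_left _ _), by positivity,
    fun ε ch hF => ?_⟩
  obtain ⟨tp, tq, tz, -⟩ := hF.tr
  have hq := ch.solq.h1
  have hVq := memLp_V_mul o.D hq
  have hS : MemLp (fun y => ch.Sq y - V o.D y * ch.q y) 2 volume := ch.Sq2.sub hVq.1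
  have hsol : Sol univ ch.q ch.gq fun y => (ch.Sq y - V o.D y * ch.q y) - ch.m1 * ch.q y := by
    convert ch.solq using 2
    unfold Chan.m1
    ring
  have hM : MemLp (fun y : X => y 2 * Gc N (ch.pt R₀) y) 2 volume := memLp_z_Gc hN0 tp tz
  have hG := memLp_Gc hN0 tp
  have hA := hF.A1
  have hC := ch.C1
  have hR := hF.R1
  have hRs := o.Rs_ge
  have hε := ch.ε0
  have hε1 : ε ≤ 1 := ch.ε_le.trans (by norm_num)
  have hI := ch.I_bd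
  have hm : 0 ≤ ch.m1 := by
    have := ch.gS_bd
    have := o.g_pos
    unfold Chan.m1
    linarith
  have hcb : ∀ R : ℝ, MeasurableSet (Metric.closedBall (0 : X) R) := fun R =>
    Metric.isClosed_closedBall.measurableSet
  have nS : nsq (fun y => ch.Sq y - V o.D y * ch.q y) ≤ 34 * C := by
    have h1 := LDuh_nsq_add ch.Sq2 hVq.1.neg
    have h2 : nsq (-fun x => V o.D x * ch.q x) = nsq fun x => V o.D x * ch.q x := by
      simp [nsq]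
    have := ch.Sqn
    have := ch.dq
    have := hVq.2
    simp only [Pi.neg_apply, ← sub_eq_add_neg] at h1
    linarith
  have nG : nsq (Gc N (ch.pt R₀)) ≤ 3 := by
    have e : ch.pt R₀ = (Metric.closedBall (0 : X) R₀)ᶜ.indicator ch.p := by
      funext y
      simp [Chan.pt, indicator]
    refine hG.2.trans ?_
    rw [e]
    exact (LDuh_nsq_ind ch.solp.h1.l2 _ (hcb _).compl).trans ch.nsq_p.1
  have eq : (fun y => 1 * ch.q y + -1 * ch.qt R₀ y) =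
      (Metric.closedBall (0 : X) R₀).indicator ch.q := by
    funext y
    by_cases h : ‖y‖ ≤ R₀
    · simp [Chan.qt, h, not_lt.2 h]
    · simp [Chan.qt, h, not_le.1 h]
  have hind : ∀ (R : ℝ) (f : X → ℝ), ∀ᵐ y : X, R < ‖y‖ →
      (Metric.closedBall (0 : X) R).indicator f y = 0 := fun R f =>
    Eventually.of_forall fun y hy => indicator_of_notMem (by simpa using hy) _
  filter_upwards [duh_eq ht0 hS hsol] with x hx hxR hx2
  have r1 : R₀ + 1 ≤ ‖pl x‖ := ((le_max_left _ _).trans (le_max_left _ _)).trans hxR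
  have r2 : 2 * R₁ + 10 ≤ ‖pl x‖ := ((le_max_right _ _).trans (le_max_left _ _)).trans hxR
  have r3 : Rg ≤ ‖pl x‖ := (le_max_right _ _).trans hxR
  have r4 := norm_pl_le x
  have hρ : 1 ≤ ‖pl x‖ := hRg.trans r3
  have hρ0 : 0 < ‖pl x‖ := by linarith
  have hQ := ch.Q0_pos hρ0
  have hgs : Real.exp (-‖x‖ ^ 2 / (64 * t)) ≤ ch.Q0 (pl x) / ‖pl x‖ := by
    rw [le_div_iff₀ hρ0]
    calc _ ≤ Real.exp (-‖pl x‖ ^ 2 / (64 * t)) * ‖pl x‖ := by gcongr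
      _ ≤ 1 * Real.exp (-2 * ‖pl x‖) := hg _ r3
      _ ≤ _ := by
        rw [one_mul]
        exact (ch.H_ge' hρ).trans (ch.H_le_Q0 _)
  have hκ0 : 0 ≤ ε * ch.d / ‖pl x‖ ^ 3 * Real.exp (-ch.I * N) := by
    have := ch.d1
    positivity
  have hκ : ε * ch.d / ‖pl x‖ ^ 3 * Real.exp (-ch.I * N) ≤ C := by
    have h1 : Real.exp (-ch.I * N) ≤ 1 := Real.exp_le_one_iff.2 (by nlinarith)
    have h2 : 1 ≤ ‖pl x‖ ^ 3 := one_le_pow₀ hρ
    have := ch.d1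
    have := ch.dC
    calc _ ≤ 1 * C / 1 * 1 := by gcongr
      _ = C := by ring
  have key := GQ_duh (κ := ε * ch.d / ‖pl x‖ ^ 3 * Real.exp (-ch.I * N))
    (B₁ := Cf * √3 * (ch.Q0 (pl x) / ‖pl x‖))
    (B₂ := Cf * √(68 * C + 6 * (C * R₁) ^ 2) * (ch.Q0 (pl x) / ‖pl x‖) + 3 * Real.exp (16 * t) *
      ((10000 * (7 * C * A + 6 * A) + 65536 * C * (3 * A + C₂)) * Real.exp 4 *
        (ch.Q0 (pl x) / ‖pl x‖))) hm ht0 hq.l2 tq hS hM x ?_ fun σ hσ hσt => ?_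
  · rw [hx]
    refine key.trans ?_
    calc _ = (Cf * √3 + t * (Cf * √(68 * C + 6 * (C * R₁) ^ 2) +
        3 * Real.exp (16 * t) * ((10000 * (7 * C * A + 6 * A) + 65536 * C * (3 * A + C₂)) *
          Real.exp 4))) / ‖pl x‖ * ch.Q0 (pl x) := by ring
      _ ≤ _ := mul_le_mul_of_nonneg_right (div_le_div_of_nonneg_right
          ((le_abs_self _).trans (le_add_of_nonneg_right zero_le_one)) hρ0.le) hQ.le
  · rw [eq]
    refine (hfar t t R₀ _ x ht0 le_rfl (by linarith) (hq.l2.indicator (hcb _)) (hind _ _)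
      (by linarith)).trans ?_
    have := (LDuh_nsq_ind hq.l2 _ (hcb R₀)).trans ch.nsq_p.2
    gcongr
  · have hD : MemLp (fun y => 1 * (ch.Sq y - V o.D y * ch.q y) +
        -(ε * ch.d / ‖pl x‖ ^ 3 * Real.exp (-ch.I * N)) * (y 2 * Gc N (ch.pt R₀) y)) 2 volume :=
      (hS.const_mul _).add (hM.const_mul _)
    refine GQ_split (R := R₁) hσ hσt (by positivity) hD ?_ ?_
    · refine (hfar σ t R₁ _ x hσ hσt (by linarith) (hD.indicator (hcb _)) (hind _ _)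
        (by linarith)).trans ?_
      have h1 := GQ_nsq (R := R₁) (κ := ε * ch.d / ‖pl x‖ ^ 3 * Real.exp (-ch.I * N)) hS hG.1
      have h2 : 2 * (ε * ch.d / ‖pl x‖ ^ 3 * Real.exp (-ch.I * N) * R₁) ^ 2 *
          nsq (Gc N (ch.pt R₀)) ≤ 2 * (C * R₁) ^ 2 * 3 := by
        have : 0 ≤ R₁ := by linarith
        have : 0 ≤ nsq (Gc N (ch.pt R₀)) := integral_nonneg fun _ => sq_nonneg _
        gcongr
      gcongr
      linarith
    · filter_upwards [ch.Sq_err (R₀ := R₀) (by linarith) (by linarith) hF.p_hi hF.L_hi, hF.p_hi,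
        hF.q_hi, hF.zp, hp ε ch hF] with w w1 w2 w3 w4 w5 hw
      have hw0 : R₀ < ‖w‖ := hR₁.trans_lt hw
      have hw1 : 1 ≤ ‖w‖ := by linarith
      have k1 := GQ_pt1 ch hA hw1 (by unfold One.Rs at hR hRs; linarith) (w1 hw0)
        (by rw [abs_of_pos (w4 hw0).2.2.2]; exact w3 hw0)
      have k2 := GQ_pt2 ch hA hC₂ hρ (pl_two x) hw1 (w2 hw0) (w5 hw.le).1
      have k3 := GQ_pt3 ch hρ hw1
      have k4 : Real.exp (4 * ‖pl x - w‖) ≤ Real.exp 4 * Real.exp (4 * ‖w - x‖) := by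
        rw [← Real.exp_add]
        have h1 := norm_sub_le_norm_sub_add_norm_sub w x (pl x)
        rw [norm_sub_pl, norm_sub_rev w (pl x)] at h1
        gcongr
        linarith
      calc _ = |(ch.Sq w - V o.D w * ch.q w - ε * ch.d * w 2 / ‖w‖ ^ 3 * ch.p w) +
            (ε * ch.d * w 2 / ‖w‖ ^ 3 * ch.p w - ε * ch.d / ‖pl x‖ ^ 3 *
              (w 2 * (Real.exp (-ch.I * N) * Gc N (ch.pt R₀) w)))| := by
            congr 1
            ring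
        _ ≤ (7 * C * A + 6 * A) * (10000 * (ch.Q0 (pl x) / ‖pl x‖) * Real.exp (4 * ‖pl x - w‖)) +
            65536 * C * (3 * A + C₂) * (ch.Q0 (pl x) / ‖pl x‖) * Real.exp (4 * ‖pl x - w‖) :=
            (abs_add_le _ _).trans (add_le_add (k1.trans (by gcongr)) k2)
        _ = (10000 * (7 * C * A + 6 * A) + 65536 * C * (3 * A + C₂)) * (ch.Q0 (pl x) / ‖pl x‖) *
            Real.exp (4 * ‖pl x - w‖) := by ring
        _ ≤ (10000 * (7 * C * A + 6 * A) + 65536 * C * (3 * A + C₂)) * (ch.Q0 (pl x) / ‖pl x‖) *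
            (Real.exp 4 * Real.exp (4 * ‖w - x‖)) := by gcongr
        _ = _ := by ring

end Crest.Agent.R335
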