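import Crest.Agent.R335.GLat

/-! Row 335. Stage B: the main part of the representation of `q` is comparable to `tau`. -/

set_option autoImplicit false

open MeasureTheory Set Filter Topology
open scoped ENNReal

noncomputable section

namespace Crest.Agent.R335

variable {c : ℝ} {o : One c} {C ε : ℝ}

theorem GQ2_int {F : ℝ → ℝ} (hF : ∀ t, IntegrableOn F (Ioc 0 t)) (j : ℕ) :
    IntegrableOn F (Ioc (j : ℝ) (j + 1)) :=
  (hF (j + 1)).mono_set (Ioc_subset_Ioc_left (Nat.cast_nonneg j))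

theorem GQ2_split {F : ℝ → ℝ} (hF : ∀ t, IntegrableOn F (Ioc 0 t)) (n : ℕ) :
    ∫ σ in Ioc (0 : ℝ) n, F σ = ∑ j ∈ Finset.range n, ∫ σ in Ioc (j : ℝ) (j + 1), F σ := by
  induction n with
  | zero => simp
  | succ n ih =>
    rw [Finset.sum_range_succ, ← ih, ← setIntegral_union (Ioc_disjoint_Ioc_of_le le_rfl)
      measurableSet_Ioc (hF n) (GQ2_int hF n),
      Ioc_union_Ioc_eq_Ioc (Nat.cast_nonneg n) (by linarith)]
    push_cast; rfl

theorem GQ2_const (t a : ℝ) : ∫ _ in Ioc t (t + 1), a = a := by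
  simp

theorem GQ2_le {F : ℝ → ℝ} {t a : ℝ} (hF : IntegrableOn F (Ioc t (t + 1)))
    (h : ∀ σ ∈ Ioc t (t + 1), F σ ≤ a) : ∫ σ in Ioc t (t + 1), F σ ≤ a := by
  rw [← GQ2_const t a]
  exact setIntegral_mono_on hF (by simp) measurableSet_Ioc h

theorem GQ2_ge {F : ℝ → ℝ} {t a : ℝ} (hF : IntegrableOn F (Ioc t (t + 1)))
    (h : ∀ σ ∈ Ioc t (t + 1), a ≤ F σ) : a ≤ ∫ σ in Ioc t (t + 1), F σ := by
  rw [← GQ2_const t a]
  exact setIntegral_mono_on (by simp) hF measurableSet_Ioc h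

theorem GQ2_nonneg {s : ℝ} (hs : 0 < s) {f : X → ℝ} (h0 : ∀ᵐ y, 0 ≤ f y) (x : X) :
    0 ≤ Gc s f x :=
  integral_nonneg_of_ae (h0.mono fun _ hy => mul_nonneg (G_pos hs _).le hy)

theorem GQ2_m (ch : Chan o C ε) : 0 ≤ ch.m1 ∧ Real.exp ch.m1 ≤ 2 := by
  have h1 := ch.I_bd
  have h2 := ch.gS_bd
  have h3 := o.g_pos
  have h4 := o.g_le
  refine ⟨by unfold Chan.m1; linarith [h1.1, h2.1], ?_⟩
  rw [← Real.exp_log (show (0 : ℝ) < 2 by norm_num), Real.exp_le_exp]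
  have := Real.log_two_gt_d9
  unfold Chan.m1
  linarith [h1.2, h2.2]

theorem GQ2_exp (ch : Chan o C ε) {a b : ℝ} (h : b ≤ a + 1) :
    Real.exp (-ch.m1 * a) ≤ 2 * Real.exp (-ch.m1 * b) := by
  obtain ⟨h1, h2⟩ := GQ2_m ch
  calc Real.exp (-ch.m1 * a) ≤ Real.exp (ch.m1 + -ch.m1 * b) := by
        rw [Real.exp_le_exp]; nlinarith
    _ = Real.exp ch.m1 * Real.exp (-ch.m1 * b) := Real.exp_add _ _
    _ ≤ _ := mul_le_mul_of_nonneg_right h2 (Real.exp_pos _).le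

theorem GQ2_two {u : X → ℝ} (hu : MemLp u 2 volume) (hf : MemLp (fun y : X => y 2 * u y) 2 volume)
    (h0 : ∀ᵐ y : X, 0 ≤ y 2 * u y) (ho : ∀ y, u (P y) = -u y) {σ t : ℝ} (hσ : 0 < σ) (ht : 1 ≤ t)
    {x : X} (hx : |x 2| ≤ 1) :
    σ * (Gc (σ + t) (fun y => y 2 * u y) x / (σ + t)) ≤ Gc σ (fun y => y 2 * Gc t u y) x ∧
      Gc σ (fun y => y 2 * Gc t u y) x ≤
        (1 + σ) * (Gc (σ + t) (fun y => y 2 * u y) x / (σ + t)) := by
  have ht0 : 0 < t := by linarith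
  have hs : 0 < σ + t := by linarith
  obtain ⟨a1, a2, -⟩ := Gc_odd_two (s := σ + t) (by linarith) hu hf h0 ho x
  have a3 := GQ2_nonneg hs h0 x
  rw [Gc_bridge hσ ht0 hu hf x]
  set Z := Gc (σ + t) (fun y => y 2 * u y) x
  set U := Gc (σ + t) u x
  constructor
  · rw [← mul_div_assoc]
    refine div_le_div_of_nonneg_right ?_ hs.le
    have : 0 ≤ t * (x 2 * U) := by positivity
    nlinarith
  · rw [← mul_div_assoc]
    refine div_le_div_of_nonneg_right ?_ hs.le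
    have b0 : 0 ≤ Z / (σ + t) := by positivity
    have b1 : |U| ≤ Z / (σ + t) := a2.trans (mul_le_of_le_one_left b0 hx)
    have b2 : x 2 * U ≤ Z / (σ + t) := by
      refine (le_abs_self _).trans ?_
      rw [abs_mul]
      exact (mul_le_of_le_one_left (abs_nonneg _) hx).trans b1
    have b3 : t * (Z / (σ + t)) ≤ Z := by
      rw [← mul_div_assoc, div_le_iff₀ hs]; nlinarith
    have b4 := mul_le_mul_of_nonneg_left b2 ht0.le
    nlinarith

theorem GQ2_pre (ch : Chan o C ε) (N : ℕ) (x : X) :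
    0 ≤ ε * ch.d / ‖pl x‖ ^ 3 * Real.exp (-ch.I * N) := by
  have h1 := ch.ε0
  have h2 : 0 < ch.d := by linarith [ch.d1]
  positivity

/-- `Gc_bridge`, `Gc_odd_two`: with `s = σ + N` the integrand is at most `(1 + σ) Gc s zp x / s`.
For `j < σ ≤ j + 1`: `Gc_time`, `1 / s ≤ 2 / (N + j + 1)`, `exp (-m1 σ) ≤ 2 exp (-m1 (j + 1))`,
`1 + σ ≤ 2 (j + 1)`; then `Gc_le_pl`.  (`intervalIntegral.sum_integral_adjacent_intervals`.) -/
theorem Chan.qm_le {ch : Chan o C ε} {R A : ℝ} (h : ch.FA R A) {N : ℕ} (hN : 1 ≤ N) {x : X}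
    (hx : |x 2| ≤ 1) : ch.qm R N N x ≤ 504 * ch.tau R N x + 24 * ch.ttau R N x := by
  obtain ⟨hp, hq, hz, op, -, -, q0, z0, -, -⟩ := h.tr
  have hN1 : (1 : ℝ) ≤ N := by exact_mod_cast hN
  have hN0 : (0 : ℝ) < N := by linarith
  have hF := fun t : ℝ => integrableOn_Gc ch.m1 (t := t) (memLp_z_Gc hN0 hp hz) x
  have h1 : Gc N (ch.qt R) x ≤ 504 * Gc N (ch.qt R) (pl x) + 24 * tl N (ch.qt R) (lat x) x := by
    have a1 := Gc_le_pl hN1 hq q0 (lat x) hx
    have a2 := GQ2_nonneg hN0 q0 (pl x)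
    have a3 := tl_nonneg hN0 q0 (lat x) x
    linarith
  have h2 : ∫ σ in Ioc (0 : ℝ) N, Real.exp (-ch.m1 * σ) * Gc σ (fun y => y 2 * Gc N (ch.pt R) y) x
      ≤ 504 * (∑ j ∈ Finset.range N, ((j : ℝ) + 1) * Real.exp (-ch.m1 * (j + 1)) *
          (Gc (N + (j + 1)) (ch.zp R) (pl x) / (N + (j + 1)))) +
        24 * ∑ j ∈ Finset.range N, ((j : ℝ) + 1) * Real.exp (-ch.m1 * (j + 1)) *
          (tl (N + (j + 1)) (ch.zp R) (lat x) x / (N + (j + 1))) := by
    rw [GQ2_split hF, Finset.mul_sum, Finset.mul_sum, ← Finset.sum_add_distrib]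
    refine Finset.sum_le_sum fun j _ => GQ2_le (GQ2_int hF j) fun σ hσ => ?_
    have hj : (0 : ℝ) ≤ j := Nat.cast_nonneg j
    have hσ0 : 0 < σ := by linarith [hσ.1]
    have hs : 0 < σ + N := by linarith
    have hs' : 0 < (N : ℝ) + (j + 1) := by linarith
    have a1 : Gc σ (fun y => y 2 * Gc N (ch.pt R) y) x ≤
        (1 + σ) * (Gc (σ + N) (ch.zp R) x / (σ + N)) := (GQ2_two hp hz z0 op hσ0 hN1 hx).2
    have a2 := Gc_time (s' := N + (j + 1)) hs (by linarith [hσ.2]) (by linarith [hσ.1]) hz z0 x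
    have a3 := Gc_le_pl (s := N + (j + 1)) (by linarith) hz z0 (lat x) hx
    have a4 := GQ2_exp ch (a := σ) (b := j + 1) (by linarith [hσ.1])
    have a5 := GQ2_nonneg hs z0 x
    have a6 := GQ2_nonneg hs' z0 x
    have a7 : Gc (σ + N) (ch.zp R) x / (σ + N) ≤
        6 * (Gc (N + (j + 1)) (ch.zp R) x / (N + (j + 1))) := by
      rw [← mul_div_assoc, div_le_div_iff₀ hs hs']
      have : (N : ℝ) + (j + 1) ≤ 2 * (σ + N) := by linarith [hσ.1]
      calc _ ≤ (3 * Gc (N + (j + 1)) (ch.zp R) x) * (2 * (σ + N)) :=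
            mul_le_mul a2 this hs'.le (by positivity)
        _ = _ := by ring
    have a8 : (1 + σ) * (Gc (σ + N) (ch.zp R) x / (σ + N)) ≤
        (2 * (j + 1)) * (6 * (Gc (N + (j + 1)) (ch.zp R) x / (N + (j + 1)))) :=
      mul_le_mul (by linarith [hσ.2]) a7 (by positivity) (by positivity)
    have a9 : Gc (N + (j + 1)) (ch.zp R) x / (N + (j + 1)) ≤
        (21 * Gc (N + (j + 1)) (ch.zp R) (pl x) + tl (N + (j + 1)) (ch.zp R) (lat x) x) /
          (N + (j + 1)) := div_le_div_of_nonneg_right a3 hs'.le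
    calc _ ≤ Real.exp (-ch.m1 * σ) *
          ((2 * (j + 1)) * (6 * (Gc (N + (j + 1)) (ch.zp R) x / (N + (j + 1))))) :=
          mul_le_mul_of_nonneg_left (a1.trans a8) (Real.exp_pos _).le
      _ ≤ (2 * Real.exp (-ch.m1 * (j + 1))) *
          ((2 * (j + 1)) * (6 * (Gc (N + (j + 1)) (ch.zp R) x / (N + (j + 1))))) :=
          mul_le_mul_of_nonneg_right a4 (by positivity)
      _ ≤ (2 * Real.exp (-ch.m1 * (j + 1))) * ((2 * (j + 1)) * (6 *
          ((21 * Gc (N + (j + 1)) (ch.zp R) (pl x) + tl (N + (j + 1)) (ch.zp R) (lat x) x) /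
          (N + (j + 1))))) := by gcongr
      _ = _ := by ring
  unfold Chan.qm Chan.tau Chan.ttau
  have b1 := mul_le_mul_of_nonneg_left h1 (Real.exp_pos (-ch.m1 * N)).le
  have b2 := mul_le_mul_of_nonneg_left h2 (GQ2_pre ch N x)
  linarith

/-- The integrand is at least `σ Gc s zp x / s ≥ 0`; use `j + 1 < σ ≤ j + 2` for `j < N`,
`Gc_ge_pl`, `Gc_time`. -/
theorem Chan.le_qm {ch : Chan o C ε} {R A : ℝ} (h : ch.FA R A) {N : ℕ} (hN : 1 ≤ N) {x : X}
    (hx : |x 2| ≤ 1) : ch.tau R N x ≤ 24 * ch.qm R N (N + 1) x := by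
  obtain ⟨hp, hq, hz, op, eq, ez, q0, z0, -, -⟩ := h.tr
  have hN1 : (1 : ℝ) ≤ N := by exact_mod_cast hN
  have hN0 : (0 : ℝ) < N := by linarith
  have hF := fun t : ℝ => integrableOn_Gc ch.m1 (t := t) (memLp_z_Gc hN0 hp hz) x
  have h1 : Real.exp (-ch.m1 * N) * Gc N (ch.qt R) (pl x) ≤
      24 * (Real.exp (-ch.m1 * (N + 1)) * Gc (N + 1) (ch.qt R) x) := by
    have a1 := Gc_ge_pl hN1 hq q0 eq hx
    have a2 := Gc_time (s' := N + 1) hN0 (by linarith) (by linarith) hq q0 x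
    have a3 := GQ2_nonneg (s := N + 1) (by linarith) q0 x
    have a4 := GQ2_exp ch (a := N) (b := N + 1) le_rfl
    have a5 := GQ2_nonneg hN0 q0 (pl x)
    calc _ ≤ (2 * Real.exp (-ch.m1 * (N + 1))) * (12 * Gc (N + 1) (ch.qt R) x) :=
          mul_le_mul a4 (by linarith) a5 (by positivity)
      _ = _ := by ring
  have h2 : ∑ j ∈ Finset.range N, ((j : ℝ) + 1) * Real.exp (-ch.m1 * (j + 1)) *
          (Gc (N + (j + 1)) (ch.zp R) (pl x) / (N + (j + 1))) ≤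
      24 * ∫ σ in Ioc (0 : ℝ) (N + 1),
        Real.exp (-ch.m1 * σ) * Gc σ (fun y => y 2 * Gc N (ch.pt R) y) x := by
    have e := GQ2_split hF (N + 1)
    rw [Finset.sum_range_succ'] at e
    push_cast at e
    rw [e, mul_add, Finset.mul_sum]
    have c0 : 0 ≤ ∫ σ in Ioc (0 : ℝ) (0 + 1),
        Real.exp (-ch.m1 * σ) * Gc σ (fun y => y 2 * Gc N (ch.pt R) y) x := by
      refine setIntegral_nonneg measurableSet_Ioc fun σ hσ => ?_
      have hs : 0 < σ + N := by linarith [hσ.1]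
      have a1 := (GQ2_two hp hz z0 op hσ.1 hN1 hx).1
      have a2 := GQ2_nonneg hs z0 x
      have a3 := hσ.1
      exact mul_nonneg (Real.exp_pos _).le (le_trans
        (mul_nonneg a3.le (div_nonneg a2 hs.le)) a1)
    refine le_add_of_le_of_nonneg (Finset.sum_le_sum fun j _ => ?_) (by positivity)
    rw [← integral_const_mul]
    have hi := GQ2_int hF (j + 1)
    push_cast at hi
    refine GQ2_ge (hi.const_mul 24) fun σ hσ => ?_
    have hj : (0 : ℝ) ≤ j := Nat.cast_nonneg j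
    have hσ0 : 0 < σ := by linarith [hσ.1]
    have hs : 0 < σ + N := by linarith
    have hs' : 0 < (N : ℝ) + (j + 1) := by linarith
    have a1 : σ * (Gc (σ + N) (ch.zp R) x / (σ + N)) ≤
        Gc σ (fun y => y 2 * Gc N (ch.pt R) y) x := (GQ2_two hp hz z0 op hσ0 hN1 hx).1
    have a2 := Gc_time (s' := σ + N) hs' (by linarith [hσ.1]) (by linarith [hσ.2]) hz z0 x
    have a3 := Gc_ge_pl (s := N + (j + 1)) (by linarith) hz z0 ez hx
    have a4 := GQ2_exp ch (a := j + 1) (b := σ) hσ.2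
    have a5 := GQ2_nonneg hs z0 x
    have a6 := GQ2_nonneg hs' z0 (pl x)
    have a7 : Gc (N + (j + 1)) (ch.zp R) (pl x) / (N + (j + 1)) ≤
        12 * (Gc (σ + N) (ch.zp R) x / (σ + N)) := by
      rw [← mul_div_assoc, div_le_div_iff₀ hs' hs]
      have : σ + N ≤ 2 * ((N : ℝ) + (j + 1)) := by linarith [hσ.2]
      calc _ ≤ (6 * Gc (σ + N) (ch.zp R) x) * (2 * ((N : ℝ) + (j + 1))) :=
            mul_le_mul (by linarith) this hs.le (by positivity)
        _ = _ := by ring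
    calc _ ≤ σ * (2 * Real.exp (-ch.m1 * σ)) * (12 * (Gc (σ + N) (ch.zp R) x / (σ + N))) :=
          mul_le_mul (mul_le_mul hσ.1.le a4 (Real.exp_pos _).le hσ0.le) a7 (by positivity)
            (by positivity)
      _ = 24 * (Real.exp (-ch.m1 * σ) * (σ * (Gc (σ + N) (ch.zp R) x / (σ + N)))) := by ring
      _ ≤ _ := by gcongr
  unfold Chan.qm Chan.tau
  have b2 := mul_le_mul_of_nonneg_left h2 (GQ2_pre ch N x)
  linarith

end Crest.Agent.R335
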