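import Crest.Agent.R335.GLat

/-! Row 335. Stage B: derivatives of `tau` and `h0`. -/

set_option autoImplicit false

open MeasureTheory Set Filter Topology
open scoped ENNReal

noncomputable section

namespace Crest.Agent.R335

variable {c : ℝ} {o : One c} {C ε : ℝ}

theorem GTau_r {y : X} (hy : 0 < ‖y‖) (κ : ℝ) : ∃ D : X →L[ℝ] ℝ,
    HasFDerivAt (fun y : X => κ / ‖y‖ ^ 3) D y ∧
      ∀ w, D w = -(3 * κ * inner ℝ y w / ‖y‖ ^ 5) := by
  have h1 : HasFDerivAt (fun y : X => ‖y‖ ^ 3) ((3 * ‖y‖) • innerSL ℝ y) y := by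
    have h := hasFDerivAt_norm_rpow y (p := 3) (by norm_num)
    have e1 : (fun x : X => ‖x‖ ^ (3 : ℝ)) = fun x : X => ‖x‖ ^ 3 := by
      funext x
      exact_mod_cast Real.rpow_natCast ‖x‖ 3
    have e2 : ‖y‖ ^ ((3 : ℝ) - 2) = ‖y‖ := by norm_num
    rwa [e1, e2] at h
  have h2 := ((hasDerivAt_inv (pow_pos hy 3).ne').comp_hasFDerivAt y h1).const_mul κ
  refine ⟨_, h2.congr_of_eventuallyEq (Eventually.of_forall fun z => ?_), fun w => ?_⟩
  · simp [div_eq_mul_inv]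
  · simp only [smul_apply, smul_eq_mul, innerSL_apply_apply]
    field_simp

theorem GTau_spos {N : ℕ} (hN : 1 ≤ N) (j : ℕ) : (1 : ℝ) ≤ N + (j + 1) := by
  have : (1 : ℝ) ≤ N := by exact_mod_cast hN
  have : (0 : ℝ) ≤ j := Nat.cast_nonneg j
  linarith

theorem GTau_S_nonneg {ch : Chan o C ε} {R A : ℝ} (h : ch.FA R A) {N : ℕ} (hN : 1 ≤ N) (y : X) :
    0 ≤ ∑ j ∈ Finset.range N,
      (j + 1) * Real.exp (-ch.m1 * (j + 1)) * (Gc (N + (j + 1)) (ch.zp R) y / (N + (j + 1))) := by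
  obtain ⟨-, -, hz, -, -, -, -, hz0, -, hzn⟩ := h.tr
  refine Finset.sum_nonneg fun j _ => ?_
  have h1 := GTau_spos hN j
  have h2 := Gc_pos (τ := N + (j + 1)) (by linarith) hz hz0 hzn y
  positivity

/-- The derivative of `tau`. -/
theorem GTau_fderiv {ch : Chan o C ε} {R A : ℝ} (h : ch.FA R A) {N : ℕ} (hN : 1 ≤ N) {x : X}
    (hx : 0 < ‖pl x‖) (w : X) :
    fderiv ℝ (ch.tau R N) x w =
      Real.exp (-ch.m1 * N) * fderiv ℝ (Gc N (ch.qt R)) (pl x) (pl w) +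
      (ε * ch.d / ‖pl x‖ ^ 3 * Real.exp (-ch.I * N) * ∑ j ∈ Finset.range N,
        (j + 1) * Real.exp (-ch.m1 * (j + 1)) *
          (fderiv ℝ (Gc (N + (j + 1)) (ch.zp R)) (pl x) (pl w) / (N + (j + 1))) -
      3 * (ε * ch.d) * inner ℝ (pl x) (pl w) / ‖pl x‖ ^ 5 * Real.exp (-ch.I * N) *
        ∑ j ∈ Finset.range N, (j + 1) * Real.exp (-ch.m1 * (j + 1)) *
          (Gc (N + (j + 1)) (ch.zp R) (pl x) / (N + (j + 1)))) := by
  obtain ⟨-, hq, hz, -⟩ := h.tr
  obtain ⟨L, hL⟩ := exists_plL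
  have hN' : (1 : ℝ) ≤ N := by exact_mod_cast hN
  have hpl : HasFDerivAt pl L x := by
    have : pl = L := funext fun y => (hL y).symm
    rw [this]; exact L.hasFDerivAt
  obtain ⟨D, hD, hDw⟩ := GTau_r hx (ε * ch.d)
  have h1 : HasFDerivAt (Gc N (ch.qt R)) (fderiv ℝ (Gc N (ch.qt R)) (pl x)) (pl x) :=
    ((contDiff_Gc (by linarith) hq).differentiable one_ne_zero (pl x)).hasFDerivAt
  have h2 : ∀ j ∈ Finset.range N, HasFDerivAt (fun y => ((j : ℝ) + 1) * Real.exp (-ch.m1 * (j + 1)) *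
      (Gc (N + (j + 1)) (ch.zp R) y / (N + (j + 1))))
      ((((j : ℝ) + 1) * Real.exp (-ch.m1 * (j + 1)) / (N + (j + 1))) •
        fderiv ℝ (Gc (N + (j + 1)) (ch.zp R)) (pl x)) (pl x) := by
    intro j _
    have h3 := ((contDiff_Gc (τ := N + (j + 1)) (by linarith [GTau_spos hN j]) hz).differentiable
      one_ne_zero (pl x)).hasFDerivAt.const_mul
      (((j : ℝ) + 1) * Real.exp (-ch.m1 * (j + 1)) / (N + (j + 1)))
    refine h3.congr_of_eventuallyEq (Eventually.of_forall fun z => ?_)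
    simp only
    ring
  have h3 := ((h1.const_mul (Real.exp (-ch.m1 * N))).add
    ((hD.mul_const (Real.exp (-ch.I * N))).mul (HasFDerivAt.fun_sum h2))).comp x hpl
  have h4 : HasFDerivAt (ch.tau R N) _ x := h3
  rw [h4.fderiv]
  simp only [ContinuousLinearMap.comp_apply, add_apply,
    smul_apply, smul_eq_mul, sum_apply, hL, hDw]
  have e : ∀ j ∈ Finset.range N, ((j : ℝ) + 1) * Real.exp (-ch.m1 * (j + 1)) / (N + (j + 1)) *
      fderiv ℝ (Gc (N + (j + 1)) (ch.zp R)) (pl x) (pl w) =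
      (j + 1) * Real.exp (-ch.m1 * (j + 1)) *
        (fderiv ℝ (Gc (N + (j + 1)) (ch.zp R)) (pl x) (pl w) / (N + (j + 1))) := fun j _ => by ring
  rw [Finset.sum_congr rfl e]
  ring

theorem GTau_fderiv_h0 {ch : Chan o C ε} {R A : ℝ} (h : ch.FA R A) {N : ℕ} (hN : 1 ≤ N) (x w : X) :
    fderiv ℝ (ch.h0 R N) x w =
      Real.exp (-ch.I * N) * (fderiv ℝ (Gc N (ch.zp R)) (pl x) (pl w) / N) := by
  obtain ⟨-, hq, hz, -⟩ := h.tr
  obtain ⟨L, hL⟩ := exists_plL
  have hN' : (1 : ℝ) ≤ N := by exact_mod_cast hN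
  have hpl : HasFDerivAt pl L x := by
    have : pl = L := funext fun y => (hL y).symm
    rw [this]; exact L.hasFDerivAt
  have h1 : HasFDerivAt (Gc N (ch.zp R)) (fderiv ℝ (Gc N (ch.zp R)) (pl x)) (pl x) :=
    ((contDiff_Gc (by linarith) hz).differentiable one_ne_zero (pl x)).hasFDerivAt
  have h3 := (h1.const_mul (Real.exp (-ch.I * N) / N)).comp x hpl
  have h4 : HasFDerivAt (ch.h0 R N) _ x :=
    h3.congr_of_eventuallyEq (Eventually.of_forall fun z => by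
      simp only [Chan.h0, Function.comp_apply]; ring)
  rw [h4.fderiv]
  simp only [ContinuousLinearMap.comp_apply, smul_apply, smul_eq_mul, hL]
  ring

theorem Chan.tau_c1 {ch : Chan o C ε} {R A : ℝ} (h : ch.FA R A) {N : ℕ} (hN : 1 ≤ N) :
    ContDiffOn ℝ 1 (ch.tau R N) {x | 0 < ‖pl x‖} ∧ ContDiff ℝ 1 (ch.h0 R N) ∧
      (∀ x, 0 < ch.tau R N x) ∧ (∀ x, 0 < ch.h0 R N x) ∧
      (∀ x, ch.tau R N (pl x) = ch.tau R N x) ∧ ∀ x, ch.h0 R N (pl x) = ch.h0 R N x := by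
  obtain ⟨-, hq, hz, -, -, -, hq0, hz0, hqn, hzn⟩ := h.tr
  obtain ⟨L, hL⟩ := exists_plL
  have hN' : (1 : ℝ) ≤ N := by exact_mod_cast hN
  have hpl : ContDiff ℝ 1 pl := by
    have : pl = L := funext fun y => (hL y).symm
    rw [this]; exact L.contDiff
  have hε := ch.ε0
  have hd := ch.d1
  refine ⟨?_, ?_, fun x => ?_, fun x => ?_, fun x => ?_, fun x => ?_⟩
  · intro x hx
    refine ContDiffAt.contDiffWithinAt ?_
    have hx' : pl x ≠ 0 := norm_pos_iff.mp hx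
    have h1 : ContDiffAt ℝ 1 (fun y => ‖pl y‖) x := hpl.contDiffAt.norm ℝ hx'
    unfold Chan.tau
    refine (contDiffAt_const.mul ((contDiff_Gc (by linarith) hq).comp hpl).contDiffAt).add
      (((contDiffAt_const.div (h1.pow 3) (pow_pos hx 3).ne').mul contDiffAt_const).mul
        (ContDiffAt.sum fun j _ => contDiffAt_const.mul (ContDiffAt.div_const ?_ _)))
    exact ((contDiff_Gc (by linarith [GTau_spos hN j]) hz).comp hpl).contDiffAt
  · unfold Chan.h0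
    exact contDiff_const.mul (((contDiff_Gc (by linarith) hz).comp hpl).div_const _)
  · have h1 := Gc_pos (τ := N) (by linarith) hq hq0 hqn (pl x)
    have h2 := GTau_S_nonneg h hN (pl x)
    unfold Chan.tau
    positivity
  · have h1 := Gc_pos (τ := N) (by linarith) hz hz0 hzn (pl x)
    unfold Chan.h0
    positivity
  · simp only [Chan.tau, pl_pl]
  · simp only [Chan.h0, pl_pl]

/-- `Gc_rad` at the point `pl x`; the derivative of `‖pl x‖⁻³` in the direction `lat x` is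
negative. -/
theorem Chan.tau_rad {ch : Chan o C ε} {R A : ℝ} (h : ch.FA R A) {N : ℕ} (hN : 1 ≤ N) {x : X}
    (hx : 0 < ‖pl x‖) :
    fderiv ℝ (ch.tau R N) x (lat x) ≤ -ch.tau R N x / 4 + ch.ttau R N (pl x) := by
  obtain ⟨-, hq, hz, -, -, -, hq0, hz0, -, -⟩ := h.tr
  have hN' : (1 : ℝ) ≤ N := by exact_mod_cast hN
  have hε := ch.ε0
  have hd := ch.d1
  rw [GTau_fderiv h hN hx, pl_lat]
  simp only [Chan.tau, Chan.ttau, pl_pl, lat_pl]
  have h1 := Gc_rad hN' hq hq0 (norm_lat hx) (pl x)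
  have h2 : ∑ j ∈ Finset.range N, (j + 1) * Real.exp (-ch.m1 * (j + 1)) *
      (fderiv ℝ (Gc (N + (j + 1)) (ch.zp R)) (pl x) (lat x) / (N + (j + 1))) ≤
      -(∑ j ∈ Finset.range N, (j + 1) * Real.exp (-ch.m1 * (j + 1)) *
        (Gc (N + (j + 1)) (ch.zp R) (pl x) / (N + (j + 1)))) / 4 +
      ∑ j ∈ Finset.range N, (j + 1) * Real.exp (-ch.m1 * (j + 1)) *
        (tl (N + (j + 1)) (ch.zp R) (lat x) (pl x) / (N + (j + 1))) := by
    rw [← Finset.sum_neg_distrib, Finset.sum_div, ← Finset.sum_add_distrib]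
    refine Finset.sum_le_sum fun j _ => ?_
    have h3 := GTau_spos hN j
    have h4 := Gc_rad h3 hz hz0 (norm_lat hx) (pl x)
    calc _ ≤ ((j : ℝ) + 1) * Real.exp (-ch.m1 * (j + 1)) *
          ((-Gc (N + (j + 1)) (ch.zp R) (pl x) / 4 +
            tl (N + (j + 1)) (ch.zp R) (lat x) (pl x)) / (N + (j + 1))) := by gcongr
      _ = _ := by ring
  have h3 : 0 ≤ inner ℝ (pl x) (lat x) := by
    rw [lat, inner_smul_right, real_inner_self_eq_norm_sq]
    positivity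
  have h4 := GTau_S_nonneg h hN (pl x)
  have h5 : 0 ≤ 3 * (ε * ch.d) * inner ℝ (pl x) (lat x) / ‖pl x‖ ^ 5 * Real.exp (-ch.I * N) *
      ∑ j ∈ Finset.range N, (j + 1) * Real.exp (-ch.m1 * (j + 1)) *
        (Gc (N + (j + 1)) (ch.zp R) (pl x) / (N + (j + 1))) := by positivity
  have h6 := mul_le_mul_of_nonneg_left h1 (Real.exp_pos (-ch.m1 * N)).le
  have h7 := mul_le_mul_of_nonneg_left h2
    (by positivity : 0 ≤ ε * ch.d / ‖pl x‖ ^ 3 * Real.exp (-ch.I * N))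
  linarith

theorem Chan.tau_grad {ch : Chan o C ε} {R A : ℝ} (h : ch.FA R A) {N : ℕ} (hN : 1 ≤ N) {x : X}
    (hx : 1 ≤ ‖pl x‖) :
    ‖fderiv ℝ (ch.tau R N) x‖ ≤ 5 * ch.tau R N x + ch.ttau R N (pl x) ∧
      ‖fderiv ℝ (ch.h0 R N) x‖ ≤ 2 * ch.h0 R N x +
        Real.exp (-ch.I * N) * (tl N (ch.zp R) (lat x) (pl x) / N) := by
  obtain ⟨-, hq, hz, -, -, -, hq0, hz0, hqn, hzn⟩ := h.tr
  have hN' : (1 : ℝ) ≤ N := by exact_mod_cast hN
  have hε := ch.ε0
  have hd := ch.d1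
  have hx0 : 0 < ‖pl x‖ := by linarith
  have key : ∀ {s : ℝ} {f : X → ℝ}, 1 ≤ s → MemLp f 2 volume → (∀ᵐ y, 0 ≤ f y) → nsq f ≠ 0 → ∀ w,
      |fderiv ℝ (Gc s f) (pl x) (pl w)| ≤ (2 * Gc s f (pl x) + tl s f (lat x) (pl x)) * ‖w‖ := by
    intro s f hs hf h0 hn w
    have h1 := Gc_pos (τ := s) (by linarith) hf h0 hn (pl x)
    have h2 := tl_nonneg (s := s) (by linarith) h0 (lat x) (pl x)
    exact (Gc_grad hs hf h0 (lat x) (pl x) (pl w)).trans
      (mul_le_mul_of_nonneg_left (norm_pl_le w) (by positivity))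
  have hq1 := Gc_pos (τ := N) (by linarith) hq hq0 hqn (pl x)
  have hq2 := tl_nonneg (s := N) (by linarith) hq0 (lat x) (pl x)
  have hz1 := Gc_pos (τ := N) (by linarith) hz hz0 hzn (pl x)
  have hz2 := tl_nonneg (s := N) (by linarith) hz0 (lat x) (pl x)
  constructor
  · have h4 := GTau_S_nonneg h hN (pl x)
    have h4' : 0 ≤ ∑ j ∈ Finset.range N, (j + 1) * Real.exp (-ch.m1 * (j + 1)) *
        (tl (N + (j + 1)) (ch.zp R) (lat x) (pl x) / (N + (j + 1))) := by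
      refine Finset.sum_nonneg fun j _ => ?_
      have h1 := GTau_spos hN j
      have h2 := tl_nonneg (s := N + (j + 1)) (by linarith) hz0 (lat x) (pl x)
      positivity
    refine ContinuousLinearMap.opNorm_le_bound _ ?_ fun w => ?_
    · simp only [Chan.tau, Chan.ttau, pl_pl, lat_pl]
      positivity
    rw [GTau_fderiv h hN hx0, Real.norm_eq_abs]
    simp only [Chan.tau, Chan.ttau, pl_pl, lat_pl]
    have h1 := key hN' hq hq0 hqn w
    have h2 : |∑ j ∈ Finset.range N, (j + 1) * Real.exp (-ch.m1 * (j + 1)) *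
        (fderiv ℝ (Gc (N + (j + 1)) (ch.zp R)) (pl x) (pl w) / (N + (j + 1)))| ≤
        (2 * ∑ j ∈ Finset.range N, (j + 1) * Real.exp (-ch.m1 * (j + 1)) *
          (Gc (N + (j + 1)) (ch.zp R) (pl x) / (N + (j + 1))) +
        ∑ j ∈ Finset.range N, (j + 1) * Real.exp (-ch.m1 * (j + 1)) *
          (tl (N + (j + 1)) (ch.zp R) (lat x) (pl x) / (N + (j + 1)))) * ‖w‖ := by
      rw [Finset.mul_sum, ← Finset.sum_add_distrib, Finset.sum_mul]
      refine (Finset.abs_sum_le_sum_abs _ _).trans (Finset.sum_le_sum fun j _ => ?_)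
      have h3 := GTau_spos hN j
      have h5 := key h3 hz hz0 hzn w
      rw [abs_mul, abs_div, abs_of_nonneg (by positivity : (0 : ℝ) ≤ (j + 1) * Real.exp (-ch.m1 * (j + 1))),
        abs_of_nonneg (by linarith : (0 : ℝ) ≤ N + (j + 1))]
      calc _ ≤ ((j : ℝ) + 1) * Real.exp (-ch.m1 * (j + 1)) *
            ((2 * Gc (N + (j + 1)) (ch.zp R) (pl x) +
              tl (N + (j + 1)) (ch.zp R) (lat x) (pl x)) * ‖w‖ / (N + (j + 1))) := by gcongr
        _ = _ := by ring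
    have h3 : |3 * (ε * ch.d) * inner ℝ (pl x) (pl w) / ‖pl x‖ ^ 5| ≤
        3 * (ε * ch.d / ‖pl x‖ ^ 3) * ‖w‖ := by
      have h5 : |inner ℝ (pl x) (pl w)| ≤ ‖pl x‖ ^ 2 * ‖w‖ := by
        refine (abs_real_inner_le_norm _ _).trans (mul_le_mul ?_ (norm_pl_le w) (norm_nonneg _)
          (by positivity))
        nlinarith
      rw [abs_div, abs_mul, abs_of_nonneg (by positivity : 0 ≤ 3 * (ε * ch.d)),
        abs_of_nonneg (by positivity : 0 ≤ ‖pl x‖ ^ 5)]
      calc _ ≤ 3 * (ε * ch.d) * (‖pl x‖ ^ 2 * ‖w‖) / ‖pl x‖ ^ 5 := by gcongr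
        _ = _ := by field_simp
    generalize (∑ j ∈ Finset.range N, ((j : ℝ) + 1) * Real.exp (-ch.m1 * (j + 1)) *
        (fderiv ℝ (Gc (N + (j + 1)) (ch.zp R)) (pl x) (pl w) / (N + (j + 1)))) = S' at h2 ⊢
    generalize (∑ j ∈ Finset.range N, ((j : ℝ) + 1) * Real.exp (-ch.m1 * (j + 1)) *
          (Gc (N + (j + 1)) (ch.zp R) (pl x) / (N + (j + 1)))) = S at h2 h4 ⊢
    generalize (∑ j ∈ Finset.range N, ((j : ℝ) + 1) * Real.exp (-ch.m1 * (j + 1)) *
          (tl (N + (j + 1)) (ch.zp R) (lat x) (pl x) / (N + (j + 1)))) = St at h2 h4' ⊢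
    have hκ : 0 ≤ ε * ch.d / ‖pl x‖ ^ 3 := by positivity
    generalize 3 * (ε * ch.d) * inner ℝ (pl x) (pl w) / ‖pl x‖ ^ 5 = ρ at h3 ⊢
    generalize ε * ch.d / ‖pl x‖ ^ 3 = κ at h3 hκ ⊢
    have ha := (Real.exp_pos (-ch.m1 * N)).le
    have hb := (Real.exp_pos (-ch.I * N)).le
    generalize Real.exp (-ch.m1 * N) = a at ha ⊢
    generalize Real.exp (-ch.I * N) = b at hb ⊢
    generalize fderiv ℝ (Gc N (ch.qt R)) (pl x) (pl w) = F' at h1 ⊢
    generalize Gc N (ch.qt R) (pl x) = F at h1 hq1 ⊢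
    generalize tl N (ch.qt R) (lat x) (pl x) = Ft at h1 hq2 ⊢
    have hw := norm_nonneg w
    calc |a * F' + (κ * b * S' - ρ * b * S)| ≤ |a * F'| + (|κ * b * S'| + |ρ * b * S|) :=
          (abs_add_le _ _).trans (by gcongr; exact abs_sub _ _)
      _ = a * |F'| + (κ * b * |S'| + |ρ| * b * S) := by
          simp only [abs_mul, abs_of_nonneg ha, abs_of_nonneg hb, abs_of_nonneg hκ, abs_of_nonneg h4]
      _ ≤ a * ((2 * F + Ft) * ‖w‖) + (κ * b * ((2 * S + St) * ‖w‖) + 3 * κ * ‖w‖ * b * S) := by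
          gcongr
      _ ≤ _ := by
          have : 0 ≤ a * F * ‖w‖ := by positivity
          nlinarith
  · refine ContinuousLinearMap.opNorm_le_bound _ ?_ fun w => ?_
    · simp only [Chan.h0]
      positivity
    rw [GTau_fderiv_h0 h hN, Real.norm_eq_abs, abs_mul, abs_div, Real.abs_exp,
      abs_of_nonneg (by linarith : (0 : ℝ) ≤ N)]
    have h1 := key hN' hz hz0 hzn w
    calc _ ≤ Real.exp (-ch.I * N) *
          ((2 * Gc N (ch.zp R) (pl x) + tl N (ch.zp R) (lat x) (pl x)) * ‖w‖ / N) := by gcongr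
      _ = _ := by simp only [Chan.h0]; ring

/-- Apply the mean value theorem to `log u` on the segment from `pl x` to `pl y`. -/
theorem loc_of_grad {R : ℝ} {u : X → ℝ} (hu : DifferentiableOn ℝ u {x | R < ‖pl x‖})
    (hp : ∀ x, R < ‖pl x‖ → 0 < u x) (hpl : ∀ x, u (pl x) = u x)
    (hg : ∀ x, R < ‖pl x‖ → ‖fderiv ℝ u x‖ ≤ 6 * u x) {x y : X} (hx : R + 1 < ‖pl x‖)
    (hxy : ‖pl x - pl y‖ ≤ 1) : u x ≤ 404 * u y := by
  obtain ⟨L, hL⟩ := exists_plL
  have hopen : IsOpen {x : X | R < ‖pl x‖} := isOpen_lt continuous_const continuous_pl.norm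
  have hin : ∀ z ∈ Metric.closedBall (pl x) 1, R < ‖pl z‖ := by
    intro z hz
    rw [Metric.mem_closedBall, dist_eq_norm] at hz
    have h1 : pl z - pl x = pl (z - pl x) := by
      rw [← hL (z - pl x), map_sub, hL, hL, pl_pl]
    have h2 : ‖pl z - pl x‖ ≤ 1 := by rw [h1]; exact (norm_pl_le _).trans hz
    have h3 := norm_sub_norm_le (pl x) (pl z)
    rw [norm_sub_rev] at h3
    linarith
  have hd : ∀ z ∈ Metric.closedBall (pl x) 1, HasFDerivWithinAt (fun z => Real.log (u z))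
      ((u z)⁻¹ • fderiv ℝ u z) (Metric.closedBall (pl x) 1) z := fun z hz =>
    (((hu z (hin z hz)).differentiableAt (hopen.mem_nhds (hin z hz))).hasFDerivAt.log
      (hp z (hin z hz)).ne').hasFDerivWithinAt
  have hb : ∀ z ∈ Metric.closedBall (pl x) 1, ‖(u z)⁻¹ • fderiv ℝ u z‖ ≤ 6 := by
    intro z hz
    have h1 := hp z (hin z hz)
    rw [norm_smul, Real.norm_eq_abs, abs_of_pos (inv_pos.mpr h1), inv_mul_le_iff₀ h1]
    linarith [hg z (hin z hz)]
  have hy : pl y ∈ Metric.closedBall (pl x) 1 := by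
    rw [Metric.mem_closedBall, dist_eq_norm, norm_sub_rev]; exact hxy
  have hx' : pl x ∈ Metric.closedBall (pl x) 1 := Metric.mem_closedBall_self zero_le_one
  have h1 := (convex_closedBall (pl x) 1).norm_image_sub_le_of_norm_hasFDerivWithin_le hd hb hy hx'
  rw [hpl, hpl, Real.norm_eq_abs] at h1
  have h2 : Real.log (u x) ≤ 6 + Real.log (u y) := by
    have := le_abs_self (Real.log (u x) - Real.log (u y))
    linarith
  have hux : 0 < u x := hp x (by linarith)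
  have huy : 0 < u y := by
    have := hin _ hy
    rw [pl_pl] at this
    exact hp y this
  have h3 : Real.exp 6 ≤ 404 := by
    have h4 := Real.exp_one_lt_d9
    calc Real.exp 6 = Real.exp 1 ^ 6 := by rw [← Real.exp_nat_mul]; norm_num
      _ ≤ 2.7182818286 ^ 6 := by gcongr
      _ ≤ 404 := by norm_num
  calc u x = Real.exp (Real.log (u x)) := (Real.exp_log hux).symm
    _ ≤ Real.exp (6 + Real.log (u y)) := Real.exp_le_exp.mpr h2
    _ = Real.exp 6 * u y := by rw [Real.exp_add, Real.exp_log huy]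
    _ ≤ 404 * u y := by gcongr

end Crest.Agent.R335
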