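import Crest.Agent.R335.GTail
import Crest.Agent.R335.GQ
import Crest.Agent.R335.GQ2
import Crest.Agent.R335.GTau

/-! Row 335. Stage B: assembly. -/

set_option autoImplicit false

open MeasureTheory Set Filter Topology
open scoped ENNReal

noncomputable section

namespace Crest.Agent.R335

variable {c : ℝ} {o : One c} {C ε : ℝ}

theorem StG_exp3 : Real.exp 3 ≤ 100 := by
  have h1 : Real.exp 3 = Real.exp 1 ^ 3 := by rw [← Real.exp_nat_mul]; norm_num
  have h2 := Real.exp_one_lt_d9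
  have h3 : Real.exp 1 ^ 3 ≤ 3 ^ 3 := pow_le_pow_left₀ (Real.exp_pos 1).le (by linarith) 3
  rw [h1]
  linarith

theorem StG_Q0 (ch : Chan o C ε) {x : X} (hx : 1 ≤ ‖pl x‖) (h2 : |x 2| ≤ 1) :
    ch.Q0 (pl x) ≤ 1000000 * ch.Q0 x ∧ ch.Q0 x ≤ 1000000 * ch.Q0 (pl x) := by
  have hx' : 1 ≤ ‖x‖ := hx.trans (norm_pl_le x)
  have e : Real.exp (3 * |x 2|) ≤ 100 := (Real.exp_le_exp.2 (by linarith)).trans StG_exp3
  have p1 := ch.Q0_pos (x := x) (by linarith)
  have p2 := ch.Q0_pos (x := pl x) (by linarith)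
  constructor
  · have := ch.Q0_ratio hx' hx
    rw [norm_sub_pl] at this
    nlinarith
  · have := ch.Q0_ratio hx hx'
    rw [norm_sub_rev, norm_sub_pl] at this
    nlinarith

theorem StG_h (ch : Chan o C ε) {x : X} (hx : 1 ≤ ‖pl x‖) (h2 : |x 2| ≤ 1) :
    ch.h (pl x) ≤ 200 * ch.h x := by
  have hx' : 1 ≤ ‖x‖ := hx.trans (norm_pl_le x)
  have h1 := ch.h_ratio hx' hx
  rw [norm_sub_pl] at h1
  have h3 : ‖x‖ - ‖pl x‖ ≤ |x 2| := by
    rw [← norm_sub_pl]; exact norm_sub_norm_le _ _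
  have h4 := norm_pl_le x
  obtain ⟨k1, k2⟩ := ch.k_bd
  have e : Real.exp (ch.k * (‖x‖ - ‖pl x‖)) ≤ 100 :=
    (Real.exp_le_exp.2 (by nlinarith)).trans StG_exp3
  have p1 := ch.h_pos (x := x) (by linarith)
  have h5 : (1 + |x 2|) * Real.exp (ch.k * (‖x‖ - ‖pl x‖)) ≤ 2 * 100 :=
    mul_le_mul (by linarith) e (Real.exp_pos _).le (by norm_num)
  nlinarith

/-- `K = 2000`.  Choose `N` from `ttau_small` with `η' = 1 / (10^{12} A)`, then `R` large.
`Q0 (pl x) ≤ 10⁶ Q0 x ≤ 10⁶ A q x` (`Q0_ratio`).  `q ≤ 504 τ + 24 ttau + C₃ Q0 / ρ ≤ 504 τ + q / 2`;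
`τ ≤ 24 (q + C₃ Q0 / ρ) ≤ 48 q`.  By `le_of_ae_slab`: `Q0 (pl x) ≤ 10⁶ · 1008 A τ x`,
`h (pl x) ≤ 600 A h0 x` and `τ x ≤ 48 · 10⁶ A Q0 (pl x)` everywhere, so the tails are at most `τ / 8`
and `h0`; `Q0 (pl x) ≤ η'' h (pl x)` for large `R` (`H_small`). -/
theorem stG : ∃ K : ℝ, 1 ≤ K ∧ ∀ (c : ℝ) (o : One c) (C R₀ A η : ℝ), 0 < η → ∃ R : ℝ, R₀ ≤ R ∧
    ∀ (ε : ℝ) (ch : Chan o C ε), ch.FA R₀ A → ∃ τ h0, ch.FG R K η τ h0 := by
  refine ⟨2000, by norm_num, fun c o C R₀ A η hη => ?_⟩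
  rcases lt_or_ge A 1 with hA | hA
  · exact ⟨R₀, le_rfl, fun ε ch h => absurd h.A1 (not_le.2 hA)⟩
  have hA0 : 0 < A := by linarith
  obtain ⟨N, hN, hT⟩ := ttau_small A C (η := 1 / (10 ^ 12 * A)) (by positivity)
  replace hT := hT N le_rfl c o
  have hN' : (1 : ℝ) ≤ N := by exact_mod_cast hN
  obtain ⟨R₁, C₁, -, hC₁, q1⟩ := rep_q o C R₀ A hN (t := N) hN'
  obtain ⟨R₂, C₂, -, hC₂, q2⟩ := rep_q o C R₀ A hN (t := N + 1) (by linarith)
  obtain ⟨R₃, -, q3⟩ := cmp_p o C R₀ A hN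
  set η₁ : ℝ := η / (10 ^ 13 * A ^ 2) with hη₁
  have hη₁0 : 0 < η₁ := by positivity
  obtain ⟨R₄, -, q4⟩ := H_small o hη₁0
  obtain ⟨R, ⟨r0, r1⟩, ⟨r2, r3⟩, ⟨r4, r5⟩, ⟨r6, r7⟩, r8⟩ :=
    (((eventually_ge_atTop R₀).and (eventually_ge_atTop R₁)).and
    (((eventually_ge_atTop R₂).and (eventually_ge_atTop R₃)).and
    (((eventually_ge_atTop R₄).and (eventually_ge_atTop (4 * 10 ^ 6 * A * C₁))).and
    (((eventually_ge_atTop (10 ^ 6 * A * C₂)).and (eventually_ge_atTop (1 / η₁))).and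
    (eventually_ge_atTop (1 : ℝ)))))).exists
  refine ⟨R + 1, by linarith, fun ε ch h => ?_⟩
  obtain ⟨t1, t2, t3, t4, t5, t6⟩ := Chan.tau_c1 h hN
  set τ := ch.tau R₀ N with hτ
  set h0 := ch.h0 R₀ N with hh0
  have hp := q3 ε ch h fun x hx h2 => by
    refine (hT ε ch R₀ x h hx h2).2.trans ?_
    have := ch.h_pos (x := pl x) (by linarith)
    gcongr
    norm_num
  have hq : ∀ᵐ x : X, R < ‖pl x‖ → |x 2| ≤ 1 → τ x ≤ 48 * ch.q x ∧ ch.q x ≤ 1008 * τ x ∧
      ch.Q0 (pl x) ≤ 10 ^ 6 * A * ch.q x ∧ ch.q x ≤ 10 ^ 6 * A * ch.Q0 (pl x) := by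
    filter_upwards [q1 ε ch h, q2 ε ch h, h.q_lo, h.q_hi] with x e1 e2 e3 e4 hx h2
    have hx1 : 1 ≤ ‖pl x‖ := by linarith
    have hx0 : R₀ < ‖x‖ := by have := norm_pl_le x; linarith
    obtain ⟨a1, a2⟩ := StG_Q0 ch hx1 h2
    replace e1 := (abs_le.1 (e1 (by linarith) h2)).2
    replace e2 := (abs_le.1 (e2 (by linarith) h2)).1
    replace e3 := e3 hx0
    replace e4 := e4 hx0
    have p2 := ch.Q0_pos (x := pl x) (by linarith)
    have b1 : ch.Q0 (pl x) ≤ 10 ^ 6 * A * ch.q x := by linarith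
    have b2 : ch.q x ≤ 10 ^ 6 * A * ch.Q0 (pl x) := by nlinarith
    have hq0 : 0 < ch.q x := by
      by_contra hc
      nlinarith
    have c1 : C₁ / ‖pl x‖ * ch.Q0 (pl x) ≤ ch.q x / 4 := by
      calc C₁ / ‖pl x‖ * ch.Q0 (pl x) ≤ C₁ / (4 * 10 ^ 6 * A * C₁) * (10 ^ 6 * A * ch.q x) := by
            gcongr
            linarith
        _ = ch.q x / 4 := by field_simp
    have c2 : C₂ / ‖pl x‖ * ch.Q0 (pl x) ≤ ch.q x := by
      calc C₂ / ‖pl x‖ * ch.Q0 (pl x) ≤ C₂ / (10 ^ 6 * A * C₂) * (10 ^ 6 * A * ch.q x) := by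
            gcongr
            linarith
        _ = ch.q x := by field_simp
    have c3 : ch.ttau R₀ N x ≤ ch.q x / 10 ^ 6 := by
      refine (hT ε ch R₀ x h hx1 h2).1.trans ?_
      calc 1 / (10 ^ 12 * A) * ch.Q0 (pl x) ≤ 1 / (10 ^ 12 * A) * (10 ^ 6 * A * ch.q x) := by gcongr
        _ = ch.q x / 10 ^ 6 := by field_simp
    have d1 := Chan.qm_le h hN h2
    have d2 := Chan.le_qm h hN h2
    refine ⟨by linarith, by linarith, b1, b2⟩
  have sub0 : {x : X | R < ‖pl x‖} ⊆ {x | 0 < ‖pl x‖} := fun x hx => by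
    have : R < ‖pl x‖ := hx
    change 0 < ‖pl x‖
    linarith
  have cQ : ContinuousOn (fun x => ch.Q0 (pl x)) {x | R < ‖pl x‖} :=
    ch.continuousOn_Q0.comp continuous_pl.continuousOn sub0
  have cH : ContinuousOn (fun x => ch.h (pl x)) {x | R < ‖pl x‖} :=
    ch.continuousOn_h.comp continuous_pl.continuousOn sub0
  have cτ : ContinuousOn τ {x | R < ‖pl x‖} := t1.continuousOn.mono sub0
  have f1 : ∀ x, R < ‖pl x‖ → ch.Q0 (pl x) ≤ 1008 * 10 ^ 6 * A * τ x := by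
    refine le_of_ae_slab (u := fun x => ch.Q0 (pl x)) (w := fun x => 1008 * 10 ^ 6 * A * τ x) cQ
      (continuousOn_const.mul cτ) (fun x => by simp only [pl_pl]) (fun x => by simp only [t5]) ?_
    filter_upwards [hq] with x e hx h2
    obtain ⟨-, e2, e3, -⟩ := e hx h2
    calc ch.Q0 (pl x) ≤ 10 ^ 6 * A * ch.q x := e3
      _ ≤ 10 ^ 6 * A * (1008 * τ x) := by gcongr
      _ = _ := by ring
  have f2 : ∀ x, R < ‖pl x‖ → τ x ≤ 48 * 10 ^ 6 * A * ch.Q0 (pl x) := by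
    refine le_of_ae_slab (w := fun x => 48 * 10 ^ 6 * A * ch.Q0 (pl x)) cτ
      (continuousOn_const.mul cQ) t5 (fun x => by simp only [pl_pl]) ?_
    filter_upwards [hq] with x e hx h2
    obtain ⟨e1, -, -, e4⟩ := e hx h2
    linarith
  have f3 : ∀ x, R < ‖pl x‖ → ch.h (pl x) ≤ 20000 * A * h0 x := by
    refine le_of_ae_slab (u := fun x => ch.h (pl x)) (w := fun x => 20000 * A * h0 x) cH
      (continuousOn_const.mul t2.continuous.continuousOn) (fun x => by simp only [pl_pl])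
      (fun x => by simp only [t6]) ?_
    filter_upwards [hp, h.zp, ae_two_ne] with x e1 e2 e3 hx h2
    have hx0 : R₀ < ‖x‖ := by have := norm_pl_le x; linarith
    have a1 := (e1 (by linarith) h2).2
    have a2 := (e2 hx0).2.1
    have a3 : 0 < |x 2| := abs_pos.2 e3
    have a4 : ch.h x ≤ 100 * A * h0 x := by
      refine le_of_mul_le_mul_left ?_ a3
      calc |x 2| * ch.h x ≤ A * |ch.p x| := a2
        _ ≤ A * (100 * |x 2| * h0 x) := by gcongr
        _ = _ := by ring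
    have a5 := StG_h ch (x := x) (by linarith) h2
    linarith
  have hpl2 : ∀ x : X, |pl x 2| ≤ 1 := fun x => by rw [pl_two]; simp
  have g1 : ∀ x, R < ‖pl x‖ → ch.ttau R₀ N (pl x) ≤ τ x / 8 := fun x hx => by
    have a1 := (hT ε ch R₀ (pl x) h (by rw [pl_pl]; linarith) (hpl2 x)).1
    rw [pl_pl] at a1
    have a2 := t3 x
    calc ch.ttau R₀ N (pl x) ≤ 1 / (10 ^ 12 * A) * ch.Q0 (pl x) := a1
      _ ≤ 1 / (10 ^ 12 * A) * (1008 * 10 ^ 6 * A * τ x) := by gcongr; exact f1 x hx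
      _ = 1008 / 10 ^ 6 * τ x := by field_simp
      _ ≤ τ x / 8 := by linarith
  have g2 : ∀ x, R < ‖pl x‖ →
      Real.exp (-ch.I * N) * (tl N (ch.zp R₀) (lat x) (pl x) / N) ≤ h0 x := fun x hx => by
    have a1 := (hT ε ch R₀ (pl x) h (by rw [pl_pl]; linarith) (hpl2 x)).2
    rw [pl_pl, lat_pl] at a1
    have a2 := t4 x
    calc _ ≤ 1 / (10 ^ 12 * A) * ch.h (pl x) := a1
      _ ≤ 1 / (10 ^ 12 * A) * (20000 * A * h0 x) := by gcongr; exact f3 x hx
      _ = 20000 / 10 ^ 12 * h0 x := by field_simp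
      _ ≤ h0 x := by linarith
  refine ⟨τ, h0, t1.mono fun x hx => ?_, t5, fun x _ => t3 x, fun x _ => t4 x, ?_, ?_,
    fun x y hx _ hxy => ?_, fun x hx => ?_, fun x hx => ?_⟩
  · have : R + 1 < ‖pl x‖ := hx
    change 0 < ‖pl x‖
    linarith
  · filter_upwards [hq] with x e hx h2
    obtain ⟨e1, e2, -, -⟩ := e (by linarith) h2
    have := t3 x
    constructor <;> linarith
  · filter_upwards [hp] with x e hx h2
    obtain ⟨e1, e2⟩ := e (by linarith) h2
    have a1 := abs_nonneg (ch.p x)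
    have a2 : 0 ≤ |x 2| * h0 x := mul_nonneg (abs_nonneg _) (t4 x).le
    constructor <;> linarith
  · have a1 : τ x ≤ 404 * τ y := by
      refine loc_of_grad ((t1.differentiableOn (by norm_num)).mono sub0) (fun z _ => t3 z) t5
        (fun z hz => ?_) hx hxy
      have := (Chan.tau_grad h hN (x := z) (by linarith)).1
      have := g1 z hz
      have := t3 z
      linarith
    have a2 : h0 x ≤ 404 * h0 y := by
      refine loc_of_grad (t2.differentiable (by norm_num)).differentiableOn (fun z _ => t4 z) t6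
        (fun z hz => ?_) hx hxy
      have := (Chan.tau_grad h hN (x := z) (by linarith)).2
      have := g2 z hz
      have := t4 z
      linarith
    have := t3 y
    have := t4 y
    constructor <;> linarith
  · have a1 := Chan.tau_rad h hN (x := x) (by linarith)
    have a2 := g1 x (by linarith)
    have a3 := t3 x
    change fderiv ℝ τ x (lat x) ≤ _
    linarith
  · have hx1 : 1 ≤ ‖pl x‖ := by linarith
    have a0 := ch.h_pos (x := pl x) (by linarith)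
    have a1 := q4 C ε ch (pl x) (by linarith)
    have a2 : ‖pl x‖ ≤ ‖pl x‖ ^ 3 := le_self_pow₀ hx1 (by norm_num)
    have a3 := ch.H_pos (x := pl x) (by linarith)
    have a4 : ch.H (pl x) ≤ η₁ * ch.h (pl x) := by nlinarith
    have a5 : ε * (1 + pl x 2 ^ 2) / ‖pl x‖ ^ 3 ≤ η₁ := by
      rw [pl_two, div_le_iff₀ (by positivity)]
      have b1 := ch.ε_le
      have b2 : 1 / η₁ ≤ ‖pl x‖ ^ 3 := by linarith
      rw [div_le_iff₀ hη₁0] at b2
      nlinarith
    have a6 : ch.Q0 (pl x) ≤ 2 * η₁ * ch.h (pl x) := by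
      unfold Chan.Q0
      nlinarith
    have a7 := t4 x
    calc τ x ≤ 48 * 10 ^ 6 * A * ch.Q0 (pl x) := f2 x (by linarith)
      _ ≤ 48 * 10 ^ 6 * A * (2 * η₁ * (20000 * A * h0 x)) := by
          gcongr
          refine a6.trans ?_
          gcongr
          exact f3 x (by linarith)
      _ = 192 / 1000 * (η * h0 x) := by rw [hη₁]; field_simp; norm_num
      _ ≤ η * h0 x := by have : 0 < η * h0 x := by positivity
                         linarith

theorem Chan.FG.mono {ch : Chan o C ε} {R K η R' : ℝ} {τ h0 : X → ℝ} (h : ch.FG R K η τ h0)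
    (hR : R ≤ R') : ch.FG R' K η τ h0 := by
  refine ⟨h.c1.mono fun x hx => lt_of_le_of_lt hR hx, h.τpl, fun x hx => h.τpos x (hR.trans_lt hx),
    fun x hx => h.hpos x (hR.trans_lt hx), ?_, ?_,
    fun x y hx hy => h.loc x y (hR.trans_lt hx) (hR.trans_lt hy),
    fun x hx => h.rad x (hR.trans_lt hx), fun x hx => h.small x (hR.trans_lt hx)⟩
  · filter_upwards [h.cq] with x e hx using e (hR.trans_lt hx)
  · filter_upwards [h.cp] with x e hx using e (hR.trans_lt hx)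

end Crest.Agent.R335
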