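import Crest.Agent.R335.FX2
import Crest.Agent.R335.LMP
import Crest.Agent.R335.StG

/-! Row 335. The lower bound for `t` in a slab. -/

set_option autoImplicit false

open MeasureTheory Set Filter Topology
open scoped ENNReal

noncomputable section

namespace Crest.Agent.R335

theorem LS_pl_sub (x y : X) : pl x - pl y = pl (x - y) := by
  obtain ⟨A, hA⟩ := exists_plL
  simp only [← hA, map_sub]

theorem LS_pl_le (x y : X) : ‖pl x - pl y‖ ≤ ‖x - y‖ := by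
  rw [LS_pl_sub]; exact norm_pl_le _

theorem LS_two_le (x y : X) : |x 2 - y 2| ≤ ‖x - y‖ := abs_two_le (x - y)

theorem LS_norm_le (x y : X) : ‖x - y‖ ≤ ‖pl x - pl y‖ + |x 2 - y 2| := by
  rw [LS_pl_sub]
  have h := norm_sub_pl (x - y)
  have h2 := norm_add_le (pl (x - y)) (x - y - pl (x - y))
  rw [add_sub_cancel, h] at h2
  exact h2

theorem LS_pl_eq {x : X} (h : x 2 = 0) : pl x = x := by
  have := norm_sub_pl x
  rw [h, abs_zero, norm_eq_zero, sub_eq_zero] at this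
  exact this.symm

theorem LS_FD_half {s : X → ℝ} {pr : Pair1 s} {x₀ : X} {K τ h : ℝ} (D : FD pr x₀ 1 K τ h) {x₁ : X}
    (h1 : ‖pl x₁ - x₀‖ ≤ 1 / 2) : FD pr (pl x₁) (1 / 2) K τ h := by
  refine ⟨D.m, D.s0, D.bd, D.lam0, pl_two _, D.K1, D.τ0, D.h0, by norm_num, ?_⟩
  filter_upwards [D.box] with x hx h2 h3
  refine hx ?_ (by linarith)
  have := norm_sub_le_norm_sub_add_norm_sub (pl x) (pl x₁) x₀
  linarith

/-- The local step. -/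
theorem LS_loc (K : ℝ) (hK : 1 ≤ K) (M c₀ : ℝ) (hM : 1 ≤ M) (hc₀ : 0 < c₀) (hc₁ : c₀ ≤ 1) :
    ∃ K' : ℝ, 1 ≤ K' ∧ ∀ (s : X → ℝ) (pr : Pair1 s) (x₁ : X) (τ h ζ lo : ℝ),
      FD pr (pl x₁) (1 / 2) K τ h → pr.lam ≤ 1 → M * (τ / h) ≤ ζ → 16 * M * ζ ≤ 1 →
      -(3 * ζ) ≤ lo → lo ≤ ζ / 2 → lo + ζ / 4 ≤ x₁ 2 → x₁ 2 ≤ ζ →
      (∀ y : ℝ, lo - ζ / 8 ≤ y → ζ ^ 2 * h ^ 2 ≤ 8 * M ^ 2 * (y ^ 2 * h ^ 2 + τ ^ 2)) →
      c₀ * ζ ^ 3 ≤ volume.real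
        {x | x ∈ cyl (pl x₁) (3 * M * ζ) (ζ / 2) (3 * ζ) ∧ c₀ * (τ / h) / ζ ≤ pr.θ x} →
      ∀ᵐ x, x ∈ Metric.ball x₁ (ζ / 8) → τ ≤ K' * pr.t x := by
  have hΛ : 1 ≤ 88 * K ^ 2 * M ^ 2 := by
    have : 1 ≤ K ^ 2 := one_le_pow₀ hK
    have : 1 ≤ M ^ 2 := one_le_pow₀ hM
    nlinarith
  obtain ⟨c, hc, hmp⟩ := mp (88 * K ^ 2 * M ^ 2) c₀ (96 * M) hΛ hc₀
  refine ⟨max 1 (6 * K * M / (c * c₀)), le_max_left _ _, ?_⟩
  intro s pr x₁ τ h ζ lo D hlam hζ1 hζ2 hlo1 hlo2 hlo3 hz hy hvol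
  have hτ := D.τ0
  have hh := D.h0
  have hw : 0 < τ / h := div_pos hτ hh
  have hwζ : τ / h ≤ ζ := le_trans (le_mul_of_one_le_left hw.le hM) hζ1
  have hζ : 0 < ζ := hw.trans_le hwζ
  have hτζ : τ ≤ ζ * h := by rwa [div_le_iff₀ hh] at hwζ
  have hMζ : ζ ≤ M * ζ := le_mul_of_one_le_left hζ.le hM
  have hK0 : 0 < K := by linarith
  have hM0 : 0 < M := by linarith
  obtain ⟨B, hB⟩ := D.bd
  set S := cyl (pl x₁) (3 * M * ζ) lo (3 * ζ) with hS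
  have hball : Metric.ball x₁ (2 * (ζ / 8)) ⊆ S := by
    intro x hx
    rw [Metric.mem_ball, dist_eq_norm] at hx
    have h1 := LS_pl_le x x₁
    have h2 := abs_le.1 (LS_two_le x x₁)
    exact ⟨by linarith, by linarith [h2.1], by linarith [h2.2]⟩
  have hthick : ∀ᵐ x, x ∈ Metric.thickening (ζ / 8) S →
      ζ ^ 2 * h ^ 2 / (8 * K * M ^ 2) ≤ s x ^ 2 ∧
        s x ^ 2 ≤ 88 * K ^ 2 * M ^ 2 * (ζ ^ 2 * h ^ 2 / (8 * K * M ^ 2)) := by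
    filter_upwards [D.box] with x hx hxS
    obtain ⟨y, hyS, hxy⟩ := Metric.mem_thickening_iff.1 hxS
    rw [dist_eq_norm] at hxy
    obtain ⟨a1, a2, a3⟩ := hyS
    have h1 := LS_pl_le x y
    have h2 := abs_le.1 (LS_two_le x y)
    have h3 := norm_sub_le_norm_sub_add_norm_sub (pl x) (pl y) (pl x₁)
    have h4 : |x 2| ≤ 25 / 8 * ζ := abs_le.2 ⟨by linarith [h2.1], by linarith [h2.2]⟩
    obtain ⟨b1, b2, -⟩ := hx (by linarith) (by linarith)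
    constructor
    · rw [div_le_iff₀ (by positivity)]
      have := hy (x 2) (by linarith [h2.1])
      have b1' := mul_le_mul_of_nonneg_left b1 (by positivity : 0 ≤ 8 * M ^ 2)
      linarith
    · have e : 88 * K ^ 2 * M ^ 2 * (ζ ^ 2 * h ^ 2 / (8 * K * M ^ 2)) =
          K * (11 * (ζ ^ 2 * h ^ 2)) := by
        field_simp; norm_num
      rw [e]
      refine b2.trans (mul_le_mul_of_nonneg_left ?_ hK0.le)
      have c1 : x 2 ^ 2 ≤ (25 / 8 * ζ) ^ 2 := by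
        rw [← sq_abs]; gcongr
      have c2 : τ ^ 2 ≤ (ζ * h) ^ 2 := by gcongr
      have c3 := mul_le_mul_of_nonneg_right c1 (sq_nonneg h)
      have c4 : 0 ≤ ζ ^ 2 * h ^ 2 := by positivity
      nlinarith
  have ha1 : c₀ * (τ / h) / ζ ≤ 1 := by
    rw [div_le_one hζ]
    exact le_trans (mul_le_of_le_one_left hw.le hc₁) hwζ
  have key := hmp pr.θ (fun x => s x ^ 2) pr.gθ S x₁ (ζ / 8) (ζ ^ 2 * h ^ 2 / (8 * K * M ^ 2))
    pr.lam (c₀ * (τ / h) / ζ) (by positivity) (by positivity) D.lam0 ?_ (by positivity) ha1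
    (convex_cyl _ _ _ _) (measurableSet_cyl _ _ _ _) ?_ hball pr.hθ
    (Eventually.of_forall fun x => (pr.θ0 x).1) (D.m.pow_const 2) hthick
    (fun ξ k M' Kc hξ hKc _ h1 h2 h3 => pr.mp_hyp D.m D.s0 hB D.lam0 hξ hKc h1 h2 h3) ?_
  · filter_upwards [key, hthick, pr.t_ge D.s0] with x h1 h2 h3 hx
    have hxS : x ∈ S := hball (Metric.ball_subset_ball (by linarith) hx)
    have h4 := (h2 (Metric.self_subset_thickening (by positivity) S hxS)).1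
    have h5 := h1 hx
    have h6 : ζ * h / (3 * K * M) ≤ s x := by
      refine (abs_le_of_sq_le_sq' (le_trans ?_ h4) (D.s0 x)).2
      rw [div_pow, mul_pow ζ]
      refine div_le_div_of_nonneg_left (by positivity) (by positivity) ?_
      have : K ≤ K ^ 2 := by nlinarith
      nlinarith [mul_le_mul_of_nonneg_right this (sq_nonneg M), sq_nonneg (K * M)]
    have h7 : ζ * h / (3 * K * M) * (c * (c₀ * (τ / h) / ζ)) ≤ s x * pr.θ x :=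
      mul_le_mul h6 h5 (by positivity) (D.s0 x)
    have e : ζ * h / (3 * K * M) * (c * (c₀ * (τ / h) / ζ)) = τ * (c * c₀) / (3 * K * M) := by
      field_simp
    rw [e, div_le_iff₀ (by positivity)] at h7
    have h8 : τ ≤ 6 * K * M / (c * c₀) * pr.t x := by
      rw [div_mul_eq_mul_div, le_div_iff₀ (by positivity)]
      have := mul_le_mul_of_nonneg_right h3.1 (by positivity : 0 ≤ 3 * K * M)
      linarith
    exact h8.trans (mul_le_mul_of_nonneg_right (le_max_right _ _) (pr.t0 x))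
  · have : (ζ / 8) ^ 2 ≤ 1 := by nlinarith
    nlinarith [D.lam0, sq_nonneg (ζ / 8)]
  · rintro x ⟨a1, a2, a3⟩ y ⟨b1, b2, b3⟩
    rw [dist_eq_norm]
    have h1 := LS_norm_le x y
    have h2 := norm_sub_le_norm_sub_add_norm_sub (pl x) (pl x₁) (pl y)
    rw [norm_sub_rev (pl x₁)] at h2
    have h3 : |x 2 - y 2| ≤ 6 * ζ := abs_le.2 ⟨by linarith, by linarith⟩
    linarith
  · refine le_trans ?_ (hvol.trans (measureReal_mono ?_ ?_))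
    · have : (ζ / 8) ^ 3 ≤ ζ ^ 3 := by gcongr; linarith
      exact mul_le_mul_of_nonneg_left this hc₀.le
    · rintro x ⟨⟨a1, a2, a3⟩, a4⟩
      exact ⟨⟨a1, by linarith, a3⟩, a4⟩
    · exact ((measure_mono fun x hx => hx.1).trans_lt (isCompact_cyl _ _ _ _).measure_lt_top).ne

/-- Let `x₁` be a point of the small cylinder with `z = x₁ 2 ≥ 0` (symmetry: `tP`), `w = τ / h`.
Apply `flux` at the centre `pl x₁` with `l = 1/2`.  If `z ≥ M w` take `ζ = z`,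
`S = cyl (pl x₁) (3 M ζ) (ζ / 2) (3 ζ)`, `r = ζ / 8`; otherwise `ζ = M w`,
`S = cyl (pl x₁) (3 M ζ) (-3 ζ) (3 ζ)`, `r = ζ / 8`.  `mp` with `a = c₀ w / ζ` (`Pair1.mp_hyp`),
`s θ ≤ 2 t`, `ae_of_local`.  `z₁ = 1 / (16 M)`, `η = z₁ / M`. -/
theorem slab_lb (K : ℝ) : ∃ z₁ η lam₀ K' : ℝ, 0 < z₁ ∧ z₁ ≤ 1 / 2 ∧ 0 < η ∧ 0 < lam₀ ∧ 1 ≤ K' ∧
    ∀ (s : X → ℝ) (pr : Pair1 s) (x₀ : X) (τ h : ℝ), FD pr x₀ 1 K τ h → pr.lam ≤ lam₀ →
      τ ≤ η * h → ∀ᵐ x : X, ‖pl x - x₀‖ < z₁ → |x 2| ≤ z₁ → τ ≤ K' * pr.t x := by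
  by_cases hK : 1 ≤ K
  swap
  · exact ⟨1 / 2, 1, 1, 1, by norm_num, le_rfl, one_pos, one_pos, le_rfl,
      fun s pr x₀ τ h D => absurd D.K1 hK⟩
  obtain ⟨M, c₀, lam₀, hM, hc₀, hc₁, hl0, hl1, hfl⟩ := flux K
  obtain ⟨K', hK', hloc⟩ := LS_loc K hK M c₀ hM hc₀ hc₁
  have hM0 : 0 < M := by linarith
  have hz : 1 / (16 * M) ≤ 1 / 2 := one_div_le_one_div_of_le (by norm_num) (by linarith)
  refine ⟨1 / (16 * M), 1 / (16 * M) / M, lam₀, K', by positivity, hz, by positivity, hl0, hK', ?_⟩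
  intro s pr x₀ τ h D hlam hτη
  have hτ := D.τ0
  have hh := D.h0
  have hw : 0 < τ / h := div_pos hτ hh
  have hw1 : M * (τ / h) ≤ 1 / (16 * M) := by
    rw [← div_le_iff₀ hh, le_div_iff₀ hM0] at hτη
    linarith
  have hup : ∀ᵐ x : X, x ∈ {x : X | ‖pl x - x₀‖ < 1 / (16 * M) ∧ 0 ≤ x 2 ∧ x 2 ≤ 1 / (16 * M)} →
      τ ≤ K' * pr.t x := by
    refine ae_of_local fun x₁ hx₁ => ?_
    obtain ⟨a1, a2, a3⟩ := hx₁
    have D' := LS_FD_half D (x₁ := x₁) (by linarith)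
    have aux : ∀ ζ : ℝ, ζ ≤ 1 / (16 * M) → 16 * M * ζ ≤ 1 := fun ζ hζ => by
      rw [le_div_iff₀ (by positivity)] at hζ
      linarith
    rcases le_total (M * (τ / h)) (x₁ 2) with hc | hc
    · have hζ : 0 < x₁ 2 := lt_of_lt_of_le (by positivity) hc
      have h16 := aux _ a3
      refine ⟨x₁ 2 / 8, by positivity, hloc s pr x₁ τ h (x₁ 2) (x₁ 2 / 2) D' (hlam.trans hl1) hc h16
        (by linarith) le_rfl (by linarith) le_rfl (fun y hy => ?_)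
        (hfl s pr _ _ τ h _ D' hlam hc (by linarith))⟩
      have c1 : (3 / 8 * x₁ 2) ^ 2 ≤ y ^ 2 := by gcongr; linarith
      have c2 := mul_le_mul_of_nonneg_right c1 (sq_nonneg h)
      have c3 : 1 ≤ M ^ 2 := one_le_pow₀ hM
      have c4 : 0 ≤ y ^ 2 * h ^ 2 + τ ^ 2 := by positivity
      have c5 : 0 ≤ x₁ 2 ^ 2 * h ^ 2 := by positivity
      nlinarith [mul_le_mul_of_nonneg_right c3 c4, sq_nonneg τ]
    · have hζ : 0 < M * (τ / h) := by positivity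
      have h16 := aux _ hw1
      refine ⟨M * (τ / h) / 8, by positivity, hloc s pr x₁ τ h (M * (τ / h)) (-(3 * (M * (τ / h))))
        D' (hlam.trans hl1) le_rfl h16 le_rfl (by linarith) (by linarith) hc (fun y _ => ?_)
        (hfl s pr _ _ τ h _ D' hlam le_rfl (by linarith))⟩
      have e : (M * (τ / h)) ^ 2 * h ^ 2 = M ^ 2 * τ ^ 2 := by field_simp
      rw [e]
      have c4 : 0 ≤ M ^ 2 * (y ^ 2 * h ^ 2) := by positivity
      have c5 : 0 ≤ M ^ 2 * τ ^ 2 := by positivity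
      nlinarith
  filter_upwards [hup, ae_P hup] with x h1 h2 h3 h4
  have h5 := abs_le.1 h4
  rcases le_total 0 (x 2) with h6 | h6
  · exact h1 ⟨h3, h6, h5.2⟩
  · rw [← pr.tP x]
    refine h2 ⟨by rwa [pl_P], ?_, ?_⟩
    · rw [P_two]; linarith
    · rw [P_two]; linarith [h5.1]

/-- The box condition from `FC`, `FG`, `FU` with the constant `200 K⁴ + Ku K²`. -/
theorem box_of {c : ℝ} {o : One c} {C ε C' : ℝ} {ch : Chan o C ε} (pr : Pair ch C')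
    {R K η Ku : ℝ} {τ h0 : X → ℝ} (hK : 1 ≤ K) (hKu : 0 ≤ Ku) (hC : ch.FC R)
    (hG : ch.FG R K η τ h0) (hU : pr.FU R Ku) {x₀ : X} (h0' : x₀ 2 = 0) (hx : R + 1 < ‖x₀‖) :
    FD pr.toPair1 x₀ 1 (200 * K ^ 4 + Ku * K ^ 2) (τ x₀) (h0 x₀) := by
  have hpl := LS_pl_eq h0'
  have hx' : R < ‖pl x₀‖ := by rw [hpl]; linarith
  have hK0 : 0 < K := by linarith
  have hK4 : 1 ≤ K ^ 4 := one_le_pow₀ hK
  have hKK : 0 ≤ Ku * K ^ 2 := by positivity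
  have hτ := hG.τpos x₀ hx'
  have hh := hG.hpos x₀ hx'
  refine ⟨ch.subs.h1.m, ch.s0, ⟨C, ch.sbd⟩, ?_, h0', by linarith, hτ, hh, le_rfl, ?_⟩
  · have h1 := pr.lam_lo
    have h2 := o.gpos
    unfold One.g at h1
    linarith
  filter_upwards [hC, hG.cq, hG.cp, hU, ch.rho] with x a1 a2 a3 a4 a5 b1 b2
  have c1 : R < ‖pl x‖ := by
    have := norm_sub_norm_le x₀ (pl x)
    rw [norm_sub_rev] at this
    linarith
  have c2 : R < ‖x‖ := c1.trans_le (norm_pl_le x)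
  obtain ⟨q1, q2⟩ := a2 c1 b2
  obtain ⟨p1, p2⟩ := a3 c1 b2
  obtain ⟨l1, l2⟩ := hG.loc x x₀ c1 hx' (by rwa [hpl])
  obtain ⟨l3, l4⟩ := hG.loc x₀ x hx' c1 (by rwa [hpl, norm_sub_rev])
  have hτx := hG.τpos x c1
  have hq : 0 < ch.q x := (mul_pos_iff_of_pos_left hK0).1 (hτx.trans_le q1)
  have hz := abs_nonneg (x 2)
  have d1 : τ x₀ ≤ K ^ 2 * ch.q x := by linarith [mul_le_mul_of_nonneg_left q1 hK0.le]
  have d2 : ch.q x ≤ K ^ 2 * τ x₀ := by linarith [mul_le_mul_of_nonneg_left l1 hK0.le]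
  have d3 : |x 2| * h0 x₀ ≤ K ^ 2 * |ch.p x| := by
    linarith [mul_le_mul_of_nonneg_left l4 hz, mul_le_mul_of_nonneg_left p1 hK0.le]
  have d4 : |ch.p x| ≤ K ^ 2 * (|x 2| * h0 x₀) := by
    linarith [mul_le_mul_of_nonneg_left l2 (mul_nonneg hK0.le hz)]
  have e1 : τ x₀ ^ 2 ≤ (K ^ 2 * ch.q x) ^ 2 := by gcongr
  have e2 : ch.q x ^ 2 ≤ (K ^ 2 * τ x₀) ^ 2 := by gcongr
  have e3 : (|x 2| * h0 x₀) ^ 2 ≤ (K ^ 2 * |ch.p x|) ^ 2 := by gcongr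
  have e4 : |ch.p x| ^ 2 ≤ (K ^ 2 * (|x 2| * h0 x₀)) ^ 2 := by gcongr
  simp only [mul_pow, sq_abs, ← pow_mul] at e1 e2 e3 e4
  norm_num at e1 e2 e3 e4
  have f1 : ch.p x ^ 2 + ch.q x ^ 2 ≤ ch.s x ^ 2 := by
    rw [a5]
    linarith [sq_nonneg (ch.p x), sq_nonneg (ch.q x), sq_nonneg (ch.nE x), sq_nonneg (ch.nB x),
      sq_nonneg (ch.nD x)]
  refine ⟨?_, ?_, ?_⟩
  · have g1 := mul_le_mul_of_nonneg_left f1 (by positivity : 0 ≤ K ^ 4)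
    have g2 : K ^ 4 * ch.s x ^ 2 ≤ (200 * K ^ 4 + Ku * K ^ 2) * ch.s x ^ 2 :=
      mul_le_mul_of_nonneg_right (by linarith) (sq_nonneg _)
    linarith
  · have g2 : 200 * K ^ 4 * (x 2 ^ 2 * h0 x₀ ^ 2 + τ x₀ ^ 2) ≤
        (200 * K ^ 4 + Ku * K ^ 2) * (x 2 ^ 2 * h0 x₀ ^ 2 + τ x₀ ^ 2) :=
      mul_le_mul_of_nonneg_right (by linarith) (by positivity)
    have := a1 c2
    linarith
  · have g1 := mul_le_mul_of_nonneg_left d2 hKu
    have g2 : Ku * K ^ 2 * τ x₀ ≤ (200 * K ^ 4 + Ku * K ^ 2) * τ x₀ :=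
      mul_le_mul_of_nonneg_right (by linarith) hτ.le
    have := a4 c2
    linarith

theorem t_lb (K Ku : ℝ) (hK : 1 ≤ K) (hKu : 0 ≤ Ku) : ∃ z₁ η lam₀ K' : ℝ, 0 < z₁ ∧ z₁ ≤ 1 / 2 ∧
    0 < η ∧ 0 < lam₀ ∧ 1 ≤ K' ∧ ∀ (c : ℝ) (o : One c) (C ε C' : ℝ) (ch : Chan o C ε)
      (pr : Pair ch C') (R : ℝ) (τ h0 : X → ℝ), pr.lam ≤ lam₀ → ch.FC R → ch.FG R K η τ h0 →
      pr.FU R Ku → pr.FL (R + 1) z₁ K' := by
  obtain ⟨z₁, η, lam₀, K', hz0, hz1, hη, hl, hK', H⟩ := slab_lb (200 * K ^ 4 + Ku * K ^ 2)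
  have hK2 : 1 ≤ K ^ 2 := one_le_pow₀ hK
  have hK0 : 0 < K := by linarith
  refine ⟨z₁, η, lam₀, K ^ 2 * K', hz0, hz1, hη, hl, by nlinarith, ?_⟩
  intro c o C ε C' ch pr R τ h0 hlam hC hG hU
  have key : ∀ᵐ x : X, x ∈ {x : X | R + 1 < ‖pl x‖} →
      (R + 1 < ‖pl x‖ → |x 2| ≤ z₁ → ch.q x ≤ K ^ 2 * K' * pr.t x) := by
    refine ae_of_local fun x₁ hx₁ => ⟨z₁, hz0, ?_⟩
    have hx₁' : R + 1 < ‖pl x₁‖ := hx₁
    have hx₂ : R < ‖pl (pl x₁)‖ := by rw [pl_pl]; linarith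
    have D := box_of pr hK hKu hC hG hU (pl_two x₁) hx₁'
    filter_upwards [H _ _ _ _ _ D hlam (hG.small _ hx₂), hG.cq] with x a1 a2 hx b1 b2
    rw [Metric.mem_ball, dist_eq_norm] at hx
    have c1 := (LS_pl_le x x₁).trans_lt hx
    have c2 := a1 c1 b2
    have c3 := (a2 (by linarith) (by linarith)).2
    have c4 := (hG.loc x (pl x₁) (by linarith) hx₂ (by rw [pl_pl]; linarith)).1
    have c5 := mul_le_mul_of_nonneg_left c4 hK0.le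
    have c6 := mul_le_mul_of_nonneg_left c2 (sq_nonneg K)
    nlinarith
  filter_upwards [key] with x h1 h2 h3
  exact h1 h2 h2 h3

end Crest.Agent.R335
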