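import Crest.Agent.R335.LMax

/-! Row 335. Barriers as weak solutions. -/

set_option autoImplicit false

open MeasureTheory Set Filter Topology
open scoped ENNReal

noncomputable section

namespace Crest.Agent.R335

/-- `H1.ibp` (the partial derivatives of `U` are in `H¹`). -/
theorem sol_of_c2 {U : X → ℝ} (h : ContDiff ℝ 2 U) (h0 : MemLp U 2 volume)
    (h1 : ∀ i, MemLp (pd eX U i) 2 volume)
    (h2 : ∀ i j, MemLp (pd eX (pd eX U i) j) 2 volume) :
    Sol univ U (pd eX U) fun x => -(∑ i, pd eX (pd eX U i) i x) / 2 := by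
  have hU : H1 eX U (pd eX U) := (H1l.of_contDiff (h.of_le (by norm_num))).h1 h0 h1
  have hd : ∀ i, ContDiff ℝ 1 (pd eX U i) := fun i =>
    (h.fderiv_right (m := 1) (by norm_num)).clm_apply contDiff_const
  have hD : ∀ i, H1 eX (pd eX U i) (pd eX (pd eX U i)) := fun i =>
    (H1l.of_contDiff (hd i)).h1 (h1 i) (h2 i)
  refine ⟨hU, ?_, fun φ k hφ _ => ?_⟩
  · rw [Measure.restrict_univ]
    have := ((memLp_finsetSum Finset.univ fun i _ => h2 i i).neg).mul_const (1 / 2 : ℝ)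
    refine this.ae_eq (Eventually.of_forall fun x => ?_)
    simp only [Pi.neg_apply]
    ring
  · have e1 : ∫ x, gd (pd eX U) k x = ∑ i, ∫ x, pd eX U i x * k i x := by
      unfold gd
      exact integral_finsetSum _ fun i _ => (h1 i).integrable_mul (hφ.gl2 i)
    have e2 : ∫ x, -(∑ i, pd eX (pd eX U i) i x) / 2 * φ x =
        -(∑ i, ∫ x, pd eX (pd eX U i) i x * φ x) / 2 := by
      rw [← integral_finsetSum (f := fun i x => pd eX (pd eX U i) i x * φ x) _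
        fun i _ => (h2 i i).integrable_mul hφ.l2, ← integral_neg, ← integral_div]
      refine integral_congr_ae (Eventually.of_forall fun x => ?_)
      simp only [← Finset.sum_mul]
      ring
    rw [e1, e2, ← Finset.sum_neg_distrib]
    congr 1
    refine Finset.sum_congr rfl fun i _ => ?_
    rw [(hD i).ibp hφ i, neg_neg]

theorem LBar_memLp (N : ℕ) (γ : ℝ) {κ : ℝ} (hκ : 0 < κ) :
    MemLp (fun x : X => (1 + ‖x‖) ^ N * ‖x‖ ^ γ * Real.exp (-κ * ‖x‖)) 2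
      (volume.restrict (ext 1)) := by
  set n : ℕ := N + ⌈γ⌉₊ + 2 with hn
  set C : ℝ := n.factorial / κ ^ n * Real.exp κ with hC
  have hm : MemLp (fun x : X => C * (1 + ‖x‖) ^ (-2 : ℝ)) 2 volume := by
    refine MemLp.const_mul ?_ C
    have hc : Continuous fun x : X => (1 + ‖x‖) ^ (-2 : ℝ) :=
      (continuous_const.add continuous_norm).rpow_const fun x =>
        Or.inl (show (1 : ℝ) + ‖x‖ ≠ 0 by positivity)
    rw [memLp_two_iff_integrable_sq hc.aestronglyMeasurable]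
    have := integrable_one_add_norm (E := X) (μ := volume) (r := 4) (by simp; norm_num)
    refine this.congr (Eventually.of_forall fun x => ?_)
    have h0 : (0 : ℝ) ≤ 1 + ‖x‖ := by positivity
    simp only
    rw [← Real.rpow_natCast, ← Real.rpow_mul h0]
    norm_num
  refine (hm.restrict _).of_le ?_ ?_
  · refine Measurable.aestronglyMeasurable ?_
    fun_prop
  · refine (ae_restrict_iff' (measurableSet_ext 1)).2 (Eventually.of_forall fun x hx => ?_)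
    have hx1 : 1 < ‖x‖ := hx
    set r := ‖x‖ with hr
    have hr0 : 0 < 1 + r := by linarith
    have hC0 : 0 ≤ C := by positivity
    rw [Real.norm_of_nonneg (by positivity), Real.norm_of_nonneg (by positivity)]
    have h1 : r ^ γ ≤ (1 + r) ^ ⌈γ⌉₊ := by
      calc r ^ γ ≤ r ^ (⌈γ⌉₊ : ℝ) := Real.rpow_le_rpow_of_exponent_le hx1.le (Nat.le_ceil γ)
        _ = r ^ ⌈γ⌉₊ := Real.rpow_natCast _ _
        _ ≤ (1 + r) ^ ⌈γ⌉₊ := pow_le_pow_left₀ (by linarith) (by linarith) _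
    have h2 : (1 + r) ^ n * Real.exp (-κ * r) ≤ C := by
      have h3 := Real.pow_div_factorial_le_exp (κ * (1 + r)) (by positivity) n
      have h4 : Real.exp (κ * (1 + r)) * Real.exp (-κ * r) = Real.exp κ := by
        rw [← Real.exp_add]; congr 1; ring
      have h5 : (1 + r) ^ n = n.factorial / κ ^ n * ((κ * (1 + r)) ^ n / n.factorial) := by
        rw [mul_pow]; field_simp
      rw [h5, hC, ← h4, mul_assoc]
      gcongr
    have h6 : (1 + r) ^ (-2 : ℝ) = ((1 + r) ^ 2)⁻¹ := by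
      rw [Real.rpow_neg hr0.le]; norm_num
    rw [h6, ← div_eq_mul_inv, le_div_iff₀ (by positivity)]
    calc (1 + r) ^ N * r ^ γ * Real.exp (-κ * r) * (1 + r) ^ 2
        ≤ (1 + r) ^ N * (1 + r) ^ ⌈γ⌉₊ * Real.exp (-κ * r) * (1 + r) ^ 2 := by gcongr
      _ = (1 + r) ^ n * Real.exp (-κ * r) := by rw [hn]; ring
      _ ≤ C := h2

/-- continuous functions of polynomial growth -/
def LBar_Pol (f : X → ℝ) : Prop :=
  Continuous f ∧ ∃ (C : ℝ) (N : ℕ), 0 ≤ C ∧ ∀ x, |f x| ≤ C * (1 + ‖x‖) ^ N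

/-- continuous functions which decay like the barrier -/
def LBar_Dec (γ κ : ℝ) (f : X → ℝ) : Prop :=
  Continuous f ∧ ∃ (C : ℝ) (N : ℕ), 0 ≤ C ∧ ∀ x, 1 < ‖x‖ →
    |f x| ≤ C * ((1 + ‖x‖) ^ N * ‖x‖ ^ γ * Real.exp (-κ * ‖x‖))

theorem LBar_Pol.const (c : ℝ) : LBar_Pol fun _ => c :=
  ⟨continuous_const, |c|, 0, abs_nonneg c, fun x => by simp⟩

theorem LBar_abs_coord (x : X) (i : Fin 3) : |x i| ≤ ‖x‖ := by
  simpa using PiLp.norm_apply_le x i

theorem LBar_Pol.coord (i : Fin 3) : LBar_Pol fun x => x i :=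
  ⟨by fun_prop, 1, 1, zero_le_one, fun x => by
    have := LBar_abs_coord x i
    rw [one_mul, pow_one]; linarith⟩

theorem LBar_Pol.comp {A : ℝ → ℝ} (hc : Continuous A) {M : ℝ} (h : ∀ z, |A z| ≤ M * (1 + z ^ 2)) :
    LBar_Pol fun x => A (x 2) := by
  have hM : 0 ≤ M := by have := h 0; have := abs_nonneg (A 0); nlinarith
  refine ⟨by fun_prop, M, 2, hM, fun x => (h _).trans ?_⟩
  have h1 := LBar_abs_coord x 2
  have h2 : x 2 ^ 2 ≤ ‖x‖ ^ 2 := by
    rw [← sq_abs (x 2)]; exact pow_le_pow_left₀ (abs_nonneg _) h1 2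
  have h3 := norm_nonneg x
  gcongr
  nlinarith

theorem LBar_Pol.mul {f g : X → ℝ} (hf : LBar_Pol f) (hg : LBar_Pol g) :
    LBar_Pol fun x => f x * g x := by
  obtain ⟨c1, C, N, hC, h⟩ := hf
  obtain ⟨c2, C', N', hC', h'⟩ := hg
  refine ⟨c1.mul c2, C * C', N + N', by positivity, fun x => ?_⟩
  rw [abs_mul]
  calc |f x| * |g x| ≤ (C * (1 + ‖x‖) ^ N) * (C' * (1 + ‖x‖) ^ N') :=
        mul_le_mul (h x) (h' x) (abs_nonneg _) (by positivity)
    _ = _ := by ring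

theorem LBar_Pol.mul_dec {γ κ : ℝ} {f g : X → ℝ} (hf : LBar_Pol f) (hg : LBar_Dec γ κ g) :
    LBar_Dec γ κ fun x => f x * g x := by
  obtain ⟨c1, C, N, hC, h⟩ := hf
  obtain ⟨c2, C', N', hC', h'⟩ := hg
  refine ⟨c1.mul c2, C * C', N + N', by positivity, fun x hx => ?_⟩
  rw [abs_mul]
  calc |f x| * |g x| ≤ (C * (1 + ‖x‖) ^ N) *
        (C' * ((1 + ‖x‖) ^ N' * ‖x‖ ^ γ * Real.exp (-κ * ‖x‖))) :=
        mul_le_mul (h x) (h' x hx) (abs_nonneg _) (by positivity)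
    _ = _ := by ring

theorem LBar_Dec.add {γ κ : ℝ} {f g : X → ℝ} (hf : LBar_Dec γ κ f) (hg : LBar_Dec γ κ g) :
    LBar_Dec γ κ fun x => f x + g x := by
  obtain ⟨c1, C, N, hC, h⟩ := hf
  obtain ⟨c2, C', N', hC', h'⟩ := hg
  refine ⟨c1.add c2, C + C', N + N', by positivity, fun x hx => ?_⟩
  have h0 : 1 ≤ 1 + ‖x‖ := by linarith
  have h1 : (1 + ‖x‖) ^ N ≤ (1 + ‖x‖) ^ (N + N') := pow_le_pow_right₀ h0 (by omega)
  have h2 : (1 + ‖x‖) ^ N' ≤ (1 + ‖x‖) ^ (N + N') := pow_le_pow_right₀ h0 (by omega)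
  calc |f x + g x| ≤ |f x| + |g x| := abs_add_le _ _
    _ ≤ C * ((1 + ‖x‖) ^ N * ‖x‖ ^ γ * Real.exp (-κ * ‖x‖)) +
        C' * ((1 + ‖x‖) ^ N' * ‖x‖ ^ γ * Real.exp (-κ * ‖x‖)) := add_le_add (h x hx) (h' x hx)
    _ ≤ C * ((1 + ‖x‖) ^ (N + N') * ‖x‖ ^ γ * Real.exp (-κ * ‖x‖)) +
        C' * ((1 + ‖x‖) ^ (N + N') * ‖x‖ ^ γ * Real.exp (-κ * ‖x‖)) := by gcongr
    _ = _ := by ring

theorem LBar_Dec.memLp {γ κ : ℝ} (hκ : 0 < κ) {f : X → ℝ} (hf : LBar_Dec γ κ f) :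
    MemLp f 2 volume := by
  obtain ⟨c1, C, N, hC, h⟩ := hf
  have h1 : MemLp f 2 (volume.restrict (ext 1)) := by
    refine ((LBar_memLp N γ hκ).const_mul C).of_le c1.aestronglyMeasurable ?_
    refine (ae_restrict_iff' (measurableSet_ext 1)).2 (Eventually.of_forall fun x hx => ?_)
    exact (h x hx).trans (le_abs_self _)
  have h2 : MemLp f 2 (volume.restrict (ext 1)ᶜ) := by
    have h3 : (ext 1)ᶜ = Metric.closedBall (0 : X) 1 := by
      ext x; simp [ext]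
    rw [h3]
    exact L2l.of_continuous c1 _ (isCompact_closedBall _ _)
  rw [memLp_two_iff_integrable_sq c1.aestronglyMeasurable] at h1 h2 ⊢
  rw [← Measure.restrict_add_restrict_compl (μ := volume) (measurableSet_ext 1)]
  exact h1.add_measure h2

theorem LBar_pd_mul {f g : X → ℝ} {x : X} (hf : DifferentiableAt ℝ f x)
    (hg : DifferentiableAt ℝ g x) (i : Fin 3) :
    pd eX (fun y => f y * g y) i x = pd eX f i x * g x + f x * pd eX g i x := by
  unfold pd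
  rw [fderiv_fun_mul hf hg]
  simp only [add_apply, smul_apply, smul_eq_mul]
  ring

theorem LBar_pd_add {f g : X → ℝ} {x : X} (hf : DifferentiableAt ℝ f x)
    (hg : DifferentiableAt ℝ g x) (i : Fin 3) :
    pd eX (fun y => f y + g y) i x = pd eX f i x + pd eX g i x := by
  unfold pd
  rw [fderiv_fun_add hf hg]
  rfl

theorem LBar_fd_coord {A : ℝ → ℝ} {a : ℝ} {x : X} {k : Fin 3} (hA : HasDerivAt A a (x k)) :
    HasFDerivAt (fun y : X => A (y k)) (a • (EuclideanSpace.proj k : X →L[ℝ] ℝ)) x :=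
  hA.comp_hasFDerivAt x (EuclideanSpace.proj k : X →L[ℝ] ℝ).hasFDerivAt

theorem LBar_pd_coord {A : ℝ → ℝ} {a : ℝ} {x : X} {k : Fin 3} (hA : HasDerivAt A a (x k))
    (i : Fin 3) : pd eX (fun y : X => A (y k)) i x = a * eX i k := by
  unfold pd
  rw [(LBar_fd_coord hA).fderiv]
  simp

theorem LBar_fd_nsq {F : ℝ → ℝ} {a : ℝ} {x : X} (hF : HasDerivAt F a (‖x‖ ^ 2)) :
    HasFDerivAt (fun y : X => F (‖y‖ ^ 2)) (a • (2 • innerSL ℝ x)) x :=
  hF.comp_hasFDerivAt x (hasStrictFDerivAt_norm_sq x).hasFDerivAt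

theorem LBar_pd_nsq {F : ℝ → ℝ} {a : ℝ} {x : X} (hF : HasDerivAt F a (‖x‖ ^ 2)) (i : Fin 3) :
    pd eX (fun y : X => F (‖y‖ ^ 2)) i x = a * (2 * x i) := by
  unfold pd
  rw [(LBar_fd_nsq hF).fderiv]
  simp [eX, EuclideanSpace.inner_single_right]

/-- the radial profile in the variable `s = r²` -/
def LBar_G (γ κ s : ℝ) : ℝ := Real.exp (γ / 2 * Real.log s - κ * √s)

theorem LBar_G_sq (γ κ : ℝ) {r : ℝ} (hr : 0 < r) :
    LBar_G γ κ (r ^ 2) = r ^ γ * Real.exp (-κ * r) := by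
  unfold LBar_G
  rw [Real.sqrt_sq hr.le, Real.rpow_def_of_pos hr, ← Real.exp_add, Real.log_pow]
  congr 1
  push_cast
  ring

theorem LBar_G_deriv (γ κ : ℝ) {s : ℝ} (hs : 0 < s) :
    HasDerivAt (LBar_G γ κ) (LBar_G γ κ s * (γ / (2 * s) - κ / (2 * √s))) s := by
  have h1 := (((Real.hasDerivAt_log hs.ne').const_mul (γ / 2)).sub
    ((Real.hasDerivAt_sqrt hs.ne').const_mul κ)).exp
  refine h1.congr_deriv ?_
  unfold LBar_G
  simp only [Pi.sub_apply]
  congr 1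
  field_simp

theorem LBar_G_deriv2 (γ κ : ℝ) {s : ℝ} (hs : 0 < s) :
    HasDerivAt (fun s => LBar_G γ κ s * (γ / (2 * s) - κ / (2 * √s)))
      (LBar_G γ κ s * ((γ / (2 * s) - κ / (2 * √s)) ^ 2 - γ / (2 * s ^ 2) + κ / (4 * √s ^ 3))) s := by
  have hq : 0 < √s := Real.sqrt_pos.2 hs
  have h1 : HasDerivAt (fun s : ℝ => γ / (2 * s)) (-(γ / (2 * s ^ 2))) s := by
    have := (hasDerivAt_const s γ).fun_div ((hasDerivAt_id' s).const_mul 2) (by positivity)
    refine this.congr_deriv ?_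
    field_simp
    ring
  have h2 : HasDerivAt (fun s : ℝ => κ / (2 * √s)) (-(κ / (4 * √s ^ 3))) s := by
    have := (hasDerivAt_const s κ).fun_div ((Real.hasDerivAt_sqrt hs.ne').const_mul 2)
      (by positivity)
    refine this.congr_deriv ?_
    field_simp
    ring
  refine ((LBar_G_deriv γ κ hs).fun_mul (h1.fun_sub h2)).congr_deriv ?_
  ring

theorem LBar_exists_F (γ κ : ℝ) : ∃ F F' F'' : ℝ → ℝ, ContDiff ℝ 2 F ∧
    (∀ s, HasDerivAt F (F' s) s) ∧ (∀ s, HasDerivAt F' (F'' s) s) ∧ Continuous F'' ∧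
    ∀ r : ℝ, 1 ≤ r → F (r ^ 2) = r ^ γ * Real.exp (-κ * r) ∧
      F' (r ^ 2) = r ^ γ * Real.exp (-κ * r) * (γ / (2 * r ^ 2) - κ / (2 * r)) ∧
      F'' (r ^ 2) = r ^ γ * Real.exp (-κ * r) *
        ((γ / (2 * r ^ 2) - κ / (2 * r)) ^ 2 - γ / (2 * (r ^ 2) ^ 2) + κ / (4 * r ^ 3)) := by
  set F : ℝ → ℝ := fun s => Real.smoothTransition (4 * s - 1) * LBar_G γ κ s with hF
  have hc : ContDiff ℝ 2 F := by
    refine contDiff_iff_contDiffAt.2 fun s => ?_
    rcases lt_or_ge 0 s with hs | hs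
    · refine ContDiffAt.mul ?_ ?_
      · exact (Real.smoothTransition.contDiff.comp (by fun_prop)).contDiffAt
      · unfold LBar_G
        exact ((contDiffAt_const.mul (Real.contDiffAt_log.2 hs.ne')).sub
          (contDiffAt_const.mul (Real.contDiffAt_sqrt hs.ne'))).exp
    · refine (contDiffAt_const (c := (0 : ℝ))).congr_of_eventuallyEq ?_
      filter_upwards [Iio_mem_nhds (show s < 1 / 4 by linarith)] with t ht
      have : t < 1 / 4 := ht
      simp only [hF]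
      rw [Real.smoothTransition.zero_of_nonpos (by linarith), zero_mul]
  have hc1 : ContDiff ℝ 1 (deriv F) := hc.deriv' (n := 1)
  have hG : ∀ s, 1 / 2 < s → F =ᶠ[𝓝 s] LBar_G γ κ := fun s hs => by
    filter_upwards [Ioi_mem_nhds hs] with t ht
    have : 1 / 2 < t := ht
    simp only [hF]
    rw [Real.smoothTransition.one_of_one_le (by linarith), one_mul]
  have hG1 : ∀ s, 1 / 2 < s → deriv F s = LBar_G γ κ s * (γ / (2 * s) - κ / (2 * √s)) :=
    fun s hs => by rw [(hG s hs).deriv_eq, (LBar_G_deriv γ κ (by linarith)).deriv]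
  refine ⟨F, deriv F, deriv (deriv F), hc,
    fun s => (hc.differentiable (by norm_num) s).hasDerivAt,
    fun s => (hc1.differentiable (by norm_num) s).hasDerivAt, hc1.continuous_deriv le_rfl,
    fun r hr => ?_⟩
  have hr0 : 0 < r := by linarith
  have hs : 1 / 2 < r ^ 2 := by nlinarith
  refine ⟨?_, ?_, ?_⟩
  · rw [(hG _ hs).eq_of_nhds, LBar_G_sq γ κ hr0]
  · rw [hG1 _ hs, LBar_G_sq γ κ hr0, Real.sqrt_sq hr0.le]
  · have h1 : deriv F =ᶠ[𝓝 (r ^ 2)] fun s => LBar_G γ κ s * (γ / (2 * s) - κ / (2 * √s)) := by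
      filter_upwards [Ioi_mem_nhds hs] with t ht using hG1 t ht
    rw [h1.deriv_eq, (LBar_G_deriv2 γ κ (by positivity)).deriv, LBar_G_sq γ κ hr0,
      Real.sqrt_sq hr0.le]

theorem LBar_dec_of {γ κ : ℝ} {F : ℝ → ℝ} (hF : Continuous F) {C : ℝ}
    (h : ∀ r : ℝ, 1 ≤ r → ∃ c, |c| ≤ C ∧ F (r ^ 2) = r ^ γ * Real.exp (-κ * r) * c) :
    LBar_Dec γ κ fun x => F (‖x‖ ^ 2) := by
  refine ⟨by fun_prop, C, 0, ?_, fun x hx => ?_⟩
  · obtain ⟨c, hc, -⟩ := h 1 le_rfl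
    exact (abs_nonneg c).trans hc
  · obtain ⟨c, hc, he⟩ := h _ hx.le
    simp only
    rw [he, abs_mul, abs_of_nonneg (by positivity), pow_zero, one_mul, mul_comm]
    gcongr

theorem LBar_abs_div {a b : ℝ} (hb : 1 ≤ b) : |a / b| ≤ |a| := by
  rw [abs_div, abs_of_pos (show 0 < b by linarith)]
  exact div_le_self (abs_nonneg a) hb

/-- Multiply by a smooth function which vanishes near `0` and is `1` for `‖x‖ ≥ 3/4`
(alternatively replace `‖x‖` by `√(χ (‖x‖²))` with `χ` smooth, positive, `χ s = s` for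
`s ≥ 1/2`). -/
theorem bar_sol {A A' A'' : ℝ → ℝ} (hA : ∀ z, HasDerivAt A (A' z) z)
    (hA' : ∀ z, HasDerivAt A' (A'' z) z) (hc : Continuous A'') {M : ℝ}
    (h0 : ∀ z, |A z| ≤ M * (1 + z ^ 2)) (h1 : ∀ z, |A' z| ≤ M * (1 + z ^ 2))
    (h2 : ∀ z, |A'' z| ≤ M * (1 + z ^ 2)) (γ : ℝ) {κ : ℝ} (hκ : 0 < κ) :
    ∃ (U : X → ℝ) (g : Fin 3 → X → ℝ), Sol (ext 1) U g (lbar A A' A'' γ κ) ∧
      ∀ x, 1 ≤ ‖x‖ → U x = bar A γ κ x := by
  obtain ⟨F, F', F'', hF2, hF, hF', hFc, hr⟩ := LBar_exists_F γ κ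
  have cA' : Continuous A' := continuous_iff_continuousAt.2 fun z => (hA' z).continuousAt
  have cA : Continuous A := continuous_iff_continuousAt.2 fun z => (hA z).continuousAt
  have cF' : Continuous F' := continuous_iff_continuousAt.2 fun z => (hF' z).continuousAt
  have hA2 : ContDiff ℝ 2 A := by
    have e1 : deriv A = A' := funext fun z => (hA z).deriv
    have e2 : deriv A' = A'' := funext fun z => (hA' z).deriv
    rw [show (2 : WithTop ℕ∞) = 1 + 1 by norm_num, contDiff_succ_iff_deriv]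
    refine ⟨fun z => (hA z).differentiableAt, by simp, ?_⟩
    rw [e1, contDiff_one_iff_deriv, e2]
    exact ⟨fun z => (hA' z).differentiableAt, hc⟩
  have pA := LBar_Pol.comp cA h0
  have pA' := LBar_Pol.comp cA' h1
  have pA'' := LBar_Pol.comp hc h2
  have b1 : ∀ r : ℝ, 1 ≤ r → |γ / (2 * r ^ 2) - κ / (2 * r)| ≤ |γ| + |κ| := fun r hr =>
    (abs_sub _ _).trans (add_le_add (LBar_abs_div (by nlinarith)) (LBar_abs_div (by linarith)))
  have dF : LBar_Dec γ κ fun x => F (‖x‖ ^ 2) :=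
    LBar_dec_of hF2.continuous (C := 1) fun r h => ⟨1, by simp, by rw [(hr r h).1, mul_one]⟩
  have dF' : LBar_Dec γ κ fun x => F' (‖x‖ ^ 2) :=
    LBar_dec_of cF' fun r h => ⟨_, b1 r h, (hr r h).2.1⟩
  have dF'' : LBar_Dec γ κ fun x => F'' (‖x‖ ^ 2) := by
    refine LBar_dec_of hFc (C := (|γ| + |κ|) ^ 2 + |γ| + |κ|) fun r h => ⟨_, ?_, (hr r h).2.2⟩
    have q2 : 1 ≤ r ^ 2 := one_le_pow₀ h
    have q3 : 1 ≤ r ^ 3 := one_le_pow₀ h
    have q4 : 1 ≤ (r ^ 2) ^ 2 := one_le_pow₀ q2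
    refine (abs_add_le _ _).trans (add_le_add ((abs_sub _ _).trans (add_le_add ?_
      (LBar_abs_div (by linarith)))) (LBar_abs_div (by linarith)))
    rw [abs_pow]
    exact pow_le_pow_left₀ (abs_nonneg _) (b1 r h) 2
  set U : X → ℝ := fun x => A (x 2) * F (‖x‖ ^ 2) with hU
  have hU2 : ContDiff ℝ 2 U :=
    (hA2.comp (EuclideanSpace.proj (2 : Fin 3) : X →L[ℝ] ℝ).contDiff).mul
      (hF2.comp (contDiff_norm_sq ℝ))
  have dA : ∀ x : X, DifferentiableAt ℝ (fun y : X => A (y 2)) x := fun x =>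
    (LBar_fd_coord (hA _)).differentiableAt
  have dA' : ∀ x : X, DifferentiableAt ℝ (fun y : X => A' (y 2)) x := fun x =>
    (LBar_fd_coord (hA' _)).differentiableAt
  have eF : ∀ x : X, DifferentiableAt ℝ (fun y : X => F (‖y‖ ^ 2)) x := fun x =>
    (LBar_fd_nsq (hF _)).differentiableAt
  have eF' : ∀ x : X, DifferentiableAt ℝ (fun y : X => F' (‖y‖ ^ 2)) x := fun x =>
    (LBar_fd_nsq (hF' _)).differentiableAt
  have e1 : ∀ i, pd eX U i = fun x => (A' (x 2) * eX i 2) * F (‖x‖ ^ 2) +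
      (A (x 2) * (2 * x i)) * F' (‖x‖ ^ 2) := fun i => by
    funext x
    rw [hU, LBar_pd_mul (dA x) (eF x), LBar_pd_coord (hA _), LBar_pd_nsq (hF _)]
    ring
  have e2 : ∀ i j, pd eX (pd eX U i) j = fun x =>
      ((A'' (x 2) * (eX j 2 * eX i 2)) * F (‖x‖ ^ 2) +
        ((A' (x 2) * eX i 2) * (2 * x j)) * F' (‖x‖ ^ 2)) +
      (((A' (x 2) * eX j 2) * (2 * x i)) * F' (‖x‖ ^ 2) + (A (x 2) * (2 * eX j i)) * F' (‖x‖ ^ 2) +
        ((A (x 2) * (2 * x i)) * (2 * x j)) * F'' (‖x‖ ^ 2)) := fun i j => by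
    funext x
    have t1 : HasDerivAt (fun z => A' z * eX i 2) (A'' (x 2) * eX i 2) (x 2) := (hA' _).mul_const _
    have t2 : HasDerivAt (fun z : ℝ => 2 * z) 2 (x i) := by
      simpa using (hasDerivAt_id' (x i)).const_mul 2
    have u1 := (LBar_fd_coord t1).differentiableAt
    have u2 := (LBar_fd_coord t2).differentiableAt
    rw [e1, LBar_pd_add (u1.fun_mul (eF x)) (((dA x).fun_mul u2).fun_mul (eF' x)),
      LBar_pd_mul u1 (eF x), LBar_pd_mul ((dA x).fun_mul u2) (eF' x), LBar_pd_mul (dA x) u2,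
      LBar_pd_coord t1, LBar_pd_coord t2, LBar_pd_coord (hA _), LBar_pd_nsq (hF _),
      LBar_pd_nsq (hF' _)]
    ring
  have pc : ∀ i, LBar_Pol fun x => 2 * x i := fun i => (LBar_Pol.const 2).mul (LBar_Pol.coord i)
  have hS := sol_of_c2 hU2 ((pA.mul_dec dF).memLp hκ) (fun i => by
      rw [e1]
      exact (((pA'.mul (LBar_Pol.const _)).mul_dec dF).add
        ((pA.mul (pc i)).mul_dec dF')).memLp hκ) (fun i j => by
      rw [e2]
      exact ((((pA''.mul (LBar_Pol.const _)).mul_dec dF).add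
        (((pA'.mul (LBar_Pol.const _)).mul (pc j)).mul_dec dF')).add
        (((((pA'.mul (LBar_Pol.const _)).mul (pc i)).mul_dec dF').add
          ((pA.mul (LBar_Pol.const _)).mul_dec dF')).add
          (((pA.mul (pc i)).mul (pc j)).mul_dec dF''))).memLp hκ)
  have key : ∀ x ∈ ext 1, -(∑ i, pd eX (pd eX U i) i x) / 2 = lbar A A' A'' γ κ x := by
    intro x hx
    have hx1 : 1 < ‖x‖ := hx
    obtain ⟨r0, r1, r2⟩ := hr _ hx1.le
    have hn : ‖x‖ ^ 2 = x 0 ^ 2 + x 1 ^ 2 + x 2 ^ 2 := by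
      rw [EuclideanSpace.real_norm_sq_eq, Fin.sum_univ_three]
    have hs : ∑ i, pd eX (pd eX U i) i x = A'' (x 2) * F (‖x‖ ^ 2) +
        4 * A' (x 2) * x 2 * F' (‖x‖ ^ 2) + 6 * A (x 2) * F' (‖x‖ ^ 2) +
        4 * A (x 2) * (x 0 ^ 2 + x 1 ^ 2 + x 2 ^ 2) * F'' (‖x‖ ^ 2) := by
      simp only [e2, Fin.sum_univ_three]
      simp [eX]
      ring
    rw [hs, ← hn, r0, r1, r2]
    unfold lbar
    have hx0 : ‖x‖ ≠ 0 := by positivity
    field_simp
    ring
  refine ⟨U, pd eX U, ⟨hS.h1, ?_, fun φ k hφ hφ0 => ?_⟩, fun x hx => ?_⟩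
  · refine (hS.subset (subset_univ (ext 1))).fl2.ae_eq ?_
    exact (ae_restrict_iff' (measurableSet_ext 1)).2 (Eventually.of_forall key)
  · rw [hS.eq φ k hφ (Eventually.of_forall fun x hx => absurd (mem_univ x) hx)]
    refine integral_congr_ae ?_
    filter_upwards [hφ0] with x hx
    by_cases hm : x ∈ ext 1
    · rw [key x hm]
    · rw [hx hm, mul_zero, mul_zero]
  · simp only [hU, bar]
    rw [(hr _ hx).1, mul_assoc]

theorem memLp_bar (N : ℕ) (γ : ℝ) {κ : ℝ} (hκ : 0 < κ) :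
    MemLp (fun x : X => (1 + ‖x‖) ^ N * ‖x‖ ^ γ * Real.exp (-κ * ‖x‖)) 2
      (volume.restrict (ext 1)) :=
  LBar_memLp N γ hκ

theorem contDiff_jb : ContDiff ℝ 1 jb :=
  (contDiff_const.add (contDiff_norm_sq ℝ)).sqrt fun x => by positivity

theorem gs_jb_le (x : X) : gs (pd eX jb) x ≤ 1 := by
  have h0 : 0 < 1 + ‖x‖ ^ 2 := by positivity
  have h1 : HasDerivAt (fun s : ℝ => √(1 + s)) (1 / (2 * √(1 + ‖x‖ ^ 2))) (‖x‖ ^ 2) :=
    ((hasDerivAt_id' (‖x‖ ^ 2)).const_add 1).sqrt h0.ne'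
  have h2 : ∀ i, pd eX jb i x = x i / √(1 + ‖x‖ ^ 2) := fun i => by
    have := LBar_pd_nsq h1 i
    unfold jb
    rw [this]
    field_simp
  unfold gs
  simp only [h2, div_pow, Real.sq_sqrt h0.le]
  rw [← Finset.sum_div, ← EuclideanSpace.real_norm_sq_eq, div_le_one h0]
  linarith

theorem norm_le_jb (x : X) : ‖x‖ ≤ jb x :=
  Real.le_sqrt_of_sq_le (by linarith)

theorem jb_le (x : X) : jb x ≤ ‖x‖ + 1 := by
  have := norm_nonneg x
  exact Real.sqrt_le_iff.2 ⟨by positivity, by nlinarith⟩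

theorem jb_P (x : X) : jb (P x) = jb x := by
  unfold jb
  rw [norm_P]

end Crest.Agent.R335
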