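import Crest.Agent.R335.LMax0

/-! Row 335. Weak inequalities: algebra, maximum principle, Kato inequality. -/

set_option autoImplicit false

open MeasureTheory Set Filter Topology
open scoped ENNReal

noncomputable section

namespace Crest.Agent.R335

variable {Ω Ω' : Set X} {u w n : X → ℝ} {g k : Fin 3 → X → ℝ} {f f' S : X → ℝ}

theorem LMax_cut (h : H1 eX u g) {R : ℝ} (hR : 0 ≤ R) :
    ∃ (ζ : X → ℝ) (ζ' : Fin 3 → X → ℝ), (∀ x, 0 ≤ ζ x ∧ ζ x ≤ 1) ∧
      (∀ x, ‖x‖ ≤ R → ζ x = 0 ∧ ∀ i, ζ' i x = 0) ∧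
      (∀ x, R + 1 ≤ ‖x‖ → ζ x = 1 ∧ ∀ i, ζ' i x = 0) ∧
      H1 eX (fun x => ζ x * max (u x) 0)
        fun i x => ζ x * (if 0 < u x then g i x else 0) + ζ' i x * max (u x) 0 := by
  let b : ContDiffBump (0 : X) := ⟨R + 1 / 3, R + 2 / 3, by linarith, by linarith⟩
  have hp := h.posPart
  have h1 := hp.h1l.mul_c1c (ζ := b) b.contDiff b.hasCompactSupport
  have h2 := hp.sub h1
  refine ⟨fun x => 1 - b x, fun i x => -pd eX b i x, fun x => ?_, fun x hx => ?_, fun x hx => ?_,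
    ?_⟩
  · have := b.nonneg' x
    have : b x ≤ 1 := b.le_one
    constructor <;> linarith
  · have hb : x ∈ Metric.ball (0 : X) b.rIn := by
      rw [mem_ball_zero_iff]
      change ‖x‖ < R + 1 / 3
      linarith
    refine ⟨by simp [b.one_of_mem_closedBall (Metric.ball_subset_closedBall hb)], fun i => ?_⟩
    have := (b.eventuallyEq_one_of_mem_ball hb).fderiv_eq (𝕜 := ℝ)
    simp only [pd, this]
    simp
  · have hb : x ∉ tsupport b := by
      rw [b.tsupport_eq, mem_closedBall_zero_iff]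
      change ¬ ‖x‖ ≤ R + 2 / 3
      linarith
    refine ⟨by simp [image_eq_zero_of_notMem_tsupport hb], fun i => ?_⟩
    have := (notMem_tsupport_iff_eventuallyEq.1 hb).fderiv_eq (𝕜 := ℝ)
    simp only [pd, this]
    simp
  · convert h2 using 2 with x i
    · ring
    · funext x
      ring

theorem LMax_mR (R : ℝ) : MeasurableSet {x : X | R < ‖x‖} := measurableSet_ext R

theorem LMax_mU (R : ℝ) : MeasurableSet {x : X | R < ‖x‖ ∧ 0 < x 2} := measurableSet_up R

/-- Multiply `u₊` by a cut-off function which is `0` on the ball of radius `R` and `1` outside the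
ball of radius `R + 1`. -/
theorem test_ext (h : H1 eX u g) {R : ℝ} (hR : 0 ≤ R)
    (hs : ∀ᵐ x, R < ‖x‖ → ‖x‖ < R + 1 → u x ≤ 0) :
    H1 eX (fun x => if R < ‖x‖ then max (u x) 0 else 0)
      fun i x => if R < ‖x‖ ∧ 0 < u x then g i x else 0 := by
  obtain ⟨ζ, ζ', -, h1, h2, h3⟩ := LMax_cut h hR
  refine h3.congr ?_ (fun i => ?_) ?_ fun i => ?_
  · exact Measurable.ite (LMax_mR R) (h.m.max measurable_const) measurable_const
  · exact Measurable.ite ((LMax_mR R).inter (measurableSet_lt measurable_const h.m)) (h.gm i)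
      measurable_const
  · filter_upwards [hs] with x hx
    by_cases a : R < ‖x‖
    · by_cases b : ‖x‖ < R + 1
      · simp [max_eq_right (hx a b)]
      · simp [a, (h2 x (not_lt.1 b)).1]
    · simp [a, (h1 x (not_lt.1 a)).1]
  · filter_upwards [hs] with x hx
    by_cases a : R < ‖x‖
    · by_cases b : ‖x‖ < R + 1
      · simp [max_eq_right (hx a b), not_lt.2 (hx a b)]
      · simp [a, (h2 x (not_lt.1 b)).1, (h2 x (not_lt.1 b)).2]
    · simp [a, (h1 x (not_lt.1 a)).1, (h1 x (not_lt.1 a)).2]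

/-- `H1.half'` for `ζ u₊`, with `ζ` as in `test_ext`. -/
theorem test_up (h : H1 eX u g) {R : ℝ} (hR : 0 ≤ R)
    (hs : ∀ᵐ x : X, R < ‖x‖ → ‖x‖ < R + 1 → 0 < x 2 → u x ≤ 0) (hv : Van w)
    (hw : MemLp w 2 volume) (hle : ∀ᵐ x, x ∈ up R → u x ≤ |w x|) :
    H1 eX (fun x => if R < ‖x‖ ∧ 0 < x 2 then max (u x) 0 else 0)
      fun i x => if (R < ‖x‖ ∧ 0 < x 2) ∧ 0 < u x then g i x else 0 := by
  obtain ⟨ζ, ζ', h0, h1, h2, h3⟩ := LMax_cut h hR
  obtain ⟨C, hC⟩ := hv
  have hm : ∀ δ : ℝ, MeasurableSet {x : X | 0 < x 2 ∧ x 2 < δ} := fun δ =>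
    (measurableSet_lt (g := fun x : X => x 2) measurable_const (by fun_prop)).inter
      (measurableSet_lt (f := fun x : X => x 2) (by fun_prop) measurable_const)
  have hw2 : Integrable fun x => w x ^ 2 := hw.integrable_sq
  have h4 := h3.half' (C := C) (fun δ hδ hδ' => by
    refine le_trans ?_ (hC δ hδ hδ')
    refine le_trans (setIntegral_mono_on_ae h3.integrable_sq.integrableOn hw2.integrableOn (hm δ)
      ?_) (setIntegral_mono_set hw2.integrableOn (Eventually.of_forall fun x => sq_nonneg _)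
        (LE.le.eventuallyLE fun x hx => ?_))
    · filter_upwards [hle] with x hx hx'
      by_cases a : R < ‖x‖
      · have h5 := hx ⟨a, hx'.1⟩
        have h6 : 0 ≤ max (u x) 0 := le_max_right _ _
        have h7 : max (u x) 0 ≤ |w x| := max_le h5 (abs_nonneg _)
        rw [← sq_abs (w x)]
        refine pow_le_pow_left₀ (mul_nonneg (h0 x).1 h6) ?_ 2
        nlinarith [(h0 x).1, (h0 x).2]
      · simp [(h1 x (not_lt.1 a)).1, sq_nonneg]
    · change |x 2| < δ
      rw [abs_of_pos hx.1]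
      exact hx.2)
  refine h4.congr ?_ (fun i => ?_) ?_ fun i => ?_
  · exact Measurable.ite (LMax_mU R) (h.m.max measurable_const) measurable_const
  · exact Measurable.ite ((LMax_mU R).inter (measurableSet_lt measurable_const h.m)) (h.gm i)
      measurable_const
  · filter_upwards [hs] with x hx
    by_cases c : 0 < x 2
    · by_cases a : R < ‖x‖
      · by_cases b : ‖x‖ < R + 1
        · simp [max_eq_right (hx a b c)]
        · simp [a, c, (h2 x (not_lt.1 b)).1]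
      · simp [a, (h1 x (not_lt.1 a)).1]
    · simp [c]
  · filter_upwards [hs] with x hx
    by_cases c : 0 < x 2
    · by_cases a : R < ‖x‖
      · by_cases b : ‖x‖ < R + 1
        · simp [max_eq_right (hx a b c), not_lt.2 (hx a b c)]
        · simp [a, c, (h2 x (not_lt.1 b)).1, (h2 x (not_lt.1 b)).2]
      · simp [a, (h1 x (not_lt.1 a)).1, (h1 x (not_lt.1 a)).2]
    · simp [c]

/-- The comparison principle.  `φ` is `(u - w)₊` restricted to `Ω`.  Subtracting gives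
`dir l ≤ 0`; use `H1.eq_zero_of_dir`. -/
theorem cmp_core (hΩ : MeasurableSet Ω) (hw : Sup Ω w k f') {φ : X → ℝ} {l : Fin 3 → X → ℝ}
    (hu : H1 eX u g) (hφ : H1 eX φ l) (h0 : ∀ x, x ∉ Ω → φ x = 0)
    (h1 : ∀ x, x ∈ Ω → φ x = max (u x - w x) 0)
    (h2 : ∀ i x, l i x = if 0 < φ x then g i x - k i x else 0)
    (hi : Integrable fun x => f x * φ x) (hle : (∫ x, gd g l x) / 2 ≤ ∫ x, f x * φ x)
    (hf : ∀ᵐ x, x ∈ Ω → w x < u x → f x ≤ f' x) : ∀ᵐ x, x ∈ Ω → u x ≤ w x := by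
  have hnn : ∀ x, 0 ≤ φ x := fun x => by
    by_cases hx : x ∈ Ω
    · rw [h1 x hx]; exact le_max_right _ _
    · rw [h0 x hx]
  have h3 := hw.ge φ l hφ (Eventually.of_forall hnn) (Eventually.of_forall h0)
  have hi' := integrable_test hΩ hw.fl2 hφ.l2 (Eventually.of_forall h0)
  have h4 : ∫ x, f x * φ x ≤ ∫ x, f' x * φ x := by
    refine integral_mono_ae hi hi' ?_
    filter_upwards [hf] with x hx
    by_cases a : x ∈ Ω
    · by_cases b : w x < u x
      · exact mul_le_mul_of_nonneg_right (hx a b) (hnn x)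
      · have : φ x = 0 := by rw [h1 x a]; exact max_eq_right (by linarith [not_lt.1 b])
        simp [this]
    · simp [h0 x a]
  have h5 : dir l = (∫ x, gd g l x) - ∫ x, gd k l x := by
    rw [← integral_sub (hu.integrable_gd hφ) (hw.h1.integrable_gd hφ)]
    refine integral_congr_ae (Eventually.of_forall fun x => ?_)
    simp only [gs, gd, ← Finset.sum_sub_distrib]
    refine Finset.sum_congr rfl fun i _ => ?_
    rw [h2 i x]
    split_ifs <;> ring
  have h6 := hφ.eq_zero_of_dir (by rw [h5]; linarith)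
  filter_upwards [h6] with x hx a
  rw [h1 x a] at hx
  have := le_max_left (u x - w x) 0
  linarith

theorem LMax_cmp1 (hΩ : MeasurableSet Ω) [DecidablePred (· ∈ Ω)] (hu : Sub Ω u g f)
    (hw : Sup Ω w k f')
    (hφ : H1 eX (fun x => if x ∈ Ω then max (u x - w x) 0 else 0)
      fun i x => if x ∈ Ω ∧ 0 < u x - w x then g i x - k i x else 0)
    (hf : ∀ᵐ x, x ∈ Ω → w x < u x → f x ≤ f' x) : ∀ᵐ x, x ∈ Ω → u x ≤ w x := by
  have h0 : ∀ x, x ∉ Ω → (fun x => if x ∈ Ω then max (u x - w x) 0 else 0) x = 0 :=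
    fun x hx => if_neg hx
  refine cmp_core hΩ hw hu.h1 hφ h0 (fun x hx => if_pos hx) (fun i x => ?_)
    (integrable_test hΩ hu.fl2 hφ.l2 (Eventually.of_forall h0))
    (hu.le _ _ hφ (Eventually.of_forall fun x => ?_) (Eventually.of_forall h0)) hf
  · by_cases a : x ∈ Ω <;> simp [a]
  · by_cases a : x ∈ Ω <;> simp [a]

theorem LMax_cmp2 (hΩ : MeasurableSet Ω) [DecidablePred (· ∈ Ω)] (hu : Sub2 Ω n g f S)
    (hw : Sup Ω w k f') (hp : ∀ᵐ x, x ∈ Ω → 0 < w x)
    (hφ : H1 eX (fun x => if x ∈ Ω then max (n x - w x) 0 else 0)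
      fun i x => if x ∈ Ω ∧ 0 < n x - w x then g i x - k i x else 0)
    (hf : ∀ᵐ x, x ∈ Ω → w x < n x → f x + S x / w x ≤ f' x) : ∀ᵐ x, x ∈ Ω → n x ≤ w x := by
  set φ : X → ℝ := fun x => if x ∈ Ω then max (n x - w x) 0 else 0 with hφdef
  have h0 : ∀ x, x ∉ Ω → φ x = 0 := fun x hx => if_neg hx
  have hb : ∀ᵐ x, 0 ≤ φ x ∧ φ x ≤ n x := by
    filter_upwards [hp] with x hx
    by_cases a : x ∈ Ω
    · have := hx a
      simp only [hφdef, if_pos a]
      exact ⟨le_max_right _ _, max_le (by linarith) (hu.nn x)⟩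
    · rw [h0 x a]
      exact ⟨le_rfl, hu.nn x⟩
  have hi1 := integrable_test hΩ hu.fl2 hφ.l2 (Eventually.of_forall h0)
  have hi2 : Integrable fun x => S x * (φ x / n x) := by
    have e : (fun x => S x * (φ x / n x)) = Ω.indicator fun x => S x * (φ x / n x) := by
      funext x
      by_cases a : x ∈ Ω
      · rw [indicator_of_mem a]
      · rw [indicator_of_notMem a, h0 x a, zero_div, mul_zero]
    rw [e, integrable_indicator_iff hΩ]
    refine Integrable.mul_bdd (c := 1) hu.Sint (hφ.m.div hu.h1.m).aestronglyMeasurable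
      (ae_restrict_of_ae ?_)
    filter_upwards [hb] with x hx
    rw [Real.norm_eq_abs, abs_of_nonneg (div_nonneg hx.1 (hu.nn x))]
    exact div_le_one_of_le₀ hx.2 (hu.nn x)
  have e : (fun x => (f x + S x / n x) * φ x) = fun x => f x * φ x + S x * (φ x / n x) := by
    funext x
    ring
  refine cmp_core (f := fun x => f x + S x / n x) hΩ hw hu.h1 hφ h0 (fun x hx => if_pos hx)
    (fun i x => ?_) (by rw [e]; exact hi1.add hi2) ?_ ?_
  · by_cases a : x ∈ Ω <;> simp [hφdef, a]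
  · rw [e, integral_add hi1 hi2]
    exact hu.le _ _ hφ hb (Eventually.of_forall h0)
  · filter_upwards [hf, hp] with x hx hx' a b
    have h1 := hx a b
    have h2 : S x / n x ≤ S x / w x := div_le_div_of_nonneg_left (hu.Snn x) (hx' a) b.le
    linarith

theorem cmp_ext {R : ℝ} (hR : 0 ≤ R) (hu : Sub (ext R) u g f) (hw : Sup (ext R) w k f')
    (hs : ∀ᵐ x, R < ‖x‖ → ‖x‖ < R + 1 → u x ≤ w x)
    (hf : ∀ᵐ x, R < ‖x‖ → w x < u x → f x ≤ f' x) : ∀ᵐ x, R < ‖x‖ → u x ≤ w x := by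
  refine @LMax_cmp1 (ext R) u w g k f f' (measurableSet_ext R)
    (fun x => inferInstanceAs (Decidable (R < ‖x‖))) hu hw (test_ext (hu.h1.sub hw.h1) hR ?_) hf
  filter_upwards [hs] with x hx a b
  linarith [hx a b]

theorem cmp_up {R : ℝ} (hR : 0 ≤ R) (hu : Sub (up R) u g f) (hw : Sup (up R) w k f')
    (hs : ∀ᵐ x : X, R < ‖x‖ → ‖x‖ < R + 1 → 0 < x 2 → u x ≤ w x) {v : X → ℝ} (hv : Van v)
    (hv2 : MemLp v 2 volume) (hle : ∀ᵐ x, x ∈ up R → u x - w x ≤ |v x|)
    (hf : ∀ᵐ x, x ∈ up R → w x < u x → f x ≤ f' x) : ∀ᵐ x, x ∈ up R → u x ≤ w x := by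
  refine @LMax_cmp1 (up R) u w g k f f' (measurableSet_up R)
    (fun x => inferInstanceAs (Decidable (R < ‖x‖ ∧ 0 < x 2))) hu hw
    (test_up (hu.h1.sub hw.h1) hR ?_ hv hv2 hle) hf
  filter_upwards [hs] with x hx a b c
  linarith [hx a b c]

theorem cmp2_ext {R : ℝ} (hR : 0 ≤ R) (hu : Sub2 (ext R) n g f S) (hw : Sup (ext R) w k f')
    (hp : ∀ᵐ x, R < ‖x‖ → 0 < w x) (hs : ∀ᵐ x, R < ‖x‖ → ‖x‖ < R + 1 → n x ≤ w x)
    (hf : ∀ᵐ x, R < ‖x‖ → w x < n x → f x + S x / w x ≤ f' x) :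
    ∀ᵐ x, R < ‖x‖ → n x ≤ w x := by
  refine @LMax_cmp2 (ext R) w n g k f f' S (measurableSet_ext R)
    (fun x => inferInstanceAs (Decidable (R < ‖x‖))) hu hw hp (test_ext (hu.h1.sub hw.h1) hR ?_) hf
  filter_upwards [hs] with x hx a b
  linarith [hx a b]

theorem cmp2_up {R : ℝ} (hR : 0 ≤ R) (hu : Sub2 (up R) n g f S) (hw : Sup (up R) w k f')
    (hp : ∀ᵐ x, x ∈ up R → 0 < w x)
    (hs : ∀ᵐ x : X, R < ‖x‖ → ‖x‖ < R + 1 → 0 < x 2 → n x ≤ w x) (hv : Van n)
    (hf : ∀ᵐ x, x ∈ up R → w x < n x → f x + S x / w x ≤ f' x) :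
    ∀ᵐ x, x ∈ up R → n x ≤ w x := by
  refine @LMax_cmp2 (up R) w n g k f f' S (measurableSet_up R)
    (fun x => inferInstanceAs (Decidable (R < ‖x‖ ∧ 0 < x 2))) hu hw hp
    (test_up (hu.h1.sub hw.h1) hR ?_ hv hu.h1.l2 ?_) hf
  · filter_upwards [hs] with x hx a b c
    linarith [hx a b c]
  · filter_upwards [hp] with x hx a
    linarith [hx a, le_abs_self (n x)]

end Crest.Agent.R335
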