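import Crest.Agent.R335.LGauss2
import Crest.Agent.R335.LMax

/-! Row 335. Duhamel's formula for weak subsolutions. -/

set_option autoImplicit false

open MeasureTheory Set Filter Topology
open scoped ENNReal

noncomputable section

namespace Crest.Agent.R335

variable {u S f : X → ℝ} {g : Fin 3 → X → ℝ}

theorem LDuh_poly {a b : ℝ} (ha : 0 < a) : ∃ C : ℝ, 0 ≤ C ∧ ∀ τ, a ≤ τ → τ ≤ b → ∀ y : X,
    (1 + ‖y‖) ^ 2 * G τ y ≤ C * G (2 * b) y := by
  refine ⟨3 * Real.exp (2 ^ 2 * b) * (|b| / a) ^ (3 / 2 : ℝ), by positivity, fun τ h1 h2 y => ?_⟩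
  have hτ : 0 < τ := ha.trans_le h1
  have h3 := G_exp_le (κ := 2) hτ y
  have h4 := G_le (σ := 2 * τ) (τ := 2 * b) (by positivity) (by linarith) y
  have h5 : (1 + ‖y‖) ^ 2 ≤ Real.exp (2 * ‖y‖) := by
    rw [show 2 * ‖y‖ = ((2 : ℕ) : ℝ) * ‖y‖ by norm_num, Real.exp_nat_mul]
    have := Real.add_one_le_exp ‖y‖
    gcongr
    linarith
  have h6 : (2 * b / (2 * τ)) ^ (3 / 2 : ℝ) ≤ (|b| / a) ^ (3 / 2 : ℝ) := by
    rw [mul_div_mul_left _ _ two_ne_zero]
    have hb : 0 < b := hτ.trans_le h2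
    rw [abs_of_pos hb]
    gcongr
  have h7 := (G_pos hτ y).le
  have h8 := (G_pos (show 0 < 2 * b by linarith) y).le
  calc _ ≤ G τ y * Real.exp (2 * ‖y‖) := by rw [mul_comm]; gcongr
    _ ≤ 3 * Real.exp (2 ^ 2 * τ) * G (2 * τ) y := h3
    _ ≤ 3 * Real.exp (2 ^ 2 * b) * ((|b| / a) ^ (3 / 2 : ℝ) * G (2 * b) y) := by
        have := h4.trans (mul_le_mul_of_nonneg_right h6 h8)
        have := (G_pos (show 0 < 2 * τ by positivity) y).le
        gcongr
    _ = _ := by ring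

theorem LDuh_cont (τ : ℝ) (x : X) : ContDiff ℝ 1 fun y => G τ (x - y) :=
  (contDiff_G τ 1).comp (contDiff_const.sub contDiff_id)

theorem LDuh_memLp {τ : ℝ} (hτ : 0 < τ) (x : X) {p : X → ℝ} (hp : Continuous p) {C : ℝ}
    (h : ∀ y, |p y| ≤ C * (1 + ‖x - y‖) ^ 2) : MemLp (fun y => p y * G τ (x - y)) 2 volume := by
  obtain ⟨K, hK0, hK⟩ := LDuh_poly (b := τ) hτ
  refine (memLp_G (τ := 2 * τ) (by positivity) x).of_le_mul (c := |C| * K)
    (hp.mul (LDuh_cont τ x).continuous).aestronglyMeasurable (Eventually.of_forall fun y => ?_)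
  have h1 := (G_pos hτ (x - y)).le
  have h2 := (G_pos (show 0 < 2 * τ by positivity) (x - y)).le
  rw [norm_mul, Real.norm_eq_abs, Real.norm_of_nonneg h1, Real.norm_of_nonneg h2]
  calc _ ≤ |C| * (1 + ‖x - y‖) ^ 2 * G τ (x - y) := by
        have := (h y).trans (mul_le_mul_of_nonneg_right (le_abs_self C) (by positivity))
        gcongr
    _ ≤ |C| * (K * G (2 * τ) (x - y)) := by
        rw [mul_assoc]
        have := hK τ le_rfl le_rfl (x - y)
        gcongr
    _ = _ := by ring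

theorem LDuh_pd {τ : ℝ} (hτ : 0 < τ) (x : X) (i : Fin 3) (y : X) :
    pd eX (fun y => G τ (x - y)) i y = (x - y) i / τ * G τ (x - y) := by
  have h1 : HasFDerivAt (fun y => G τ (x - y))
      ((fderiv ℝ (G τ) (x - y)).comp (-ContinuousLinearMap.id ℝ X)) y :=
    (((contDiff_G τ 1).differentiable (by simp)) (x - y)).hasFDerivAt.comp y
      ((hasFDerivAt_id y).const_sub x)
  rw [pd, h1.fderiv]
  simp [fderiv_G hτ, eX, EuclideanSpace.inner_single_right]
  ring

theorem LDuh_pd2 (τ : ℝ) (x : X) (i j : Fin 3) (y : X) :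
    pd eX (fun y : X => (x - y) i / τ) j y = -(if i = j then 1 else 0) / τ := by
  have h1 : HasFDerivAt (fun y : X => (x - y) i / τ)
      (τ⁻¹ • (-(EuclideanSpace.proj i : X →L[ℝ] ℝ))) y := by
    have := (((EuclideanSpace.proj i : X →L[ℝ] ℝ).hasFDerivAt (x := y)).const_sub (x i)).const_smul
      τ⁻¹
    refine this.congr_of_eventuallyEq (Eventually.of_forall fun z => ?_)
    simp [div_eq_inv_mul]
  rw [pd, h1.fderiv]
  simp [eX, div_eq_inv_mul]

theorem LDuh_abs (x y : X) (i : Fin 3) : |(x - y) i| ≤ ‖x - y‖ := by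
  simpa using PiLp.norm_apply_le (x - y) i

theorem LDuh_h1 {τ : ℝ} (hτ : 0 < τ) (x : X) :
    H1 eX (fun y => G τ (x - y)) fun i y => (x - y) i / τ * G τ (x - y) := by
  have h1 := H1l.of_contDiff (e := eX) (LDuh_cont τ x)
  rw [show pd eX (fun y => G τ (x - y)) = fun i y => (x - y) i / τ * G τ (x - y) from
    funext fun i => funext fun y => LDuh_pd hτ x i y] at h1
  refine h1.h1 (memLp_G hτ x) fun i => LDuh_memLp hτ x (by fun_prop) (C := τ⁻¹) fun y => ?_
  rw [abs_div, abs_of_pos hτ, div_eq_inv_mul]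
  have := LDuh_abs x y i
  have := norm_nonneg (x - y)
  gcongr
  nlinarith

theorem LDuh_h2 {τ : ℝ} (hτ : 0 < τ) (x : X) (i : Fin 3) :
    H1 eX (fun y => (x - y) i / τ * G τ (x - y)) fun j y =>
      ((x - y) i / τ * ((x - y) j / τ) - (if i = j then 1 else 0) / τ) * G τ (x - y) := by
  have h1 := (LDuh_h1 hτ x).h1l.mul_contDiff (ζ := fun y : X => (x - y) i / τ) (by fun_prop)
  have e : (fun j y => (x - y) i / τ * ((x - y) j / τ * G τ (x - y)) +
      pd eX (fun y : X => (x - y) i / τ) j y * G τ (x - y)) = fun j y =>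
      ((x - y) i / τ * ((x - y) j / τ) - (if i = j then 1 else 0) / τ) * G τ (x - y) := by
    funext j y
    rw [LDuh_pd2]
    ring
  rw [e] at h1
  refine h1.h1 ((LDuh_h1 hτ x).gl2 i) fun j =>
    LDuh_memLp hτ x (by fun_prop) (C := τ⁻¹ * τ⁻¹ + τ⁻¹) fun y => ?_
  have h2 := LDuh_abs x y i
  have h3 := LDuh_abs x y j
  have h4 := norm_nonneg (x - y)
  have h5 : |(x - y) i / τ * ((x - y) j / τ)| ≤ τ⁻¹ * τ⁻¹ * (1 + ‖x - y‖) ^ 2 := by
    rw [abs_mul, abs_div, abs_div, abs_of_pos hτ]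
    calc _ = τ⁻¹ * τ⁻¹ * (|(x - y) i| * |(x - y) j|) := by ring
      _ ≤ τ⁻¹ * τ⁻¹ * (‖x - y‖ * ‖x - y‖) := by gcongr
      _ ≤ _ := by gcongr; nlinarith
  have h6 : |(if i = j then (1 : ℝ) else 0) / τ| ≤ τ⁻¹ * (1 + ‖x - y‖) ^ 2 := by
    have : |(if i = j then (1 : ℝ) else 0)| ≤ (1 + ‖x - y‖) ^ 2 := by
      split_ifs
      · rw [abs_one]; nlinarith
      · rw [abs_zero]; positivity
    rw [abs_div, abs_of_pos hτ, div_eq_inv_mul]
    gcongr
  refine (abs_sub _ _).trans ?_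
  linarith

/-- the heat equation tested against an `H¹` function -/
theorem LDuh_gd (h : H1 eX u g) {τ : ℝ} (hτ : 0 < τ) (x : X) :
    (∫ y, gd g (fun i y => (x - y) i / τ * G τ (x - y)) y) / 2 =
      -∫ y, (‖x - y‖ ^ 2 / (2 * τ ^ 2) - 3 / (2 * τ)) * G τ (x - y) * u y := by
  have h1 : ∫ y, gd g (fun i y => (x - y) i / τ * G τ (x - y)) y =
      ∑ i, ∫ y, g i y * ((x - y) i / τ * G τ (x - y)) :=
    integral_finsetSum _ fun i _ => (h.gl2 i).integrable_mul ((LDuh_h1 hτ x).gl2 i)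
  rw [h1, Finset.sum_congr rfl fun i _ => h.ibp (LDuh_h2 hτ x i) i, Finset.sum_neg_distrib,
    ← integral_finsetSum (f := fun i y => u y * (((x - y) i / τ * ((x - y) i / τ) -
      (if i = i then 1 else 0) / τ) * G τ (x - y))) _
      fun i _ => h.l2.integrable_mul ((LDuh_h2 hτ x i).gl2 i), neg_div, ← integral_div]
  congr 2
  funext y
  simp only [if_true, Fin.sum_univ_three]
  rw [EuclideanSpace.real_norm_sq_eq, Fin.sum_univ_three]
  field_simp
  ring

theorem LDuh_deriv (hu : MemLp u 2 volume) {τ : ℝ} (hτ : 0 < τ) (x : X) :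
    HasDerivAt (fun s => Gc s u x)
      (∫ y, (‖x - y‖ ^ 2 / (2 * τ ^ 2) - 3 / (2 * τ)) * G τ (x - y) * u y) τ := by
  obtain ⟨K, hK0, hK⟩ := LDuh_poly (a := τ / 2) (b := 2 * τ) (by positivity)
  have hm : ∀ s, AEStronglyMeasurable (fun y => G s (x - y)) volume := fun s =>
    (LDuh_cont s x).continuous.aestronglyMeasurable
  refine (hasDerivAt_integral_of_dominated_loc_of_deriv_le (s := Icc (τ / 2) (2 * τ))
    (F := fun s y => G s (x - y) * u y)
    (F' := fun s y => (‖x - y‖ ^ 2 / (2 * s ^ 2) - 3 / (2 * s)) * G s (x - y) * u y)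
    (bound := fun y => (2 / τ ^ 2 + 3 / τ) * K * ‖G (2 * (2 * τ)) (x - y) * u y‖)
    (Icc_mem_nhds (by linarith) (by linarith))
    (Eventually.of_forall fun s => (hm s).mul hu.1) (integrable_Gc hτ hu x)
    ((((by fun_prop : Continuous fun y : X =>
      ‖x - y‖ ^ 2 / (2 * τ ^ 2) - 3 / (2 * τ)).aestronglyMeasurable).mul (hm τ)).mul hu.1)
    (Eventually.of_forall fun y s hs => ?_)
    ((integrable_Gc (by positivity) hu x).norm.const_mul _)
    (Eventually.of_forall fun y s hs => ?_)).2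
  · have hs0 : 0 < s := lt_of_lt_of_le (by positivity) hs.1
    have h1 := (G_pos hs0 (x - y)).le
    have h2 := (G_pos (show 0 < 2 * (2 * τ) by positivity) (x - y)).le
    have h3 := hK s hs.1 hs.2 (x - y)
    have h4 := norm_nonneg (x - y)
    have h5 : |‖x - y‖ ^ 2 / (2 * s ^ 2) - 3 / (2 * s)| ≤
        (2 / τ ^ 2 + 3 / τ) * (1 + ‖x - y‖) ^ 2 := by
      have h6 : ‖x - y‖ ^ 2 / (2 * s ^ 2) ≤ 2 / τ ^ 2 * (1 + ‖x - y‖) ^ 2 := by
        calc _ ≤ (1 + ‖x - y‖) ^ 2 / (2 * (τ / 2) ^ 2) := by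
              have := hs.1
              gcongr
              linarith
          _ = _ := by field_simp
      have h7 : 3 / (2 * s) ≤ 3 / τ * (1 + ‖x - y‖) ^ 2 := by
        calc _ ≤ 3 / (2 * (τ / 2)) := by
              have := hs.1
              gcongr
          _ = 3 / τ * 1 := by field_simp
          _ ≤ _ := by gcongr; nlinarith
      refine (abs_sub _ _).trans ?_
      rw [abs_of_nonneg (by positivity), abs_of_nonneg (by positivity)]
      linarith
    rw [norm_mul, norm_mul, norm_mul, Real.norm_eq_abs, Real.norm_of_nonneg h1,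
      Real.norm_of_nonneg h2]
    calc _ ≤ (2 / τ ^ 2 + 3 / τ) * (1 + ‖x - y‖) ^ 2 * G s (x - y) * ‖u y‖ := by gcongr
      _ = (2 / τ ^ 2 + 3 / τ) * ((1 + ‖x - y‖) ^ 2 * G s (x - y)) * ‖u y‖ := by ring
      _ ≤ (2 / τ ^ 2 + 3 / τ) * (K * G (2 * (2 * τ)) (x - y)) * ‖u y‖ := by gcongr
      _ = _ := by ring
  · exact (hasDerivAt_G (lt_of_lt_of_le (by positivity) hs.1) (x - y)).mul_const _

theorem LDuh_step {m ε t : ℝ} (hε : 0 < ε) (ht : ε ≤ t) (hS : MemLp S 2 volume)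
    (h : Sub univ u g fun x => S x - m * u x) (x : X) :
    Real.exp (-m * ε) * Gc ε u x ≤
      Real.exp (-m * t) * Gc t u x + ∫ τ in ε..t, Real.exp (-m * τ) * Gc τ S x := by
  have hu := h.h1.l2
  have hd : ∀ τ, 0 < τ → HasDerivAt (fun s => -(Real.exp (-m * s) * Gc s u x))
      (-(Real.exp (-m * τ) * (-m * 1) * Gc τ u x + Real.exp (-m * τ) *
        ∫ y, (‖x - y‖ ^ 2 / (2 * τ ^ 2) - 3 / (2 * τ)) * G τ (x - y) * u y)) τ := fun τ hτ =>
    ((((hasDerivAt_id τ).const_mul (-m)).exp).mul (LDuh_deriv hu hτ x)).neg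
  have := intervalIntegral.sub_le_integral_of_hasDeriv_right_of_le ht
    (fun τ hτ => (hd τ (hε.trans_le hτ.1)).continuousAt.continuousWithinAt)
    (fun τ hτ => (hd τ (hε.trans hτ.1)).hasDerivWithinAt)
    ((integrableOn_Gc m (t := t) hS x).mono_set fun τ hτ => ⟨hε.trans_le hτ.1, hτ.2⟩)
    (fun τ hτ => by
      have hτ0 := hε.trans hτ.1
      have h1 := h.le _ _ (LDuh_h1 hτ0 x) (Eventually.of_forall fun y => (G_pos hτ0 _).le)
        (Eventually.of_forall fun y hy => (hy (mem_univ y)).elim)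
      rw [LDuh_gd h.h1 hτ0 x] at h1
      have h2 : ∫ y, (S y - m * u y) * G τ (x - y) = Gc τ S x - m * Gc τ u x := by
        have := Gc_lin hτ0 hS hu 1 (-m) x
        rw [one_mul, neg_mul, ← sub_eq_add_neg] at this
        rw [← this, Gc]
        congr 1
        funext y
        ring
      rw [h2] at h1
      have h3 := mul_le_mul_of_nonneg_left h1 (Real.exp_pos (-m * τ)).le
      linarith)
  linarith

theorem LDuh_nsq_add {w : X → ℝ} (hu : MemLp u 2 volume) (hw : MemLp w 2 volume) :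
    nsq (fun x => u x + w x) ≤ 2 * nsq u + 2 * nsq w := by
  have h1 := nsq_lin hu hw 1 1
  have h2 := nsq_lin hu hw 1 (-1)
  have h3 := nsq_nonneg fun x => 1 * u x + -1 * w x
  simp only [one_mul] at h1
  linarith

theorem LDuh_lip {τ L : ℝ} (hτ : 0 < τ) (hf : MemLp f 2 volume) (hL : 0 ≤ L)
    (h : ∀ x y, |f x - f y| ≤ L * ‖x - y‖) (x : X) : |f x - Gc τ f x| ≤ 9 * L * √τ := by
  have hi : ∀ s, 0 < s → Integrable fun y => G s (x - y) := fun s hs =>
    (integrable_G hs).comp_sub_left x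
  have hI : ∀ s, 0 < s → ∫ y, G s (x - y) = 1 := fun s hs => by
    rw [integral_sub_left_eq_self (G s) volume x, integral_G hs]
  have e : f x - Gc τ f x = ∫ y, G τ (x - y) * (f x - f y) := by
    simp only [mul_sub]
    rw [integral_sub ((hi τ hτ).mul_const _) (integrable_Gc hτ hf x), integral_mul_const, hI τ hτ,
      one_mul, Gc]
  have hs : 0 < √τ := Real.sqrt_pos.2 hτ
  rw [e, ← Real.norm_eq_abs]
  refine (norm_integral_le_of_norm_le ((hi (2 * τ) (by positivity)).const_mul (9 * L * √τ))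
    (Eventually.of_forall fun y => ?_)).trans (le_of_eq ?_)
  · have h1 := G_exp_le (κ := (√τ)⁻¹) hτ (x - y)
    rw [inv_pow, Real.sq_sqrt hτ.le, inv_mul_cancel₀ hτ.ne'] at h1
    have h2 := (G_pos hτ (x - y)).le
    have h3 := (G_pos (show 0 < 2 * τ by positivity) (x - y)).le
    have h4 : ‖x - y‖ ≤ √τ * Real.exp ((√τ)⁻¹ * ‖x - y‖) := by
      have := Real.add_one_le_exp ((√τ)⁻¹ * ‖x - y‖)
      rw [← inv_mul_le_iff₀ hs]
      linarith
    have h5 := Real.exp_one_lt_three.le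
    rw [norm_mul, Real.norm_of_nonneg h2, Real.norm_eq_abs]
    calc _ ≤ G τ (x - y) * (L * (√τ * Real.exp ((√τ)⁻¹ * ‖x - y‖))) := by
          have := (h x y).trans (mul_le_mul_of_nonneg_left h4 hL)
          gcongr
      _ = L * √τ * (G τ (x - y) * Real.exp ((√τ)⁻¹ * ‖x - y‖)) := by ring
      _ ≤ L * √τ * (3 * 3 * G (2 * τ) (x - y)) := by
          refine mul_le_mul_of_nonneg_left (h1.trans ?_) (by positivity)
          gcongr
      _ = _ := by ring
  · rw [integral_const_mul, hI _ (by positivity), mul_one]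

theorem LDuh_c1 (hf : ContDiff ℝ 1 f) (hc : HasCompactSupport f) :
    ∃ K : ℝ, 0 ≤ K ∧ ∀ τ, 0 < τ → nsq (fun x => Gc τ f x - f x) ≤ K * √τ := by
  obtain ⟨L, hL⟩ := hf.lipschitzWith_of_hasCompactSupport hc (by simp)
  have h2 : MemLp f 2 volume := hf.continuous.memLp_of_hasCompactSupport hc
  have h1 : Integrable f := hf.continuous.integrable_of_hasCompactSupport hc
  have hn : 0 ≤ ∫ x, |f x| := integral_nonneg fun x => abs_nonneg _
  refine ⟨2 * (9 * L * ∫ x, |f x|), by positivity, fun τ hτ => ?_⟩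
  obtain ⟨h3, h4⟩ := memLp_Gc hτ h2
  have h5 := nsq_lin h3 h2 1 (-1)
  simp only [one_mul, neg_mul, ← sub_eq_add_neg] at h5
  have h6 : nsq f - ip (Gc τ f) f ≤ 9 * L * √τ * ∫ x, |f x| := by
    have h8 : Integrable fun x => Gc τ f x * f x := h3.integrable_mul h2
    rw [nsq, ip, ← integral_sub h2.integrable_sq h8, ← integral_const_mul]
    refine integral_mono (h2.integrable_sq.sub (h3.integrable_mul h2)) (h1.abs.const_mul _)
      fun x => ?_
    have h7 := LDuh_lip hτ h2 L.coe_nonneg (fun x y => by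
      have := hL.dist_le_mul x y
      rwa [Real.dist_eq, dist_eq_norm] at this) x
    calc f x ^ 2 - Gc τ f x * f x = (f x - Gc τ f x) * f x := by ring
      _ ≤ |(f x - Gc τ f x) * f x| := le_abs_self _
      _ ≤ _ := by rw [abs_mul]; gcongr
  rw [h5]
  linarith

theorem LDuh_l2 (h : H1 eX u g) {ε : ℕ → ℝ} (h0 : ∀ n, 0 < ε n) (hε : Tendsto ε atTop (𝓝 0)) :
    Tendsto (fun n => nsq fun x => Gc (ε n) u x - u x) atTop (𝓝 0) := by
  rw [Metric.tendsto_nhds]
  intro δ hδ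
  obtain ⟨φ, hφ, hc, hn, -⟩ := h.approx (show 0 < δ / 12 by positivity)
  obtain ⟨K, hK0, hK⟩ := LDuh_c1 (hφ.of_le (by norm_num)) hc
  have h2 : MemLp φ 2 volume := hφ.continuous.memLp_of_hasCompactSupport hc
  have h3 : Tendsto (fun n => K * √(ε n)) atTop (𝓝 (K * √0)) := hε.sqrt.const_mul K
  rw [Real.sqrt_zero, mul_zero] at h3
  filter_upwards [h3.eventually (gt_mem_nhds (show 0 < δ / 8 by positivity))] with n hn'
  have hd : MemLp (fun x => φ x - u x) 2 volume := h2.sub h.l2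
  have hd' : MemLp (fun x => -1 * φ x + 1 * u x) 2 volume :=
    (h2.const_mul _).add (h.l2.const_mul _)
  obtain ⟨h4, h5⟩ := memLp_Gc (h0 n) hd'
  have h6 : MemLp (fun x => Gc (ε n) φ x - φ x) 2 volume := (memLp_Gc (h0 n) h2).1.sub h2
  have h7 := LDuh_nsq_add h4 h6
  have h8 := LDuh_nsq_add (h4.add h6) hd
  have h9 : nsq (fun x => -1 * φ x + 1 * u x) = nsq fun x => φ x - u x := by
    simp only [nsq]
    congr 1
    funext x
    ring
  have e : (fun x => Gc (ε n) u x - u x) = fun x => (Gc (ε n) (fun x => -1 * φ x + 1 * u x) x +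
      (Gc (ε n) φ x - φ x)) + (φ x - u x) := by
    funext x
    rw [Gc_lin (h0 n) h2 h.l2]
    ring
  rw [dist_zero_right, Real.norm_of_nonneg (nsq_nonneg _), e]
  have h10 := hK _ (h0 n)
  refine h8.trans_lt ?_
  have h11 : nsq ((Gc (ε n) fun x => -1 * φ x + 1 * u x) + fun x => Gc (ε n) φ x - φ x) ≤ _ := h7
  linarith

theorem LDuh_neg (m t : ℝ) (u S : X → ℝ) (x : X) :
    duh m t (fun y => -u y) (fun y => -S y) x = -duh m t u S x := by
  simp only [duh, Gc, mul_neg, integral_neg]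
  ring

theorem LDuh_nsq_ind (hf : MemLp f 2 volume) (A : Set X) (hA : MeasurableSet A) :
    nsq (A.indicator f) ≤ nsq f := by
  refine integral_mono (hf.indicator hA).integrable_sq hf.integrable_sq fun x => ?_
  by_cases hx : x ∈ A
  · simp [hx]
  · simp [hx, sq_nonneg]

/-- For `0 ≤ ψ ∈ C_c` put `φ_τ = Gc τ ψ ∈ H¹`.  `τ ↦ exp (-m τ) ⟨u, φ_τ⟩` is continuous on `[0, t]`
and has the derivative `-exp (-m τ) (⟨∇u, ∇φ_τ⟩ / 2 + m ⟨u, φ_τ⟩) ≥ -exp (-m τ) ⟨S, φ_τ⟩` for
`τ > 0` (heat equation and `H1.ibp`).  Move the semigroup to the other side (Fubini) and use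
`ae_le_of_forall_setIntegral_le` or `ae_nonneg_of_forall_setIntegral_nonneg_of_sigmaFinite`-type
lemmas (one may take `ψ` the indicator function of a set of finite measure). -/
theorem duh_le {m t : ℝ} (ht : 0 < t) (hS : MemLp S 2 volume)
    (h : Sub univ u g fun x => S x - m * u x) : ∀ᵐ x, u x ≤ duh m t u S x := by
  let ε : ℕ → ℝ := fun n => t * (1 / ((n : ℝ) + 1))
  have h0 : ∀ n, 0 < ε n := fun n => by positivity
  have h1 : ∀ n, ε n ≤ t := fun n => mul_le_of_le_one_right ht.le (by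
    rw [div_le_one (by positivity)]
    linarith [Nat.cast_nonneg (α := ℝ) n])
  have hε : Tendsto ε atTop (𝓝 0) := by
    have := (tendsto_one_div_add_atTop_nhds_zero_nat (𝕜 := ℝ)).const_mul t
    rwa [mul_zero] at this
  obtain ⟨s, hs, hae⟩ := exists_subseq_ae (fun n => (memLp_Gc (h0 n) h.h1.l2).1) h.h1.l2
    (LDuh_l2 h.h1 h0 hε)
  have hε' := hε.comp hs.tendsto_atTop
  filter_upwards [hae] with x hx
  have t1 : Tendsto (fun n => Real.exp (-m * ε (s n)) * Gc (ε (s n)) u x) atTop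
      (𝓝 (Real.exp (-m * 0) * u x)) := (hε'.const_mul (-m)).rexp.mul hx
  rw [mul_zero, Real.exp_zero, one_mul] at t1
  have hi : IntegrableOn (fun τ => Real.exp (-m * τ) * Gc τ S x) (uIcc 0 t) := by
    rw [uIcc_of_le ht.le, integrableOn_Icc_iff_integrableOn_Ioc]
    exact integrableOn_Gc m hS x
  have t2 : Tendsto (fun n => ∫ τ in ε (s n)..t, Real.exp (-m * τ) * Gc τ S x) atTop
      (𝓝 (∫ τ in (0 : ℝ)..t, Real.exp (-m * τ) * Gc τ S x)) := by
    refine (intervalIntegral.continuousOn_primitive_interval_left hi 0 left_mem_uIcc).tendsto.comp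
      (tendsto_nhdsWithin_iff.2 ⟨hε', Eventually.of_forall fun n => ?_⟩)
    rw [uIcc_of_le ht.le]
    exact ⟨(h0 _).le, h1 _⟩
  rw [intervalIntegral.integral_of_le ht.le] at t2
  exact le_of_tendsto_of_tendsto' t1 (t2.const_add _) fun n => LDuh_step (h0 _) (h1 _) hS h x

theorem duh_ge {m t : ℝ} (ht : 0 < t) (hS : MemLp S 2 volume)
    (h : Sup univ u g fun x => S x - m * u x) : ∀ᵐ x, duh m t u S x ≤ u x := by
  have h1 := h.neg
  rw [show (fun x => -(S x - m * u x)) = fun x => -S x - m * -u x from funext fun x => by ring]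
    at h1
  filter_upwards [duh_le (S := fun x => -S x) ht hS.neg h1] with x hx
  rw [LDuh_neg] at hx
  linarith

theorem duh_eq {m t : ℝ} (ht : 0 < t) (hS : MemLp S 2 volume)
    (h : Sol univ u g fun x => S x - m * u x) : ∀ᵐ x, u x = duh m t u S x := by
  filter_upwards [duh_le ht hS h.sub, duh_ge ht hS h.sup] with x h1 h2
  exact le_antisymm h1 h2

theorem Sub.sup_le (h : Sub univ u g f) : ∀ᵐ x, u x ≤ √(nsq u) + 4 * √(nsq f) := by
  have hf : MemLp f 2 volume := by simpa using h.fl2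
  filter_upwards [duh_le (m := 0) (S := f) one_pos hf (by simpa using h)] with x hx
  exact hx.trans ((le_abs_self _).trans (abs_duh_le h.h1.l2 hf x))

theorem Sol.abs_le (h : Sol univ u g f) : ∀ᵐ x, |u x| ≤ √(nsq u) + 4 * √(nsq f) := by
  have hf : MemLp f 2 volume := by simpa using h.fl2
  filter_upwards [duh_eq (m := 0) (S := f) one_pos hf (by simpa using h)] with x hx
  rw [hx]
  exact abs_duh_le h.h1.l2 hf x

theorem Sol.exists_cont (h : Sol univ u g f) : ∃ u', Continuous u' ∧ u' =ᵐ[volume] u := by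
  have hf : MemLp f 2 volume := by simpa using h.fl2
  refine ⟨_, continuous_duh 0 one_pos h.h1.l2 hf, ?_⟩
  filter_upwards [duh_eq (m := 0) (S := f) one_pos hf (by simpa using h)] with x hx
  exact hx.symm

/-- `duh_eq` with `m = 0`, `t = 1`; `Gc_l2_odd`, `Gc_temp_odd` for `f 1_{ext R}`, `Gc_far_odd` for
the rest; `Sol.abs_le` for `|x 2| ≥ 4`. -/
theorem odd_bound : ∃ C : ℝ, 0 < C ∧ ∀ (u f : X → ℝ) (g : Fin 3 → X → ℝ) (R a : ℝ), 0 ≤ R →
    0 ≤ a → Sol univ u g f → (∀ᵐ x, u (P x) = -u x) → (∀ᵐ x, f (P x) = -f x) →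
    (∀ᵐ x, R < ‖x‖ → |f x| ≤ a) →
    ∀ᵐ x : X, 2 * R + 10 ≤ ‖x‖ → |u x| ≤ C * (a + √(nsq u) + √(nsq f)) * |x 2| := by
  obtain ⟨C₁, hC₁, h₁⟩ := Gc_l2_odd
  obtain ⟨C₂, hC₂, h₂⟩ := Gc_temp_odd
  obtain ⟨C₃, hC₃, h₃⟩ := Gc_far_odd
  refine ⟨1 + C₁ + 2 * (C₂ * Real.exp C₂) + C₃, by positivity,
    fun u f g R a hR ha h hu hfo hfa => ?_⟩
  have hf : MemLp f 2 volume := by simpa using h.fl2
  have hA := measurableSet_ext R
  have hf₁ : MemLp ((ext R).indicator f) 2 volume := hf.indicator hA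
  have hf₂ : MemLp ((ext R)ᶜ.indicator f) 2 volume := hf.indicator hA.compl
  have ho : ∀ A : Set X, (∀ y, P y ∈ A ↔ y ∈ A) →
      ∀ᵐ y, A.indicator f (P y) = -A.indicator f y := fun A hA => by
    filter_upwards [hfo] with y hy
    by_cases h1 : y ∈ A
    · rw [indicator_of_mem h1, indicator_of_mem ((hA y).2 h1), hy]
    · rw [indicator_of_notMem h1, indicator_of_notMem fun h2 => h1 ((hA y).1 h2), neg_zero]
  have hP : ∀ y, P y ∈ ext R ↔ y ∈ ext R := fun y => by simp [ext]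
  filter_upwards [duh_eq (m := 0) (S := f) one_pos hf (by simpa using h), h.abs_le] with x hx hb hxR
  have p1 := Real.sqrt_nonneg (nsq u)
  have p2 := Real.sqrt_nonneg (nsq f)
  have p3 := abs_nonneg (x 2)
  have p4 : 0 < C₂ * Real.exp C₂ := by positivity
  by_cases hz : |x 2| ≤ 4
  swap
  · calc |u x| ≤ 1 * (a + √(nsq u) + √(nsq f)) * 4 := by linarith
      _ ≤ _ := by
        have := (not_le.1 hz).le
        gcongr
        linarith
  have hbd : ∀ τ ∈ Ioc (0 : ℝ) 1, ‖Real.exp (-0 * τ) * Gc τ f x‖ ≤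
      C₂ * Real.exp C₂ * a * |x 2| * τ ^ (-(1 / 2 : ℝ)) + C₃ * √(nsq f) * |x 2| := by
    intro τ hτ
    have e : Gc τ f x = 1 * Gc τ ((ext R).indicator f) x + 1 * Gc τ ((ext R)ᶜ.indicator f) x := by
      rw [← Gc_lin hτ.1 hf₁ hf₂]
      congr 1
      funext y
      rw [one_mul, one_mul, indicator_self_add_compl_apply]
    have q1 := h₂ τ a _ x hτ.1 hf₁.1 (ho _ hP) hz (by
      filter_upwards [hfa] with y hy
      have h1 : 1 ≤ Real.exp (4 * ‖y - x‖) := Real.one_le_exp (by positivity)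
      refine le_trans ?_ (le_mul_of_one_le_right ha h1)
      by_cases h2 : y ∈ ext R
      · rw [indicator_of_mem h2]
        exact hy h2
      · rw [indicator_of_notMem h2, abs_zero]
        exact ha)
    have q2 := h₃ τ 1 R _ x hτ.1 hτ.2 hR hf₂ (ho _ fun y => not_congr (hP y))
      (Eventually.of_forall fun y hy => indicator_of_notMem (not_not.2 hy) _) hxR hz
    have q3 : √(nsq ((ext R)ᶜ.indicator f)) ≤ √(nsq f) :=
      Real.sqrt_le_sqrt (LDuh_nsq_ind hf _ hA.compl)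
    have q4 : Real.exp (-‖x‖ ^ 2 / (64 * 1)) ≤ 1 :=
      Real.exp_le_one_iff.2 (div_nonpos_of_nonpos_of_nonneg (neg_nonpos.2 (sq_nonneg _))
        (by norm_num))
    have q5 : Real.exp (C₂ * τ) ≤ Real.exp C₂ :=
      Real.exp_le_exp.2 (mul_le_of_le_one_right hC₂.le hτ.2)
    have q6 := Real.rpow_nonneg hτ.1.le (-(1 / 2 : ℝ))
    rw [neg_zero, zero_mul, Real.exp_zero, one_mul, e, one_mul, one_mul, Real.norm_eq_abs]
    refine (abs_add_le _ _).trans (add_le_add (q1.trans ?_) (q2.trans ?_))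
    · calc _ ≤ C₂ * Real.exp C₂ * τ ^ (-(1 / 2 : ℝ)) * a * |x 2| := by gcongr
        _ = _ := by ring
    · calc _ ≤ C₃ * √(nsq f) * 1 * |x 2| := by gcongr
        _ = _ := by ring
  have hi : IntegrableOn (fun τ : ℝ => τ ^ (-(1 / 2 : ℝ))) (Ioc 0 1) :=
    (intervalIntegral.intervalIntegrable_rpow' (by norm_num)).1
  have hI : ∫ τ in Ioc (0 : ℝ) 1, τ ^ (-(1 / 2 : ℝ)) = 2 := by
    rw [← intervalIntegral.integral_of_le zero_le_one, integral_rpow (Or.inl (by norm_num))]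
    norm_num
  have hc : IntegrableOn (fun _ : ℝ => C₃ * √(nsq f) * |x 2|) (Ioc 0 1) :=
    integrableOn_const (by simp)
  have h4 := norm_integral_le_of_norm_le ((hi.const_mul _).add hc)
    ((ae_restrict_iff' measurableSet_Ioc).2 (Eventually.of_forall hbd))
  simp only [Pi.add_apply] at h4
  rw [integral_add (hi.const_mul _) hc, integral_const_mul, hI, setIntegral_const] at h4
  simp only [Real.volume_real_Ioc_of_le zero_le_one, sub_zero, one_smul] at h4
  have h5 := h₁ u x h.h1.l2 hu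
  rw [hx, duh, mul_one, show Real.exp (-0) = 1 by simp, one_mul]
  refine (abs_add_le _ _).trans ((add_le_add h5 h4).trans ?_)
  have p5 := mul_nonneg ha p3
  have p6 := mul_nonneg p1 p3
  have p7 := mul_nonneg p2 p3
  nlinarith [mul_nonneg hC₁.le p5, mul_nonneg hC₁.le p7, mul_nonneg p4.le p6, mul_nonneg p4.le p7,
    mul_nonneg hC₃.le p5, mul_nonneg hC₃.le p6]

end Crest.Agent.R335
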