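import Crest.Agent.R335.MDefs
import Crest.Agent.R335.LBar
import Crest.Agent.R335.LDuh

/-! Row 335. Elementary facts about the potential and the parameters. -/

set_option autoImplicit false

open MeasureTheory Set Filter Topology
open scoped ENNReal

noncomputable section

namespace Crest.Agent.R335

variable {c : ℝ} {o : One c} {C ε : ℝ}

theorem measurable_V (D : ℝ) : Measurable (V D) := by
  unfold V
  exact (measurable_const.div (by fun_prop)).sub (measurable_const.div (by fun_prop))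

theorem V_nonpos (D : ℝ) (x : X) : V D x ≤ 0 := by
  unfold V
  have h1 : 0 ≤ 1 / ‖x - Rn D‖ := by positivity
  have h2 : 0 ≤ 1 / ‖x + Rn D‖ := by positivity
  rw [neg_div]
  linarith

theorem V_P (D : ℝ) (x : X) : V D (P x) = V D x := by
  have h1 : P x - Rn D = P (x + Rn D) := by
    ext i
    fin_cases i <;> simp [P, Rn]
    ring
  have h2 : P x + Rn D = P (x - Rn D) := by
    ext i
    fin_cases i <;> simp [P, Rn]
    ring
  unfold V
  rw [h1, h2, norm_P, norm_P]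
  ring

theorem Par_norm_Rn (D : ℝ) : ‖Rn D‖ = |D| := by
  simp [Rn]

theorem Par_near {D : ℝ} (hD : 1 ≤ D) {x : X} (_hx : 2 * D ≤ ‖x‖) :
    |‖x - Rn D‖ - ‖x‖| ≤ D ∧ |‖x + Rn D‖ - ‖x‖| ≤ D := by
  have hn : ‖Rn D‖ = D := by rw [Par_norm_Rn, abs_of_nonneg (by linarith)]
  constructor
  · have := abs_norm_sub_norm_le (x - Rn D) x
    simpa [hn] using this
  · have := abs_norm_sub_norm_le (x + Rn D) x
    simpa [hn] using this

theorem V_ext {D : ℝ} (hD : 1 ≤ D) {x : X} (hx : 2 * D ≤ ‖x‖) :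
    |V D x + 2 / ‖x‖| ≤ 4 * D / ‖x‖ ^ 2 := by
  have hr : 0 < ‖x‖ := by linarith
  obtain ⟨a1, a2⟩ := Par_near hD hx
  have key : ∀ a : ℝ, |a - ‖x‖| ≤ D → |1 / ‖x‖ - 1 / a| ≤ 2 * D / ‖x‖ ^ 2 := by
    intro a ha
    have ha' := abs_le.1 ha
    have ha0 : 0 < a := by linarith
    have e : 1 / ‖x‖ - 1 / a = (a - ‖x‖) / (‖x‖ * a) := by field_simp
    rw [e, abs_div, abs_of_pos (mul_pos hr ha0), div_le_div_iff₀ (mul_pos hr ha0) (by positivity)]
    have h3 : ‖x‖ ≤ 2 * a := by linarith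
    have h4 : 0 ≤ D * ‖x‖ := by positivity
    nlinarith [mul_le_mul_of_nonneg_right ha (sq_nonneg ‖x‖), mul_le_mul_of_nonneg_left h3 h4]
  have e : V D x + 2 / ‖x‖ = (1 / ‖x‖ - 1 / ‖x - Rn D‖) + (1 / ‖x‖ - 1 / ‖x + Rn D‖) := by
    unfold V
    ring
  rw [e]
  refine (abs_add_le _ _).trans ?_
  have := add_le_add (key _ a1) (key _ a2)
  refine this.trans (le_of_eq ?_)
  ring

theorem V_ext' {D : ℝ} (hD : 1 ≤ D) {x : X} (hx : 2 * D ≤ ‖x‖) : |V D x| ≤ 4 / ‖x‖ := by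
  have hr : 0 < ‖x‖ := by linarith
  obtain ⟨a1, a2⟩ := Par_near hD hx
  have key : ∀ a : ℝ, |a - ‖x‖| ≤ D → 1 / a ≤ 2 / ‖x‖ := by
    intro a ha
    have ha' := abs_le.1 ha
    have ha0 : 0 < a := by linarith
    rw [div_le_div_iff₀ ha0 hr]
    linarith
  rw [abs_of_nonpos (V_nonpos D x)]
  have := add_le_add (key _ a1) (key _ a2)
  unfold V
  have e : (4 : ℝ) / ‖x‖ = 2 / ‖x‖ + 2 / ‖x‖ := by ring
  rw [e, neg_div]
  linarith

/-- `coul_le` with `η = 1/8`. -/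
theorem fb_V (D : ℝ) : FB eX (V D) 16 := by
  have e : ∀ (u : X → ℝ) (x : X), -(V D x * u x ^ 2) =
      u x ^ 2 / ‖x - Rn D‖ + u x ^ 2 / ‖x - -Rn D‖ := by
    intro u x
    unfold V
    rw [sub_neg_eq_add]
    ring
  refine ⟨measurable_V D, fun u g h => ?_, fun u g h => ?_⟩
  · have h1 := (coul_le h (Rn D) one_pos).1
    have h2 := (coul_le h (-Rn D) one_pos).1
    have h3 := (h1.add h2).neg
    refine h3.congr (Eventually.of_forall fun x => ?_)
    simp only [Pi.neg_apply, Pi.add_apply]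
    rw [← e]
    ring
  · obtain ⟨h1, h1'⟩ := coul_le h (Rn D) (η := 1 / 8) (by norm_num)
    obtain ⟨h2, h2'⟩ := coul_le h (-Rn D) (η := 1 / 8) (by norm_num)
    have e2 : ∀ x, |V D x| * u x ^ 2 = u x ^ 2 / ‖x - Rn D‖ + u x ^ 2 / ‖x - -Rn D‖ := by
      intro x
      rw [← e, abs_of_nonpos (V_nonpos D x)]
      ring
    simp only [e2]
    rw [integral_add h1 h2]
    have e3 : nsq u / (1 / 8) = 8 * nsq u := by ring
    rw [e3] at h1' h2'
    linarith

theorem memLp_V_mul (D : ℝ) {u : X → ℝ} {g : Fin 3 → X → ℝ} (h : H1 eX u g) :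
    MemLp (fun x => V D x * u x) 2 volume ∧ nsq (fun x => V D x * u x) ≤ 16 * dir g := by
  have e : ∀ x : X, V D x * u x = -(u x / ‖x - Rn D‖ + u x / ‖x - -Rn D‖) := by
    intro x
    unfold V
    rw [sub_neg_eq_add]
    ring
  have hm : MemLp (fun x => V D x * u x) 2 volume := by
    have := ((hardy_memLp h (Rn D)).add (hardy_memLp h (-Rn D))).neg
    refine this.ae_eq (Eventually.of_forall fun x => ?_)
    simp only [Pi.neg_apply, Pi.add_apply]
    rw [e]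
  refine ⟨hm, ?_⟩
  obtain ⟨h1, h1'⟩ := hardy h (Rn D)
  obtain ⟨h2, h2'⟩ := hardy h (-Rn D)
  have h3 : nsq (fun x => V D x * u x) ≤
      ∫ x, (2 * (u x ^ 2 / ‖x - Rn D‖ ^ 2) + 2 * (u x ^ 2 / ‖x - -Rn D‖ ^ 2)) := by
    unfold nsq
    refine integral_mono hm.integrable_sq ((h1.const_mul 2).add (h2.const_mul 2)) fun x => ?_
    simp only [e]
    rw [← div_pow, ← div_pow]
    nlinarith [sq_nonneg (u x / ‖x - Rn D‖ - u x / ‖x - -Rn D‖)]
  rw [integral_add (h1.const_mul 2) (h2.const_mul 2), integral_const_mul, integral_const_mul] at h3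
  linarith

theorem Eig.sol {D a : ℝ} {u : X → ℝ} {g : Fin 3 → X → ℝ} (h : H1 eX u g)
    (he : Eig eX (V D) a u g) : Sol univ u g fun x => (a - V D x) * u x := by
  have hV := (memLp_V_mul D h).1
  refine ⟨h, ?_, fun φ k hφ _ => ?_⟩
  · rw [Measure.restrict_univ]
    have := (h.l2.const_mul a).sub hV
    refine this.ae_eq (Eventually.of_forall fun x => ?_)
    simp only [Pi.sub_apply]
    ring
  · have h1 := he φ k hφ
    unfold bf ip at h1
    have i1 : Integrable (fun x => u x * φ x) := h.l2.integrable_mul hφ.l2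
    have i2 : Integrable (fun x => V D x * u x * φ x) := hV.integrable_mul hφ.l2
    have e1 : ∫ x, (a - V D x) * u x * φ x =
        ∫ x, (a * (u x * φ x) - V D x * u x * φ x) :=
      integral_congr_ae (Eventually.of_forall fun x => by ring)
    have e2 : ∫ x, V D x * (u x * φ x) = ∫ x, V D x * u x * φ x :=
      integral_congr_ae (Eventually.of_forall fun x => by ring)
    rw [e1, integral_sub (i1.const_mul a) i2, integral_const_mul, ← e2]
    linarith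

theorem One.g_pos (o : One c) : 0 < o.g := by
  have := o.gpos
  unfold One.g
  linarith

theorem One.g_le (o : One c) : o.g ≤ 1 / 10000 := by
  exact o.gsm

theorem One.Rs_ge (o : One c) : 3 ≤ o.Rs := by
  have := o.D1
  unfold One.Rs
  linarith

theorem One.a_lb (o : One c) (R : ℝ) : ∃ m : ℝ, 0 < m ∧ ∀ x, ‖x‖ ≤ R → m ≤ o.a x := by
  obtain ⟨x₀, -, hx₀⟩ := (isCompact_closedBall (0 : X) |R|).exists_isMinOn
    ⟨0, Metric.mem_closedBall_self (abs_nonneg R)⟩ o.ca.continuousOn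
  refine ⟨o.a x₀, o.apos x₀, fun x hx => hx₀ ?_⟩
  rw [mem_closedBall_zero_iff]
  exact hx.trans (le_abs_self R)

/-- `odd_bound`. -/
theorem One.b_le (o : One c) :
    ∃ M : ℝ, 0 < M ∧ ∀ᵐ x : X, 2 * o.Rs + 10 ≤ ‖x‖ → |o.b x| ≤ M * |x 2| := by
  obtain ⟨C, hC, h⟩ := odd_bound
  obtain ⟨M, hM⟩ := o.bdd
  have hM0 : 0 ≤ M := (abs_nonneg _).trans (hM 0).1
  have hR := o.Rs_ge
  have ha : 0 < (|o.eb| + 4) * M + 1 := by positivity
  have key := h o.b (fun x => (o.eb - V o.D x) * o.b x) o.gb o.Rs ((|o.eb| + 4) * M + 1)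
    (by linarith) ha.le (Eig.sol o.hb o.eigb) (Eventually.of_forall o.bP)
    (Eventually.of_forall fun x => by simp only [V_P, o.bP]; ring)
    (Eventually.of_forall fun x hx => by
      have h1 : 2 * o.D ≤ ‖x‖ := by unfold One.Rs at hx; linarith
      have h2 := V_ext' o.D1 h1
      have h3 : 4 / ‖x‖ ≤ 4 := div_le_self (by norm_num) (by linarith)
      have h4 : |o.eb - V o.D x| ≤ |o.eb| + 4 := (abs_sub _ _).trans (by linarith)
      rw [abs_mul]
      have := mul_le_mul h4 (hM x).2 (abs_nonneg _) (by positivity)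
      linarith)
  exact ⟨_, by positivity, key⟩

namespace Chan

variable (ch : Chan o C ε)

include ch in
theorem ε_le : ε ≤ 1 / 1000000 := by
  have h1 := ch.ε0
  have h2 := ch.C1
  have h3 := ch.εC
  have h4 := o.g_le
  nlinarith

theorem I_bd : 48 / 100 ≤ ch.I ∧ ch.I ≤ 52 / 100 := by
  have h1 := abs_le.1 ch.I_near
  have h2 := abs_le.1 o.ea_near
  have h3 := ch.εC
  have h4 := o.g_le
  have h5 := o.g_pos
  unfold One.g at h3 h4 h5
  constructor <;> linarith [h1.1, h1.2, h2.1, h2.2]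

theorem gS_bd : 99 / 100 * o.g ≤ ch.gS ∧ ch.gS ≤ 101 / 100 * o.g := by
  have h1 := abs_le.1 ch.gS_near
  have h3 := ch.εC
  constructor <;> linarith [h1.1, h1.2]

theorem k_sq : ch.k ^ 2 = 2 * ch.I := by
  have := ch.I_bd.1
  exact Real.sq_sqrt (by linarith)

theorem k'_sq : ch.k' ^ 2 = 2 * (ch.I + ch.gS) := by
  have h1 := ch.I_bd.1
  have h2 := ch.gS_bd.1
  have h3 := o.g_pos
  exact Real.sq_sqrt (by linarith)

theorem k_bd : 97 / 100 ≤ ch.k ∧ ch.k ≤ 103 / 100 := by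
  have h1 := ch.I_bd
  constructor
  · exact Real.le_sqrt_of_sq_le (by linarith [h1.1])
  · exact Real.sqrt_le_iff.2 ⟨by norm_num, by linarith [h1.2]⟩

theorem k'_bd : 97 / 100 ≤ ch.k' ∧ ch.k' ≤ 103 / 100 := by
  have h1 := ch.I_bd
  have h2 := ch.gS_bd
  have h3 := o.g_pos
  have h4 := o.g_le
  constructor
  · exact Real.le_sqrt_of_sq_le (by linarith [h1.1, h2.1])
  · exact Real.sqrt_le_iff.2 ⟨by norm_num, by linarith [h1.2, h2.2]⟩

theorem k'_sub : 9 / 10 * o.g ≤ ch.k' - ch.k ∧ ch.k' - ch.k ≤ 11 / 10 * o.g := by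
  have h1 := ch.k_bd
  have h2 := ch.k'_bd
  have h3 := ch.gS_bd
  have h4 := o.g_pos
  have e : (ch.k' - ch.k) * (ch.k' + ch.k) = 2 * ch.gS := by
    have := ch.k_sq
    have := ch.k'_sq
    nlinarith
  have hs : 0 < ch.k' + ch.k := by linarith [h1.1, h2.1]
  constructor
  · refine le_of_mul_le_mul_right ?_ hs
    rw [e]
    nlinarith [h1.2, h2.2, h3.1]
  · refine le_of_mul_le_mul_right ?_ hs
    rw [e]
    nlinarith [h1.1, h2.1, h3.2]

theorem β_bd : -1 / 10 ≤ ch.β ∧ ch.β ≤ 1 / 10 := by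
  have h1 := ch.k_bd
  have h2 := ch.ε0
  have h3 := ch.ε_le
  have hk : 0 < ch.k := by linarith [h1.1]
  unfold β
  constructor
  · have : 19 / 10 ≤ (2 - 2 * ε) / ch.k := by
      rw [le_div_iff₀ hk]
      linarith [h1.2]
    linarith
  · have : (2 - 2 * ε) / ch.k ≤ 21 / 10 := by
      rw [div_le_iff₀ hk]
      linarith [h1.1]
    linarith

theorem β'_bd : 9 / 10 ≤ ch.β' ∧ ch.β' ≤ 11 / 10 := by
  have h1 := ch.k'_bd
  have h2 := ch.ε0
  have h3 := ch.ε_le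
  have hk : 0 < ch.k' := by linarith [h1.1]
  unfold β'
  constructor
  · have : 19 / 10 ≤ (2 - 2 * ε) / ch.k' := by
      rw [le_div_iff₀ hk]
      linarith [h1.2]
    linarith
  · have : (2 - 2 * ε) / ch.k' ≤ 21 / 10 := by
      rw [div_le_iff₀ hk]
      linarith [h1.1]
    linarith

theorem k_β : ch.k * (ch.β + 2) = 2 - 2 * ε := by
  have hk : ch.k ≠ 0 := by have := ch.k_bd.1; linarith [this] |> ne_of_gt
  unfold β
  field_simp
  ring

theorem k'_β' : ch.k' * (ch.β' + 1) = 2 - 2 * ε := by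
  have hk : ch.k' ≠ 0 := by have := ch.k'_bd.1; linarith [this] |> ne_of_gt
  unfold β'
  field_simp
  ring

theorem Par_h0 (x : X) : 0 ≤ ch.h x := by
  unfold h
  positivity

theorem Par_H0 (x : X) : 0 ≤ ch.H x := by
  unfold H
  positivity

theorem h_pos {x : X} (hx : 0 < ‖x‖) : 0 < ch.h x := by
  unfold h
  positivity

theorem H_pos {x : X} (hx : 0 < ‖x‖) : 0 < ch.H x := by
  unfold H
  positivity

theorem Q0_pos {x : X} (hx : 0 < ‖x‖) : 0 < ch.Q0 x := by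
  have h1 := ch.H_pos hx
  have h2 := ch.h_pos hx
  have h3 := ch.ε0
  unfold Q0
  positivity

theorem H_le_Q0 (x : X) : ch.H x ≤ ch.Q0 x := by
  have h2 := ch.Par_h0 x
  have h3 := ch.ε0
  unfold Q0
  exact le_add_of_nonneg_right (by positivity)

theorem measurable_h : Measurable ch.h := by
  unfold h
  exact (measurable_norm.pow_const _).mul (by fun_prop)

theorem measurable_H : Measurable ch.H := by
  unfold H
  exact (measurable_norm.pow_const _).mul (by fun_prop)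

theorem measurable_Q0 : Measurable ch.Q0 := by
  unfold Q0
  exact ch.measurable_H.add ((Measurable.div (by fun_prop) (by fun_prop)).mul ch.measurable_h)

theorem measurable_Qs : Measurable ch.Qs := by
  unfold Qs
  exact (((measurable_V _).add_const _).add (measurable_const.div (by fun_prop))).sub
    (measurable_const.div (by fun_prop))

theorem continuousOn_h : ContinuousOn ch.h {x | 0 < ‖x‖} := by
  unfold h
  exact (continuous_norm.continuousOn.rpow_const fun x hx => Or.inl (ne_of_gt hx)).mul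
    (by fun_prop)

theorem continuousOn_Q0 : ContinuousOn ch.Q0 {x | 0 < ‖x‖} := by
  have hH : ContinuousOn ch.H {x | 0 < ‖x‖} := by
    unfold H
    exact (continuous_norm.continuousOn.rpow_const fun x hx => Or.inl (ne_of_gt hx)).mul
      (by fun_prop)
  unfold Q0
  refine hH.add (ContinuousOn.mul (ContinuousOn.div (by fun_prop) (by fun_prop) fun x hx => ?_)
    ch.continuousOn_h)
  exact pow_ne_zero _ (ne_of_gt hx)

theorem h_P (x : X) : ch.h (P x) = ch.h x := by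
  unfold h
  rw [norm_P]

theorem Q0_P (x : X) : ch.Q0 (P x) = ch.Q0 x := by
  unfold Q0 H
  rw [ch.h_P, norm_P, P_two, neg_sq]

theorem Par_log {r : ℝ} (hr : 1 ≤ r) : 0 ≤ Real.log r ∧ Real.log r ≤ r / 2 := by
  refine ⟨Real.log_nonneg hr, ?_⟩
  have h1 := Real.log_le_sub_one_of_pos (x := r / 2) (by linarith)
  have h2 := Real.log_le_sub_one_of_pos (x := 2) (by norm_num)
  rw [Real.log_div (by linarith) (by norm_num)] at h1
  linarith

theorem h_le_one {x : X} (hx : 1 ≤ ‖x‖) : ch.h x ≤ 1 := by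
  have h1 := Par_log hx
  have h2 := ch.β_bd
  have h3 := ch.k_bd
  unfold h
  rw [Real.rpow_def_of_pos (by linarith), ← Real.exp_add, Real.exp_le_one_iff]
  nlinarith [h1.1, h1.2, h2.2, h3.1]

theorem H_le_one {x : X} (hx : 1 ≤ ‖x‖) : ch.H x ≤ 1 := by
  have h1 := Par_log hx
  have h2 := ch.β'_bd
  have h3 := ch.k'_bd
  unfold H
  rw [Real.rpow_def_of_pos (by linarith), ← Real.exp_add, Real.exp_le_one_iff]
  nlinarith [h1.1, h1.2, h2.2, h3.1]

theorem h_ge {x : X} (hx : 1 ≤ ‖x‖) : Real.exp (-2 * ‖x‖) ≤ ch.h x := by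
  have h1 := Par_log hx
  have h2 := ch.β_bd
  have h3 := ch.k_bd
  unfold h
  rw [Real.rpow_def_of_pos (by linarith), ← Real.exp_add, Real.exp_le_exp]
  nlinarith [h1.1, h1.2, h2.1, h3.2]

theorem H_ge {x : X} (hx : 1 ≤ ‖x‖) : Real.exp (-ch.k' * ‖x‖) ≤ ch.H x := by
  have h2 := ch.β'_bd
  unfold H
  exact le_mul_of_one_le_left (Real.exp_pos _).le (Real.one_le_rpow hx (by linarith [h2.1]))

theorem H_ge' {x : X} (hx : 1 ≤ ‖x‖) : Real.exp (-2 * ‖x‖) ≤ ch.H x := by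
  refine le_trans ?_ (ch.H_ge hx)
  have h3 := ch.k'_bd
  rw [Real.exp_le_exp]
  nlinarith [h3.2]

theorem memLp_h (N : ℕ) :
    MemLp (fun x : X => (1 + ‖x‖) ^ N * ch.h x) 2 (volume.restrict (ext 1)) := by
  have := memLp_bar N ch.β (κ := ch.k) (by linarith [ch.k_bd.1])
  simpa only [h, mul_assoc] using this

theorem memLp_Q0 (N : ℕ) :
    MemLp (fun x : X => (1 + ‖x‖) ^ N * ch.Q0 x) 2 (volume.restrict (ext 1)) := by
  have h1 : MemLp (fun x : X => (1 + ‖x‖) ^ N * ch.H x) 2 (volume.restrict (ext 1)) := by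
    have := memLp_bar N ch.β' (κ := ch.k') (by linarith [ch.k'_bd.1])
    simpa only [H, mul_assoc] using this
  refine (h1.add (ch.memLp_h (N + 2))).of_le
    (((by fun_prop : Measurable fun x : X => (1 + ‖x‖) ^ N).mul
      ch.measurable_Q0).aestronglyMeasurable) ?_
  rw [ae_restrict_iff' (measurableSet_ext 1)]
  refine Eventually.of_forall fun x hx => ?_
  have hx1 : 1 < ‖x‖ := hx
  have a1 := ch.Par_h0 x
  have a2 := ch.Par_H0 x
  have a3 := ch.Q0_pos (x := x) (by linarith)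
  have a4 := ch.ε0
  have a5 := ch.ε_le
  have a6 : x 2 ^ 2 ≤ ‖x‖ ^ 2 := by
    rw [← sq_abs]
    exact pow_le_pow_left₀ (abs_nonneg _) (abs_two_le x) 2
  have a7 : ε * (1 + x 2 ^ 2) / ‖x‖ ^ 3 ≤ (1 + ‖x‖) ^ 2 := by
    refine (div_le_self (by positivity) (one_le_pow₀ hx1.le)).trans ?_
    nlinarith [sq_nonneg (x 2)]
  simp only [Pi.add_apply]
  rw [Real.norm_of_nonneg (by positivity), Real.norm_of_nonneg (by positivity)]
  unfold Q0
  have a8 : 0 ≤ (1 + ‖x‖) ^ N * ch.h x := by positivity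
  have := mul_le_mul_of_nonneg_right a7 a8
  rw [pow_add]
  nlinarith

theorem norm_ratio {x y : X} (hy : 1 ≤ ‖y‖) : ‖x‖ ≤ (1 + ‖x - y‖) * ‖y‖ := by
  have h1 : ‖x‖ ≤ ‖x - y‖ + ‖y‖ := norm_le_norm_sub_add x y
  nlinarith [norm_nonneg (x - y)]

theorem Par_rpow_ratio {x y : X} (hx : 1 ≤ ‖x‖) (hy : 1 ≤ ‖y‖) {b : ℝ} {n : ℕ} (hb : |b| ≤ n) :
    ‖y‖ ^ b ≤ ‖x‖ ^ b * (1 + ‖x - y‖) ^ n := by
  have hd : 0 ≤ ‖x - y‖ := norm_nonneg _
  have h1 : ‖x‖ ≤ (1 + ‖x - y‖) * ‖y‖ := norm_ratio hy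
  have h2 : ‖y‖ ≤ (1 + ‖x - y‖) * ‖x‖ := by
    have := norm_ratio (x := y) (y := x) hx
    rwa [norm_sub_rev] at this
  have l1 := Real.log_le_log (by linarith) h1
  have l2 := Real.log_le_log (by linarith) h2
  rw [Real.log_mul (by linarith) (by linarith)] at l1 l2
  have l0 : 0 ≤ Real.log (1 + ‖x - y‖) := Real.log_nonneg (by linarith)
  have l3 : |Real.log ‖y‖ - Real.log ‖x‖| ≤ Real.log (1 + ‖x - y‖) :=
    abs_le.2 ⟨by linarith, by linarith⟩
  have l4 : (Real.log ‖y‖ - Real.log ‖x‖) * b ≤ Real.log (1 + ‖x - y‖) * n := by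
    refine (le_abs_self _).trans ?_
    rw [abs_mul]
    exact mul_le_mul l3 hb (abs_nonneg _) l0
  rw [← Real.rpow_natCast, Real.rpow_def_of_pos (by linarith), Real.rpow_def_of_pos (by linarith),
    Real.rpow_def_of_pos (by linarith), ← Real.exp_add, Real.exp_le_exp]
  linarith

theorem h_ratio {x y : X} (hx : 1 ≤ ‖x‖) (hy : 1 ≤ ‖y‖) :
    ch.h y ≤ ch.h x * ((1 + ‖x - y‖) * Real.exp (ch.k * (‖x‖ - ‖y‖))) := by
  have h2 := ch.β_bd
  have h1 := Par_rpow_ratio hx hy (b := ch.β) (n := 1)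
    (by rw [Nat.cast_one, abs_le]; constructor <;> linarith [h2.1, h2.2])
  unfold h
  have e : Real.exp (-ch.k * ‖y‖) = Real.exp (-ch.k * ‖x‖) * Real.exp (ch.k * (‖x‖ - ‖y‖)) := by
    rw [← Real.exp_add]
    congr 1
    ring
  rw [e]
  have := mul_le_mul_of_nonneg_right h1
    (mul_pos (Real.exp_pos (-ch.k * ‖x‖)) (Real.exp_pos (ch.k * (‖x‖ - ‖y‖)))).le
  refine this.trans (le_of_eq ?_)
  ring

theorem H_ratio {x y : X} (hx : 1 ≤ ‖x‖) (hy : 1 ≤ ‖y‖) :
    ch.H y ≤ ch.H x * ((1 + ‖x - y‖) ^ 2 * Real.exp (ch.k' * (‖x‖ - ‖y‖))) := by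
  have h2 := ch.β'_bd
  have h1 := Par_rpow_ratio hx hy (b := ch.β') (n := 2)
    (by rw [Nat.cast_ofNat, abs_le]; constructor <;> linarith [h2.1, h2.2])
  unfold H
  have e : Real.exp (-ch.k' * ‖y‖) =
      Real.exp (-ch.k' * ‖x‖) * Real.exp (ch.k' * (‖x‖ - ‖y‖)) := by
    rw [← Real.exp_add]
    congr 1
    ring
  rw [e]
  have := mul_le_mul_of_nonneg_right h1
    (mul_pos (Real.exp_pos (-ch.k' * ‖x‖)) (Real.exp_pos (ch.k' * (‖x‖ - ‖y‖)))).le
  refine this.trans (le_of_eq ?_)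
  ring

/-- `1 + y₂² ≤ 2 (1 + x₂²) (1 + ‖x - y‖)²`; `(1 + t)^6 ≤ 6! e · exp t`-type bounds. -/
theorem Q0_ratio {x y : X} (hx : 1 ≤ ‖x‖) (hy : 1 ≤ ‖y‖) :
    ch.Q0 y ≤ 10000 * ch.Q0 x * Real.exp (3 * ‖x - y‖) := by
  set d := ‖x - y‖ with hd
  have hd0 : 0 ≤ d := norm_nonneg _
  have hxy : ‖x‖ - ‖y‖ ≤ d := norm_sub_norm_le x y
  have hε := ch.ε0
  have hE : ∀ κ : ℝ, 0 ≤ κ → κ ≤ 2 → Real.exp (κ * (‖x‖ - ‖y‖)) ≤ Real.exp (2 * d) := by
    intro κ h0 h2
    rw [Real.exp_le_exp]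
    nlinarith
  have h6 : (1 + d) ^ 6 ≤ 2160 * Real.exp d := by
    have h1 := Real.pow_div_factorial_le_exp (1 + d) (by linarith) 6
    have h2 : Real.exp 1 ≤ 3 := Real.exp_one_lt_three.le
    rw [Real.exp_add, div_le_iff₀ (by positivity)] at h1
    have h3 : ((Nat.factorial 6 : ℕ) : ℝ) = 720 := by norm_num [Nat.factorial]
    rw [h3] at h1
    nlinarith [Real.exp_pos d]
  have h26 : (1 + d) ^ 2 ≤ (1 + d) ^ 6 := pow_le_pow_right₀ (by linarith) (by norm_num)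
  have e3 : Real.exp (3 * d) = Real.exp d * Real.exp (2 * d) := by
    rw [← Real.exp_add]
    congr 1
    ring
  have hk := ch.k_bd
  have hk' := ch.k'_bd
  have aH : ch.H y ≤ ch.H x * (10000 * Real.exp (3 * d)) := by
    refine (ch.H_ratio hx hy).trans (mul_le_mul_of_nonneg_left ?_ (ch.Par_H0 x))
    rw [e3, ← mul_assoc]
    refine mul_le_mul ?_ (hE _ (by linarith [hk'.1]) (by linarith [hk'.2])) (Real.exp_pos _).le
      (by positivity)
    nlinarith [Real.exp_pos d]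
  have ah : ch.h y ≤ ch.h x * ((1 + d) * Real.exp (2 * d)) := by
    refine (ch.h_ratio hx hy).trans (mul_le_mul_of_nonneg_left ?_ (ch.Par_h0 x))
    exact mul_le_mul_of_nonneg_left (hE _ (by linarith [hk.1]) (by linarith [hk.2])) (by linarith)
  have az : 1 + y 2 ^ 2 ≤ 2 * (1 + x 2 ^ 2) * (1 + d) ^ 2 := by
    have h1 : |(x - y) 2| ≤ d := abs_two_le (x - y)
    have h2 : ((x - y) 2) ^ 2 ≤ d ^ 2 := by
      rw [← sq_abs]
      exact pow_le_pow_left₀ (abs_nonneg _) h1 2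
    rw [PiLp.sub_apply] at h2
    have h3 : y 2 ^ 2 ≤ 2 * x 2 ^ 2 + 2 * d ^ 2 := by nlinarith [sq_nonneg (2 * x 2 - y 2)]
    have h4 : 1 + d ^ 2 ≤ (1 + d) ^ 2 := by nlinarith
    have h5 : 0 ≤ x 2 ^ 2 * d ^ 2 := by positivity
    nlinarith [mul_le_mul_of_nonneg_left h4 (by positivity : (0 : ℝ) ≤ 2 * (1 + x 2 ^ 2))]
  have ar : 1 / ‖y‖ ^ 3 ≤ (1 + d) ^ 3 / ‖x‖ ^ 3 := by
    rw [div_le_div_iff₀ (by positivity) (by positivity), one_mul, ← mul_pow]
    exact pow_le_pow_left₀ (norm_nonneg _) (norm_ratio hy) 3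
  have a2 : ε * (1 + y 2 ^ 2) / ‖y‖ ^ 3 * ch.h y ≤
      ε * (1 + x 2 ^ 2) / ‖x‖ ^ 3 * ch.h x * (10000 * Real.exp (3 * d)) := by
    have hx0 := ch.Par_h0 x
    have hy0 := ch.Par_h0 y
    calc ε * (1 + y 2 ^ 2) / ‖y‖ ^ 3 * ch.h y
        = ε * (1 + y 2 ^ 2) * (1 / ‖y‖ ^ 3) * ch.h y := by ring
      _ ≤ ε * (2 * (1 + x 2 ^ 2) * (1 + d) ^ 2) * ((1 + d) ^ 3 / ‖x‖ ^ 3) *
          (ch.h x * ((1 + d) * Real.exp (2 * d))) := by gcongr
      _ = ε * (1 + x 2 ^ 2) / ‖x‖ ^ 3 * ch.h x * (2 * (1 + d) ^ 6 * Real.exp (2 * d)) := by ring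
      _ ≤ ε * (1 + x 2 ^ 2) / ‖x‖ ^ 3 * ch.h x * (10000 * Real.exp d * Real.exp (2 * d)) := by
          refine mul_le_mul_of_nonneg_left
            (mul_le_mul_of_nonneg_right ?_ (Real.exp_pos _).le) (by positivity)
          nlinarith [Real.exp_pos d]
      _ = _ := by rw [e3]; ring
  unfold Q0
  nlinarith

theorem p_le_s : ∀ᵐ x, |ch.p x| ≤ ch.s x ∧ |ch.q x| ≤ ch.s x ∧ ch.nL x ≤ ch.s x ∧
    ch.nB x ≤ ch.nL x ∧ ch.nE x ≤ ch.nL x ∧ |ch.q x| ≤ ch.nL x ∧
    ch.nL x ≤ ch.nE x + |ch.q x| + ch.nB x ∧ 2 * (ch.p x ^ 2 + ch.q x ^ 2) ≤ ch.s x ^ 2 := by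
  filter_upwards [ch.Lsq, ch.rho] with x h1 h2
  have s0 := ch.s0 x
  have L0 := ch.L0 x
  have B0 := ch.subB.nn x
  have E0 := ch.subE.nn x
  have q0 := abs_nonneg (ch.q x)
  have q2 := sq_abs (ch.q x)
  have a1 := sq_nonneg (ch.p x)
  have a2 := sq_nonneg (ch.q x)
  have a3 := sq_nonneg (ch.nE x)
  have a4 := sq_nonneg (ch.nB x)
  have a5 := sq_nonneg (ch.nD x)
  refine ⟨abs_le_of_sq_le_sq (by linarith) s0, abs_le_of_sq_le_sq (by linarith) s0,
    le_of_sq_le_sq (by linarith) s0, le_of_sq_le_sq (by linarith) L0,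
    le_of_sq_le_sq (by linarith) L0, abs_le_of_sq_le_sq (by linarith) L0,
    le_of_sq_le_sq ?_ (by positivity), by linarith⟩
  nlinarith [mul_nonneg E0 q0, mul_nonneg E0 B0, mul_nonneg q0 B0]

theorem nsq_p : nsq ch.p ≤ 3 ∧ nsq ch.q ≤ 3 := by
  have hs : Integrable fun x => ch.s x ^ 2 := ch.subs.h1.l2.integrable_sq
  rw [← ch.mass]
  unfold nsq
  constructor
  · refine integral_mono_of_nonneg (Eventually.of_forall fun x => sq_nonneg _) hs ?_
    filter_upwards [ch.p_le_s] with x hx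
    nlinarith [hx.2.2.2.2.2.2.2, sq_nonneg (ch.p x), sq_nonneg (ch.q x)]
  · refine integral_mono_of_nonneg (Eventually.of_forall fun x => sq_nonneg _) hs ?_
    filter_upwards [ch.p_le_s] with x hx
    nlinarith [hx.2.2.2.2.2.2.2, sq_nonneg (ch.p x), sq_nonneg (ch.q x)]

theorem FA.mono {ch : Chan o C ε} {R A R' A' : ℝ} (h : ch.FA R A) (hR : R ≤ R') (hA : A ≤ A') :
    ch.FA R' A' := by
  have hR0 : 0 < R := by linarith [h.R1, o.Rs_ge]
  have hA0 : 0 < A := by linarith [h.A1]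
  refine ⟨h.R1.trans hR, h.A1.trans hA, ?_, ?_, ?_, ?_, ?_⟩
  · filter_upwards [h.p_lo] with x hx h1 h2
    have h3 := hx (by linarith) h2
    have h4 : 0 < ch.p x :=
      pos_of_mul_pos_right ((mul_pos h2 (ch.h_pos (by linarith))).trans_le h3) hA0.le
    exact h3.trans (mul_le_mul_of_nonneg_right hA h4.le)
  · filter_upwards [h.p_hi] with x hx h1
    have h4 := ch.Par_h0 x
    exact (hx (by linarith)).trans (by gcongr)
  · filter_upwards [h.q_lo] with x hx h1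
    have h3 := hx (by linarith)
    have h4 : 0 < ch.q x := pos_of_mul_pos_right ((ch.Q0_pos (by linarith)).trans_le h3) hA0.le
    exact h3.trans (mul_le_mul_of_nonneg_right hA h4.le)
  · filter_upwards [h.q_hi] with x hx h1
    have h4 := (ch.Q0_pos (x := x) (by linarith)).le
    exact (hx (by linarith)).trans (by gcongr)
  · filter_upwards [h.L_hi] with x hx h1
    have h4 := ch.Par_h0 x
    exact (hx (by linarith)).trans (by gcongr)

/-- The lower bound in both half spaces. -/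
theorem FA.zp {ch : Chan o C ε} {R A : ℝ} (h : ch.FA R A) : ∀ᵐ x : X, R < ‖x‖ →
    x 2 ^ 2 * ch.h x ≤ A * (x 2 * ch.p x) ∧ |x 2| * ch.h x ≤ A * |ch.p x| ∧
      x 2 * ch.p x = |x 2| * |ch.p x| ∧ 0 < ch.q x := by
  have hR0 : 0 < R := by linarith [h.R1, o.Rs_ge]
  have hA0 : 0 < A := by linarith [h.A1]
  filter_upwards [h.p_lo, ae_P h.p_lo, h.q_lo] with x h1 h2 h3 hx
  have hh := ch.h_pos (x := x) (by linarith)
  have hq : 0 < ch.q x :=
    pos_of_mul_pos_right ((ch.Q0_pos (by linarith)).trans_le (h3 hx)) hA0.le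
  rcases lt_trichotomy (x 2) 0 with hz | hz | hz
  · have h4 := h2 (by rwa [norm_P]) (by rw [P_two]; linarith)
    rw [P_two, ch.h_P, ch.pP] at h4
    have h5 : 0 < -ch.p x :=
      pos_of_mul_pos_right ((mul_pos (neg_pos.2 hz) hh).trans_le h4) hA0.le
    rw [abs_of_neg hz, abs_of_neg (neg_pos.1 h5)]
    refine ⟨?_, h4, by ring, hq⟩
    nlinarith [mul_le_mul_of_nonneg_left h4 (neg_pos.2 hz).le]
  · rw [hz]
    refine ⟨by simp, ?_, by simp, hq⟩
    rw [abs_zero, zero_mul]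
    positivity
  · have h4 := h1 hx hz
    have h5 : 0 < ch.p x := pos_of_mul_pos_right ((mul_pos hz hh).trans_le h4) hA0.le
    rw [abs_of_pos hz, abs_of_pos h5]
    refine ⟨?_, h4, rfl, hq⟩
    nlinarith [mul_le_mul_of_nonneg_left h4 hz.le]

end Chan

theorem H_small (o : One c) {η : ℝ} (hη : 0 < η) : ∃ R : ℝ, 1 ≤ R ∧ ∀ (C ε : ℝ) (ch : Chan o C ε)
    (x : X), R ≤ ‖x‖ → ch.H x * ‖x‖ ^ 3 ≤ η * ch.h x := by
  have hg := o.g_pos
  have ht := tendsto_rpow_mul_exp_neg_mul_atTop_nhds_zero 5 (9 / 10 * o.g) (by positivity)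
  obtain ⟨R, hR⟩ := eventually_atTop.1 (ht.eventually (gt_mem_nhds hη))
  refine ⟨max R 1, le_max_right _ _, fun C ε ch x hx => ?_⟩
  have hx1 : 1 ≤ ‖x‖ := (le_max_right _ _).trans hx
  have hx0 : 0 < ‖x‖ := by linarith
  have h1 := (hR ‖x‖ ((le_max_left _ _).trans hx)).le
  refine le_trans ?_ (mul_le_mul_of_nonneg_right h1 (ch.Par_h0 x))
  have hl := Real.log_nonneg hx1
  have b1 := ch.β_bd
  have b2 := ch.β'_bd
  have b3 := ch.k'_sub
  unfold Chan.H Chan.h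
  rw [← Real.rpow_natCast, Real.rpow_def_of_pos hx0, Real.rpow_def_of_pos hx0,
    Real.rpow_def_of_pos hx0, Real.rpow_def_of_pos hx0]
  simp only [← Real.exp_add, Real.exp_le_exp]
  push_cast
  nlinarith [b1.1, b2.2, b3.1]

theorem gauss_small {t η : ℝ} (ht : 0 < t) (hη : 0 < η) :
    ∃ R : ℝ, 1 ≤ R ∧ ∀ r : ℝ, R ≤ r → Real.exp (-r ^ 2 / (64 * t)) * r ≤ η * Real.exp (-2 * r) := by
  refine ⟨max 1 (64 * t * (3 + |Real.log η|)), le_max_left _ _, fun r hr => ?_⟩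
  have h1 : 1 ≤ r := (le_max_left _ _).trans hr
  have h2 : 64 * t * (3 + |Real.log η|) ≤ r := (le_max_right _ _).trans hr
  have h3 : r ≤ Real.exp r := by linarith [Real.add_one_le_exp r]
  have h4 : r * (3 + |Real.log η|) ≤ r ^ 2 / (64 * t) := by
    rw [le_div_iff₀ (by positivity)]
    nlinarith
  have h5 := neg_abs_le (Real.log η)
  have h6 := abs_nonneg (Real.log η)
  calc Real.exp (-r ^ 2 / (64 * t)) * r ≤ Real.exp (-r ^ 2 / (64 * t)) * Real.exp r := by gcongr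
    _ ≤ Real.exp (Real.log η) * Real.exp (-2 * r) := by
        rw [← Real.exp_add, ← Real.exp_add, Real.exp_le_exp, neg_div]
        nlinarith
    _ = _ := by rw [Real.exp_log hη]

end Crest.Agent.R335
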