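import Crest.Agent.R335.PrD
import Crest.Agent.R335.Par

/-! Row 335. The gap in the even sector. -/

set_option autoImplicit false

open MeasureTheory Set Filter Topology
open scoped ENNReal

noncomputable section

namespace Crest.Agent.R335

variable {c : ℝ} {o : One c} {C ε C' : ℝ} {ch : Chan o C ε}

theorem PG_memLp {u : X → ℝ} (h : L2l u) {K : Set X} (hK : IsCompact K)
    (h0 : ∀ᵐ x, x ∉ K → u x = 0) : MemLp u 2 volume := by
  have : K.indicator u =ᵐ[volume] u := by
    filter_upwards [h0] with x hx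
    by_cases hxK : x ∈ K
    · simp [hxK]
    · simp [hxK, hx hxK]
  refine (memLp_congr_ae this).1 ?_
  rw [memLp_indicator_iff_restrict hK.measurableSet]
  exact h K hK

/-- `φ = a u ∈ H¹`, `eiga` with the test `a u²`, `gap` (`⟨b, φ⟩ = 0` by parity). -/
theorem core_gap (o : One c) {u : X → ℝ} {g : Fin 3 → X → ℝ} (hu : H1l eX u g) {M : ℝ}
    (hM : ∀ᵐ x, |u x| ≤ M) {K : Set X} (hK : IsCompact K) (hK0 : ∀ᵐ x, x ∉ K → u x = 0)
    (he : ∀ᵐ x, u (P x) = u x) (h0 : ∫ x, o.a x ^ 2 * u x = 0) :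
    2 * c * ∫ x, o.a x ^ 2 * u x ^ 2 ≤ ∫ x, o.a x ^ 2 * gs g x := by
  obtain ⟨B, hB⟩ := o.bdd
  have hg2 : ∀ i, MemLp (g i) 2 volume := fun i => PG_memLp (hu.gl2 i) hK (by
    filter_upwards [hK0, hu.grad_zero] with x h1 h2 hx using h2 (h1 hx) i)
  have hφ := o.ha.mul_h1l hu hM fun i => (hg2 i).of_le_mul (c := B)
    (o.ha.m.mul (hu.gm i)).aestronglyMeasurable (ae_of_all _ fun x => by
      rw [norm_mul]
      exact mul_le_mul_of_nonneg_right (hB x).1 (norm_nonneg _))
  have hl : ∀ K : Set X, IsCompact K → ∃ M : ℝ, ∀ᵐ x, x ∈ K → |u x| ≤ M := fun K _ =>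
    ⟨M, by filter_upwards [hM] with x hx _ using hx⟩
  have hu2 := hu.mul_locbdd hu hl hl
  have hψ := o.ha.mul_h1l hu2 (M := M * M) (by
      filter_upwards [hM] with x hx
      rw [abs_mul]
      exact mul_le_mul hx hx (abs_nonneg _) ((abs_nonneg _).trans hx))
    fun i => (hg2 i).of_le_mul (c := B * (2 * M))
      (o.ha.m.mul (hu2.gm i)).aestronglyMeasurable (by
      filter_upwards [hM] with x hx
      have h1 := (hB x).1
      have e : o.a x * (g i x * u x + u x * g i x) = o.a x * (2 * u x) * g i x := by ring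
      rw [e, norm_mul, norm_mul, norm_mul, Real.norm_eq_abs (o.a x), Real.norm_eq_abs (u x),
        Real.norm_ofNat]
      have hB0 : 0 ≤ B := (abs_nonneg _).trans h1
      gcongr)
  have e1 := o.eiga _ _ hψ
  have e2 := o.gap _ _ hφ
  have ha0 : ip o.a (fun x => o.a x * u x) = 0 := by
    rw [← h0, ip]
    congr 1
    funext x
    ring
  have hb0 : ip o.b (fun x => o.a x * u x) = 0 := by
    have h1 := integral_P (fun x => o.b x * (o.a x * u x))
    have h2 : ∫ x, o.b (P x) * (o.a (P x) * u (P x)) = -∫ x, o.b x * (o.a x * u x) := by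
      rw [← integral_neg]
      refine integral_congr_ae ?_
      filter_upwards [he] with x hx
      rw [o.bP, o.aP, hx]
      ring
    unfold ip
    linarith
  have hn : nsq (fun x => o.a x * u x) = ∫ x, o.a x ^ 2 * u x ^ 2 := by
    unfold nsq
    congr 1
    funext x
    ring
  have hi : ip o.a (fun x => o.a x * (u x * u x)) = ∫ x, o.a x ^ 2 * u x ^ 2 := by
    unfold ip
    congr 1
    funext x
    ring
  have hV : ∫ x, V o.D x * (o.a x * (o.a x * (u x * u x))) = ∫ x, V o.D x * (o.a x * u x) ^ 2 := by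
    congr 1
    funext x
    ring
  have hd : ∫ x, o.a x ^ 2 * gs g x = dir (fun i x => o.ga i x * u x + o.a x * g i x) -
      ∫ x, gd o.ga (fun i x => o.ga i x * (u x * u x) + o.a x * (g i x * u x + u x * g i x)) x := by
    rw [dir, ← integral_sub hφ.integrable_gs (o.ha.integrable_gd hψ)]
    congr 1
    funext x
    simp only [gs, gd, Fin.sum_univ_three]
    ring
  rw [ha0, hb0, hn, qf] at e2
  rw [bf, hi, hV] at e1
  rw [hd]
  linarith

theorem PG_pd_one_sub {χ : X → ℝ} (i : Fin 3) (x : X) :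
    pd eX (fun x => 1 - χ x) i x = -pd eX χ i x := by
  unfold pd
  rw [fderiv_const_sub]
  rfl

theorem PG_gs_mul (ζ v : X → ℝ) (k l : Fin 3 → X → ℝ) (x : X) :
    gs (fun i x => ζ x * k i x + l i x * v x) x ≤
      2 * ζ x ^ 2 * gs k x + 2 * gs l x * v x ^ 2 := by
  simp only [gs, Fin.sum_univ_three]
  nlinarith [sq_nonneg (ζ x * k 0 x - l 0 x * v x), sq_nonneg (ζ x * k 1 x - l 1 x * v x),
    sq_nonneg (ζ x * k 2 x - l 2 x * v x)]

theorem PG_sq_le_gs (g : Fin 3 → X → ℝ) (i : Fin 3) (x : X) : g i x ^ 2 ≤ gs g x :=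
  Finset.single_le_sum (f := fun i => g i x ^ 2) (fun _ _ => sq_nonneg _) (Finset.mem_univ i)

/-- Let `χ` be the cut-off function of `exists_cut_ball` (centre `0`, radius `R + 1`, width `L`),
`u = φ / t`, `m = ∫ a² χ u / ∫ a² χ`, `w = φ - m t`.  `nsq φ - ⟨t, φ⟩² / 2 ≤ nsq w`,
`nsq w ≤ 2 nsq (χ w) + 2 nsq ((1 - χ) w)`; `core_gap` for `χ (u - m)` and `Core`; `PX` for
`(1 - χ) w`; `Dq_mul_le`, `Dq_sub`, `Dq_eq`; absorb the terms `M₀ / L² · nsq w`. -/
theorem pstar_bdd (c Kc K₅ : ℝ) (hc : 0 < c) (hKc : 1 ≤ Kc) (hK : 0 < K₅) :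
    ∃ L Ks : ℝ, 0 < L ∧ 0 < Ks ∧ ∀ (o : One c) (C C' ε R : ℝ) (ch : Chan o C ε)
      (pr : Pair ch C'), 0 ≤ R → pr.Core (R + 1 + L) Kc → pr.PX R K₅ →
      ∀ (φ : X → ℝ) (g : Fin 3 → X → ℝ) (M : ℝ), H1 eX φ g → (∀ᵐ x, φ (P x) = φ x) →
        (∀ᵐ x, |φ x| ≤ M * pr.t x) →
        nsq φ - ip pr.t φ ^ 2 / 2 ≤ Ks * ∫ x, Dq pr.t pr.gt φ g x := by
  obtain ⟨M₀, hM₀, hcut⟩ := exists_cut_ball
  have hKc0 : 0 < Kc := by linarith
  obtain ⟨A, hA⟩ : ∃ A : ℝ, A = 2 * Kc ^ 4 / c + 4 * K₅ := ⟨_, rfl⟩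
  have hA0 : 0 < A := by rw [hA]; positivity
  obtain ⟨L, hL⟩ : ∃ L : ℝ, L = 1 + 2 * A * M₀ := ⟨_, rfl⟩
  have hAM : 0 < 2 * A * M₀ := by positivity
  have hL0 : 0 < L := by rw [hL]; positivity
  refine ⟨L, 2 * A, hL0, by positivity, ?_⟩
  intro o C C' ε R ch pr hR hcore hpx φ g M hφ he hM
  obtain ⟨χ, hχ, hχc, h01, h1, h0, hts, hgs, hgs0, hχP⟩ := hcut 0 (R + 1) L (by linarith) hL0
  simp only [sub_zero] at h1 h0 hgs0
  have hχP := hχP rfl
  obtain ⟨μ, hμ⟩ : ∃ μ : ℝ, μ = M₀ / L ^ 2 := ⟨_, rfl⟩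
  rw [← hμ] at hgs
  have hμ0 : 0 < μ := by rw [hμ]; positivity
  have hAμ : A * μ ≤ 1 / 2 := by
    rw [hμ, ← mul_div_assoc, div_le_div_iff₀ (by positivity) (by norm_num)]
    nlinarith
  have ht := pr.pair.ht
  have hp : ∀ᵐ x, 0 < pr.t x := pr.tpos.ae_pos
  -- the quotient
  have hu := hφ.h1l.div ht.h1l pr.tpos hM
  have huM : ∀ᵐ x, |φ x / pr.t x| ≤ M := by
    filter_upwards [hM, hp] with x hx hx'
    rw [abs_div, abs_of_pos hx', div_le_iff₀ hx']
    exact hx
  have hia : Integrable fun x => o.a x ^ 2 := o.ha.integrable_sq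
  have hχb : ∀ x, |χ x| ≤ 1 := fun x => abs_le.2 ⟨by linarith [(h01 x).1], (h01 x).2⟩
  have hi1 : Integrable fun x => o.a x ^ 2 * χ x :=
    hia.mul_bdd (c := 1) hχ.continuous.aestronglyMeasurable (ae_of_all _ hχb)
  have hi2 : Integrable fun x => o.a x ^ 2 * χ x * (φ x / pr.t x) :=
    hi1.mul_bdd (c := M) hu.m.aestronglyMeasurable huM
  have hpos : 0 < ∫ x, o.a x ^ 2 * χ x := by
    refine integral_pos_of_integrable_nonneg_nonzero (x := 0)
      ((o.ca.pow 2).mul hχ.continuous) hi1 (fun x => mul_nonneg (sq_nonneg _) (h01 x).1) ?_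
    rw [h1 0 (by rw [norm_zero]; linarith), mul_one]
    exact pow_ne_zero _ (o.apos 0).ne'
  obtain ⟨m, hm⟩ : ∃ m : ℝ, m = (∫ x, o.a x ^ 2 * χ x * (φ x / pr.t x)) /
    ∫ x, o.a x ^ 2 * χ x := ⟨_, rfl⟩
  have hw : H1 eX (fun x => φ x - m * pr.t x) fun i x => g i x - m * pr.gt i x :=
    hφ.sub (ht.smul m)
  have hwM : ∀ᵐ x, |φ x - m * pr.t x| ≤ (M + |m|) * pr.t x := by
    filter_upwards [hM, hp] with x hx hx'
    have := abs_sub (φ x) (m * pr.t x)
    rw [abs_mul, abs_of_pos hx'] at this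
    linarith
  have hDi : Integrable (Dq pr.t pr.gt φ g) := integrable_Dq ht hφ (M := M) (by
    filter_upwards [hM, hp] with x hx hx'
    rwa [abs_of_pos hx'])
  have hD0 : 0 ≤ ∫ x, Dq pr.t pr.gt φ g x := integral_nonneg fun x => Dq_nonneg _ _ _ _ x
  have hRi : Integrable fun x => 2 * Dq pr.t pr.gt φ g x + 2 * μ * (φ x - m * pr.t x) ^ 2 :=
    (hDi.const_mul 2).add (hw.integrable_sq.const_mul _)
  have hRe : ∫ x, (2 * Dq pr.t pr.gt φ g x + 2 * μ * (φ x - m * pr.t x) ^ 2) =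
      2 * (∫ x, Dq pr.t pr.gt φ g x) + 2 * μ * nsq fun x => φ x - m * pr.t x :=
    LWD_int2 hDi hw.integrable_sq _ _
  -- step 1
  have s1 : nsq φ - ip pr.t φ ^ 2 / 2 ≤ nsq fun x => φ x - m * pr.t x := by
    have e := nsq_lin ht.l2 hφ.l2 (-m) 1
    have e' : (fun x => -m * pr.t x + 1 * φ x) = fun x => φ x - m * pr.t x := by
      funext x
      ring
    rw [e', pr.mass] at e
    rw [e]
    nlinarith [sq_nonneg (2 * m - ip pr.t φ)]
  -- the exterior part
  have hψ := hw.mul_bdd (ζ := fun x => 1 - χ x) (contDiff_const.sub hχ) (M := 1 + μ)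
    (fun x => by
      have := h01 x
      rw [abs_le]
      constructor <;> linarith)
    (fun i x => by
      rw [PG_pd_one_sub, abs_neg]
      have := (PG_sq_le_gs (pd eX χ) i x).trans (hgs x)
      refine abs_le_of_sq_le_sq' ?_ (by positivity) |> abs_le.2
      nlinarith)
  have s2 : nsq (fun x => (1 - χ x) * (φ x - m * pr.t x)) ≤
      K₅ * (2 * (∫ x, Dq pr.t pr.gt φ g x) + 2 * μ * nsq fun x => φ x - m * pr.t x) := by
    refine (hpx _ _ (M + |m|) hψ ?_ ?_).trans (mul_le_mul_of_nonneg_left ?_ hK.le)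
    · filter_upwards [hwM] with x hx
      have := h01 x
      rw [abs_mul]
      refine le_trans (mul_le_of_le_one_left (abs_nonneg _) ?_) hx
      rw [abs_le]
      constructor <;> linarith
    · refine ae_of_all _ fun x hx => ?_
      rw [h1 x (by linarith), sub_self, zero_mul]
    · rw [← hRe]
      refine integral_mono_of_nonneg (ae_of_all _ fun x => Dq_nonneg _ _ _ _ x) hRi ?_
      filter_upwards [hp] with x hx
      refine (Dq_mul_le pr.t pr.gt (fun x => φ x - m * pr.t x) (fun x => 1 - χ x)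
        (fun i x => g i x - m * pr.gt i x) x).trans ?_
      rw [Dq_sub _ _ _ _ _ hx.ne']
      have e : gs (pd eX fun x => 1 - χ x) x = gs (pd eX χ) x := by
        simp only [gs, PG_pd_one_sub, neg_sq]
      rw [e]
      have h2 := h01 x
      have h3 : (1 - χ x) ^ 2 ≤ 1 := by nlinarith
      have h4 := Dq_nonneg pr.t pr.gt φ g x
      have h5 := mul_le_mul_of_nonneg_right (hgs x) (sq_nonneg (φ x - m * pr.t x))
      nlinarith
  -- the core
  have hv := (hu.lin (H1l.const (e := eX) m) 1 (-1)).mul_contDiff hχ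
  have hvM : ∀ᵐ x, |χ x * (1 * (φ x / pr.t x) + -1 * m)| ≤ M + |m| := by
    filter_upwards [huM] with x hx
    rw [abs_mul]
    refine le_trans (mul_le_of_le_one_left (abs_nonneg _) (hχb x)) ?_
    have := abs_sub (φ x / pr.t x) m
    rw [show 1 * (φ x / pr.t x) + -1 * m = φ x / pr.t x - m by ring]
    linarith
  have hcg := core_gap o hv hvM (isCompact_closedBall (0 : X) (R + 1 + L))
    (ae_of_all _ fun x hx => by
      rw [mem_closedBall_zero_iff, not_le] at hx
      rw [h0 x hx.le, zero_mul])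
    (by
      filter_upwards [he] with x hx
      rw [hx, hχP, pr.tP])
    (by
      have e : (fun x => o.a x ^ 2 * (χ x * (1 * (φ x / pr.t x) + -1 * m))) = fun x =>
          1 * (o.a x ^ 2 * χ x * (φ x / pr.t x)) + -m * (o.a x ^ 2 * χ x) := by
        funext x
        ring
      rw [e, LWD_int2 hi2 hi1, hm]
      field_simp
      ring)
  have s3 : nsq (fun x => χ x * (φ x - m * pr.t x)) ≤
      Kc ^ 2 * ∫ x, o.a x ^ 2 * (χ x * (1 * (φ x / pr.t x) + -1 * m)) ^ 2 := by
    rw [← integral_const_mul]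
    refine integral_mono_of_nonneg (ae_of_all _ fun x => sq_nonneg _)
      ((hia.mul_bdd (c := (M + |m|) ^ 2) (hv.m.pow_const 2).aestronglyMeasurable ?_).const_mul _) ?_
    · filter_upwards [hvM] with x hx
      rw [norm_pow]
      exact pow_le_pow_left₀ (norm_nonneg _) hx 2
    · filter_upwards [hp, hcore] with x hx hx'
      by_cases hb : ‖x‖ ≤ R + 1 + L
      · have h2 := pow_le_pow_left₀ hx.le (hx' hb).2 2
        have e : χ x * (φ x - m * pr.t x) = pr.t x * (χ x * (1 * (φ x / pr.t x) + -1 * m)) := by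
          field_simp
          ring
        rw [e, mul_pow, ← mul_assoc, ← mul_pow Kc]
        exact mul_le_mul_of_nonneg_right h2 (sq_nonneg _)
      · rw [h0 x (not_le.1 hb).le]
        simp
  have s4 : ∫ x, o.a x ^ 2 * gs (fun i x => χ x * (1 * ((g i x - φ x / pr.t x * pr.gt i x) /
        pr.t x) + -1 * 0) + pd eX χ i x * (1 * (φ x / pr.t x) + -1 * m)) x ≤
      Kc ^ 2 * (2 * (∫ x, Dq pr.t pr.gt φ g x) + 2 * μ * nsq fun x => φ x - m * pr.t x) := by
    rw [← hRe, ← integral_const_mul]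
    refine integral_mono_of_nonneg
      (ae_of_all _ fun x => mul_nonneg (sq_nonneg _) (gs_nonneg _ x)) (hRi.const_mul _) ?_
    filter_upwards [hp, hcore] with x hx hx'
    have h2 := PG_gs_mul χ (fun x => 1 * (φ x / pr.t x) + -1 * m)
      (fun i x => 1 * ((g i x - φ x / pr.t x * pr.gt i x) / pr.t x) + -1 * 0) (pd eX χ) x
    have h4 := Dq_nonneg pr.t pr.gt φ g x
    by_cases hb : ‖x‖ ≤ R + 1 + L
    · have h3 := pow_le_pow_left₀ (o.apos x).le (hx' hb).1 2
      refine (mul_le_mul h3 h2 (gs_nonneg _ x) (sq_nonneg _)).trans ?_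
      rw [mul_pow, mul_assoc]
      refine mul_le_mul_of_nonneg_left ?_ (sq_nonneg _)
      have e1 : pr.t x ^ 2 * gs (fun i x => 1 * ((g i x - φ x / pr.t x * pr.gt i x) / pr.t x) +
          -1 * 0) x = Dq pr.t pr.gt φ g x := by
        rw [Dq_eq _ _ _ _ hx.ne']
        simp only [one_mul, mul_zero, add_zero]
      have e2 : pr.t x ^ 2 * (1 * (φ x / pr.t x) + -1 * m) ^ 2 = (φ x - m * pr.t x) ^ 2 := by
        field_simp
        ring
      have h5 := h01 x
      have h6 : χ x ^ 2 ≤ 1 := by nlinarith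
      have h7 := mul_le_mul_of_nonneg_right (hgs x) (sq_nonneg (φ x - m * pr.t x))
      calc _ = 2 * χ x ^ 2 * (pr.t x ^ 2 * gs (fun i x => 1 * ((g i x - φ x / pr.t x *
            pr.gt i x) / pr.t x) + -1 * 0) x) + 2 * gs (pd eX χ) x *
            (pr.t x ^ 2 * (1 * (φ x / pr.t x) + -1 * m) ^ 2) := by ring
        _ ≤ _ := by
          rw [e1, e2]
          nlinarith
    · have hb' := not_le.1 hb
      rw [h0 x hb'.le, hgs0 x (Or.inr hb')] at h2
      have h3 := mul_le_mul_of_nonneg_left h2 (sq_nonneg (o.a x))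
      refine h3.trans ?_
      simp only [ne_eq, OfNat.ofNat_ne_zero, not_false_eq_true, zero_pow, mul_zero, zero_mul,
        add_zero]
      positivity
  have hχw := hw.h1l.mul_c1c hχ hχc
  have s5 : nsq (fun x => φ x - m * pr.t x) ≤ 2 * nsq (fun x => χ x * (φ x - m * pr.t x)) +
      2 * nsq (fun x => (1 - χ x) * (φ x - m * pr.t x)) := by
    unfold nsq
    rw [← LWD_int2 hχw.integrable_sq hψ.integrable_sq]
    refine integral_mono_of_nonneg (ae_of_all _ fun x => sq_nonneg _)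
      ((hχw.integrable_sq.const_mul 2).add (hψ.integrable_sq.const_mul 2)) (ae_of_all _ fun x => ?_)
    have := sq_nonneg (χ x * (φ x - m * pr.t x) - (1 - χ x) * (φ x - m * pr.t x))
    simp only
    nlinarith
  have hN0 := nsq_nonneg fun x => φ x - m * pr.t x
  generalize (nsq fun x => φ x - m * pr.t x) = N at *
  generalize (∫ x, Dq pr.t pr.gt φ g x) = D at *
  have s6 : nsq (fun x => χ x * (φ x - m * pr.t x)) ≤ Kc ^ 4 / c * (D + μ * N) := by
    refine s3.trans ?_
    have h2 := hcg.trans s4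
    rw [div_mul_eq_mul_div, le_div_iff₀ hc]
    have h3 := mul_le_mul_of_nonneg_left h2 (sq_nonneg Kc)
    nlinarith
  have s7 : N ≤ A * (D + μ * N) := by
    rw [hA]
    have : 2 * Kc ^ 4 / c = 2 * (Kc ^ 4 / c) := by ring
    rw [this]
    nlinarith
  have s8 := mul_le_mul_of_nonneg_right hAμ hN0
  nlinarith

/-- Truncation `φ_M = max (min φ (M t)) (-M t)`: `Dq φ_M ≤ Dq φ` almost everywhere. -/
theorem pstar_of_bdd {s : X → ℝ} (pr : Pair0 s) (hp : ∀ᵐ x, 0 < pr.t x) {Ks : ℝ} (hK : 0 ≤ Ks)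
    (h : ∀ (φ : X → ℝ) (g : Fin 3 → X → ℝ) (M : ℝ), H1 eX φ g → (∀ᵐ x, φ (P x) = φ x) →
      (∀ᵐ x, |φ x| ≤ M * pr.t x) → nsq φ - ip pr.t φ ^ 2 / 2 ≤ Ks * ∫ x, Dq pr.t pr.gt φ g x) :
    pr.PStar Ks := by
  intro φ g hφ he hDi
  have ht := pr.pair.ht
  have hT : ∀ n : ℕ, H1 eX (fun x => max (min (φ x) (n * pr.t x)) (-n * pr.t x)) _ := fun n =>
    (hφ.min (ht.smul n)).max (ht.smul (-n))
  have hb : ∀ (n : ℕ) x, |max (min (φ x) (n * pr.t x)) (-n * pr.t x)| ≤ n * pr.t x ∧
      |max (min (φ x) (n * pr.t x)) (-n * pr.t x)| ≤ |φ x| := by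
    intro n x
    have h1 : 0 ≤ n * pr.t x := mul_nonneg (Nat.cast_nonneg n) (pr.t0 x)
    have h2 := le_abs_self (φ x)
    have h3 := neg_abs_le (φ x)
    have h4 := abs_nonneg (φ x)
    rw [abs_le, abs_le, neg_mul]
    refine ⟨⟨le_max_right _ _, max_le (min_le_right _ _) (by linarith)⟩,
      le_max_of_le_left (le_min h3 (by linarith)),
      max_le ((min_le_left _ _).trans h2) (by linarith)⟩
  have hle : ∀ n : ℕ, nsq (fun x => max (min (φ x) (n * pr.t x)) (-n * pr.t x)) -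
      ip pr.t (fun x => max (min (φ x) (n * pr.t x)) (-n * pr.t x)) ^ 2 / 2 ≤
      Ks * ∫ x, Dq pr.t pr.gt φ g x := by
    intro n
    refine (h _ _ n (hT n) ?_ (ae_of_all _ fun x => (hb n x).1)).trans
      (mul_le_mul_of_nonneg_left ?_ hK)
    · filter_upwards [he] with x hx
      rw [hx, pr.tP]
    · refine integral_mono_of_nonneg (ae_of_all _ fun x => Dq_nonneg _ _ _ _ x) hDi ?_
      filter_upwards [hp] with x hx
      have h0 := Dq_nonneg pr.t pr.gt φ g x
      unfold Dq at h0 ⊢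
      by_cases c1 : -(n : ℝ) * pr.t x < min (φ x) (n * pr.t x)
      · simp only [if_pos c1, max_eq_left c1.le]
        by_cases c2 : φ x < n * pr.t x
        · simp only [if_pos c2, min_eq_left c2.le, le_refl]
        · simp only [if_neg c2, min_eq_right (not_lt.1 c2)]
          refine le_trans (le_of_eq (Finset.sum_eq_zero fun i _ => ?_)) h0
          field_simp
          ring
      · simp only [if_neg c1, max_eq_right (not_lt.1 c1)]
        refine le_trans (le_of_eq (Finset.sum_eq_zero fun i _ => ?_)) h0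
        field_simp
        ring
  have hlim : ∀ᵐ x, Tendsto (fun n : ℕ => max (min (φ x) (n * pr.t x)) (-n * pr.t x)) atTop
      (𝓝 (φ x)) := by
    filter_upwards [hp] with x hx
    obtain ⟨N, hN⟩ := exists_nat_ge (|φ x| / pr.t x)
    refine tendsto_const_nhds.congr' ?_
    filter_upwards [eventually_ge_atTop N] with n hn
    have h1 : |φ x| ≤ n * pr.t x := by
      rw [← div_le_iff₀ hx]
      exact hN.trans (Nat.cast_le.2 hn)
    have h2 := abs_le.1 h1
    rw [min_eq_left h2.2, max_eq_left (by linarith [h2.1])]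
  have l1 : Tendsto (fun n : ℕ => nsq fun x => max (min (φ x) (n * pr.t x)) (-n * pr.t x)) atTop
      (𝓝 (nsq φ)) := by
    refine tendsto_integral_of_dominated_convergence (fun x => φ x ^ 2)
      (fun n => ((hT n).m.pow_const 2).aestronglyMeasurable) hφ.integrable_sq
      (fun n => ae_of_all _ fun x => ?_) ?_
    · rw [Real.norm_eq_abs, abs_pow, ← sq_abs (φ x)]
      exact pow_le_pow_left₀ (abs_nonneg _) (hb n x).2 2
    · filter_upwards [hlim] with x hx using hx.pow 2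
  have l2 : Tendsto (fun n : ℕ => ip pr.t fun x => max (min (φ x) (n * pr.t x)) (-n * pr.t x))
      atTop (𝓝 (ip pr.t φ)) := by
    refine tendsto_integral_of_dominated_convergence (fun x => |pr.t x * φ x|)
      (fun n => (ht.m.mul (hT n).m).aestronglyMeasurable) (ht.integrable_mul hφ).abs
      (fun n => ae_of_all _ fun x => ?_) ?_
    · rw [Real.norm_eq_abs, abs_mul, abs_mul]
      exact mul_le_mul_of_nonneg_left (hb n x).2 (abs_nonneg _)
    · filter_upwards [hlim] with x hx using hx.const_mul _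
  exact le_of_tendsto' (l1.sub ((l2.pow 2).div_const 2)) hle

end Crest.Agent.R335
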