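import Crest.Agent.R335.Par

/-! Row 335. Stage B: definitions.  Long time Duhamel representation of `p` and `q` near the plane. -/

set_option autoImplicit false

open MeasureTheory Set Filter Topology
open scoped ENNReal

noncomputable section

namespace Crest.Agent.R335

variable {c : ℝ} {o : One c} {C ε : ℝ}

/-- The contribution of the bad displacements. -/
def tl (s : ℝ) (f : X → ℝ) (v x : X) : ℝ :=
  ∫ y in {y | x - y ∈ bad s v}, (1 + ‖x - y‖) * G s (x - y) * f y

/-- The lateral unit vector. -/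
def lat (x : X) : X := ‖pl x‖⁻¹ • pl x

namespace Chan

variable (ch : Chan o C ε)

def pt (R : ℝ) (y : X) : ℝ := if R < ‖y‖ then ch.p y else 0
def qt (R : ℝ) (y : X) : ℝ := if R < ‖y‖ then ch.q y else 0
def zp (R : ℝ) (y : X) : ℝ := y 2 * ch.pt R y
def m1 : ℝ := ch.I + ch.gS

def h0 (R : ℝ) (N : ℕ) (x : X) : ℝ := Real.exp (-ch.I * N) * (Gc N (ch.zp R) (pl x) / N)

def tau (R : ℝ) (N : ℕ) (x : X) : ℝ :=
  Real.exp (-ch.m1 * N) * Gc N (ch.qt R) (pl x) +
    ε * ch.d / ‖pl x‖ ^ 3 * Real.exp (-ch.I * N) * ∑ j ∈ Finset.range N,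
      (j + 1) * Real.exp (-ch.m1 * (j + 1)) * (Gc (N + (j + 1)) (ch.zp R) (pl x) / (N + (j + 1)))

/-- The tails of `tau`, seen from the point `x`. -/
def ttau (R : ℝ) (N : ℕ) (x : X) : ℝ :=
  Real.exp (-ch.m1 * N) * tl N (ch.qt R) (lat x) x +
    ε * ch.d / ‖pl x‖ ^ 3 * Real.exp (-ch.I * N) * ∑ j ∈ Finset.range N,
      (j + 1) * Real.exp (-ch.m1 * (j + 1)) * (tl (N + (j + 1)) (ch.zp R) (lat x) x / (N + (j + 1)))

/-- The main part of Duhamel's formula for `q` at the time `t`. -/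
def qm (R : ℝ) (N : ℕ) (t : ℝ) (x : X) : ℝ :=
  Real.exp (-ch.m1 * t) * Gc t (ch.qt R) x +
    ε * ch.d / ‖pl x‖ ^ 3 * Real.exp (-ch.I * N) *
      ∫ σ in Ioc 0 t, Real.exp (-ch.m1 * σ) * Gc σ (fun y => y 2 * Gc N (ch.pt R) y) x

end Chan

theorem pl_pl (x : X) : pl (pl x) = pl x := by
  simp [pl]

theorem pl_two (x : X) : pl x 2 = 0 := by
  simp [pl]

theorem pl_P (x : X) : pl (P x) = pl x := by
  simp [pl, P]

theorem exists_plL : ∃ A : X →L[ℝ] X, ∀ x, A x = pl x := by
  refine ⟨LinearMap.toContinuousLinearMap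
    { toFun := pl
      map_add' := fun x y => ?_
      map_smul' := fun a x => ?_ }, fun x => rfl⟩
  · ext i; fin_cases i <;> simp [pl]
  · ext i; fin_cases i <;> simp [pl]

theorem continuous_pl : Continuous pl := by
  obtain ⟨A, hA⟩ := exists_plL
  rw [← funext hA]
  exact A.continuous

theorem norm_pl_le (x : X) : ‖pl x‖ ≤ ‖x‖ := by
  rw [EuclideanSpace.norm_eq, EuclideanSpace.norm_eq]
  refine Real.sqrt_le_sqrt ?_
  simp only [Fin.sum_univ_three, pl]
  simp
  positivity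

theorem norm_sub_pl (x : X) : ‖x - pl x‖ = |x 2| := by
  rw [EuclideanSpace.norm_eq]
  simp [Fin.sum_univ_three, pl, Real.sqrt_sq_eq_abs]

theorem norm_lat {x : X} (h : 0 < ‖pl x‖) : ‖lat x‖ = 1 := by
  rw [lat, norm_smul, norm_inv, norm_norm, inv_mul_cancel₀ h.ne']

theorem inner_lat {x : X} (h : 0 < ‖pl x‖) : inner ℝ (lat x) x = ‖pl x‖ := by
  have e : inner ℝ (pl x) x = ‖pl x‖ ^ 2 := by
    rw [EuclideanSpace.real_norm_sq_eq]
    simp [PiLp.inner_apply, Fin.sum_univ_three, pl, sq]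
  rw [lat, real_inner_smul_left, e]
  field_simp

theorem lat_pl (x : X) : lat (pl x) = lat x := by
  rw [lat, lat, pl_pl]

theorem pl_lat (x : X) : pl (lat x) = lat x := by
  obtain ⟨A, hA⟩ := exists_plL
  rw [lat, ← hA (_ • _), map_smul, hA, pl_pl]

theorem GDefs_nsq_ne {f : X → ℝ} (hf : MemLp f 2 volume) {U : Set X} (hU : IsOpen U)
    (hne : U.Nonempty) (h : ∀ᵐ y, y ∈ U → f y ≠ 0) : nsq f ≠ 0 := by
  intro h0
  have h1 := (integral_eq_zero_iff_of_nonneg (fun x => sq_nonneg (f x)) hf.integrable_sq).1 h0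
  refine (hU.measure_pos volume hne).ne' (measure_eq_zero_iff_ae_notMem.2 ?_)
  filter_upwards [h, h1] with y hy hy' hyU
  exact hy hyU (pow_eq_zero_iff two_ne_zero |>.1 hy')

theorem Chan.FA.tr {ch : Chan o C ε} {R A : ℝ} (h : ch.FA R A) :
    MemLp (ch.pt R) 2 volume ∧ MemLp (ch.qt R) 2 volume ∧ MemLp (ch.zp R) 2 volume ∧
      (∀ y, ch.pt R (P y) = -ch.pt R y) ∧ (∀ y, ch.qt R (P y) = ch.qt R y) ∧
      (∀ y, ch.zp R (P y) = ch.zp R y) ∧ (∀ᵐ y, 0 ≤ ch.qt R y) ∧ (∀ᵐ y, 0 ≤ ch.zp R y) ∧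
      nsq (ch.qt R) ≠ 0 ∧ nsq (ch.zp R) ≠ 0 := by
  have hm : ∀ r : ℝ, MeasurableSet (ext r) := fun r =>
    (isOpen_lt continuous_const continuous_norm).measurableSet
  have hR : 1 ≤ R := by linarith [h.R1, o.Rs_ge]
  have hA : 0 < A := by linarith [h.A1]
  have ep : ch.pt R = (ext R).indicator ch.p := by
    funext y; simp [Chan.pt, ext, indicator]
  have eq : ch.qt R = (ext R).indicator ch.q := by
    funext y; simp [Chan.qt, ext, indicator]
  have mp : MemLp (ch.pt R) 2 volume := by rw [ep]; exact ch.solp.h1.l2.indicator (hm R)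
  have mq : MemLp (ch.qt R) 2 volume := by rw [eq]; exact ch.solq.h1.l2.indicator (hm R)
  have c2 : Continuous fun y : X => y 2 := by fun_prop
  have mz : MemLp (ch.zp R) 2 volume := by
    have h1 := ((memLp_indicator_iff_restrict (hm 1)).2 (ch.memLp_h 2)).const_mul A
    refine h1.mono' (c2.aestronglyMeasurable.mul mp.1) ?_
    filter_upwards [h.p_hi] with y hy
    by_cases hyR : R < ‖y‖
    · have hy1 : y ∈ ext 1 := lt_of_le_of_lt hR hyR
      have h2 := hy hyR
      have h3 : |y 2| ≤ 1 + ‖y‖ := by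
        have := PiLp.norm_apply_le y 2
        rw [Real.norm_eq_abs] at this
        linarith
      have h4 := ch.h_pos (x := y) (by linarith)
      rw [indicator_of_mem hy1, Chan.zp, Chan.pt, if_pos hyR, norm_mul, Real.norm_eq_abs,
        Real.norm_eq_abs]
      calc |y 2| * |ch.p y| ≤ |y 2| * (A * |y 2| * ch.h y) := by gcongr
        _ = A * (|y 2| ^ 2 * ch.h y) := by ring
        _ ≤ _ := by gcongr
    · rw [Chan.zp, Chan.pt, if_neg hyR, mul_zero, norm_zero]
      refine mul_nonneg hA.le (indicator_nonneg (fun z hz => ?_) y)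
      have h4 := ch.h_pos (x := z) (lt_trans one_pos hz)
      positivity
  have hpP : ∀ y, ch.pt R (P y) = -ch.pt R y := fun y => by
    simp only [Chan.pt, norm_P, ch.pP]
    split_ifs <;> simp
  have hU : IsOpen (up R) := (isOpen_lt continuous_const continuous_norm).inter
    (isOpen_lt continuous_const c2)
  have hne : (up R).Nonempty := by
    refine ⟨EuclideanSpace.single 2 (R + 1), ?_, ?_⟩
    · rw [EuclideanSpace.norm_single, Real.norm_eq_abs, abs_of_pos (by linarith)]; linarith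
    · simp only [PiLp.single_apply, if_true]; linarith
  refine ⟨mp, mq, mz, hpP, fun y => ?_, fun y => ?_, ?_, ?_, GDefs_nsq_ne mq hU hne ?_,
    GDefs_nsq_ne mz hU hne ?_⟩
  · simp only [Chan.qt, norm_P, ch.qP]
  · rw [Chan.zp, Chan.zp, hpP, P_two, neg_mul_neg]
  · filter_upwards [h.zp] with y hy
    rw [Chan.qt]
    split_ifs with hyR
    · exact (hy hyR).2.2.2.le
    · exact le_rfl
  · filter_upwards [h.zp] with y hy
    rw [Chan.zp, Chan.pt]
    split_ifs with hyR
    · rw [(hy hyR).2.2.1]; positivity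
    · rw [mul_zero]
  · filter_upwards [h.zp] with y hy hyU
    rw [Chan.qt, if_pos hyU.1]
    exact (hy hyU.1).2.2.2.ne'
  · filter_upwards [h.zp] with y hy hyU
    rw [Chan.zp, Chan.pt, if_pos hyU.1]
    intro h0
    have h1 := (hy hyU.1).1
    have h4 := ch.h_pos (x := y) (by linarith [hyU.1])
    have h5 := hyU.2
    rw [h0, mul_zero] at h1
    exact absurd h1 (not_le.2 (by positivity))

/-- An inequality between continuous functions of `pl x` which holds almost everywhere in the slab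
holds everywhere. -/
theorem le_of_ae_slab {R : ℝ} {u w : X → ℝ} (hu : ContinuousOn u {x | R < ‖pl x‖})
    (hw : ContinuousOn w {x | R < ‖pl x‖}) (hu' : ∀ x, u (pl x) = u x) (hw' : ∀ x, w (pl x) = w x)
    (h : ∀ᵐ x : X, R < ‖pl x‖ → |x 2| ≤ 1 → u x ≤ w x) : ∀ x, R < ‖pl x‖ → u x ≤ w x := by
  have c2 : Continuous fun y : X => |y 2| := by fun_prop
  have hU : IsOpen {x : X | R < ‖pl x‖ ∧ |x 2| < 1} :=
    (isOpen_lt continuous_const continuous_pl.norm).inter (isOpen_lt c2 continuous_const)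
  have hsub : {x : X | R < ‖pl x‖ ∧ |x 2| < 1} ⊆ {x | R < ‖pl x‖} := fun x hx => hx.1
  have he : EqOn (fun x => max (u x) (w x)) w {x : X | R < ‖pl x‖ ∧ |x 2| < 1} := by
    refine Measure.eqOn_open_of_ae_eq (μ := volume) ?_ hU ((hu.mono hsub).sup (hw.mono hsub))
      (hw.mono hsub)
    rw [EventuallyEq, ae_restrict_iff' hU.measurableSet]
    filter_upwards [h] with x hx hxU
    exact max_eq_right (hx hxU.1 hxU.2.le)
  intro x hx
  have := he (x := pl x) ⟨by rwa [pl_pl], by rw [pl_two, abs_zero]; exact one_pos⟩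
  rw [← hu', ← hw', ← this]
  exact le_max_left _ _

end Crest.Agent.R335
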