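import Crest.Agent.R335.StA3

/-! Row 335. The robust supersolution. -/

set_option autoImplicit false

open MeasureTheory Set Filter Topology
open scoped ENNReal

noncomputable section

namespace Crest.Agent.R335

variable {c : ℝ} {o : One c} {C ε : ℝ}

theorem StU_YH {r β β' k k' k₁ : ℝ} (hr : 1 ≤ r) (hβ : -1 / 10 ≤ β) (hβ' : 9 / 10 ≤ β')
    (hk : 4 * k' + k ≤ 5 * k₁) :
    Real.exp (-k₁ * r) ^ 5 ≤
      (r ^ β' * Real.exp (-k' * r)) ^ 4 * (1 / r ^ 3 * (r ^ β * Real.exp (-k * r))) := by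
  have hr0 : 0 < r := by linarith
  have hL : 0 ≤ Real.log r := Real.log_nonneg hr
  have h3 : 1 / r ^ 3 = Real.exp (-(3 * Real.log r)) := by
    rw [Real.exp_neg, one_div]
    congr 1
    rw [show (3 : ℝ) * Real.log r = Real.log (r ^ 3) by rw [Real.log_pow]; norm_num,
      Real.exp_log (by positivity)]
  rw [h3, Real.rpow_def_of_pos hr0, Real.rpow_def_of_pos hr0, ← Real.exp_add, ← Real.exp_add,
    ← Real.exp_nat_mul, ← Real.exp_nat_mul, ← Real.exp_add, ← Real.exp_add]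
  apply Real.exp_le_exp.2
  push_cast
  have h1 : 0 ≤ Real.log r * (4 * β' + β - 3) := mul_nonneg hL (by linarith)
  have h2 : 0 ≤ r * (5 * k₁ - (4 * k' + k)) := mul_nonneg hr0.le (by linarith)
  nlinarith

theorem StU_HY {r β' k' k₁ a : ℝ} (hr : 1 ≤ r) (hβ' : β' ≤ 2) (ha : 0 < a) (hk : a ≤ k' - k₁) :
    r ^ β' * Real.exp (-k' * r) ≤ 2 / a ^ 2 * Real.exp (-k₁ * r) := by
  have hr0 : 0 < r := by linarith
  have h1 : r ^ β' ≤ r ^ 2 := by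
    have := Real.rpow_le_rpow_of_exponent_le hr hβ'
    rwa [Real.rpow_two] at this
  have h2 : (a * r) ^ 2 / 2 ≤ Real.exp (a * r) := by
    have := Real.pow_div_factorial_le_exp (x := a * r) (by positivity) 2
    simpa [Nat.factorial] using this
  have h3 : r ^ 2 ≤ 2 / a ^ 2 * Real.exp (a * r) := by
    rw [div_mul_eq_mul_div, le_div_iff₀ (by positivity)]
    nlinarith
  have h4 : Real.exp (a * r) * Real.exp (-k' * r) ≤ Real.exp (-k₁ * r) := by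
    rw [← Real.exp_add]
    apply Real.exp_le_exp.2
    nlinarith
  calc r ^ β' * Real.exp (-k' * r) ≤ (2 / a ^ 2 * Real.exp (a * r)) * Real.exp (-k' * r) := by
        gcongr
        exact h1.trans h3
    _ = 2 / a ^ 2 * (Real.exp (a * r) * Real.exp (-k' * r)) := by ring
    _ ≤ _ := by gcongr

theorem StU_k (ch : Chan o C ε) : ∃ k₁ : ℝ, 0 < k₁ ∧ k₁ ^ 2 / 2 = ch.I + 9 / 10 * o.g ∧
    8 / 100 * o.g ≤ ch.k' - k₁ ∧ 4 * ch.k' + ch.k ≤ 5 * k₁ := by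
  have hg := o.g_pos
  have hg1 := o.g_le
  obtain ⟨hI, hI'⟩ := ch.I_bd
  obtain ⟨hS, hS'⟩ := ch.gS_bd
  obtain ⟨hk, hk1⟩ := ch.k_bd
  obtain ⟨hk', hk1'⟩ := ch.k'_bd
  have e := ch.k_sq
  have e' := ch.k'_sq
  set k₁ := √(2 * (ch.I + 9 / 10 * o.g)) with hk₁
  have h0 : 0 < k₁ := Real.sqrt_pos.2 (by linarith)
  have h1 : k₁ ^ 2 = 2 * (ch.I + 9 / 10 * o.g) := Real.sq_sqrt (by linarith)
  have h2 : k₁ ≤ ch.k' := by
    apply le_of_pow_le_pow_left₀ (n := 2) (by norm_num) (by linarith)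
    rw [h1, e']; linarith
  have h3 : ch.k ≤ k₁ := by
    apply le_of_pow_le_pow_left₀ (n := 2) (by norm_num) h0.le
    rw [h1, e]; linarith
  refine ⟨k₁, h0, by linarith, ?_, ?_⟩
  · have h4 : (ch.k' - k₁) * (ch.k' + k₁) ≤ (ch.k' - k₁) * (206 / 100) :=
      mul_le_mul_of_nonneg_left (by linarith) (by linarith)
    nlinarith
  · have h4 : (k₁ - ch.k) * (k₁ + ch.k) ≤ (k₁ - ch.k) * (ch.k' + ch.k) :=
      mul_le_mul_of_nonneg_left (by linarith) (by linarith)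
    have h5 : 4 * (ch.k' - ch.k) * (ch.k' + ch.k) ≤ 5 * (k₁ - ch.k) * (ch.k' + ch.k) := by
      nlinarith
    have h6 := le_of_mul_le_mul_right h5 (by linarith)
    linarith

theorem StU_mu {ε μ₀ : ℝ} (hε : 0 < ε) (hε1 : ε ≤ 1) (h0 : 0 < μ₀) (h : ε ≤ μ₀ ^ 4) :
    0 < √(√ε) ∧ √(√ε) ≤ μ₀ ∧ √(√ε) ^ 4 = ε ∧ ε ≤ √(√ε) := by
  have h1 : 0 < √(√ε) := Real.sqrt_pos.2 (Real.sqrt_pos.2 hε)
  have h2 : √(√ε) ^ 4 = ε := by
    rw [show (4 : ℕ) = 2 * 2 by rfl, pow_mul, Real.sq_sqrt (Real.sqrt_nonneg _),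
      Real.sq_sqrt hε.le]
  have h3 : √(√ε) ≤ 1 := Real.sqrt_le_one.2 (Real.sqrt_le_one.2 hε1)
  refine ⟨h1, ?_, h2, ?_⟩
  · exact le_of_pow_le_pow_left₀ (n := 4) (by norm_num) h0.le (by rw [h2]; exact h)
  · calc ε = √(√ε) ^ 4 := h2.symm
      _ ≤ √(√ε) ^ 1 := pow_le_pow_of_le_one h1.le h3 (by norm_num)
      _ = _ := pow_one _

/-- the contribution of `q` -/
theorem StU_q {K A' A C g ε μ r q Q T E Sq gS : ℝ} (hK : 0 ≤ K) (hA' : 0 ≤ A') (hC : 1 ≤ C)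
    (hε : 0 < ε) (hεμ : ε ≤ μ) (hr : 1 ≤ r) (hq : 0 < q) (hqQ : q ≤ A * Q)
    (hS : |Sq - T + 2 * ε / r * q| ≤ ε * C / r ^ 2 * |q| + 6 * C * A * E)
    (hg : |gS - g| ≤ C * ε) :
    K * T - K * (2 + 2 * C + A') * A * μ * Q - 6 * K * C * A * E ≤
      K * (Sq + (g - gS - A' * μ) * q) := by
  rw [abs_of_pos hq] at hS
  have h1 := (abs_le.1 hS).1
  have h2 := (abs_le.1 hg).2
  have h3 : 2 * ε / r ≤ 2 * μ := (div_le_self (by positivity) hr).trans (by linarith)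
  have h4 : ε * C / r ^ 2 ≤ C * μ :=
    (div_le_self (by positivity) (one_le_pow₀ hr)).trans (by nlinarith)
  have h5 : C * ε ≤ C * μ := by gcongr
  have hμ : 0 ≤ μ := by linarith
  have h6 : (2 + 2 * C + A') * μ * q ≤ (2 + 2 * C + A') * μ * (A * Q) := by gcongr
  have h7 : 2 * ε / r * q ≤ 2 * μ * q := by gcongr
  have h8 : ε * C / r ^ 2 * q ≤ C * μ * q := by gcongr
  have h9 : (gS - g) * q ≤ C * μ * q := by gcongr; linarith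
  have h10 : T - (2 + 2 * C + A') * μ * (A * Q) - 6 * C * A * E ≤ Sq + (g - gS - A' * μ) * q := by
    nlinarith
  have := mul_le_mul_of_nonneg_left h10 hK
  linarith

/-- the contribution of `Z` -/
theorem StU_Z {g r z h I W Z fZ : ℝ} (hg : 0 < g) (hg1 : g ≤ 1) (hr : 1 ≤ r) (hh : 0 ≤ h)
    (hZ : Z = (4 / g + z ^ 2) / r ^ 3 * h) (hf : |fZ + I * Z + h / r ^ 3| ≤ 14 / r * Z)
    (hW : I + 14 / r + 9 / 10 * g ≤ W) :
    g / 2 * ((1 + z ^ 2) / r ^ 3 * h) ≤ fZ + W * Z ∧ 0 ≤ Z ∧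
      Z ≤ 4 / g * ((1 + z ^ 2) / r ^ 3 * h) := by
  have h0 : 0 ≤ Z := by rw [hZ]; positivity
  have h1 := (abs_le.1 hf).1
  have h2 : (I + 14 / r + 9 / 10 * g) * Z ≤ W * Z := by gcongr
  have hu : 0 ≤ h / r ^ 3 := by positivity
  have h3 : g * Z = (4 + g * z ^ 2) * (h / r ^ 3) := by rw [hZ]; field_simp
  have h4 : (1 + z ^ 2) / r ^ 3 * h = (1 + z ^ 2) * (h / r ^ 3) := by ring
  have h5 : 0 ≤ g * z ^ 2 * (h / r ^ 3) := by positivity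
  have h6 : g * (h / r ^ 3) ≤ 1 * (h / r ^ 3) := by gcongr
  refine ⟨?_, h0, ?_⟩
  · rw [h4]; nlinarith
  · rw [h4, div_mul_eq_mul_div, le_div_iff₀ hg, mul_comm Z g, h3]
    have h7 : g * (z ^ 2 * (h / r ^ 3)) ≤ 4 * (z ^ 2 * (h / r ^ 3)) := by
      gcongr; linarith
    nlinarith

/-- `U = K q + δ₁ Y + δ₂ ε Z` with `Y = exp (-k₁ r)` (`bar_exp`, `k₁² / 2 = I + (9/10) g`) and
`Z = bar_Z` with `l = 4 / g`.  Put `μ = √√ε`.  By `Sq_err` the part `K q` contributes at least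
`K ε d z p / r³ - C₁ μ Q0 - C₂ ε (1 + z²) h / r⁴`.  The part `Y` contributes `≥ g Y / 20` and
`H ≤ C₃ Y` (`k' - k₁ ≥ (8/100) g`); the part `Z` contributes `≥ (9/10) g (1 + z²) h / r³`.  Take
`δ₁ = 20 C₃ (C₁ + A') μ / g`, `δ₂ = 2 ((C₁ + A') μ + (C₂ + A') / R) / g`.  Upper bound:
`Y ≤ H^{4/5} (h / r³)^{1/5} ≤ ε^{-1/5} Q0` because `k₁ ≥ (4/5) k' + (1/5) k`
(`k₁ - k = (9/5) g / (k₁ + k)`, `k' - k = 2 gS / (k' + k)`) and `(4/5) β' + (1/5) β ≥ 3/5`;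
`μ ε^{-1/5} → 0`; `ε Z ≤ (4 / g) Q0`; `Q0 ≤ A q`. -/
theorem stU (o : One c) (C R₀ A K A' : ℝ) (hK : 0 ≤ K) (hA' : 0 ≤ A') :
    ∃ R ε₀ : ℝ, R₀ ≤ R ∧ 0 < ε₀ ∧ ∀ (ε : ℝ) (ch : Chan o C ε), ε ≤ ε₀ → ch.FA R₀ A →
      ∃ (U : X → ℝ) (g : Fin 3 → X → ℝ) (f : X → ℝ), Sup (ext R) U g f ∧ ∀ᵐ x : X, R < ‖x‖ →
        K * ch.q x ≤ U x ∧ U x ≤ (K + 1) * ch.q x ∧
          0 ≤ V o.D x + ch.I + o.g - A' * √(√ε) ∧
          K * (ε * ch.d * x 2 / ‖x‖ ^ 3 * ch.p x) +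
              A' * (√(√ε) * ch.Q0 x + ε * (1 + x 2 ^ 2) / ‖x‖ ^ 4 * ch.h x) ≤
            f x + (V o.D x + ch.I + o.g - A' * √(√ε)) * U x := by
  by_cases hC : 1 ≤ C
  swap
  · exact ⟨R₀, 1, le_rfl, one_pos, fun ε ch _ _ => absurd ch.C1 hC⟩
  by_cases hA : 1 ≤ A
  swap
  · exact ⟨R₀, 1, le_rfl, one_pos, fun ε ch _ h => absurd h.A1 hA⟩
  by_cases hR₀ : 2 * o.Rs + 10 ≤ R₀
  swap
  · exact ⟨R₀, 1, le_rfl, one_pos, fun ε ch _ h => absurd h.R1 hR₀⟩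
  have hg := o.g_pos
  have hg1 := o.g_le
  have hRs := o.Rs_ge
  have hD : o.Rs = 2 * o.D + 1 := rfl
  obtain ⟨B₁, hB₁⟩ : ∃ B₁, B₁ = K * (2 + 2 * C + A') * A + A' := ⟨_, rfl⟩
  obtain ⟨B₂, hB₂⟩ : ∃ B₂, B₂ = 6 * K * C * A + A' := ⟨_, rfl⟩
  obtain ⟨C₃, hC₃⟩ : ∃ C₃, C₃ = 2 / (8 / 100 * o.g) ^ 2 := ⟨_, rfl⟩
  have hB₁0 : 0 ≤ B₁ := by rw [hB₁]; positivity
  have hB₂0 : 0 ≤ B₂ := by rw [hB₂]; positivity
  have hC₃0 : 0 ≤ C₃ := by rw [hC₃]; positivity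
  obtain ⟨c₁, hc₁⟩ : ∃ c₁, c₁ = 20 * C₃ * B₁ / o.g := ⟨_, rfl⟩
  have hc₁0 : 0 ≤ c₁ := by rw [hc₁]; positivity
  obtain ⟨R, hR⟩ : ∃ R, R = R₀ + 720 / o.g + 32 * A * B₂ / o.g ^ 2 := ⟨_, rfl⟩
  have p1 : 0 ≤ 720 / o.g := by positivity
  have p2 : 0 ≤ 32 * A * B₂ / o.g ^ 2 := by positivity
  have hRR : R₀ ≤ R := by linarith
  have hR0 : 0 < R := by linarith
  have hR1 : 18 / R ≤ o.g / 40 := by
    have : 720 / o.g ≤ R := by linarith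
    rw [div_le_iff₀ hg] at this
    rw [div_le_iff₀ hR0]; linarith
  have hR2 : 32 * A * (B₂ / R) ≤ o.g ^ 2 := by
    have : 32 * A * B₂ / o.g ^ 2 ≤ R := by linarith
    rw [div_le_iff₀ (by positivity)] at this
    rw [← mul_div_assoc, div_le_iff₀ hR0]; linarith
  obtain ⟨N, hN⟩ : ∃ N, N = 40 * A' / o.g + (2 * A * c₁) ^ 5 + 32 * A * B₁ / o.g ^ 2 := ⟨_, rfl⟩
  have q1 : 0 ≤ 40 * A' / o.g := by positivity
  have q2 : 0 ≤ (2 * A * c₁) ^ 5 := by positivity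
  have q3 : 0 ≤ 32 * A * B₁ / o.g ^ 2 := by positivity
  have hN0 : 0 ≤ N := by linarith
  refine ⟨R, (1 / (N + 1)) ^ 4, hRR, by positivity, fun ε ch hε hFA => ?_⟩
  have hε0 := ch.ε0
  obtain ⟨hμ0, hμ1, hμ4, hεμ⟩ := StU_mu hε0 (ch.ε_le.trans (by norm_num)) (by positivity) hε
  generalize √(√ε) = μ at hμ0 hμ1 hμ4 hεμ ⊢
  have hNμ : N * μ ≤ 1 := by
    rw [le_div_iff₀ (by positivity)] at hμ1
    nlinarith
  have m1 : A' * μ ≤ o.g / 40 := by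
    have : 40 * A' / o.g * μ ≤ 1 := le_trans (by gcongr; linarith) hNμ
    rw [div_mul_eq_mul_div, div_le_iff₀ hg] at this
    linarith
  have m2 : (2 * A * c₁) ^ 5 * μ ≤ 1 := le_trans (by gcongr; linarith) hNμ
  have m3 : 32 * A * (B₁ * μ) ≤ o.g ^ 2 := by
    have : 32 * A * B₁ / o.g ^ 2 * μ ≤ 1 := le_trans (by gcongr; linarith) hNμ
    rw [div_mul_eq_mul_div, div_le_iff₀ (by positivity)] at this
    linarith
  obtain ⟨k₁, hk0, hk1, hk2, hk3⟩ := StU_k ch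
  obtain ⟨Y, gY, fY, hY, hY'⟩ := bar_exp hk0
  obtain ⟨Z, gZ, fZ, hZ, hZ'⟩ := ch.bar_Z (l := 4 / o.g) (by positivity)
  obtain ⟨δ₂, hδ₂⟩ : ∃ δ₂, δ₂ = 2 * (B₁ * μ + B₂ / R) / o.g := ⟨_, rfl⟩
  have hδ₂0 : 0 ≤ δ₂ := by rw [hδ₂]; positivity
  have hsub : ext R ⊆ ext 1 := fun x (hx : R < ‖x‖) => show (1 : ℝ) < ‖x‖ by linarith
  have hm := measurableSet_ext R
  have hsol := ((ch.solq.subset (subset_univ (ext R))).lin hm
    ((hY.subset hsub).lin hm (hZ.subset hsub) (c₁ * μ) (δ₂ * ε)) K 1).sup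
  refine ⟨_, _, _, hsol, ?_⟩
  filter_upwards [ch.Sq_err (R₀ := R₀) (A₀ := A) (by linarith) (by linarith) hFA.p_hi hFA.L_hi,
    hFA.q_lo, hFA.q_hi] with x h1 h2 h3 hx
  have hx0 : R₀ < ‖x‖ := by linarith
  have hr : 1 ≤ ‖x‖ := by linarith
  have hr0 : 0 < ‖x‖ := by linarith
  replace h1 := h1 hx0
  replace h2 := h2 hx0
  replace h3 := h3 hx0
  have hQ := ch.Q0_pos hr0
  have hh := ch.h_pos hr0
  have hH := ch.H_pos hr0
  have hq : 0 < ch.q x := by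
    by_contra hq
    have : A * ch.q x ≤ 0 := mul_nonpos_of_nonneg_of_nonpos (by linarith) (not_lt.1 hq)
    linarith
  have hV := (abs_le.1 (V_ext' o.D1 (x := x) (by linarith))).1
  have hr18 : 18 / ‖x‖ ≤ o.g / 40 := le_trans (by gcongr) hR1
  have hr4 : 4 / ‖x‖ + 14 / ‖x‖ = 18 / ‖x‖ := by ring
  have hr14 : 0 ≤ 14 / ‖x‖ := by positivity
  obtain ⟨hI, -⟩ := ch.I_bd
  obtain ⟨eY, hfY⟩ := hY' x hr
  obtain ⟨eZ, hfZ⟩ := hZ' x hr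
  have hY0 : 0 < Y x := by rw [eY]; positivity
  obtain ⟨z1, z2, z3⟩ := StU_Z (W := V o.D x + ch.I + o.g - A' * μ) hg (by linarith) hr hh.le eZ hfZ
    (by linarith)
  have hqq := StU_q hK hA' hC hε0 hεμ hr hq h3 h1 ch.gS_near
  have hHY : ch.H x ≤ C₃ * Y x := by
    rw [eY, hC₃]
    exact StU_HY hr (ch.β'_bd.2.trans (by norm_num)) (by positivity) hk2
  have hYH : Y x ^ 5 ≤ ch.H x ^ 4 * (1 / ‖x‖ ^ 3 * ch.h x) := by
    rw [eY]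
    exact StU_YH hr ch.β_bd.1 ch.β'_bd.1 hk3
  obtain ⟨E, hE⟩ : ∃ E, E = (1 + x 2 ^ 2) / ‖x‖ ^ 3 * ch.h x := ⟨_, rfl⟩
  have hE0 : 0 ≤ E := by rw [hE]; positivity
  have hQE : ch.Q0 x = ch.H x + ε * E := by rw [hE]; unfold Chan.Q0; ring
  have hE4 : ε * (1 + x 2 ^ 2) / ‖x‖ ^ 4 * ch.h x ≤ ε * E / R := by
    have : ε * (1 + x 2 ^ 2) / ‖x‖ ^ 4 * ch.h x = ε * E / ‖x‖ := by rw [hE]; field_simp
    rw [this]
    gcongr
  have hE1 : 1 / ‖x‖ ^ 3 * ch.h x ≤ E := by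
    rw [hE]; gcongr; nlinarith [sq_nonneg (x 2)]
  rw [← hE] at z1 z3
  have u1 : 2 * A * (c₁ * μ * Y x) ≤ ch.Q0 x := by
    apply le_of_pow_le_pow_left₀ (n := 5) (by norm_num) hQ.le
    have e1 : ε * Y x ^ 5 ≤ ch.Q0 x ^ 5 := by
      calc ε * Y x ^ 5 ≤ ε * (ch.H x ^ 4 * E) := by
            gcongr
            exact hYH.trans (by gcongr)
        _ = ch.H x ^ 4 * (ε * E) := by ring
        _ ≤ ch.Q0 x ^ 4 * ch.Q0 x := by
            gcongr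
            · exact ch.H_le_Q0 x
            · linarith
        _ = _ := by ring
    calc (2 * A * (c₁ * μ * Y x)) ^ 5 = ((2 * A * c₁) ^ 5 * μ) * (μ ^ 4 * Y x ^ 5) := by ring
      _ ≤ 1 * (μ ^ 4 * Y x ^ 5) := by gcongr
      _ ≤ _ := by rw [hμ4, one_mul]; exact e1
  have u2 : 2 * A * (δ₂ * ε * Z x) ≤ ch.Q0 x := by
    have e1 : 2 * A * δ₂ * (4 / o.g) ≤ 1 := by
      have : 2 * A * δ₂ * (4 / o.g) = (16 * A * (B₁ * μ) + 16 * A * (B₂ / R)) / o.g ^ 2 := by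
        rw [hδ₂]; field_simp; ring
      rw [this, div_le_one (by positivity)]
      linarith
    calc 2 * A * (δ₂ * ε * Z x) ≤ 2 * A * (δ₂ * ε * (4 / o.g * E)) := by gcongr
      _ = (2 * A * δ₂ * (4 / o.g)) * (ε * E) := by ring
      _ ≤ 1 * (ε * E) := by gcongr
      _ ≤ _ := by linarith
  have u3 : c₁ * μ * Y x + δ₂ * ε * Z x ≤ ch.q x := by
    have : A * (c₁ * μ * Y x + δ₂ * ε * Z x) ≤ A * ch.q x := by linarith
    exact le_of_mul_le_mul_left this (by linarith)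
  have u4 : 0 ≤ c₁ * μ * Y x := by positivity
  have u5 : 0 ≤ δ₂ * ε * Z x := by positivity
  refine ⟨by linarith, by linarith, by linarith, ?_⟩
  have y1 : o.g / 20 * Y x ≤ fY x + (V o.D x + ch.I + o.g - A' * μ) * Y x := by
    have : (k₁ ^ 2 / 2 + o.g / 20) * Y x ≤ (V o.D x + ch.I + o.g - A' * μ) * Y x := by
      gcongr; linarith
    linarith
  have y2 : B₁ * μ * ch.H x ≤ c₁ * μ * (fY x + (V o.D x + ch.I + o.g - A' * μ) * Y x) := by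
    calc B₁ * μ * ch.H x ≤ B₁ * μ * (C₃ * Y x) := by gcongr
      _ = c₁ * μ * (o.g / 20 * Y x) := by rw [hc₁]; field_simp
      _ ≤ _ := by gcongr
  have y3 : (B₁ * μ + B₂ / R) * (ε * E) ≤
      δ₂ * ε * (fZ x + (V o.D x + ch.I + o.g - A' * μ) * Z x) := by
    calc (B₁ * μ + B₂ / R) * (ε * E) = δ₂ * ε * (o.g / 2 * E) := by rw [hδ₂]; field_simp
      _ ≤ _ := by gcongr
  have y4 : B₂ * (ε * (1 + x 2 ^ 2) / ‖x‖ ^ 4 * ch.h x) ≤ B₂ / R * (ε * E) := by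
    calc _ ≤ B₂ * (ε * E / R) := by gcongr
      _ = _ := by ring
  have y5 : B₁ * μ * ch.Q0 x = B₁ * μ * ch.H x + B₁ * μ * (ε * E) := by rw [hQE]; ring
  generalize ε * (1 + x 2 ^ 2) / ‖x‖ ^ 4 * ch.h x = E4 at *
  generalize ε * ch.d * x 2 / ‖x‖ ^ 3 * ch.p x = T at *
  have y6 : B₁ * μ * ch.Q0 x = K * (2 + 2 * C + A') * A * μ * ch.Q0 x + A' * (μ * ch.Q0 x) := by
    rw [hB₁]; ring
  have y7 : B₂ * E4 = 6 * K * C * A * E4 + A' * E4 := by rw [hB₂]; ring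
  linarith

end Crest.Agent.R335
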