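import Crest.Agent.R335.UY
import Crest.Agent.R335.StU
import Crest.Agent.R335.BarB

/-! Row 335. The upper bound `t ≤ K q` in the exterior region. -/

set_option autoImplicit false

open MeasureTheory Set Filter Topology
open scoped ENNReal

noncomputable section

namespace Crest.Agent.R335

variable {c : ℝ} {o : One c} {C ε C' : ℝ} {ch : Chan o C ε}

theorem UB_cmp {Ω Ω₀ : Set X} [DecidablePred (· ∈ Ω)] (hΩ : MeasurableSet Ω) (hs : Ω ⊆ Ω₀)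
    {y w s F f' v : X → ℝ} {gy k : Fin 3 → X → ℝ} (hy : H1 eX y gy)
    (hsub : ∀ (φ : X → ℝ) (l : Fin 3 → X → ℝ) (M : ℝ), H1 eX φ l →
      (∀ᵐ x, 0 ≤ φ x ∧ φ x ≤ M * s x) → Van φ → (∀ᵐ x, x ∉ Ω₀ → φ x = 0) →
      Integrable (fun x => F x * φ x) ∧ (∫ x, gd gy l x) / 2 ≤ ∫ x, F x * φ x)
    (hw : Sup Ω w k f')
    (hφ : H1 eX (fun x => if x ∈ Ω then max (y x - w x) 0 else 0)
      fun i x => if x ∈ Ω ∧ 0 < y x - w x then gy i x - k i x else 0)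
    {M N : ℝ} (hM0 : 0 ≤ M) (hN0 : 0 ≤ N) (hs0 : ∀ x, 0 ≤ s x)
    (hM : ∀ᵐ x, x ∈ Ω → y x - w x ≤ M * s x) (hv : Van v) (hv2 : MemLp v 2 volume)
    (hle : ∀ᵐ x, x ∈ Ω → y x - w x ≤ N * |v x|)
    (hf : ∀ᵐ x, x ∈ Ω → w x < y x → F x ≤ f' x) : ∀ᵐ x, x ∈ Ω → y x ≤ w x := by
  set φ : X → ℝ := fun x => if x ∈ Ω then max (y x - w x) 0 else 0 with hφdef
  have h0 : ∀ x, x ∉ Ω → φ x = 0 := fun x hx => if_neg hx
  have hnn : ∀ x, 0 ≤ φ x := fun x => by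
    by_cases a : x ∈ Ω
    · simp only [hφdef, if_pos a]
      exact le_max_right _ _
    · rw [h0 x a]
  have hb : ∀ᵐ x, 0 ≤ φ x ∧ φ x ≤ M * s x := by
    filter_upwards [hM] with x hx
    refine ⟨hnn x, ?_⟩
    by_cases a : x ∈ Ω
    · simp only [hφdef, if_pos a]
      exact max_le (hx a) (mul_nonneg hM0 (hs0 x))
    · rw [h0 x a]
      exact mul_nonneg hM0 (hs0 x)
  have hvφ : Van φ := by
    refine hv.mono hv2 (C := N) ?_
    filter_upwards [hle] with x hx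
    rw [abs_of_nonneg (hnn x)]
    by_cases a : x ∈ Ω
    · simp only [hφdef, if_pos a]
      exact max_le (hx a) (mul_nonneg hN0 (abs_nonneg _))
    · rw [h0 x a]
      exact mul_nonneg hN0 (abs_nonneg _)
  obtain ⟨hi, hle'⟩ := hsub φ _ M hφ hb hvφ
    (Eventually.of_forall fun x hx => h0 x fun h => hx (hs h))
  refine cmp_core hΩ hw hy hφ h0 (fun x hx => if_pos hx) (fun i x => ?_) hi hle' hf
  by_cases a : x ∈ Ω <;> simp [hφdef, a]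

/-- On the shell `a ≤ 4 q`. -/
theorem UB_shell (o : One c) {C : ℝ} (hC : 1 ≤ C) (R : ℝ) : ∃ ε₀ : ℝ, 0 < ε₀ ∧
    ∀ (ε : ℝ) (ch : Chan o C ε), ε ≤ ε₀ → ∀ᵐ x : X, ‖x‖ ≤ R → o.a x ≤ 4 * ch.q x := by
  obtain ⟨m, hm, hma⟩ := o.a_lb R
  refine ⟨(m / (4 * C)) ^ 2, by positivity, fun ε ch hε => ?_⟩
  have h1 : √ε ≤ m / (4 * C) := by
    rw [Real.sqrt_le_left (by positivity)]
    exact hε
  have h2 : C * √ε ≤ m / 4 := by
    calc C * √ε ≤ C * (m / (4 * C)) := by gcongr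
      _ = m / 4 := by field_simp
  filter_upwards [ch.cq] with x hx hxR
  have h3 := hma x hxR
  have h4 := (abs_le.1 hx).1
  linarith

theorem UB_Q0 (ch : Chan o C ε) {x : X} (hr : 1 ≤ ‖x‖) (hH : ch.H x * ‖x‖ ^ 3 ≤ 1 * ch.h x) :
    ch.Q0 x ≤ (2 + x 2 ^ 2) / ‖x‖ ^ 3 * ch.h x := by
  have hh := ch.h_pos (x := x) (by linarith)
  have hε := ch.ε_le
  have hε0 := ch.ε0
  have h3 : 0 < ‖x‖ ^ 3 := by positivity
  have h1 : ch.H x ≤ 1 / ‖x‖ ^ 3 * ch.h x := by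
    rw [div_mul_eq_mul_div, le_div_iff₀ h3]
    exact hH
  have h2 : ε * (1 + x 2 ^ 2) / ‖x‖ ^ 3 * ch.h x ≤ (1 + x 2 ^ 2) / ‖x‖ ^ 3 * ch.h x := by
    gcongr
    nlinarith [sq_nonneg (x 2)]
  have e : (2 + x 2 ^ 2) / ‖x‖ ^ 3 * ch.h x =
      1 / ‖x‖ ^ 3 * ch.h x + (1 + x 2 ^ 2) / ‖x‖ ^ 3 * ch.h x := by ring
  rw [e, Chan.Q0]
  linarith

theorem UB_Qs (ch : Chan o C ε) {x : X} (hx : 2 * o.D ≤ ‖x‖) (hr : 100 ≤ ‖x‖) :
    0 ≤ ch.Qs x ∧ -((4 * o.D + 1) / ‖x‖ ^ 2) ≤ ch.Qs x - (ch.I - (2 - 2 * ε) / ‖x‖) := by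
  have h1 := (abs_le.1 (V_ext o.D1 hx)).1
  have h2 := (abs_le.1 (V_ext' o.D1 hx)).1
  have hI := ch.I_bd.1
  have hεC := ch.εC
  have hg := o.g_le
  have hε0 := ch.ε0
  have hr0 : 0 < ‖x‖ := by linarith
  have h3 : 4 / ‖x‖ ≤ 4 / 100 := by gcongr
  have h4 : ε * C / ‖x‖ ^ 2 ≤ 1 / ‖x‖ ^ 2 := by
    gcongr
    linarith
  have h5 : 1 / ‖x‖ ^ 2 ≤ 1 / 100 := by
    gcongr
    nlinarith
  have h6 : 0 ≤ 2 * ε / ‖x‖ := by positivity
  have e1 : (2 - 2 * ε) / ‖x‖ = 2 / ‖x‖ - 2 * ε / ‖x‖ := by ring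
  have e2 : (4 * o.D + 1) / ‖x‖ ^ 2 = 4 * o.D / ‖x‖ ^ 2 + 1 / ‖x‖ ^ 2 := by ring
  rw [Chan.Qs, e1, e2]
  constructor <;> linarith

theorem UB_trig {a : ℝ} (h0 : 0 ≤ a) (h1 : a ≤ 1 / 2) :
    a + a ^ 3 ≤ (1 + 3 * a ^ 2) * (Real.sin a * Real.cos a) ∧ 1 / 2 ≤ Real.cos a := by
  constructor
  · have h2 : a - a ^ 3 ≤ Real.sin a * Real.cos a := by
      rcases h0.eq_or_lt with h | h
      · simp [← h]
      · have h3 := Real.sin_gt_sub_cube (x := 2 * a) (by linarith)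
        rw [Real.sin_two_mul] at h3
        nlinarith [pow_pos h 3]
    have h4 : a ^ 2 ≤ 1 / 4 := by nlinarith
    have h5 : 0 ≤ a ^ 3 := by positivity
    have h6 : (1 + 3 * a ^ 2) * (a - a ^ 3) ≤ (1 + 3 * a ^ 2) * (Real.sin a * Real.cos a) := by
      gcongr
    nlinarith [mul_nonneg h5 (sub_nonneg.2 h4)]
  · have := Real.one_sub_sq_div_two_le_cos (x := a)
    nlinarith

/-- `q` is a supersolution at the level `Qs`, up to a multiple of `Q0`. -/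
theorem UB_q (ch : Chan o C ε) {R₀ A : ℝ} (h : ch.FA R₀ A) : ∀ᵐ x : X, R₀ < ‖x‖ →
    -(A * (1 + 6 * C) * ch.Q0 x) ≤
      ch.Sq x - (V o.D x + ch.I + ch.gS) * ch.q x + ch.Qs x * ch.q x := by
  have hRs := o.Rs_ge
  have hR1 := h.R1
  have hA := h.A1
  have hC := ch.C1
  filter_upwards [ch.Sq_err (R₀ := R₀) (A₀ := A) (by linarith) (by linarith) h.p_hi h.L_hi, h.zp,
    h.q_hi] with x h1 h2 h3 hx
  have h4 := (abs_le.1 (h1 hx)).1
  obtain ⟨-, -, h5, hq⟩ := h2 hx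
  have h6 := h3 hx
  have hr : 1 ≤ ‖x‖ := by linarith
  have hr0 : 0 < ‖x‖ := by linarith
  have hh := ch.h_pos hr0
  have hH := ch.H_pos hr0
  have hQ := ch.Q0_pos hr0
  have hε0 := ch.ε0
  have hd := ch.d1
  have hεC := ch.εC
  have hg := o.g_le
  have hg0 := o.g_pos
  have hgS := ch.gS_bd
  rw [abs_of_pos hq] at h4
  have a1 : 0 ≤ ε * ch.d * x 2 / ‖x‖ ^ 3 * ch.p x := by
    have e : ε * ch.d * x 2 / ‖x‖ ^ 3 * ch.p x = ε * ch.d / ‖x‖ ^ 3 * (x 2 * ch.p x) := by ring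
    rw [e, h5]
    positivity
  have a2 : ε * C / ‖x‖ ^ 2 ≤ 1 / 4 := by
    have : ε * C / ‖x‖ ^ 2 ≤ ε * C := div_le_self (by positivity) (one_le_pow₀ hr)
    linarith
  have a3 : ε * (1 + x 2 ^ 2) / ‖x‖ ^ 4 * ch.h x ≤ ch.Q0 x := by
    have : ε * (1 + x 2 ^ 2) / ‖x‖ ^ 4 * ch.h x ≤ ε * (1 + x 2 ^ 2) / ‖x‖ ^ 3 * ch.h x := by
      gcongr
      norm_num
    rw [Chan.Q0]
    linarith
  have a4 : 6 * C * A * (ε * (1 + x 2 ^ 2) / ‖x‖ ^ 4 * ch.h x) ≤ 6 * C * A * ch.Q0 x := by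
    gcongr
  have a5 : ε * C / ‖x‖ ^ 2 * ch.q x ≤ 1 / 4 * ch.q x := by gcongr
  have a6 : ch.gS * ch.q x ≤ 1 / 2 * ch.q x := by
    gcongr
    linarith [hgS.2]
  have e : ch.Sq x - (V o.D x + ch.I + ch.gS) * ch.q x + ch.Qs x * ch.q x =
      ch.Sq x + 2 * ε / ‖x‖ * ch.q x - ch.gS * ch.q x - ε * C / ‖x‖ ^ 2 * ch.q x := by
    rw [Chan.Qs]
    ring
  rw [e]
  nlinarith

/-- The arithmetic of the first comparison. -/
theorem UB_ar1 {r z h Q U f a B η D : ℝ} (hr : 1 ≤ r) (hz : 0 ≤ z) (hzr : z ≤ r) (hh : 0 < h)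
    (hη : 0 < η) (hB : 0 ≤ B) (hD : 0 ≤ D) (hQ : Q ≤ (2 + z ^ 2) / r ^ 3 * h) (hU0 : 0 ≤ U)
    (hU : U ≤ 2 * z * h) (ha : -(D / r ^ 2) ≤ a) (hf : (1 + z) * h / (100 * r * √r) ≤ f)
    (hbig : (100 * (3 * B / η + 2 * D)) ^ 2 ≤ r) : B * Q ≤ η * (f + a * U) := by
  have hr0 : 0 < r := by linarith
  have hs0 : 0 < √r := Real.sqrt_pos.2 hr0
  have hs : 100 * (3 * B / η + 2 * D) ≤ √r := Real.le_sqrt_of_sq_le hbig
  have hss : √r * √r = r := Real.mul_self_sqrt hr0.le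
  set w := (1 + z) * h / r ^ 2 with hw
  have hw0 : 0 ≤ w := by positivity
  have h1 : Q ≤ 3 * w := by
    refine hQ.trans ?_
    have e : 3 * w = (3 * (1 + z) * r) / r ^ 3 * h := by
      rw [hw]
      field_simp
    rw [e]
    gcongr
    nlinarith
  have h2 : -(2 * D * w) ≤ a * U := by
    have b1 : -(D / r ^ 2) * U ≤ a * U := mul_le_mul_of_nonneg_right ha hU0
    have b2 : D / r ^ 2 * U ≤ D / r ^ 2 * (2 * (1 + z) * h) := by
      gcongr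
      nlinarith
    have e : D / r ^ 2 * (2 * (1 + z) * h) = 2 * D * w := by
      rw [hw]
      ring
    linarith
  have h3 : √r / 100 * w ≤ f := by
    refine le_of_eq_of_le ?_ hf
    rw [hw, eq_div_iff (by positivity)]
    have e : √r / 100 * ((1 + z) * h / r ^ 2) * (100 * r * √r) =
        (√r * √r) * r * ((1 + z) * h) / r ^ 2 := by ring
    rw [e, hss]
    field_simp
  have h4 : (3 * B / η + 2 * D) * w ≤ √r / 100 * w := by
    gcongr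
    linarith
  have h5 : 3 * B / η * w ≤ f + a * U := by nlinarith
  have h6 : η * (3 * B / η * w) ≤ η * (f + a * U) := by gcongr
  have e : η * (3 * B / η * w) = B * (3 * w) := by field_simp
  have h7 : B * Q ≤ B * (3 * w) := by gcongr
  linarith

theorem UB_ar2 {Q l s Φ Φ' sn cs L U f : ℝ} (h1 : l * s * Φ ≤ l * s * (Φ' * (sn * cs)))
    (h2 : L * (s * Φ) ≤ (Q + l) * (s * Φ)) (h3 : L * U ≤ L * (s * Φ)) (h4 : 0 ≤ f + L * U) :
    -(Q * (s * Φ) + l * Φ' * (s * sn * cs)) ≤ f := by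
  linarith

/-- `y = s θ` (`y_sub` with `Φ a = a`), `w = K₁ q + η bar_pa` on `up R`, `K₁ = 8 Kc + 30`,
`η = 1 / (8 A)`; `test_up`, `cmp_core`.  `y - w ≤ 23 |p|` by `FC`.  `K₁ q` is a supersolution at the
level `Qs` up to `-C₁ Q0` (`Sq_err`, `FA.zp`), and
`C₁ Q0 + (4 D + C) 2 η z h / r² ≤ η (1 + z) h / (100 r √r)` for large `r` (`H_small`,
`1 + z² ≤ (1 + z) (1 + r)`).  Shell: `y ≤ 2 t ≤ 2 Kc a ≤ 8 Kc q` for small `ε` (`cq`, `a_lb`). -/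
theorem ub1 {Kc : ℝ} (hK : 1 ≤ Kc) (o : One c) (C C' R₀ A R₁ : ℝ) (hR : R₀ ≤ R₁) :
    ∃ R ε₀ : ℝ, R₁ ≤ R ∧ 0 < ε₀ ∧ ∀ (ε : ℝ) (ch : Chan o C ε) (pr : Pair ch C'), ε ≤ ε₀ →
      ch.FA R₀ A → ch.FC R₁ → pr.Core (R + 1) Kc →
      ∀ᵐ x : X, R < ‖x‖ → ch.s x * pr.θ x ≤ (8 * Kc + 30) * ch.q x + |ch.p x| / 4 := by
  by_cases hC : 1 ≤ C
  swap
  · exact ⟨R₁, 1, le_rfl, one_pos, fun ε ch => absurd ch.C1 hC⟩
  by_cases hA : 1 ≤ A
  swap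
  · exact ⟨R₁, 1, le_rfl, one_pos, fun ε ch pr _ h => absurd h.A1 hA⟩
  obtain ⟨RH, -, hRH⟩ := H_small o (η := 1) one_pos
  obtain ⟨K₁, hK₁⟩ : ∃ K₁, K₁ = 8 * Kc + 30 := ⟨_, rfl⟩
  obtain ⟨η, hη⟩ : ∃ η, η = 1 / (8 * A) := ⟨_, rfl⟩
  obtain ⟨B, hB⟩ : ∃ B, B = K₁ * (A * (1 + 6 * C)) := ⟨_, rfl⟩
  obtain ⟨R, hR1, hR2, hR3, hR4⟩ : ∃ R, R₁ ≤ R ∧ RH ≤ R ∧ 100 ≤ R ∧
      (100 * (3 * B / η + 2 * (4 * o.D + 1))) ^ 2 ≤ R :=
    ⟨max (max R₁ RH) (max 100 _), le_max_of_le_left (le_max_left _ _),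
      le_max_of_le_left (le_max_right _ _), le_max_of_le_right (le_max_left _ _),
      le_max_of_le_right (le_max_right _ _)⟩
  obtain ⟨ε₀, hε₀, hsh⟩ := UB_shell o hC (R + 1)
  refine ⟨R, ε₀, hR1, hε₀, fun ε ch pr hε hFA hFC hco => ?_⟩
  rw [← hK₁]
  have hK0 : 0 ≤ K₁ := by linarith
  have hη0 : 0 < η := by rw [hη]; positivity
  have hB0 : 0 ≤ B := by rw [hB]; positivity
  have hD := o.D1
  have hR0 := hFA.R1
  have hRs : o.Rs = 2 * o.D + 1 := rfl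
  have hlam : 0 ≤ pr.lam := by linarith [pr.lam_lo, o.g_pos]
  have hpi : Real.pi / 2 ≤ 8 / 5 := by linarith [Real.pi_lt_d2]
  obtain ⟨gy, hy, hsub⟩ := y_sub pr (Φ := fun a => a) (Φ' := fun _ => 1) (Φ'' := fun _ => 0)
    (fun a => hasDerivAt_id a) (fun a => hasDerivAt_const a 1) continuous_const
    fun a h _ => ⟨h, le_rfl⟩
  obtain ⟨U, g, f, hU, hUb⟩ := ch.bar_pa
  have hw := (ch.solq.sup.subset (subset_univ (up R))).lin (measurableSet_up R)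
    (hU.sup.subset (Ω' := up R) fun x hx => lt_trans (by linarith) hx.1) hK0 hη0.le
  have hU0 : ∀ x ∈ up R, 0 ≤ U x := fun x hx => by
    have h1 := (hUb x (by linarith [hx.1]) hx.2.le).1
    have h2 := ch.h_pos (x := x) (by linarith [hx.1])
    have h3 := mul_pos hx.2 h2
    linarith
  have hle : ∀ᵐ x, x ∈ up R → ch.s x * pr.θ x - (K₁ * ch.q x + η * U x) ≤ 24 * |ch.p x| := by
    filter_upwards [hFC, hFA.zp] with x h1 h2 hx
    have hq := (h2 (by linarith [hx.1])).2.2.2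
    have h3 := h1 (by linarith [hx.1])
    have h4 : ch.s x ≤ 15 * (|ch.p x| + ch.q x) := by
      refine abs_le_of_sq_le_sq' ?_ (by positivity) |>.2
      rw [← sq_abs (ch.p x)] at h3
      nlinarith [mul_nonneg (abs_nonneg (ch.p x)) hq.le, sq_nonneg (ch.q x), sq_nonneg |ch.p x|]
    have h5 : ch.s x * pr.θ x ≤ ch.s x * (8 / 5) :=
      mul_le_mul_of_nonneg_left ((pr.θ0 x).2.trans hpi) (ch.s0 x)
    have h6 := mul_nonneg hη0.le (hU0 x hx)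
    have h7 : 24 * ch.q x ≤ K₁ * ch.q x := by
      gcongr
      linarith
    linarith
  have hvp : Van ch.p := van_of_odd ch.solp.h1 (Eventually.of_forall ch.pP)
  have hφ := test_up (hy.sub hw.h1) (R := R) (by linarith) (w := fun x => 24 * ch.p x) ?_
    (hvp.mono ch.solp.h1.l2 (C := 24) (Eventually.of_forall fun x => by
      rw [abs_mul]; norm_num)) (ch.solp.h1.l2.const_mul 24) ?_
  rotate_left
  · filter_upwards [hsh ε ch hε, hco, pr.toPair1.t_ge ch.s0] with x h1 h2 h3 a b d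
    have h4 := h1 b.le
    have h5 := (h2 b.le).2
    have h6 := h3.1
    have h7 := mul_nonneg hη0.le (hU0 x ⟨a, d⟩)
    have h8 := o.apos x
    have h9 : Kc * o.a x ≤ Kc * (4 * ch.q x) := by gcongr
    rw [hK₁]
    nlinarith
  · filter_upwards [hle] with x hx a
    rw [abs_mul]
    simpa using hx a
  have key := @UB_cmp (up R) (ext o.Rs) (fun x => inferInstanceAs (Decidable (R < ‖x‖ ∧ 0 < x 2)))
    (measurableSet_up R) (fun x hx => lt_trans (by linarith) hx.1) _ _ _ _ _ ch.p _ _ hy hsub hw hφ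
    (8 / 5) 24 (by norm_num) (by norm_num) ch.s0 ?_ hvp ch.solp.h1.l2 hle ?_
  rotate_left
  · filter_upwards [hFA.zp] with x h2 hx
    have hq := (h2 (by linarith [hx.1])).2.2.2
    have h5 : ch.s x * pr.θ x ≤ ch.s x * (8 / 5) :=
      mul_le_mul_of_nonneg_left ((pr.θ0 x).2.trans hpi) (ch.s0 x)
    have h6 := mul_nonneg hη0.le (hU0 x hx)
    have h7 := mul_nonneg hK0 hq.le
    linarith
  · filter_upwards [UB_q ch hFA] with x h1 hx hlt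
    have hr := hx.1
    have h2 := h1 (by linarith)
    obtain ⟨hQs, hQs'⟩ := UB_Qs ch (x := x) (by linarith) (by linarith)
    obtain ⟨-, b2, b3⟩ := hUb x (by linarith) hx.2.le
    have h3 := UB_ar1 (r := ‖x‖) (z := x 2) (by linarith) hx.2.le
      ((le_abs_self _).trans (abs_two_le x)) (ch.h_pos (by linarith)) hη0 hB0 (by linarith)
      (UB_Q0 ch (by linarith) (hRH C ε ch x (by linarith))) (hU0 x hx) b2 hQs' b3 (by linarith)
    have h4 : 0 ≤ pr.lam * 1 * (ch.s x * Real.sin (pr.θ x) * Real.cos (pr.θ x)) := by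
      have c1 : 0 ≤ Real.sin (pr.θ x) :=
        Real.sin_nonneg_of_nonneg_of_le_pi (pr.θ0 x).1 (by linarith [(pr.θ0 x).2, Real.pi_pos])
      have c2 : 0 ≤ Real.cos (pr.θ x) :=
        Real.cos_nonneg_of_neg_pi_div_two_le_of_le (by linarith [(pr.θ0 x).1, Real.pi_pos])
          (pr.θ0 x).2
      have := ch.s0 x
      positivity
    have h5 := mul_le_mul_of_nonneg_left hlt.le hQs
    have h6 := mul_le_mul_of_nonneg_left h2 hK0
    rw [hB] at h3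
    nlinarith
  have key2 : ∀ᵐ x, x ∈ up R → ch.s x * pr.θ x ≤ K₁ * ch.q x + |ch.p x| / 4 := by
    filter_upwards [key, hFA.zp] with x h1 h2 hx
    have h3 := h1 hx
    have h4 := (h2 (by linarith [hx.1])).2.1
    have h5 := (hUb x (by linarith [hx.1]) hx.2.le).2.1
    rw [abs_of_pos hx.2] at h4
    have h6 : η * U x ≤ η * (2 * (A * |ch.p x|)) := by
      gcongr
      linarith
    have e : η * (2 * (A * |ch.p x|)) = |ch.p x| / 4 := by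
      rw [hη]
      field_simp
      ring
    linarith
  filter_upwards [key2, ae_P key2, pr.θP, ae_two_ne] with x h1 h2 h3 h4 hx
  rcases lt_or_gt_of_ne h4 with h | h
  · have h5 := h2 ⟨by rwa [norm_P], by rw [P_two]; linarith⟩
    rwa [ch.sP, h3, ch.qP, ch.pP, abs_neg] at h5
  · exact h1 ⟨hx, h⟩

/-- `y = s (θ + θ³)` and `U` from `stU` with `K = 22 (8 Kc + 30)`, `A' = C + C'`; `test_ext`,
`cmp_core`.  Where `θ > 1/2`: `s ≤ 4 (8 Kc + 30) q` (`2 p² ≤ s²`), so `y ≤ (11/2) s ≤ U`.  Hence the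
test function lives on `{θ ≤ 1/2}`, where `s ≤ 2 β` (so it vanishes on the plane) and
`(1 + 3 θ²) sin θ cos θ ≥ θ + θ³`; the level is `Qs + lam ≥ V + I + g - A' √√ε`. -/
theorem ub2 {Kc : ℝ} (hK : 1 ≤ Kc) (o : One c) (C C' R₀ A R₁ : ℝ) (hR : R₀ ≤ R₁) (hC : 1 ≤ C') :
    ∃ R ε₀ : ℝ, R₁ ≤ R ∧ 0 < ε₀ ∧ ∀ (ε : ℝ) (ch : Chan o C ε) (pr : Pair ch C'), ε ≤ ε₀ →
      ch.FA R₀ A → pr.Core (R + 1) Kc →
      (∀ᵐ x : X, R₁ < ‖x‖ → ch.s x * pr.θ x ≤ (8 * Kc + 30) * ch.q x + |ch.p x| / 4) →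
      pr.FU R (200 * Kc + 700) := by
  by_cases hC1 : 1 ≤ C
  swap
  · exact ⟨R₁, 1, le_rfl, one_pos, fun ε ch => absurd ch.C1 hC1⟩
  obtain ⟨K₁, hK₁⟩ : ∃ K₁, K₁ = 8 * Kc + 30 := ⟨_, rfl⟩
  have hK0 : 0 ≤ K₁ := by linarith
  obtain ⟨R₂, ε₁, hR₂, hε₁, hst⟩ := stU o C R₀ A (22 * K₁) (C + C') (by linarith) (by linarith)
  obtain ⟨R, hR1, hR2⟩ : ∃ R, R₁ ≤ R ∧ R₂ ≤ R := ⟨max R₁ R₂, le_max_left _ _, le_max_right _ _⟩
  obtain ⟨ε₀, hε₀, hsh⟩ := UB_shell o hC1 (R + 1)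
  refine ⟨R, min ε₀ ε₁, hR1, lt_min hε₀ hε₁, fun ε ch pr hε hFA hco hub => ?_⟩
  rw [← hK₁] at hub
  have hR0 := hFA.R1
  have hRs := o.Rs_ge
  have hlam : 0 ≤ pr.lam := by linarith [pr.lam_lo, o.g_pos]
  have hpi : Real.pi / 2 ≤ 158 / 100 := by linarith [Real.pi_lt_d2]
  obtain ⟨U, g, f, hU, hUb⟩ := hst ε ch (hε.trans (min_le_right _ _)) hFA
  obtain ⟨gy, hy, hsub⟩ := y_sub pr (Φ := fun a => a + a ^ 3) (Φ' := fun a => 1 + 3 * a ^ 2)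
    (Φ'' := fun a => 6 * a)
    (fun a => ((hasDerivAt_id' a).fun_add (hasDerivAt_pow 3 a)).congr_deriv (by norm_num))
    (fun a => (((hasDerivAt_pow 2 a).const_mul 3).const_add 1).congr_deriv (by norm_num; ring))
    (by fun_prop) fun a h _ => ⟨by positivity, by positivity⟩
  have hw := hU.subset (Ω' := ext R) fun x hx => lt_of_le_of_lt hR2 hx
  have hθ2 : ∀ x, pr.θ x ^ 2 ≤ 5 / 2 := fun x => by
    nlinarith [(pr.θ0 x).1, (pr.θ0 x).2]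
  have hy1 : ∀ x, ch.s x * (pr.θ x + pr.θ x ^ 3) ≤ 7 / 2 * (ch.s x * pr.θ x) := fun x => by
    have h1 := mul_nonneg (ch.s0 x) (pr.θ0 x).1
    nlinarith [mul_le_mul_of_nonneg_left (hθ2 x) h1]
  have hy0 : ∀ x, ch.s x * pr.θ x ≤ ch.s x * (pr.θ x + pr.θ x ^ 3) := fun x => by
    have h1 := pow_nonneg (pr.θ0 x).1 3
    exact mul_le_mul_of_nonneg_left (by linarith) (ch.s0 x)
  have hy2 : ∀ x, ch.s x * (pr.θ x + pr.θ x ^ 3) ≤ 11 / 2 * ch.s x := fun x => by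
    have h1 : pr.θ x ≤ 63 / 40 := by linarith [(pr.θ0 x).2, Real.pi_lt_d2]
    have h2 : pr.θ x ^ 3 ≤ (63 / 40) ^ 3 := pow_le_pow_left₀ (pr.θ0 x).1 h1 3
    have h3 : pr.θ x + pr.θ x ^ 3 ≤ 11 / 2 := by
      norm_num at h2
      linarith
    linarith [mul_le_mul_of_nonneg_left h3 (ch.s0 x)]
  have hsm : ∀ᵐ x, x ∈ ext R → U x < ch.s x * (pr.θ x + pr.θ x ^ 3) → pr.θ x ≤ 1 / 2 := by
    filter_upwards [hub, hUb, ch.p_le_s] with x h1 h2 h3 hx hlt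
    have hx' : R < ‖x‖ := hx
    by_contra hθ
    have h4 := h1 (by linarith)
    have h5 := (h2 (by linarith)).1
    have h6 := h3.1
    have h7 := mul_le_mul_of_nonneg_left (not_le.1 hθ).le (ch.s0 x)
    have h8 := hy2 x
    linarith
  have hU0 : ∀ᵐ x, x ∈ ext R → 0 ≤ U x := by
    filter_upwards [hUb, hFA.zp] with x h1 h2 hx
    have hx' : R < ‖x‖ := hx
    have h5 := (h1 (by linarith)).1
    have hq := (h2 (by linarith)).2.2.2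
    have := mul_nonneg hK0 hq.le
    linarith
  have hφ := test_ext (hy.sub hw.h1) (R := R) (by linarith) ?_
  rotate_left
  · filter_upwards [hsh ε ch (hε.trans (min_le_left _ _)), hco, pr.toPair1.t_ge ch.s0, hUb]
      with x h1 h2 h3 h4 a b
    have h5 := h1 b.le
    have h6 := (h2 b.le).2
    have h7 := h3.1
    have h8 := (h4 (by linarith)).1
    have h9 := o.apos x
    have h10 : Kc * o.a x ≤ Kc * (4 * ch.q x) := by gcongr
    have h11 := hy1 x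
    have h12 : 0 ≤ Kc * ch.q x := mul_nonneg (by linarith) (by linarith)
    rw [hK₁] at h8
    nlinarith
  have key := @UB_cmp (ext R) (ext o.Rs) (fun x => inferInstanceAs (Decidable (R < ‖x‖)))
    (measurableSet_ext R) (fun x (hx : R < ‖x‖) => show o.Rs < ‖x‖ by linarith) _ _ _ _ _ pr.β _ _
    hy hsub hw hφ
    (11 / 2) 11 (by norm_num) (by norm_num) ch.s0 ?_ pr.pair.van pr.pair.hβ.l2 ?_ ?_
  rotate_left
  · filter_upwards [hU0] with x h1 hx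
    linarith [h1 hx, hy2 x]
  · filter_upwards [hU0, hsm, pr.cos] with x h1 h2 h3 hx
    by_cases hlt : U x < ch.s x * (pr.θ x + pr.θ x ^ 3)
    · have h4 := (UB_trig (pr.θ0 x).1 (h2 hx hlt)).2
      have h5 := mul_le_mul_of_nonneg_left h4 (ch.s0 x)
      linarith [h1 hx, hy2 x, le_abs_self (pr.β x)]
    · linarith [not_lt.1 hlt, abs_nonneg (pr.β x)]
  · filter_upwards [hsm, hUb, hFA.zp] with x h1 h2 h3 hx hlt
    have hx' : R < ‖x‖ := hx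
    have hr : 1 ≤ ‖x‖ := by linarith
    have hr0 : 0 < ‖x‖ := by linarith
    obtain ⟨-, -, hL, hf⟩ := h2 (by linarith)
    have hzp := (h3 (by linarith)).2.2.1
    have hε0 := ch.ε0
    have hd := ch.d1
    have hh := ch.h_pos hr0
    have hQ := ch.Q0_pos hr0
    have a1 : 0 ≤ ε * ch.d * x 2 / ‖x‖ ^ 3 * ch.p x := by
      have e : ε * ch.d * x 2 / ‖x‖ ^ 3 * ch.p x = ε * ch.d / ‖x‖ ^ 3 * (x 2 * ch.p x) := by ring
      rw [e, hzp]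
      positivity
    have a2 : 0 ≤ (C + C') *
        (√(√ε) * ch.Q0 x + ε * (1 + x 2 ^ 2) / ‖x‖ ^ 4 * ch.h x) := by positivity
    have a3 : 0 ≤ 22 * K₁ * (ε * ch.d * x 2 / ‖x‖ ^ 3 * ch.p x) := by positivity
    have a4 : ε ≤ √(√ε) := by
      have b0 : ε ≤ 1 := by linarith [ch.ε_le]
      have b1 : ε ≤ √ε := Real.le_sqrt_of_sq_le (by nlinarith)
      have b2 : √ε ≤ 1 := Real.sqrt_le_one.2 b0
      have b3 : √ε ≤ √(√ε) := Real.le_sqrt_of_sq_le (by nlinarith [Real.sqrt_nonneg ε])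
      linarith
    have a5 : ε * C / ‖x‖ ^ 2 ≤ C * √(√ε) := by
      have b1 : ε * C / ‖x‖ ^ 2 ≤ ε * C := div_le_self (by positivity) (one_le_pow₀ hr)
      have b2 : C * ε ≤ C * √(√ε) := by gcongr
      linarith
    have a6 : V o.D x + ch.I + o.g - (C + C') * √(√ε) ≤ ch.Qs x + pr.lam := by
      have b1 := (abs_le.1 pr.lam_near).1
      have b2 : 0 ≤ 2 * ε / ‖x‖ := by positivity
      rw [Chan.Qs]
      linarith
    have a7 := (UB_trig (pr.θ0 x).1 (h1 hx hlt)).1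
    have a8 := mul_le_mul_of_nonneg_left a7 (mul_nonneg hlam (ch.s0 x))
    have a9 : 0 ≤ ch.s x * (pr.θ x + pr.θ x ^ 3) :=
      (mul_nonneg (ch.s0 x) (pr.θ0 x).1).trans (hy0 x)
    have a10 := mul_le_mul_of_nonneg_right a6 a9
    have a11 := mul_le_mul_of_nonneg_left hlt.le hL
    exact UB_ar2 a8 a10 a11 ((add_nonneg a3 a2).trans hf)
  filter_upwards [key, hUb, hFA.zp, pr.toPair1.t_ge ch.s0] with x h1 h2 h3 h4 hx
  have h5 := h1 hx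
  have h6 := (h2 (by linarith)).2.1
  have hq := (h3 (by linarith)).2.2.2
  have h7 := h4.2.1
  have h8 := hy0 x
  have h9 : (22 * K₁ + 1) * ch.q x ≤ (200 * Kc + 700) * ch.q x :=
    mul_le_mul_of_nonneg_right (by linarith) hq.le
  linarith

theorem Pair.Core.mono {pr : Pair ch C'} {R R' K : ℝ} (h : pr.Core R K) (hR : R' ≤ R) :
    pr.Core R' K := by
  filter_upwards [h] with x hx a using hx (a.trans hR)

theorem Pair.FU.mono {pr : Pair ch C'} {R R' K : ℝ} (h : pr.FU R K) (hR : R ≤ R') :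
    pr.FU R' K := by
  filter_upwards [h] with x hx a using hx (hR.trans_lt a)

theorem t_ub {Kc : ℝ} (hK : 1 ≤ Kc) (o : One c) (C C' R₀ A R₁ : ℝ) (hR : R₀ ≤ R₁) (hC : 1 ≤ C') :
    ∃ R ε₀ : ℝ, R₁ ≤ R ∧ 0 < ε₀ ∧ ∀ (ε : ℝ) (ch : Chan o C ε) (pr : Pair ch C'), ε ≤ ε₀ →
      ch.FA R₀ A → ch.FC R₁ → pr.Core (R + 1) Kc → pr.FU R (200 * Kc + 700) := by
  obtain ⟨R₂, ε₂, hR₂, hε₂, h2⟩ := ub1 hK o C C' R₀ A R₁ hR
  obtain ⟨R₃, ε₃, hR₃, hε₃, h3⟩ := ub2 hK o C C' R₀ A R₂ (hR.trans hR₂) hC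
  refine ⟨R₃, min ε₂ ε₃, hR₂.trans hR₃, lt_min hε₂ hε₃, fun ε ch pr hε hFA hFC hco => ?_⟩
  exact h3 ε ch pr (hε.trans (min_le_right _ _)) hFA hco
    (h2 ε ch pr (hε.trans (min_le_left _ _)) hFA hFC (hco.mono (by linarith)))

/-- Away from the plane `β` carries the density: `t ≤ K A Q0 ≤ η |z| h / A ≤ η |p|` for large `r`
(`H_small`, `(1 + z²) / |z| ≤ 1 / δ + r`), and `2 p² ≤ s²`. -/
theorem beta_big (o : One c) (A K R₁ : ℝ) {δ η : ℝ} (hδ : 0 < δ) (hη : 0 < η) :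
    ∃ R : ℝ, R₁ ≤ R ∧ ∀ (C C' ε R₀ : ℝ) (ch : Chan o C ε) (pr : Pair ch C'), R₀ ≤ R₁ →
      ch.FA R₀ A → pr.FU R₁ K →
      ∀ᵐ x : X, R < ‖x‖ → δ ≤ |x 2| → (1 - η) * ch.s x ^ 2 ≤ pr.β x ^ 2 := by
  obtain ⟨RH, hRH1, hRH⟩ := H_small o (η := 1) one_pos
  obtain ⟨R, hR1, hR2, hR3⟩ : ∃ R, R₁ ≤ R ∧ RH ≤ R ∧ |K| * A ^ 2 * (2 / δ + 1) / η ≤ R :=
    ⟨max (max R₁ RH) _, le_max_of_le_left (le_max_left _ _), le_max_of_le_left (le_max_right _ _),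
      le_max_right _ _⟩
  refine ⟨R, hR1, fun C C' ε R₀ ch pr hR hFA hFU => ?_⟩
  have hA := hFA.A1
  filter_upwards [hFU, hFA.zp, hFA.q_hi, ch.p_le_s, pr.toPair1.t_ge ch.s0, pr.pair.sum]
    with x h1 h2 h3 h4 h5 h6 hx hz
  have hr : 1 ≤ ‖x‖ := by linarith
  have hr0 : 0 < ‖x‖ := by linarith
  have hh := ch.h_pos hr0
  obtain ⟨-, hp, -, hq⟩ := h2 (by linarith)
  have hQ := UB_Q0 ch hr (hRH C ε ch x (by linarith))
  have hzr := abs_two_le x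
  have hz0 : 0 < |x 2| := by linarith
  have a1 : 2 + x 2 ^ 2 ≤ (2 / δ + 1) * |x 2| * ‖x‖ ^ 2 := by
    have b1 : 1 ≤ |x 2| / δ := (one_le_div hδ).2 hz
    have b2 : 1 ≤ ‖x‖ ^ 2 := one_le_pow₀ hr
    have b3 : |x 2| / δ * 1 ≤ |x 2| / δ * ‖x‖ ^ 2 := by gcongr
    have b4 : |x 2| * |x 2| ≤ |x 2| * ‖x‖ ^ 2 := by
      gcongr
      nlinarith
    have e : (2 / δ + 1) * |x 2| * ‖x‖ ^ 2 = 2 * (|x 2| / δ * ‖x‖ ^ 2) + |x 2| * ‖x‖ ^ 2 := by ring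
    rw [e, ← sq_abs (x 2)]
    nlinarith
  have a2 : ch.Q0 x ≤ (2 / δ + 1) / ‖x‖ * (|x 2| * ch.h x) := by
    refine hQ.trans ?_
    have e : (2 / δ + 1) / ‖x‖ * (|x 2| * ch.h x) =
        (2 / δ + 1) * |x 2| * ‖x‖ ^ 2 / ‖x‖ ^ 3 * ch.h x := by field_simp
    rw [e]
    gcongr
  have a3 : pr.t x ≤ |K| * (A * ((2 / δ + 1) / ‖x‖ * (A * |ch.p x|))) := by
    calc pr.t x ≤ K * ch.q x := h1 (by linarith)
      _ ≤ |K| * ch.q x := by
        gcongr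
        exact le_abs_self K
      _ ≤ |K| * (A * ch.Q0 x) := by
        gcongr
        exact h3 (by linarith)
      _ ≤ |K| * (A * ((2 / δ + 1) / ‖x‖ * (|x 2| * ch.h x))) := by gcongr
      _ ≤ _ := by gcongr
  have a4 : |K| * A ^ 2 * (2 / δ + 1) / ‖x‖ ≤ η := by
    rw [div_le_iff₀ hr0]
    rw [div_le_iff₀ hη] at hR3
    have : R * η ≤ ‖x‖ * η := mul_le_mul_of_nonneg_right hx.le hη.le
    linarith
  have a5 : pr.t x ≤ η * ch.s x := by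
    have e : |K| * (A * ((2 / δ + 1) / ‖x‖ * (A * |ch.p x|))) =
        |K| * A ^ 2 * (2 / δ + 1) / ‖x‖ * |ch.p x| := by ring
    rw [e] at a3
    exact a3.trans (mul_le_mul a4 h4.1 (abs_nonneg _) hη.le)
  have a6 : pr.t x * pr.t x ≤ η * ch.s x * ch.s x :=
    mul_le_mul a5 h5.2.2.1 (pr.t0 x) (mul_nonneg hη.le (ch.s0 x))
  linarith

end Crest.Agent.R335
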