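import Crest.Agent.R335.PB
import Crest.Agent.R335.UB
import Crest.Agent.R335.GDefs

/-! Row 335. The slab inequality and the exterior inequality. -/

set_option autoImplicit false

open MeasureTheory Set Filter Topology
open scoped ENNReal

noncomputable section

namespace Crest.Agent.R335

variable {c : ℝ} {o : One c} {C ε C' : ℝ} {ch : Chan o C ε}

/-- An even profile in the variable `z`. -/
theorem PS_prof {a b : ℝ} (ha : 0 < a) (hab : a < b) : ∃ (ω : X → ℝ) (L : ℝ), ContDiff ℝ 1 ω ∧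
    (∀ x, 0 ≤ ω x ∧ ω x ≤ 1) ∧ (∀ x : X, |x 2| ≤ a → ω x = 1) ∧ (∀ x : X, b ≤ |x 2| → ω x = 0) ∧
    (∀ x v : X, v 2 = 0 → fderiv ℝ ω x v = 0) ∧
    (∀ x : X, |x 2| < a ∨ b < |x 2| → fderiv ℝ ω x = 0) ∧ 1 ≤ L ∧
    ∀ i x, |pd eX ω i x| ≤ L := by
  let f : ContDiffBump (0 : ℝ) := ⟨a, b, ha, hab⟩
  let p : X →L[ℝ] ℝ := EuclideanSpace.proj 2
  have hp : ∀ x : X, p x = x 2 := fun x => rfl
  have hf : ContDiff ℝ 1 f := f.contDiff
  have hd : ∀ x v : X, fderiv ℝ (fun x : X => f (x 2)) x v = deriv f (x 2) * v 2 := by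
    intro x v
    have h1 : HasDerivAt f (deriv f (p x)) (p x) :=
      (hf.differentiable one_ne_zero _).hasDerivAt
    have h2 := (h1.comp_hasFDerivAt x p.hasFDerivAt).fderiv
    have : (fun x : X => f (x 2)) = f ∘ p := rfl
    rw [this, h2]
    simp [hp]
  have h1 : ∀ x : X, |x 2| ≤ a → f (x 2) = 1 := fun x hx =>
    f.one_of_mem_closedBall (by simpa [f] using hx)
  have h0 : ∀ x : X, b ≤ |x 2| → f (x 2) = 0 := fun x hx =>
    f.zero_of_le_dist (by simpa [f] using hx)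
  have hc2 : Continuous fun x : X => |x 2| := p.continuous.abs
  obtain ⟨L, hL⟩ := (hf.continuous_deriv le_rfl).bounded_above_of_compact_support
    f.hasCompactSupport.deriv
  refine ⟨fun x => f (x 2), max L 1, hf.comp p.contDiff, fun x => ⟨f.nonneg, f.le_one⟩, h1, h0,
    fun x v hv => by rw [hd, hv, mul_zero], fun x hx => ?_, le_max_right _ _, fun i x => ?_⟩
  · rcases hx with hx | hx
    · have : (fun x : X => f (x 2)) =ᶠ[𝓝 x] fun _ => 1 := by
        filter_upwards [(isOpen_lt hc2 continuous_const).mem_nhds hx] with y hy using h1 y (le_of_lt hy)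
      rw [this.fderiv_eq]; simp
    · have : (fun x : X => f (x 2)) =ᶠ[𝓝 x] fun _ => 0 := by
        filter_upwards [(isOpen_lt continuous_const hc2).mem_nhds hx] with y hy using h0 y (le_of_lt hy)
      rw [this.fderiv_eq]; simp
  · rw [pd, hd, abs_mul]
    have a1 : |eX i 2| ≤ 1 := by
      fin_cases i <;> simp [eX]
    have a2 : |deriv f (x 2)| ≤ max L 1 := (hL (x 2)).trans (le_max_left _ _)
    calc _ ≤ max L 1 * 1 := mul_le_mul a2 a1 (abs_nonneg _) (le_trans zero_le_one (le_max_right _ _))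
      _ = _ := mul_one _

theorem PS_div {F : X → ℝ} {x : X} (hF : DifferentiableAt ℝ F x) :
    ∑ i, pd eX (fun y => F y * pl y i) i x = 2 * F x + fderiv ℝ F x (pl x) := by
  obtain ⟨A, hA⟩ := exists_plL
  have h : ∀ i, pd eX (fun y => F y * pl y i) i x =
      F x * pl (eX i) i + pl x i * fderiv ℝ F x (eX i) := by
    intro i
    let q : X →L[ℝ] ℝ := (EuclideanSpace.proj i).comp A
    have hq : ∀ y, q y = pl y i := fun y => by simp [q, hA]
    have e : (fun y => F y * pl y i) = fun y => F y * q y := by funext y; rw [hq]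
    rw [pd, e, (hF.hasFDerivAt.fun_mul q.hasFDerivAt).fderiv]
    simp [hq]
  have e : pl x = ∑ i, pl x i • eX i := by
    ext j
    fin_cases j <;> simp [eX, Fin.sum_univ_three]
  simp only [h]
  rw [Finset.sum_add_distrib, ← Finset.mul_sum]
  congr 1
  · simp [Fin.sum_univ_three, pl, eX]; ring
  · conv_rhs => rw [e]
    simp

/-- The vector field. -/
theorem PS_field {R K : ℝ} {τ ω : X → ℝ} (hK : 1 ≤ K) (hKR : K ≤ R)
    (c1 : ContDiffOn ℝ 1 τ {x | R < ‖pl x‖}) (τpos : ∀ x, R < ‖pl x‖ → 0 < τ x)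
    (rad : ∀ x, R < ‖pl x‖ → fderiv ℝ τ x (‖pl x‖⁻¹ • pl x) ≤ -τ x / K)
    (hω : ContDiff ℝ 1 ω) (h0 : ∀ x, 0 ≤ ω x) (hz : ∀ x v : X, v 2 = 0 → fderiv ℝ ω x v = 0) :
    (∀ i, ContDiffOn ℝ 1 (fun x => ω x * τ x ^ 2 * ‖pl x‖⁻¹ * pl x i) {x | R < ‖pl x‖}) ∧
    (∀ x, R < ‖pl x‖ → 1 / K * (ω x * τ x ^ 2) ≤
      -∑ i, pd eX (fun x => ω x * τ x ^ 2 * ‖pl x‖⁻¹ * pl x i) i x) ∧
    ∀ x, R < ‖pl x‖ →
      gs (fun i x => ω x * τ x ^ 2 * ‖pl x‖⁻¹ * pl x i) x ≤ (ω x * τ x ^ 2) ^ 2 := by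
  obtain ⟨A, hA⟩ := exists_plL
  have hO : IsOpen {x : X | R < ‖pl x‖} := isOpen_lt continuous_const continuous_pl.norm
  have hpl : pl = A := funext fun x => (hA x).symm
  have hr : ∀ x : X, R < ‖pl x‖ → 0 < ‖pl x‖ := fun x hx => by linarith
  have hn : ∀ x : X, R < ‖pl x‖ → ContDiffAt ℝ 1 (fun x => ‖pl x‖) x := by
    intro x hx
    have := norm_pos_iff.1 (hr x hx)
    rw [hpl] at this ⊢
    exact A.contDiff.contDiffAt.norm ℝ this
  refine ⟨fun i x hx => ?_, fun x hx => ?_, fun x hx => ?_⟩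
  · have a1 : ContDiffAt ℝ 1 (fun x => pl x i) x := by
      rw [hpl]
      exact ((EuclideanSpace.proj i : X →L[ℝ] ℝ).comp A).contDiff.contDiffAt
    exact (((hω.contDiffAt.mul ((c1.contDiffAt (hO.mem_nhds hx)).pow 2)).mul
      ((hn x hx).inv (hr x hx).ne')).mul a1).contDiffWithinAt
  · have dω := (hω.differentiable one_ne_zero x).hasFDerivAt
    have dτ := ((c1.contDiffAt (hO.mem_nhds hx)).differentiableAt one_ne_zero).hasFDerivAt
    have dn := ((hn x hx).differentiableAt one_ne_zero).hasFDerivAt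
    have hrx := hr x hx
    have e1 : fderiv ℝ (fun x => ‖pl x‖) x (pl x) = ‖pl x‖ := by
      have h1 : DifferentiableAt ℝ (fun y : X => ‖y‖) (A x) := by
        refine (differentiableAt_id.norm ℝ ?_)
        rw [hA]; exact norm_pos_iff.1 hrx
      have h2 := (h1.hasFDerivAt.comp x A.hasFDerivAt).fderiv
      have : (fun x => ‖pl x‖) = (fun y : X => ‖y‖) ∘ A := by funext y; simp [hA]
      rw [this, h2, ContinuousLinearMap.comp_apply, hA (pl x), pl_pl, ← hA x, h1.fderiv_norm_self]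
    have dF := (dω.fun_mul (dτ.pow 2)).fun_mul ((hasDerivAt_inv hrx.ne').comp_hasFDerivAt x dn)
    have e2 : fderiv ℝ (fun x => ω x * τ x ^ 2 * ‖pl x‖⁻¹) x (pl x) =
        -(ω x * τ x ^ 2 * ‖pl x‖⁻¹) + 2 * ω x * τ x * fderiv ℝ τ x (‖pl x‖⁻¹ • pl x) := by
      have := dF.fderiv
      simp only [Function.comp_def] at this
      rw [this]
      simp [e1, hz x (pl x) (pl_two x)]
      field_simp
    have := PS_div (F := fun x => ω x * τ x ^ 2 * ‖pl x‖⁻¹) dF.differentiableAt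
    rw [this, e2]
    have hτ := τpos x hx
    have b1 := mul_le_mul_of_nonneg_left (rad x hx) (show 0 ≤ 2 * ω x * τ x by
      have := h0 x; positivity)
    have b2 : ‖pl x‖⁻¹ ≤ 1 / K := by
      rw [one_div]; exact inv_anti₀ (by linarith) (by linarith)
    have b3 := mul_le_mul_of_nonneg_left b2 (show 0 ≤ ω x * τ x ^ 2 by
      have := h0 x; positivity)
    have e3 : 2 * ω x * τ x * (-τ x / K) = -2 * (ω x * τ x ^ 2 * (1 / K)) := by ring
    rw [e3] at b1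
    linarith
  · have hrx := hr x hx
    have : gs (fun i x => ω x * τ x ^ 2 * ‖pl x‖⁻¹ * pl x i) x =
        (ω x * τ x ^ 2 * ‖pl x‖⁻¹) ^ 2 * ‖pl x‖ ^ 2 := by
      rw [gs, LHardy_norm_sq, Finset.mul_sum]
      exact Finset.sum_congr rfl fun i _ => by ring
    rw [this]
    apply le_of_eq
    field_simp

/-- The slab inequality for functions with compact support. -/
theorem PS_compact (pr : Pair ch C') {R K η Ku K' z₁ : ℝ} {τ h0 : X → ℝ} (hK : 1 ≤ K)
    (hKR : K ≤ R) (hKu : 0 ≤ Ku) (hz : 0 < z₁) (hz' : z₁ ≤ 1 / 2)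
    (hG : ch.FG R K η τ h0) (hU : pr.FU R Ku) (hL : pr.FL (R + 1) z₁ K') {ψ : X → ℝ}
    {g : Fin 3 → X → ℝ} (hψ : H1 eX ψ g) {M : ℝ} (hM : ∀ᵐ x, |ψ x| ≤ M * pr.t x)
    (h0' : ∀ᵐ x, ‖x‖ ≤ R + 3 → ψ x = 0) {K₀ : Set X} (hK₀ : IsCompact K₀)
    (hs : ∀ x, x ∉ K₀ → ψ x = 0) :
    ∫ x in {x : X | |x 2| ≤ z₁ / 2}, ψ x ^ 2 ≤
      4 * K ^ 6 * Ku ^ 2 * K' ^ 2 * ∫ x, Dq pr.t pr.gt ψ g x := by
  obtain ⟨ω, -, ω1, ω2, ω3, ω4, ω5, -, -, -⟩ :=
    PS_prof (a := z₁ / 2) (b := 3 * z₁ / 4) (by linarith) (by linarith)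
  obtain ⟨σ, -, σ1, -, σ3, σ4, -, σ6, -, -⟩ :=
    PS_prof (a := 3 * z₁ / 4) (b := z₁) (by linarith) (by linarith)
  obtain ⟨f1, f2, f3⟩ := PS_field hK hKR hG.c1 hG.τpos hG.rad ω1 (fun x => (ω2 x).1) ω5
  have hO : IsOpen {x : X | R < ‖pl x‖} := isOpen_lt continuous_const continuous_pl.norm
  have hc2 : Continuous fun x : X => |x 2| :=
    (EuclideanSpace.proj 2 : X →L[ℝ] ℝ).continuous.abs
  set S : Set X := K₀ ∩ ({x | |x 2| ≤ z₁} ∩ {x | R + 2 ≤ ‖pl x‖}) with hS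
  have hSc : IsCompact S := hK₀.inter_right ((isClosed_le hc2 continuous_const).inter
    (isClosed_le continuous_const continuous_pl.norm))
  have hSO : S ⊆ {x : X | R < ‖pl x‖} := fun x hx => by
    have : R + 2 ≤ ‖pl x‖ := hx.2.2
    show R < ‖pl x‖
    linarith
  have hv := hψ.h1l.div pr.pair.ht.h1l pr.tpos hM
  have hu := hv.mul_contDiff σ1
  have hmem : ∀ᵐ x : X, ψ x ≠ 0 → |x 2| ≤ z₁ → x ∈ S := by
    filter_upwards [h0'] with x hx h1 h2
    refine ⟨by_contra fun h => h1 (hs x h), h2, ?_⟩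
    have a1 : R + 3 < ‖x‖ := by_contra fun h => h1 (hx (not_lt.1 h))
    have a2 : ‖x‖ ≤ ‖pl x‖ + ‖x - pl x‖ := by
      simpa using norm_add_le (pl x) (x - pl x)
    rw [norm_sub_pl] at a2
    show R + 2 ≤ ‖pl x‖
    linarith
  have hw : ContinuousOn (fun x => ω x * τ x ^ 2) {x : X | R < ‖pl x‖} :=
    ω1.continuous.continuousOn.mul (hG.c1.continuousOn.pow 2)
  have key := field_hardy hO hSc hSO f1 hw (c := 1 / K) (by positivity)
    (fun x _ => mul_nonneg (ω2 x).1 (sq_nonneg _)) f2 f3 hu (by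
      filter_upwards [hmem] with x hx hxS
      by_cases h1 : ψ x = 0
      · simp [h1]
      · have : z₁ ≤ |x 2| := by_contra fun h => hxS (hx h1 (not_le.1 h).le)
        simp [σ4 x this])
  have htp := pr.tpos.ae_pos
  have hD : Integrable (Dq pr.t pr.gt ψ g) := integrable_Dq pr.pair.ht hψ (M := M) (by
    filter_upwards [hM] with x hx
    rwa [abs_of_nonneg (pr.t0 x)])
  have hsl : MeasurableSet {x : X | |x 2| ≤ z₁ / 2} :=
    (isClosed_le hc2 continuous_const).measurableSet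
  have l1 : ∫ x in {x : X | |x 2| ≤ z₁ / 2}, ψ x ^ 2 ≤
      Ku ^ 2 * K ^ 2 * ∫ x in S, ω x * τ x ^ 2 * (σ x * (ψ x / pr.t x)) ^ 2 := by
    have j1 : IntegrableOn (fun x => ω x * τ x ^ 2 * (σ x * (ψ x / pr.t x)) ^ 2) S :=
      IntegrableOn.continuousOn_mul (hw.mono hSO) (hu.l2 S hSc).integrable_sq hSc
    rw [← integral_const_mul, ← integral_indicator hsl, ← integral_indicator hSc.measurableSet]
    refine integral_mono_of_nonneg (ae_of_all _ fun x => indicator_nonneg (fun _ _ => sq_nonneg _) x)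
      ((integrable_indicator_iff hSc.measurableSet).2 (j1.const_mul _)) ?_
    filter_upwards [hmem, htp, hU, hG.cq] with x hx ht hUx hq
    have hnn : 0 ≤ S.indicator
        (fun x => Ku ^ 2 * K ^ 2 * (ω x * τ x ^ 2 * (σ x * (ψ x / pr.t x)) ^ 2)) x :=
      indicator_nonneg (fun y _ => by have := (ω2 y).1; positivity) x
    by_cases h1 : ψ x = 0
    · refine le_trans (le_of_eq ?_) hnn
      simp [indicator, h1]
    by_cases h2 : |x 2| ≤ z₁ / 2
    · have hxS := hx h1 (by linarith)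
      have hxO : R < ‖pl x‖ := hSO hxS
      rw [indicator_of_mem (show x ∈ {x : X | |x 2| ≤ z₁ / 2} from h2), indicator_of_mem hxS,
        ω3 x h2, σ3 x (by linarith)]
      have a1 := hUx (hxO.trans_le (norm_pl_le x))
      have a2 := (hq hxO (by linarith)).2
      have a3 : pr.t x ≤ Ku * K * τ x := by
        have := mul_le_mul_of_nonneg_left a2 hKu
        linarith
      have a4 : pr.t x ^ 2 ≤ (Ku * K * τ x) ^ 2 := pow_le_pow_left₀ ht.le a3 2
      have a5 : ψ x ^ 2 = pr.t x ^ 2 * (ψ x / pr.t x) ^ 2 := by field_simp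
      rw [a5]
      have := mul_le_mul_of_nonneg_right a4 (sq_nonneg (ψ x / pr.t x))
      linarith
    · rwa [indicator_of_notMem (show x ∉ {x : X | |x 2| ≤ z₁ / 2} from h2)]
  have l2 : ∫ x in S, ω x * τ x ^ 2 * gs (fun i x => σ x * ((g i x - ψ x / pr.t x * pr.gt i x) /
      pr.t x) + pd eX σ i x * (ψ x / pr.t x)) x ≤ K ^ 2 * K' ^ 2 * ∫ x, Dq pr.t pr.gt ψ g x := by
    rw [← integral_const_mul, ← integral_indicator hSc.measurableSet]
    refine integral_mono_of_nonneg (ae_of_all _ fun x => indicator_nonneg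
      (fun y _ => mul_nonneg (mul_nonneg (ω2 y).1 (sq_nonneg _)) (gs_nonneg _ _)) x)
      (hD.const_mul _) ?_
    filter_upwards [htp, hL, hG.cq] with x ht hLx hq
    have hnn : 0 ≤ K ^ 2 * K' ^ 2 * Dq pr.t pr.gt ψ g x :=
      mul_nonneg (by positivity) (Dq_nonneg _ _ _ _ _)
    by_cases hxS : x ∈ S
    · rw [indicator_of_mem hxS]
      by_cases h2 : 3 * z₁ / 4 ≤ |x 2|
      · rw [ω4 x h2]; simpa using hnn
      · have h3 := not_le.1 h2
        have hxO : R + 2 ≤ ‖pl x‖ := hxS.2.2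
        have e : gs (fun i x => σ x * ((g i x - ψ x / pr.t x * pr.gt i x) / pr.t x) +
            pd eX σ i x * (ψ x / pr.t x)) x =
            gs (fun i x => (g i x - ψ x / pr.t x * pr.gt i x) / pr.t x) x := by
          simp only [gs, pd, σ3 x h3.le, σ6 x (Or.inl h3)]
          simp
        rw [e, Dq_eq _ _ _ _ ht.ne']
        have a1 := hLx (by linarith) (by linarith)
        have a2 := (hq (by linarith) (by linarith)).1
        have a3 : τ x ≤ K * K' * pr.t x := by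
          have := mul_le_mul_of_nonneg_left a1 (show 0 ≤ K by linarith)
          linarith
        have a4 : τ x ^ 2 ≤ (K * K' * pr.t x) ^ 2 :=
          pow_le_pow_left₀ (hG.τpos x (by linarith)).le a3 2
        have a5 : ω x * τ x ^ 2 ≤ (K * K' * pr.t x) ^ 2 :=
          (mul_le_of_le_one_left (sq_nonneg _) (ω2 x).2).trans a4
        have := mul_le_mul_of_nonneg_right a5
          (gs_nonneg (fun i x => (g i x - ψ x / pr.t x * pr.gt i x) / pr.t x) x)
        linarith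
    · rwa [indicator_of_notMem hxS]
  have hK0 : 0 < K := by linarith
  rw [one_div, inv_pow, inv_mul_le_iff₀ (by positivity)] at key
  have k2 := key.trans (mul_le_mul_of_nonneg_left (mul_le_mul_of_nonneg_left l2 (by norm_num))
    (by positivity))
  have := l1.trans (mul_le_mul_of_nonneg_left k2 (by positivity))
  refine this.trans (le_of_eq ?_)
  ring

/-- `field_hardy` on `O = {R + 1 < ‖pl x‖}` with `w = ω(z) τ²`, `ξ = w · lat x`, `c = 1 / K`
(`div lat = 1 / ‖pl x‖ ≤ 1 / K`, `lat 2 = 0`), where `ω` is an even `C¹` function, `1` for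
`|z| ≤ z₁ / 2`, `0` for `|z| ≥ 3 z₁ / 4`; `u = ζ_n ω'(z) ψ / t` with `ζ_n` from `exists_cut` and
`ω' = 1` for `|z| ≤ 3 z₁ / 4`, `0` for `|z| ≥ z₁` (`H1l.div`, `Dq_eq`).  On the slab
`t ≤ Ku K τ` and `τ ≤ K K' t`.  Let `n → ∞`. -/
theorem slab_hardy (pr : Pair ch C') {R K η Ku K' z₁ : ℝ} {τ h0 : X → ℝ} (hK : 1 ≤ K)
    (hKR : K ≤ R) (hKu : 0 ≤ Ku) (hK' : 0 ≤ K') (hz : 0 < z₁) (hz' : z₁ ≤ 1 / 2)
    (hG : ch.FG R K η τ h0) (hU : pr.FU R Ku) (hL : pr.FL (R + 1) z₁ K') {ψ : X → ℝ}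
    {g : Fin 3 → X → ℝ} (hψ : H1 eX ψ g) {M : ℝ} (hM : ∀ᵐ x, |ψ x| ≤ M * pr.t x)
    (h0' : ∀ᵐ x, ‖x‖ ≤ R + 3 → ψ x = 0) :
    ∫ x in {x : X | |x 2| ≤ z₁ / 2}, ψ x ^ 2 ≤
      4 * K ^ 6 * Ku ^ 2 * K' ^ 2 * ∫ x, Dq pr.t pr.gt ψ g x := by
  have _ := hK'
  obtain ⟨ζ, M₀, z1, z2, z3, z4, z5⟩ := exists_cut (E := X) eX
  have hH : ∀ n, H1 eX (fun x => ζ n x * ψ x) fun i x => ζ n x * g i x + pd eX (ζ n) i x * ψ x :=
    fun n => hψ.h1l.mul_c1c (z1 n) (z2 n)
  have hn : ∀ n, ∫ x in {x : X | |x 2| ≤ z₁ / 2}, (ζ n x * ψ x) ^ 2 ≤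
      4 * K ^ 6 * Ku ^ 2 * K' ^ 2 * ∫ x, Dq pr.t pr.gt (fun x => ζ n x * ψ x)
        (fun i x => ζ n x * g i x + pd eX (ζ n) i x * ψ x) x := fun n =>
    PS_compact pr hK hKR hKu hz hz' hG hU hL (hH n) (M := M) (by
      filter_upwards [hM] with x hx
      rw [abs_mul, abs_of_nonneg (z3 n x).1]
      exact (mul_le_of_le_one_left (abs_nonneg _) (z3 n x).2).trans hx)
      (h0'.mono fun x hx h => by simp [hx h]) (z2 n).isCompact
      (fun x hx => by simp [image_eq_zero_of_notMem_tsupport hx])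
  have hD : Integrable (Dq pr.t pr.gt ψ g) := integrable_Dq pr.pair.ht hψ (M := M) (by
    filter_upwards [hM] with x hx
    rwa [abs_of_nonneg (pr.t0 x)])
  have hM₀ : 0 ≤ M₀ := by simpa using (abs_nonneg _).trans (z5 0 0 0)
  have t1 : Tendsto (fun n => ∫ x in {x : X | |x 2| ≤ z₁ / 2}, (ζ n x * ψ x) ^ 2) atTop
      (𝓝 (∫ x in {x : X | |x 2| ≤ z₁ / 2}, ψ x ^ 2)) := by
    refine tendsto_integral_of_dominated_convergence (fun x => ψ x ^ 2)
      (fun n => ((hH n).m.pow_const 2).aestronglyMeasurable) hψ.integrable_sq.integrableOn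
      (fun n => ae_of_all _ fun x => ?_) (ae_of_all _ fun x => ?_)
    · rw [Real.norm_of_nonneg (sq_nonneg _), mul_pow]
      exact mul_le_of_le_one_left (sq_nonneg _) (pow_le_one₀ (z3 n x).1 (z3 n x).2)
    · simpa using ((LMoll_cut_tendsto z4 x).mul_const (ψ x)).pow 2
  have t2 : Tendsto (fun n => ∫ x, Dq pr.t pr.gt (fun x => ζ n x * ψ x)
        (fun i x => ζ n x * g i x + pd eX (ζ n) i x * ψ x) x) atTop
      (𝓝 (∫ x, Dq pr.t pr.gt ψ g x)) := by
    refine tendsto_integral_of_dominated_convergence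
      (fun x => 2 * Dq pr.t pr.gt ψ g x + 2 * (3 * M₀ ^ 2) * ψ x ^ 2)
      (fun n => (measurable_Dq pr.pair.ht (hH n)).aestronglyMeasurable)
      ((hD.const_mul 2).add (hψ.integrable_sq.const_mul _))
      (fun n => ae_of_all _ fun x => ?_) (ae_of_all _ fun x => ?_)
    · rw [Real.norm_of_nonneg (Dq_nonneg _ _ _ _ _)]
      refine (Dq_mul_le pr.t pr.gt ψ (ζ n) g x).trans ?_
      have a1 : ζ n x ^ 2 ≤ 1 := pow_le_one₀ (z3 n x).1 (z3 n x).2
      have a2 : ∀ i, pd eX (ζ n) i x ^ 2 ≤ M₀ ^ 2 := fun i => by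
        rw [← sq_abs]
        refine pow_le_pow_left₀ (abs_nonneg _) ((z5 n i x).trans ?_) 2
        exact div_le_self hM₀ (by linarith [(Nat.cast_nonneg n : (0 : ℝ) ≤ n)])
      have a3 : gs (pd eX (ζ n)) x ≤ 3 * M₀ ^ 2 := by
        rw [gs, Fin.sum_univ_three]; linarith [a2 0, a2 1, a2 2]
      have a4 := mul_le_mul_of_nonneg_right a1 (Dq_nonneg pr.t pr.gt ψ g x)
      have a5 := mul_le_mul_of_nonneg_right a3 (sq_nonneg (ψ x))
      linarith
    · have b1 := LMoll_cut_tendsto z4 x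
      have b2 : ∀ i, Tendsto (fun n => pd eX (ζ n) i x) atTop (𝓝 0) := fun i => by
        refine squeeze_zero_norm (fun n => z5 n i x) ?_
        exact tendsto_const_nhds.div_atTop
          (tendsto_atTop_add_const_right _ 1 tendsto_natCast_atTop_atTop)
      unfold Dq
      refine tendsto_finsetSum _ fun i _ => ?_
      have := ((((b1.mul_const (g i x)).add ((b2 i).mul_const (ψ x))).sub
        (((b1.mul_const (ψ x)).mul_const (pr.gt i x)).div_const (pr.t x))).pow 2)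
      simpa using this
  exact le_of_tendsto_of_tendsto' t1 (t2.const_mul _) hn

/-- `bulk` with `η = 1/2` for `χ(z) ψ`, `χ = 0` for `|z| ≤ z₁ / 4`, `χ = 1` for `|z| ≥ z₁ / 2`
(`beta_big` with `δ = z₁ / 4`, `Qs_ge` with `η = 1/10`; `(s / β)² ≥ 1`); `Dq_mul_le`,
`slab_hardy`. -/
theorem ext_ineq (K Ku K' z₁ : ℝ) (hK : 1 ≤ K) (hKu : 0 ≤ Ku) (hK' : 0 ≤ K') (hz : 0 < z₁)
    (hz' : z₁ ≤ 1 / 2) : ∃ K₅ : ℝ, 0 < K₅ ∧ ∀ (c : ℝ) (o : One c) (C R₀ A R₁ : ℝ), R₀ ≤ R₁ →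
      K ≤ R₁ → ∃ R : ℝ, R₁ ≤ R ∧ ∀ (C' ε η : ℝ) (ch : Chan o C ε) (pr : Pair ch C')
        (τ h0 : X → ℝ), ch.FA R₀ A → ch.FG R₁ K η τ h0 → pr.FU R₁ Ku → pr.FL (R₁ + 1) z₁ K' →
        pr.PX R K₅ := by
  obtain ⟨ω, L, ω1, ω2, ω3, ω4, -, ω6, hL1, ω7⟩ :=
    PS_prof (a := z₁ / 4) (b := z₁ / 2) (by linarith) (by linarith)
  obtain ⟨S, hS⟩ : ∃ S : ℝ, S = 4 * K ^ 6 * Ku ^ 2 * K' ^ 2 := ⟨_, rfl⟩
  have hS0 : 0 ≤ S := by rw [hS]; positivity
  refine ⟨3 * (2 + 6 * L ^ 2 * S) + S, by positivity, fun c o C R₀ A R₁ hR hKR => ?_⟩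
  obtain ⟨Rb, hRb, hb⟩ := beta_big o A Ku R₁ (δ := z₁ / 4) (η := 1 / 2) (by linarith) (by norm_num)
  obtain ⟨RQ, hRQ, hQ⟩ := Qs_ge o C (η := 1 / 10) (by norm_num)
  refine ⟨max (max Rb RQ) (R₁ + 3), le_trans (by linarith) (le_max_right _ _), ?_⟩
  intro C' ε η ch pr τ h0 hA hG hU hL ψ g M hψ hM h0'
  set R := max (max Rb RQ) (R₁ + 3) with hRd
  have r1 : Rb ≤ R := (le_max_left _ _).trans (le_max_left _ _)
  have r2 : RQ ≤ R := (le_max_right _ _).trans (le_max_left _ _)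
  have r3 : R₁ + 3 ≤ R := le_max_right _ _
  have hsl := slab_hardy pr hK hKR hKu hK' hz hz' hG hU hL hψ hM
    (h0'.mono fun x hx h => hx (h.trans r3))
  rw [← hS] at hsl
  have hχ : ContDiff ℝ 1 fun x => 1 - ω x := contDiff_const.sub ω1
  have hpd : ∀ i x, pd eX (fun x => 1 - ω x) i x = -pd eX ω i x := fun i x => by
    simp [pd, fderiv_const_sub]
  have hχ1 : ∀ x, |1 - ω x| ≤ 1 := fun x => abs_le.2 ⟨by linarith [(ω2 x).2], by linarith [(ω2 x).1]⟩
  have hH := hψ.mul_bdd hχ (M := L) (fun x => (hχ1 x).trans hL1)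
    (fun i x => by rw [hpd, abs_neg]; exact ω7 i x)
  have hM1 : ∀ᵐ x, |(1 - ω x) * ψ x| ≤ M * pr.t x := by
    filter_upwards [hM] with x hx
    rw [abs_mul]
    exact (mul_le_of_le_one_left (abs_nonneg _) (hχ1 x)).trans hx
  set B : Set X := {x | R < ‖x‖ ∧ z₁ / 4 ≤ |x 2|} with hB
  have hB0 : ∀ᵐ x, x ∉ B → (1 - ω x) * ψ x = 0 := by
    filter_upwards [h0'] with x hx hxB
    by_cases h : ‖x‖ ≤ R
    · simp [hx h]
    · have : |x 2| ≤ z₁ / 4 := by_contra fun h' => hxB ⟨not_le.1 h, (not_le.1 h').le⟩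
      simp [ω3 x this]
  have hβ : ∀ᵐ x, x ∈ B → (1 - 1 / 2) * ch.s x ^ 2 ≤ pr.β x ^ 2 := by
    filter_upwards [hb C C' ε R₀ ch pr hR hA hU] with x hx hxB
    exact hx (r1.trans_lt hxB.1) hxB.2
  have hv : Van fun x => (1 - ω x) * ψ x :=
    van_of_zero hH.l2 (δ := z₁ / 4) (by linarith) (ae_of_all _ fun x hx => by simp [ω3 x hx.le])
  obtain ⟨-, h'⟩ := bulk_tilde pr hH hM1 hB0 (hβ.mono fun x hx hxB => by linarith [hx hxB])
  obtain ⟨i1, hbulk⟩ := bulk pr hH hM1 hv (A := B)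
    (fun x hx => (hRQ.trans r2).trans_lt hx.1) hB0 (η := 1 / 2) (by norm_num) le_rfl hβ h'
  have hD : Integrable (Dq pr.t pr.gt ψ g) := integrable_Dq pr.pair.ht hψ (M := M) (by
    filter_upwards [hM] with x hx
    rwa [abs_of_nonneg (pr.t0 x)])
  have hsm : MeasurableSet {x : X | |x 2| ≤ z₁ / 2} :=
    (isClosed_le (EuclideanSpace.proj 2 : X →L[ℝ] ℝ).continuous.abs continuous_const).measurableSet
  have j1 : Integrable ({x : X | |x 2| ≤ z₁ / 2}.indicator fun x => ψ x ^ 2) :=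
    hψ.integrable_sq.indicator hsm
  have l1 : 1 / 3 * nsq (fun x => (1 - ω x) * ψ x) ≤
      ∫ x, ch.Qs x * (ch.s x * ((1 - ω x) * ψ x / pr.β x)) ^ 2 := by
    rw [nsq, ← integral_const_mul]
    refine integral_mono_of_nonneg (ae_of_all _ fun x => by positivity) i1 ?_
    filter_upwards [hB0, hβ, pr.spos.ae_pos, pr.pair.sum] with x h1 h2 h3 h4
    by_cases hxB : x ∈ B
    · have a1 := hQ ε ch x (r2.trans hxB.1.le)
      have a2 := ch.I_bd.1
      have a3 := h2 hxB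
      have a4 : 0 < pr.β x ^ 2 := by nlinarith
      have a5 : pr.β x ≠ 0 := fun h => by simp [h] at a4
      have a6 : ((1 - ω x) * ψ x) ^ 2 ≤ (ch.s x * ((1 - ω x) * ψ x / pr.β x)) ^ 2 := by
        have e : ((1 - ω x) * ψ x) ^ 2 = pr.β x ^ 2 * ((1 - ω x) * ψ x / pr.β x) ^ 2 := by
          field_simp
        rw [e, mul_pow (ch.s x)]
        exact mul_le_mul_of_nonneg_right (by nlinarith [sq_nonneg (pr.t x)]) (sq_nonneg _)
      have a7 : 1 / 3 ≤ ch.Qs x := by linarith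
      exact mul_le_mul a7 a6 (sq_nonneg _) (by linarith)
    · simp [h1 hxB]
  have l2 : ∫ x, Dq pr.t pr.gt (fun x => (1 - ω x) * ψ x)
      (fun i x => (1 - ω x) * g i x + pd eX (fun x => 1 - ω x) i x * ψ x) x ≤
      2 * (∫ x, Dq pr.t pr.gt ψ g x) +
        6 * L ^ 2 * ∫ x in {x : X | |x 2| ≤ z₁ / 2}, ψ x ^ 2 := by
    rw [← integral_indicator hsm, ← integral_const_mul, ← integral_const_mul,
      ← integral_add (hD.const_mul 2) (j1.const_mul _)]
    refine integral_mono_of_nonneg (ae_of_all _ fun x => Dq_nonneg _ _ _ _ _)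
      ((hD.const_mul 2).add (j1.const_mul _)) (ae_of_all _ fun x => ?_)
    refine (Dq_mul_le pr.t pr.gt ψ (fun x => 1 - ω x) g x).trans ?_
    have a1 : (1 - ω x) ^ 2 ≤ 1 := by
      rw [← sq_abs]; exact pow_le_one₀ (abs_nonneg _) (hχ1 x)
    have a4 := mul_le_mul_of_nonneg_right a1 (Dq_nonneg pr.t pr.gt ψ g x)
    by_cases hx : |x 2| ≤ z₁ / 2
    · have a2 : ∀ i, pd eX (fun x => 1 - ω x) i x ^ 2 ≤ L ^ 2 := fun i => by
        rw [hpd, neg_sq, ← sq_abs]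
        exact pow_le_pow_left₀ (abs_nonneg _) (ω7 i x) 2
      have a3 : gs (pd eX fun x => 1 - ω x) x ≤ 3 * L ^ 2 := by
        rw [gs, Fin.sum_univ_three]; linarith [a2 0, a2 1, a2 2]
      have a5 := mul_le_mul_of_nonneg_right a3 (sq_nonneg (ψ x))
      simp only [indicator_of_mem (show x ∈ {x : X | |x 2| ≤ z₁ / 2} from hx)]
      linarith
    · have a3 : gs (pd eX fun x => 1 - ω x) x = 0 := by
        simp only [gs, hpd]
        simp [pd, ω6 x (Or.inr (not_le.1 hx))]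
      simp only [indicator_of_notMem (show x ∉ {x : X | |x 2| ≤ z₁ / 2} from hx), a3]
      linarith
  have l3 : nsq ψ ≤ nsq (fun x => (1 - ω x) * ψ x) +
      ∫ x in {x : X | |x 2| ≤ z₁ / 2}, ψ x ^ 2 := by
    rw [← integral_indicator hsm, nsq, nsq, ← integral_add hH.integrable_sq j1]
    refine integral_mono hψ.integrable_sq (hH.integrable_sq.add j1) fun x => ?_
    by_cases hx : |x 2| ≤ z₁ / 2
    · simp only [indicator_of_mem (show x ∈ {x : X | |x 2| ≤ z₁ / 2} from hx)]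
      linarith [sq_nonneg ((1 - ω x) * ψ x)]
    · simp [indicator_of_notMem (show x ∉ {x : X | |x 2| ≤ z₁ / 2} from hx),
        ω4 x (not_le.1 hx).le]
  have hlam : 0 ≤ pr.lam := by linarith [pr.lam_lo, o.g_pos]
  have p1 := mul_nonneg hlam (nsq_nonneg fun x => (1 - ω x) * ψ x)
  have p2 := dir_nonneg (fun i x => ch.gr i x * ((1 - ω x) * ψ x / pr.β x) + ch.s x *
    ((((1 - ω x) * g i x + pd eX (fun x => 1 - ω x) i x * ψ x) -
      (1 - ω x) * ψ x / pr.β x * pr.gβ i x) / pr.β x))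
  have p3 := mul_le_mul_of_nonneg_left hsl (show 0 ≤ 6 * L ^ 2 by positivity)
  linarith

end Crest.Agent.R335
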