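import Crest.Agent.R335.LP

/-! Row 335. The reflection `P`; functions which vanish on the plane. -/

set_option autoImplicit false

open MeasureTheory Set Filter Topology
open scoped ENNReal

noncomputable section

namespace Crest.Agent.R335

theorem LVan_ms (a b : ℝ) : MeasurableSet {x : X | a < x 2 ∧ x 2 < b} :=
  have hz : Measurable fun x : X => x 2 := by fun_prop
  (measurableSet_lt measurable_const hz).inter (measurableSet_lt hz measurable_const)

theorem LVan_ms' (δ : ℝ) : MeasurableSet {x : X | |x 2| < δ} :=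
  measurableSet_lt (by fun_prop) measurable_const

theorem LVan_two_le (g : Fin 3 → X → ℝ) (x : X) : g 2 x ^ 2 ≤ gs g x :=
  Finset.single_le_sum (f := fun i => g i x ^ 2) (fun _ _ => sq_nonneg _) (Finset.mem_univ 2)

theorem LVan_coord : H1l eX (fun x : X => x 2) fun i _ => if i = 2 then 1 else 0 := by
  have h := H1l.of_contDiff (e := eX) (u := fun x : X => x 2) (by fun_prop)
  convert h using 1
  ext i x
  have : fderiv ℝ (fun x : X => x 2) x = EuclideanSpace.proj (𝕜 := ℝ) (2 : Fin 3) :=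
    (EuclideanSpace.proj (𝕜 := ℝ) (2 : Fin 3)).fderiv
  rw [pd, this]
  fin_cases i <;> simp [eX]

theorem LVan_clip {a b : ℝ} (hab : a < b) (c s : ℝ) :
    H1l eX (fun x : X => s * (min (max (x 2) a) b - c))
      fun i x => s * if a < x 2 ∧ x 2 < b then (if i = 2 then 1 else 0) else 0 := by
  have h := ((LVan_coord.max (H1l.const a)).min (H1l.const b)).lin (H1l.const c) s (-s)
  convert h using 2 with x i
  · ring
  · ext x
    by_cases h1 : a < x 2
    · by_cases h2 : x 2 < b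
      · simp [h1, h2, hab]
      · simp [h1, h2]
    · simp [h1]

theorem LVan_clip_le {a b : ℝ} (hab : a < b) (c t : ℝ) :
    |min (max t a) b - c| ≤ |a| + |b| + |c| := by
  have h2 : a ≤ min (max t a) b := le_min (le_max_right _ _) hab.le
  have h3 : min (max t a) b ≤ b := min_le_right _ _
  rw [abs_le]
  constructor <;> linarith [le_abs_self a, le_abs_self b, le_abs_self c, neg_abs_le a, neg_abs_le b,
    neg_abs_le c, abs_nonneg a, abs_nonneg b]

theorem LVan_mul {u : X → ℝ} {g : Fin 3 → X → ℝ} (h : H1 eX u g) {a b : ℝ} (hab : a < b)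
    (c s : ℝ) : H1 eX (fun x : X => u x * (s * (min (max (x 2) a) b - c)))
      fun i x => g i x * (s * (min (max (x 2) a) b - c)) +
        u x * (s * if a < x 2 ∧ x 2 < b then (if i = 2 then 1 else 0) else 0) := by
  have hc := LVan_clip hab c s
  refine h.mul_h1l hc (M := |s| * (|a| + |b| + |c|)) (Eventually.of_forall fun x => ?_) fun i => ?_
  · rw [abs_mul]
    exact mul_le_mul_of_nonneg_left (LVan_clip_le hab c _) (abs_nonneg _)
  · refine (h.l2.const_mul s).of_le (h.m.mul (hc.gm i)).aestronglyMeasurable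
      (Eventually.of_forall fun x => ?_)
    split_ifs <;> simp [mul_comm]
    all_goals positivity

theorem LVan_int {u : X → ℝ} {g : Fin 3 → X → ℝ} (h : H1 eX u g) {a b : ℝ} (hab : a < b)
    (c : ℝ) : Integrable fun x : X => -2 * ((min (max (x 2) a) b - c) * (u x * g 2 x)) := by
  have := ((LVan_mul h hab c 1).l2.integrable_mul (h.gl2 2)).const_mul (-2)
  refine this.congr (Eventually.of_forall fun x => ?_)
  simp only [Pi.mul_apply]
  ring

theorem LVan_key {u : X → ℝ} {g : Fin 3 → X → ℝ} (h : H1 eX u g) {a b : ℝ} (hab : a < b)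
    (c : ℝ) : ∫ x in {x : X | a < x 2 ∧ x 2 < b}, u x ^ 2 =
      ∫ x : X, -2 * ((min (max (x 2) a) b - c) * (u x * g 2 x)) := by
  have h1 := h.ibp (LVan_mul h hab c 1) 2
  have i1 := (LVan_int h hab c).const_mul (-1 / 2)
  have i2 := h.integrable_sq.indicator (LVan_ms a b)
  have e1 : ∫ x : X, g 2 x * (u x * (1 * (min (max (x 2) a) b - c))) =
      -1 / 2 * ∫ x : X, -2 * ((min (max (x 2) a) b - c) * (u x * g 2 x)) := by
    rw [← integral_const_mul]
    exact integral_congr_ae (Eventually.of_forall fun x => by ring)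
  have e2 : ∫ x : X, u x * (g 2 x * (1 * (min (max (x 2) a) b - c)) +
      u x * (1 * if a < x 2 ∧ x 2 < b then (if (2 : Fin 3) = 2 then 1 else 0) else 0)) =
      -1 / 2 * (∫ x : X, -2 * ((min (max (x 2) a) b - c) * (u x * g 2 x))) +
        ∫ x in {x : X | a < x 2 ∧ x 2 < b}, u x ^ 2 := by
    rw [← integral_const_mul, ← integral_indicator (LVan_ms a b), ← integral_add i1 i2]
    refine integral_congr_ae (Eventually.of_forall fun x => ?_)
    by_cases hx : a < x 2 ∧ x 2 < b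
    · simp only [indicator_of_mem (show x ∈ {x : X | a < x 2 ∧ x 2 < b} from hx), if_pos hx,
        if_true]
      ring
    · simp only [indicator_of_notMem (show x ∉ {x : X | a < x 2 ∧ x 2 < b} from hx), if_neg hx]
      ring
  rw [e1, e2] at h1
  linarith

theorem LVan_slab_P (F : X → ℝ) (δ : ℝ) :
    ∫ x in {x : X | |x 2| < δ}, F (P x) = ∫ x in {x : X | |x 2| < δ}, F x := by
  rw [← integral_indicator (LVan_ms' δ), ← integral_indicator (LVan_ms' δ),
    ← integral_P (indicator _ F)]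
  refine integral_congr_ae (Eventually.of_forall fun x => ?_)
  simp only [indicator, mem_setOf_eq, P_two, abs_neg]

theorem LVan_comp_P {u : X → ℝ} (h : Van u) : Van fun x => u (P x) := by
  obtain ⟨C, hC⟩ := h
  exact ⟨C, fun δ h0 h1 => (LVan_slab_P (fun x => u x ^ 2) δ).trans_le (hC δ h0 h1)⟩

theorem LVan_split {F : X → ℝ} (hF : Integrable F) (δ : ℝ) :
    ∫ x in {x : X | |x 2| < δ}, F x = (∫ x in {x : X | 0 < x 2 ∧ x 2 < δ}, F x) +
      ∫ x in {x : X | 0 < x 2 ∧ x 2 < δ}, F (P x) := by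
  have i1 := hF.indicator (LVan_ms 0 δ)
  have i2 : Integrable fun x => indicator {x : X | 0 < x 2 ∧ x 2 < δ} (fun x => F (P x)) (P x) :=
    mp_P.integrable_comp_of_integrable
      ((mp_P.integrable_comp_of_integrable hF).indicator (LVan_ms 0 δ))
  rw [← integral_indicator (LVan_ms' δ), ← integral_indicator (LVan_ms 0 δ),
    ← integral_indicator (LVan_ms 0 δ), ← integral_P (indicator _ fun x => F (P x)),
    ← integral_add i1 i2]
  refine integral_congr_ae ?_
  filter_upwards [ae_two_ne] with x hx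
  simp only [indicator, mem_setOf_eq, P_two, P_P]
  rcases lt_or_gt_of_ne hx with h | h
  · simp [abs_of_neg h, h, h.not_gt]
  · simp [abs_of_pos h, h, h.not_gt]

theorem LVan_le {u w v : X → ℝ} (h : Van u) (h' : Van w) (hu : MemLp u 2 volume)
    (hw : MemLp w 2 volume) (hle : ∀ x, v x ^ 2 ≤ 2 * u x ^ 2 + 2 * w x ^ 2) : Van v := by
  obtain ⟨C, hC⟩ := h
  obtain ⟨D, hD⟩ := h'
  refine ⟨2 * C + 2 * D, fun δ h0 h1 => ?_⟩
  have i1 := (hu.integrable_sq.const_mul 2).integrableOn (s := {x : X | |x 2| < δ})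
  have i2 := (hw.integrable_sq.const_mul 2).integrableOn (s := {x : X | |x 2| < δ})
  have h2 : ∫ x in {x : X | |x 2| < δ}, v x ^ 2 ≤
      ∫ x in {x : X | |x 2| < δ}, (2 * u x ^ 2 + 2 * w x ^ 2) :=
    integral_mono_of_nonneg (Eventually.of_forall fun x => sq_nonneg _) (i1.add i2)
      (Eventually.of_forall hle)
  rw [integral_add i1 i2, integral_const_mul, integral_const_mul] at h2
  linarith [hC δ h0 h1, hD δ h0 h1]

theorem LVan_le_z {u w : X → ℝ} (hw : MemLp w 2 volume) {C : ℝ}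
    (hle : ∀ᵐ x, |u x| ≤ C * |x 2| * |w x|) : Van u := by
  refine ⟨C ^ 2 * nsq w, fun δ h0 _ => ?_⟩
  have i1 := hw.integrable_sq
  have h2 : ∫ x in {x : X | |x 2| < δ}, u x ^ 2 ≤
      ∫ x in {x : X | |x 2| < δ}, C ^ 2 * δ ^ 2 * w x ^ 2 := by
    refine integral_mono_of_nonneg (Eventually.of_forall fun x => sq_nonneg _)
      (i1.const_mul _).integrableOn ?_
    filter_upwards [ae_restrict_of_ae hle, ae_restrict_mem (LVan_ms' δ)] with x hx hx'
    have h3 := pow_le_pow_left₀ (abs_nonneg _) hx 2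
    have h4 : |x 2| ^ 2 ≤ δ ^ 2 := pow_le_pow_left₀ (abs_nonneg _) (le_of_lt hx') 2
    rw [mul_pow, mul_pow, sq_abs (u x), sq_abs (w x)] at h3
    exact h3.trans (mul_le_mul_of_nonneg_right
      (mul_le_mul_of_nonneg_left h4 (sq_nonneg _)) (sq_nonneg _))
  rw [integral_const_mul] at h2
  have h3 : ∫ x in {x : X | |x 2| < δ}, w x ^ 2 ≤ nsq w :=
    setIntegral_le_integral i1 (Eventually.of_forall fun x => sq_nonneg _)
  have h4 := mul_le_mul_of_nonneg_left h3 (show 0 ≤ C ^ 2 * δ ^ 2 by positivity)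
  linarith

/-- In one variable `sup u² ≤ ∫ u² + u'²`.  It is convenient to avoid coordinates:
`φ x ^ 2 = -∫_0^∞ ∂_t φ (x + t e₂) ^ 2`, or to test with a vector field `a(z) e₂`:
`∫ a'(z) u² = -2 ∫ a(z) u g₂` for `a` of class `C¹` (or Lipschitz, by `H1l.max`, `H1l.min`). -/
theorem slab_trace {u : X → ℝ} {g : Fin 3 → X → ℝ} (h : H1 eX u g) {δ : ℝ} (hδ : 0 < δ) :
    ∫ x in {x : X | |x 2| < δ}, u x ^ 2 ≤ 2 * δ * (nsq u + dir g) := by
  have e : {x : X | |x 2| < δ} = {x : X | -δ < x 2 ∧ x 2 < δ} := by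
    ext x; simp only [mem_setOf_eq, abs_lt]
  rw [e, LVan_key h (by linarith) 0]
  have h1 : ∫ x, -2 * ((min (max (x 2) (-δ)) δ - 0) * (u x * g 2 x)) ≤
      ∫ x, δ * (u x ^ 2 + gs g x) := by
    refine integral_mono (LVan_int h (by linarith) 0)
      ((h.integrable_sq.add h.integrable_gs).const_mul δ) fun x => ?_
    have h2 : -δ ≤ min (max (x 2) (-δ)) δ := le_min (le_max_right _ _) (by linarith)
    have h3 : min (max (x 2) (-δ)) δ ≤ δ := min_le_right _ _
    have h4 := LVan_two_le g x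
    change -2 * ((min (max (x 2) (-δ)) δ - 0) * (u x * g 2 x)) ≤ δ * (u x ^ 2 + gs g x)
    generalize min (max (x 2) (-δ)) δ = t at h2 h3 ⊢
    nlinarith [mul_nonneg (sub_nonneg.2 h3) (sq_nonneg (u x - g 2 x)),
      mul_nonneg (sub_nonneg.2 h2) (sq_nonneg (u x + g 2 x))]
  rw [integral_const_mul δ, integral_add h.integrable_sq h.integrable_gs] at h1
  have h5 := nsq_nonneg u
  have h6 := dir_nonneg g
  change _ ≤ δ * (nsq u + dir g) at h1
  nlinarith

/-- Multiply by `χ (z / δ)` with `χ = 0` on `(-∞, 1/2]` and `χ = 1` on `[1, ∞)`; the Dirichlet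
integrals stay bounded, so `H1.of_bdd` applies; identify the gradient away from the plane
(`H1l.grad_eq`, `H1l.grad_zero`). -/
theorem H1.half' {u : X → ℝ} {g : Fin 3 → X → ℝ} (h : H1 eX u g) {C : ℝ}
    (hv : ∀ δ : ℝ, 0 < δ → δ ≤ 1 → ∫ x in {x : X | 0 < x 2 ∧ x 2 < δ}, u x ^ 2 ≤ C * δ ^ 2) :
    H1 eX (fun x => if 0 < x 2 then u x else 0) fun i x => if 0 < x 2 then g i x else 0 := by
  have mz : MeasurableSet {x : X | 0 < x 2} := measurableSet_lt measurable_const (by fun_prop)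
  have hm : Measurable fun x : X => if 0 < x 2 then u x else 0 :=
    Measurable.ite mz h.m measurable_const
  have hm' : ∀ i, Measurable fun x : X => if 0 < x 2 then g i x else 0 := fun i =>
    Measurable.ite mz (h.gm i) measurable_const
  have hw : MemLp (fun x : X => if 0 < x 2 then u x else 0) 2 volume :=
    h.l2.of_le hm.aestronglyMeasurable (Eventually.of_forall fun x => by
      split_ifs <;> simp)
  have hd : ∀ n : ℕ, (0 : ℝ) < 1 / (n + 1) ∧ (1 : ℝ) / (n + 1) ≤ 1 := fun n =>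
    ⟨by positivity, by rw [div_le_one (by positivity)]; linarith [Nat.cast_nonneg (α := ℝ) n]⟩
  refine (H1.of_bdd (fun n : ℕ => LVan_mul h (hd n).1 0 (1 / (n + 1 : ℝ))⁻¹) hm hw
    (c := 2 * dir g + 2 * C) ?_ ?_).elim fun k ⟨hk, _⟩ => ?_
  rotate_right
  · refine hk.congr hm hm' (EventuallyEq.refl _ _) fun i => ?_
    filter_upwards [hk.h1l.grad_eq h.h1l, hk.h1l.grad_zero] with x h1 h2
    by_cases hx : 0 < x 2
    · rw [if_pos hx]; exact h1 (if_pos hx) i
    · rw [if_neg hx]; exact h2 (if_neg hx) i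
  · have hlim : Tendsto (fun n : ℕ => C * (1 / (n + 1 : ℝ)) ^ 2) atTop (𝓝 0) := by
      have := (tendsto_one_div_add_atTop_nhds_zero_nat (𝕜 := ℝ)).pow 2 |>.const_mul C
      simpa using this
    refine squeeze_zero (fun n => nsq_nonneg _) (fun n => ?_) hlim
    obtain ⟨h0, h1⟩ := hd n
    refine le_trans ?_ (hv _ h0 h1)
    generalize (1 : ℝ) / (n + 1) = δ at h0 h1 ⊢
    rw [← integral_indicator (LVan_ms 0 δ)]
    refine integral_mono_of_nonneg (Eventually.of_forall fun x => sq_nonneg _)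
      (h.integrable_sq.indicator (LVan_ms 0 δ)) (Eventually.of_forall fun x => ?_)
    by_cases hx : 0 < x 2
    · by_cases hx' : x 2 < δ
      · rw [indicator_of_mem (show x ∈ {x : X | 0 < x 2 ∧ x 2 < δ} from ⟨hx, hx'⟩)]
        simp only [if_pos hx, max_eq_left hx.le, min_eq_left hx'.le, sub_zero]
        have h2 : δ⁻¹ * x 2 ≤ 1 := by rw [inv_mul_le_iff₀ h0]; linarith
        have h3 : 0 ≤ δ⁻¹ * x 2 := by positivity
        have h4 : (δ⁻¹ * x 2 - 1) ^ 2 ≤ 1 := by nlinarith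
        nlinarith [mul_le_mul_of_nonneg_left h4 (sq_nonneg (u x))]
      · rw [indicator_of_notMem (show x ∉ {x : X | 0 < x 2 ∧ x 2 < δ} from fun h => hx' h.2)]
        simp [hx, max_eq_left hx.le, min_eq_right (not_lt.1 hx'), h0.ne']
    · rw [indicator_of_notMem (show x ∉ {x : X | 0 < x 2 ∧ x 2 < δ} from fun h => hx h.1)]
      simp [hx, max_eq_right (not_lt.1 hx), min_eq_left h0.le]
  · intro η hη
    refine Eventually.frequently (Eventually.of_forall fun n => ?_)
    obtain ⟨h0, h1⟩ := hd n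
    have h2 := hv _ h0 h1
    generalize (1 : ℝ) / (n + 1) = δ at h0 h1 h2 ⊢
    have hI := h.integrable_sq.indicator (LVan_ms 0 δ)
    have h3 : dir (fun i x => g i x * (δ⁻¹ * (Min.min (Max.max (x 2) 0) δ - 0)) +
        u x * (δ⁻¹ * if 0 < x 2 ∧ x 2 < δ then if i = 2 then 1 else 0 else 0)) ≤
        ∫ x, (2 * gs g x + 2 * δ⁻¹ ^ 2 *
          indicator {x : X | 0 < x 2 ∧ x 2 < δ} (fun x => u x ^ 2) x) := by
      refine integral_mono_of_nonneg (Eventually.of_forall fun x => gs_nonneg _ _)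
        ((h.integrable_gs.const_mul 2).add (hI.const_mul _)) (Eventually.of_forall fun x => ?_)
      have h4 : 0 ≤ δ⁻¹ * (Min.min (Max.max (x 2) 0) δ - 0) := by
        have : 0 ≤ Min.min (Max.max (x 2) 0) δ := le_min (le_max_right _ _) h0.le
        rw [sub_zero]; positivity
      have h5 : δ⁻¹ * (Min.min (Max.max (x 2) 0) δ - 0) ≤ 1 := by
        rw [inv_mul_le_iff₀ h0]; linarith [min_le_right (Max.max (x 2) 0) δ]
      simp only [gs, Fin.sum_univ_three]
      generalize δ⁻¹ * (Min.min (Max.max (x 2) 0) δ - 0) = t at h4 h5 ⊢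
      have h6 : t ^ 2 ≤ 1 := by nlinarith
      have h7 := mul_le_mul_of_nonneg_left h6 (sq_nonneg (g 0 x))
      have h8 := mul_le_mul_of_nonneg_left h6 (sq_nonneg (g 1 x))
      have h9 := mul_le_mul_of_nonneg_left h6 (sq_nonneg (g 2 x))
      by_cases hx : 0 < x 2 ∧ x 2 < δ
      · rw [indicator_of_mem (show x ∈ {x : X | 0 < x 2 ∧ x 2 < δ} from hx)]
        simp only [if_pos hx, if_true, show ¬ (0 : Fin 3) = 2 by decide,
          show ¬ (1 : Fin 3) = 2 by decide, if_false]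
        nlinarith [sq_nonneg (g 2 x * t - u x * δ⁻¹), sq_nonneg (g 0 x), sq_nonneg (g 1 x)]
      · rw [indicator_of_notMem (show x ∉ {x : X | 0 < x 2 ∧ x 2 < δ} from hx)]
        simp only [if_neg hx]
        nlinarith [sq_nonneg (g 2 x), sq_nonneg (g 0 x), sq_nonneg (g 1 x)]
    rw [integral_add (h.integrable_gs.const_mul 2) (hI.const_mul _), integral_const_mul,
      integral_const_mul, integral_indicator (LVan_ms 0 δ)] at h3
    have h4 : 2 * δ⁻¹ ^ 2 * ∫ x in {x : X | 0 < x 2 ∧ x 2 < δ}, u x ^ 2 ≤ 2 * C :=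
      (mul_le_mul_of_nonneg_left h2 (by positivity)).trans (le_of_eq (by field_simp))
    change _ ≤ 2 * dir g + _ at h3
    linarith

theorem H1.half {u : X → ℝ} {g : Fin 3 → X → ℝ} (h : H1 eX u g) (hv : Van u) :
    H1 eX (fun x => if 0 < x 2 then u x else 0) fun i x => if 0 < x 2 then g i x else 0 := by
  obtain ⟨C, hC⟩ := hv
  refine h.half' (C := C) fun δ h0 h1 => le_trans ?_ (hC δ h0 h1)
  refine setIntegral_mono_set h.integrable_sq.integrableOn
    (Eventually.of_forall fun x => sq_nonneg _) (Eventually.of_forall fun x hx => ?_)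
  have hx' : 0 < x 2 ∧ x 2 < δ := hx
  change |x 2| < δ
  rw [abs_of_pos hx'.1]; exact hx'.2

theorem H1.sgn {u : X → ℝ} {g : Fin 3 → X → ℝ} (h : H1 eX u g) (hv : Van u) :
    H1 eX (fun x => if 0 < x 2 then u x else -u x)
      fun i x => if 0 < x 2 then g i x else -g i x := by
  convert (h.half hv).lin h 2 (-1) using 2 with x i
  · split_ifs <;> ring
  · ext x
    split_ifs <;> ring

/-- With `w = 1_{z>0} u ∈ H¹` and `a(z) = (δ - z)₊` for `z ≥ 0`:
`∫_{0<z<δ} w² = 2 ∫ a w g₂ ≤ 2 δ ‖w‖ ‖g₂‖` (the constant `4` leaves room for this proof). -/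
theorem slab_van {u : X → ℝ} {g : Fin 3 → X → ℝ} (h : H1 eX u g) (hv : Van u) {δ : ℝ}
    (hδ : 0 < δ) : ∫ x in {x : X | 0 < x 2 ∧ x 2 < δ}, u x ^ 2 ≤
      4 * δ ^ 2 * ∫ x in {x : X | 0 < x 2 ∧ x 2 < δ}, g 2 x ^ 2 := by
  have hw := h.half hv
  have h1 := LVan_key hw hδ δ
  have e : ∫ x in {x : X | 0 < x 2 ∧ x 2 < δ}, (if 0 < x 2 then u x else 0) ^ 2 =
      ∫ x in {x : X | 0 < x 2 ∧ x 2 < δ}, u x ^ 2 :=
    setIntegral_congr_fun (LVan_ms 0 δ) fun x hx => by
      have hx' : 0 < x 2 := hx.1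
      simp only [if_pos hx']
  rw [e] at h1
  have i1 := h.integrable_sq
  have i2 : Integrable fun x => g 2 x ^ 2 := (h.gl2 2).integrable_sq
  have h2 : ∫ x, -2 * ((min (max (x 2) 0) δ - δ) *
      ((if 0 < x 2 then u x else 0) * if 0 < x 2 then g 2 x else 0)) ≤
      ∫ x in {x : X | 0 < x 2 ∧ x 2 < δ}, (1 / 2 * u x ^ 2 + 2 * δ ^ 2 * g 2 x ^ 2) := by
    rw [← integral_indicator (LVan_ms 0 δ)]
    refine integral_mono (LVan_int hw hδ δ)
      (((i1.const_mul _).add (i2.const_mul _)).indicator (LVan_ms 0 δ)) fun x => ?_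
    by_cases hx : 0 < x 2
    · by_cases hx' : x 2 < δ
      · rw [indicator_of_mem (show x ∈ {x : X | 0 < x 2 ∧ x 2 < δ} from ⟨hx, hx'⟩)]
        simp only [if_pos hx, max_eq_left hx.le, min_eq_left hx'.le]
        have h3 : (δ - x 2) ^ 2 ≤ δ ^ 2 := by nlinarith
        nlinarith [mul_le_mul_of_nonneg_right h3 (sq_nonneg (g 2 x)),
          sq_nonneg (u x - 2 * (δ - x 2) * g 2 x)]
      · rw [indicator_of_notMem (show x ∉ {x : X | 0 < x 2 ∧ x 2 < δ} from fun h => hx' h.2)]
        simp [max_eq_left hx.le, min_eq_right (not_lt.1 hx')]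
    · rw [indicator_of_notMem (show x ∉ {x : X | 0 < x 2 ∧ x 2 < δ} from fun h => hx h.1)]
      simp [hx]
  rw [integral_add (i1.const_mul _).integrableOn (i2.const_mul _).integrableOn,
    integral_const_mul (1 / 2 : ℝ), integral_const_mul (2 * δ ^ 2)] at h2
  linarith

theorem slab_van' {u : X → ℝ} {g : Fin 3 → X → ℝ} (h : H1 eX u g) (hv : Van u) {δ : ℝ}
    (hδ : 0 < δ) : ∫ x in {x : X | |x 2| < δ}, u x ^ 2 ≤ 4 * δ ^ 2 * dir g := by
  have h1 := slab_van h hv hδ
  have h2 := slab_van h.comp_P (LVan_comp_P hv) hδ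
  have i2 : Integrable fun x => g 2 x ^ 2 := (h.gl2 2).integrable_sq
  have e : ∀ x, (sg 2 * g 2 (P x)) ^ 2 = g 2 (P x) ^ 2 := fun x => by simp [sg]
  simp only [e] at h2
  have h3 : ∫ x in {x : X | |x 2| < δ}, g 2 x ^ 2 ≤ dir g :=
    (setIntegral_le_integral i2 (Eventually.of_forall fun x => sq_nonneg _)).trans
      (integral_mono i2 h.integrable_gs fun x => LVan_two_le g x)
  rw [LVan_split i2] at h3
  rw [LVan_split h.integrable_sq]
  have h4 := mul_le_mul_of_nonneg_left h3 (show 0 ≤ 4 * δ ^ 2 by positivity)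
  linarith

theorem LVan_lim {u : ℕ → X → ℝ} {g : ℕ → Fin 3 → X → ℝ} (h : ∀ n, H1 eX (u n) (g n))
    (hv : ∀ n, Van (u n)) {C : ℝ} (hC : ∀ n, dir (g n) ≤ C) {w : X → ℝ} (hw : MemLp w 2 volume)
    (h1 : Tendsto (fun n => nsq fun x => u n x - w x) atTop (𝓝 0)) : Van w := by
  refine ⟨8 * C, fun δ h0 _ => ?_⟩
  have hl : Tendsto (fun n => 8 * C * δ ^ 2 + 2 * nsq fun x => u n x - w x) atTop
      (𝓝 (8 * C * δ ^ 2 + 2 * 0)) := (h1.const_mul 2).const_add _
  rw [mul_zero, add_zero] at hl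
  refine ge_of_tendsto' hl fun n => ?_
  have i0 : Integrable fun x => (u n x - w x) ^ 2 := ((h n).l2.sub hw).integrable_sq
  have i1 := ((h n).integrable_sq.const_mul 2).integrableOn (s := {x : X | |x 2| < δ})
  have i2 := (i0.const_mul 2).integrableOn (s := {x : X | |x 2| < δ})
  have h2 : ∫ x in {x : X | |x 2| < δ}, w x ^ 2 ≤
      ∫ x in {x : X | |x 2| < δ}, (2 * u n x ^ 2 + 2 * (u n x - w x) ^ 2) :=
    integral_mono_of_nonneg (Eventually.of_forall fun x => sq_nonneg _) (i1.add i2)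
      (Eventually.of_forall fun x => by
        change w x ^ 2 ≤ 2 * u n x ^ 2 + 2 * (u n x - w x) ^ 2
        nlinarith [sq_nonneg (2 * u n x - w x)])
  rw [integral_add i1 i2, integral_const_mul, integral_const_mul] at h2
  have h3 : ∫ x in {x : X | |x 2| < δ}, (u n x - w x) ^ 2 ≤ nsq fun x => u n x - w x :=
    setIntegral_le_integral i0 (Eventually.of_forall fun x => sq_nonneg _)
  have h4 := slab_van' (h n) (hv n) h0
  have h5 := mul_le_mul_of_nonneg_left (hC n) (show 0 ≤ 4 * δ ^ 2 by positivity)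
  linarith

theorem LVan_smooth {φ : X → ℝ} (h : ContDiff ℝ 1 φ) (hc : HasCompactSupport φ) :
    Van fun x => 1 / 2 * φ x + -(1 / 2) * φ (P x) := by
  obtain ⟨L, hL⟩ := h.lipschitzWith_of_hasCompactSupport hc (by norm_num)
  obtain ⟨R, hR⟩ := hc.isCompact.isBounded.subset_closedBall (0 : X)
  have hw : MemLp (indicator (Metric.closedBall (0 : X) R) fun _ => (1 : ℝ)) 2 volume :=
    memLp_indicator_const 2 measurableSet_closedBall 1 (Or.inr measure_closedBall_lt_top.ne)
  refine LVan_le_z hw (C := L) (Eventually.of_forall fun x => ?_)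
  by_cases hx : x ∈ Metric.closedBall (0 : X) R
  · rw [indicator_of_mem hx, abs_one, mul_one]
    have h1 := hL.dist_le_mul x (P x)
    have e : x - P x = (2 * x 2) • eX 2 := by
      ext i; fin_cases i <;> simp [P, eX]; ring
    rw [Real.dist_eq, dist_eq_norm, e, norm_smul, eX, PiLp.norm_single, norm_one,
      mul_one, Real.norm_eq_abs, abs_mul, abs_two] at h1
    have e2 : 1 / 2 * φ x + -(1 / 2) * φ (P x) = 1 / 2 * (φ x - φ (P x)) := by ring
    rw [e2, abs_mul, abs_of_pos (show (0 : ℝ) < 1 / 2 by norm_num)]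
    linarith
  · have h1 : φ x = 0 := image_eq_zero_of_notMem_tsupport fun h => hx (hR h)
    have h2 : φ (P x) = 0 := image_eq_zero_of_notMem_tsupport fun h => hx (by
      have := hR h
      rwa [mem_closedBall_zero_iff, norm_P, ← mem_closedBall_zero_iff] at this)
    simp [h1, h2, indicator_of_notMem hx]

theorem LVan_odd {u : X → ℝ} {g : Fin 3 → X → ℝ} (h : H1 eX u g)
    (ho : ∀ᵐ x, u (P x) = -u x) : Van u := by
  obtain ⟨φ, -, h1, h2, h3, h4, -⟩ := h.approx_seq
  have h1' : ∀ n, ContDiff ℝ 1 (φ n) := fun n => (h1 n).of_le (by norm_num)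
  have hφ : ∀ n, H1 eX (φ n) (pd eX (φ n)) := fun n => H1.of_c1c (h1' n) (h2 n)
  refine LVan_lim (fun n => (hφ n).lin (hφ n).comp_P (1 / 2) (-(1 / 2)))
    (fun n => LVan_smooth (h1' n) (h2 n)) (C := 2 * dir g + 6) (fun n => ?_) h.l2 ?_
  · have i1 := (hφ n).integrable_gs
    have i2 : Integrable fun x => gs (pd eX (φ n)) (P x) := mp_P.integrable_comp_of_integrable i1
    have h5 : dir (fun i x => 1 / 2 * pd eX (φ n) i x + -(1 / 2) * (sg i * pd eX (φ n) i (P x))) ≤
        ∫ x, (1 / 2 * gs (pd eX (φ n)) x + 1 / 2 * gs (pd eX (φ n)) (P x)) := by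
      refine integral_mono_of_nonneg (Eventually.of_forall fun x => gs_nonneg _ _)
        ((i1.const_mul _).add (i2.const_mul _)) (Eventually.of_forall fun x => ?_)
      change _ ≤ 1 / 2 * gs (pd eX (φ n)) x + 1 / 2 * gs (pd eX (φ n)) (P x)
      rw [← gs_P]
      simp only [gs, Finset.mul_sum, ← Finset.sum_add_distrib]
      exact Finset.sum_le_sum fun i _ => by
        nlinarith [sq_nonneg (pd eX (φ n) i x + sg i * pd eX (φ n) i (P x))]
    rw [integral_add (i1.const_mul _) (i2.const_mul _), integral_const_mul, integral_const_mul,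
      integral_P (gs (pd eX (φ n)))] at h5
    have i3 : ∀ i, Integrable fun x => (pd eX (φ n) i x - g i x) ^ 2 := fun i =>
      (((hφ n).gl2 i).sub (h.gl2 i)).integrable_sq
    have i4 : Integrable fun x => ∑ i, (pd eX (φ n) i x - g i x) ^ 2 :=
      integrable_finset_sum _ fun i _ => i3 i
    have h6 : ∫ x, gs (pd eX (φ n)) x ≤
        ∫ x, (2 * gs g x + 2 * ∑ i, (pd eX (φ n) i x - g i x) ^ 2) := by
      refine integral_mono i1 ((h.integrable_gs.const_mul _).add (i4.const_mul _)) fun x => ?_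
      change _ ≤ 2 * gs g x + 2 * ∑ i, (pd eX (φ n) i x - g i x) ^ 2
      simp only [gs, Finset.mul_sum, ← Finset.sum_add_distrib]
      exact Finset.sum_le_sum fun i _ => by
        nlinarith [sq_nonneg (pd eX (φ n) i x - 2 * g i x)]
    rw [integral_add (h.integrable_gs.const_mul _) (i4.const_mul _), integral_const_mul,
      integral_const_mul, integral_finset_sum _ fun i _ => i3 i, Fin.sum_univ_three] at h6
    have h7 : (1 / 4 : ℝ) ^ n ≤ 1 := pow_le_one₀ (by norm_num) (by norm_num)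
    have h8 := h4 n 0
    have h9 := h4 n 1
    have h10 := h4 n 2
    unfold nsq at h8 h9 h10
    unfold dir at h5 ⊢
    linarith
  · refine squeeze_zero (fun n => nsq_nonneg _) (fun n => le_trans ?_ (h3 n))
      (tendsto_pow_atTop_nhds_zero_of_lt_one (by norm_num) (by norm_num))
    have i1 : Integrable fun x => (φ n x - u x) ^ 2 := ((hφ n).l2.sub h.l2).integrable_sq
    have i2 : Integrable fun x => (φ n (P x) - u (P x)) ^ 2 :=
      mp_P.integrable_comp_of_integrable i1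
    have h5 : nsq (fun x => 1 / 2 * φ n x + -(1 / 2) * φ n (P x) - u x) ≤
        ∫ x, (1 / 2 * (φ n x - u x) ^ 2 + 1 / 2 * (φ n (P x) - u (P x)) ^ 2) := by
      refine integral_mono_of_nonneg (Eventually.of_forall fun x => sq_nonneg _)
        ((i1.const_mul _).add (i2.const_mul _)) ?_
      filter_upwards [ho] with x hx
      rw [hx]
      nlinarith [sq_nonneg (φ n x + φ n (P x))]
    rw [integral_add (i1.const_mul _) (i2.const_mul _), integral_const_mul, integral_const_mul,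
      integral_P (fun x => (φ n x - u x) ^ 2)] at h5
    unfold nsq at h5 ⊢
    linarith

/-- `a(z) = sign z (δ - |z|)₊` has a jump, but for odd `C¹` functions (the odd parts of
`H1.approx_seq`) the boundary term vanishes. -/
theorem slab_odd {u : X → ℝ} {g : Fin 3 → X → ℝ} (h : H1 eX u g) (ho : ∀ᵐ x, u (P x) = -u x)
    {δ : ℝ} (hδ : 0 < δ) : ∫ x in {x : X | |x 2| < δ}, u x ^ 2 ≤ 4 * δ ^ 2 * dir g := by
  exact slab_van' h (LVan_odd h ho) hδ

theorem van_of_odd {u : X → ℝ} {g : Fin 3 → X → ℝ} (h : H1 eX u g)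
    (ho : ∀ᵐ x, u (P x) = -u x) : Van u := by
  exact LVan_odd h ho

theorem Van.mono {u w : X → ℝ} (h : Van w) (hw : MemLp w 2 volume) {C : ℝ}
    (hle : ∀ᵐ x, |u x| ≤ C * |w x|) : Van u := by
  obtain ⟨D, hD⟩ := h
  refine ⟨C ^ 2 * D, fun δ h0 h1 => ?_⟩
  have h2 : ∫ x in {x : X | |x 2| < δ}, u x ^ 2 ≤ ∫ x in {x : X | |x 2| < δ}, C ^ 2 * w x ^ 2 := by
    refine integral_mono_of_nonneg (Eventually.of_forall fun x => sq_nonneg _)
      (hw.integrable_sq.const_mul _).integrableOn (ae_restrict_of_ae ?_)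
    filter_upwards [hle] with x hx
    have := pow_le_pow_left₀ (abs_nonneg _) hx 2
    rwa [mul_pow, sq_abs, sq_abs] at this
  rw [integral_const_mul] at h2
  have := mul_le_mul_of_nonneg_left (hD δ h0 h1) (sq_nonneg C)
  linarith

theorem Van.add {u w : X → ℝ} (h : Van u) (h' : Van w) (hu : MemLp u 2 volume)
    (hw : MemLp w 2 volume) : Van fun x => u x + w x := by
  exact LVan_le h h' hu hw fun x => by nlinarith [sq_nonneg (u x - w x)]

theorem Van.comp_P {u : X → ℝ} (h : Van u) : Van fun x => u (P x) := by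
  exact LVan_comp_P h

theorem Van.sqrt {u w : X → ℝ} (h : Van u) (h' : Van w) (hu : MemLp u 2 volume)
    (hw : MemLp w 2 volume) : Van fun x => √(u x ^ 2 + w x ^ 2) := by
  exact LVan_le h h' hu hw fun x => by
    rw [Real.sq_sqrt (by positivity)]; nlinarith [sq_nonneg (u x), sq_nonneg (w x)]

theorem van_of_le_z {u w : X → ℝ} (hw : MemLp w 2 volume) {C : ℝ}
    (hle : ∀ᵐ x, |u x| ≤ C * |x 2| * |w x|) : Van u := by
  exact LVan_le_z hw hle

theorem van_of_zero {u : X → ℝ} (hu : MemLp u 2 volume) {δ : ℝ} (hδ : 0 < δ)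
    (h : ∀ᵐ x : X, |x 2| < δ → u x = 0) : Van u := by
  refine LVan_le_z hu (C := δ⁻¹) ?_
  filter_upwards [h] with x hx
  by_cases h1 : |x 2| < δ
  · simp [hx h1]
  · have h2 : 1 ≤ δ⁻¹ * |x 2| := by rw [le_inv_mul_iff₀ hδ]; linarith [not_lt.1 h1]
    nlinarith [abs_nonneg (u x)]

theorem Van.lim {u : ℕ → X → ℝ} {g : ℕ → Fin 3 → X → ℝ} (h : ∀ n, H1 eX (u n) (g n))
    (hv : ∀ n, Van (u n)) {C : ℝ} (hC : ∀ n, dir (g n) ≤ C) {w : X → ℝ} (hw : MemLp w 2 volume)
    (h1 : Tendsto (fun n => nsq fun x => u n x - w x) atTop (𝓝 0)) : Van w := by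
  exact LVan_lim h hv hC hw h1

theorem van_norm {Ω : Type} [MeasurableSpace Ω] {μ : Measure Ω} [SigmaFinite μ] {Φ : X × Ω → ℝ}
    {g : Fin 3 → X × Ω → ℝ} (hm : Measurable Φ) (hm' : ∀ i, Measurable (g i))
    (h2 : MemLp Φ 2 (volume.prod μ)) (h2' : ∀ i, MemLp (g i) 2 (volume.prod μ))
    (h : ∀ᵐ ω ∂μ, H1 eX (fun x => Φ (x, ω)) fun i x => g i (x, ω))
    (ho : ∀ᵐ ω ∂μ, ∀ᵐ x, Φ (P x, ω) = -Φ (x, ω)) : Van fun x => √(∫ ω, Φ (x, ω) ^ 2 ∂μ) := by
  refine ⟨4 * ∫ ω, dir (fun i x => g i (x, ω)) ∂μ, fun δ h0 _ => ?_⟩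
  have e : ∀ x, √(∫ ω, Φ (x, ω) ^ 2 ∂μ) ^ 2 = ∫ ω, Φ (x, ω) ^ 2 ∂μ := fun x =>
    Real.sq_sqrt (integral_nonneg fun ω => sq_nonneg _)
  simp only [e]
  have i1 : Integrable (fun p => Φ p ^ 2)
      ((volume.restrict {x : X | |x 2| < δ}).prod μ) :=
    h2.integrable_sq.mono_measure (Measure.prod_mono Measure.restrict_le_self le_rfl)
  have i2 : Integrable (fun p => ∑ i, g i p ^ 2) ((volume : Measure X).prod μ) :=
    integrable_finset_sum _ fun i _ => (h2' i).integrable_sq
  have i3 : Integrable (fun ω => dir fun i x => g i (x, ω)) μ := i2.integral_prod_right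
  rw [integral_integral_swap (f := fun x ω => Φ (x, ω) ^ 2) i1]
  calc ∫ ω, (∫ x in {x : X | |x 2| < δ}, Φ (x, ω) ^ 2) ∂μ
      ≤ ∫ ω, 4 * δ ^ 2 * dir (fun i x => g i (x, ω)) ∂μ := by
        refine integral_mono_of_nonneg
          (Eventually.of_forall fun ω => integral_nonneg fun x => sq_nonneg _) (i3.const_mul _) ?_
        filter_upwards [h, ho] with ω h3 h4
        exact slab_odd h3 h4 h0
    _ = _ := by rw [integral_const_mul]; ring

end Crest.Agent.R335
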