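import Crest.Agent.R335.MDefs
import Crest.Agent.R335.LVan

/-! Row 335. Pairs: the angle and the Euler-Lagrange equation. -/

set_option autoImplicit false

open MeasureTheory Set Filter Topology
open scoped ENNReal

noncomputable section

namespace Crest.Agent.R335

variable {s : X → ℝ} {gr : Fin 3 → X → ℝ}

/-- For two `H¹` functions with `t² + β² = s²`: `s ∇s = t ∇t + β ∇β`. -/
theorem IsPair.grad {t β : X → ℝ} {gt gβ : Fin 3 → X → ℝ} (h : IsPair s t gt β gβ)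
    (hs : H1 eX s gr) (h0 : ∀ x, 0 ≤ s x) :
    ∀ᵐ x, ∀ i, s x * gr i x = t x * gt i x + β x * gβ i x := by
  rw [ae_all_iff]
  intro i
  have h1 := hs.h1l.wd_mul hs.h1l i
  have h2 := (h.ht.h1l.wd_mul h.ht.h1l i).lin (h.hβ.h1l.wd_mul h.hβ.h1l i) 1 1
  have h3 := h2.congr (u' := fun x => s x * s x)
    (by filter_upwards [h.sum] with x hx; nlinarith) EventuallyEq.rfl
  filter_upwards [h1.unique h3] with x hx
  linarith

theorem PrB_pos {w : X → ℝ} (hp : LocPos w) : ∀ᵐ x, 0 < w x := by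
  have h : ∀ n : ℕ, ∀ᵐ x : X, x ∈ Metric.closedBall (0 : X) n → 0 < w x := fun n => by
    obtain ⟨c, hc, h⟩ := hp _ (isCompact_closedBall (0 : X) n)
    filter_upwards [h] with x hx hn using hc.trans_le (hx hn)
  filter_upwards [ae_all_iff.2 h] with x hx
  obtain ⟨n, hn⟩ := exists_nat_ge ‖x‖
  exact hx n (by simpa using hn)

theorem PrB_sin (r : ℝ) : Real.sin (2 * Real.arctan r) = 2 * r / (1 + r ^ 2) := by
  have h : 0 < 1 + r ^ 2 := by positivity
  have h2 : √(1 + r ^ 2) * √(1 + r ^ 2) = 1 + r ^ 2 := Real.mul_self_sqrt h.le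
  have h3 : 0 < √(1 + r ^ 2) := Real.sqrt_pos.2 h
  rw [Real.sin_two_mul, Real.sin_arctan, Real.cos_arctan, mul_assoc, div_mul_div_comm, h2]
  ring

theorem PrB_cos (r : ℝ) : Real.cos (2 * Real.arctan r) = 2 / (1 + r ^ 2) - 1 := by
  rw [Real.cos_two_mul, Real.cos_sq_arctan]
  ring

theorem PrB_ang {s t β : ℝ} (hs : 0 < s) (hβ : 0 ≤ β) (h : t ^ 2 + β ^ 2 = s ^ 2) :
    1 + (t / (s + β)) ^ 2 = 2 * s / (s + β) := by
  have hw : 0 < s + β := by linarith
  field_simp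
  nlinarith

theorem PrB_le {s t β : ℝ} (h : t ^ 2 + β ^ 2 = s ^ 2) : |t| ≤ |s| ∧ |β| ≤ |s| :=
  ⟨sq_le_sq.1 (by nlinarith [sq_nonneg β]), sq_le_sq.1 (by nlinarith [sq_nonneg t])⟩

theorem PrB_J {s t β a b c : ℝ} (hs : 0 < s) (hβ : 0 ≤ β) (h : t ^ 2 + β ^ 2 = s ^ 2)
    (hg : s * c = t * a + β * b) :
    s ^ 2 * (2 * (1 / (1 + (t / (s + β)) ^ 2)) * ((a - t / (s + β) * (c + b)) / (s + β))) =
      β * a - t * b := by
  have hw : 0 < s + β := by linarith
  rw [PrB_ang hs hβ h]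
  field_simp
  linear_combination (-t) * hg - a * h

/-- `θ = 2 arctan (t / (s + β))` (modified on a null set); `H1l.div`, `H1l.comp`. -/
theorem pair_angle (pr : Pair0 s) (hs : H1 eX s gr) (h0 : ∀ x, 0 ≤ s x) (hP : ∀ x, s (P x) = s x)
    (hp : LocPos s) : ∃ (θ : X → ℝ) (gθ : Fin 3 → X → ℝ), H1l eX θ gθ ∧
      (∀ x, 0 ≤ θ x ∧ θ x ≤ Real.pi / 2) ∧ (∀ᵐ x, θ (P x) = θ x) ∧
      (∀ᵐ x, pr.t x = s x * Real.sin (θ x)) ∧ (∀ᵐ x, pr.β x = s x * Real.cos (θ x)) ∧
      (∀ᵐ x, ∀ i, s x ^ 2 * gθ i x = pr.β x * pr.gt i x - pr.t x * pr.gβ i x) ∧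
      ∀ i, MemLp (fun x => s x * gθ i x) 2 volume := by
  have hw : H1l eX (fun x => s x + pr.β x) fun i x => gr i x + pr.gβ i x :=
    (hs.add pr.pair.hβ).h1l
  have hwp : LocPos fun x => s x + pr.β x := fun K hK => by
    obtain ⟨c, hc, h⟩ := hp K hK
    refine ⟨c, hc, ?_⟩
    filter_upwards [h] with x hx hxK
    linarith [hx hxK, pr.β0 x]
  have hts : ∀ᵐ x, pr.t x ≤ s x := by
    filter_upwards [pr.pair.sum] with x hx
    have := (PrB_le hx).1
    rwa [abs_of_nonneg (pr.t0 x), abs_of_nonneg (h0 x)] at this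
  have hu := pr.pair.ht.h1l.div hw hwp (M := 1) (by
    filter_upwards [hts] with x hx
    rw [abs_of_nonneg (pr.t0 x)]
    linarith [pr.β0 x])
  have hc := hu.comp (Φ := fun r => 2 * Real.arctan r) (Φ' := fun r => 2 * (1 / (1 + r ^ 2)))
    (fun r => (Real.hasDerivAt_arctan r).const_mul 2)
    (continuous_const.mul (continuous_const.div (by fun_prop) fun r => by positivity)) (M := 2)
    (fun r => by
      have h1 : 0 < 1 + r ^ 2 := by positivity
      have h2 : 1 / (1 + r ^ 2) ≤ 1 := by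
        rw [div_le_one h1]; nlinarith [sq_nonneg r]
      rw [abs_of_nonneg (by positivity)]
      linarith)
  have hmin : ∀ᵐ x, min (pr.t x / (s x + pr.β x)) 1 = pr.t x / (s x + pr.β x) := by
    filter_upwards [hts, PrB_pos hp] with x hx h1
    refine min_eq_left ?_
    rw [div_le_one (by linarith [pr.β0 x])]
    linarith [pr.β0 x]
  have hJ : ∀ᵐ x, ∀ i, s x ^ 2 * (2 * (1 / (1 + (pr.t x / (s x + pr.β x)) ^ 2)) *
      ((pr.gt i x - pr.t x / (s x + pr.β x) * (gr i x + pr.gβ i x)) / (s x + pr.β x))) =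
      pr.β x * pr.gt i x - pr.t x * pr.gβ i x := by
    filter_upwards [pr.pair.grad hs h0, PrB_pos hp, pr.pair.sum] with x hx h1 h2 i
    exact PrB_J h1 (pr.β0 x) h2 (hx i)
  refine ⟨fun x => 2 * Real.arctan (min (pr.t x / (s x + pr.β x)) 1), _,
    hc.congr ?_ hc.gm ?_ fun i => EventuallyEq.rfl, fun x => ?_, ?_, ?_, ?_, hJ, fun i => ?_⟩
  · exact (Real.continuous_arctan.measurable.comp (hu.m.min measurable_const)).const_mul 2
  · filter_upwards [hmin] with x hx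
    rw [hx]
  · have h1 : 0 ≤ pr.t x / (s x + pr.β x) :=
      div_nonneg (pr.t0 x) (add_nonneg (h0 x) (pr.β0 x))
    have h2 : 0 ≤ Real.arctan (min (pr.t x / (s x + pr.β x)) 1) :=
      Real.arctan_nonneg.2 (le_min h1 zero_le_one)
    have h3 := Real.arctan_mono (min_le_right (pr.t x / (s x + pr.β x)) 1)
    rw [Real.arctan_one] at h3
    constructor <;> linarith
  · refine Eventually.of_forall fun x => ?_
    simp only [pr.tP, pr.βP, hP]
  · filter_upwards [hmin, PrB_pos hp, pr.pair.sum] with x hx h1 h2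
    have h3 : 0 < s x + pr.β x := by linarith [pr.β0 x]
    rw [hx, PrB_sin, PrB_ang h1 (pr.β0 x) h2]
    field_simp
  · filter_upwards [hmin, PrB_pos hp, pr.pair.sum] with x hx h1 h2
    have h3 : 0 < s x + pr.β x := by linarith [pr.β0 x]
    rw [hx, PrB_cos, PrB_ang h1 (pr.β0 x) h2]
    field_simp
    ring
  · refine ((pr.pair.ht.gl2 i).abs.add (pr.pair.hβ.gl2 i).abs).mono'
      (hs.m.mul (hc.gm i)).aestronglyMeasurable ?_
    filter_upwards [hJ, PrB_pos hp, pr.pair.sum] with x hx h1 h2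
    have h3 := hx i
    obtain ⟨h4, h5⟩ := PrB_le h2
    rw [abs_of_pos h1] at h4 h5
    rw [Real.norm_eq_abs]
    refine le_of_mul_le_mul_left ?_ h1
    have h6 : ∀ y, s x * |s x * y| = |s x ^ 2 * y| := fun y => by
      rw [abs_mul, abs_mul, abs_of_pos h1, abs_of_pos (pow_pos h1 2)]; ring
    rw [h6, h3]
    refine (abs_sub _ _).trans ?_
    rw [abs_mul, abs_mul]
    simp only [Pi.add_apply, Pi.abs_apply]
    nlinarith [abs_nonneg (pr.gt i x), abs_nonneg (pr.gβ i x)]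

theorem PrB_sub_sin (y : ℝ) : |y - Real.sin y| ≤ y ^ 2 := by
  rw [← sq_abs]
  rcases le_total |y| 6 with h | h
  · refine (Real.abs_sub_sin_le y).trans ?_
    nlinarith [sq_nonneg |y|]
  · have h1 := abs_sub y (Real.sin y)
    have h2 := Real.abs_sin_le_abs (x := y)
    nlinarith

theorem PrB_mass {t β y l : ℝ} :
    l * (t * Real.cos y + β * Real.sin y) ^ 2 ≤
      l * t ^ 2 + 2 * l * (t * β * y) + 3 * |l| * ((t ^ 2 + β ^ 2) * y ^ 2) := by
  have h1 : (t * Real.cos y + β * Real.sin y) ^ 2 - t ^ 2 - 2 * (t * β * y) =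
      (β ^ 2 - t ^ 2) * Real.sin y ^ 2 - t * β * (2 * y - Real.sin (2 * y)) := by
    rw [Real.sin_two_mul]
    linear_combination t ^ 2 * Real.sin_sq_add_cos_sq y
  have h2 : |(β ^ 2 - t ^ 2) * Real.sin y ^ 2| ≤ (t ^ 2 + β ^ 2) * y ^ 2 := by
    rw [abs_mul, abs_of_nonneg (sq_nonneg (Real.sin y))]
    refine mul_le_mul ?_ Real.sin_sq_le_sq (sq_nonneg _) (by positivity)
    rw [abs_le]
    constructor <;> nlinarith [sq_nonneg t, sq_nonneg β]
  have h3 : |t * β * (2 * y - Real.sin (2 * y))| ≤ (t ^ 2 + β ^ 2) / 2 * (2 * y) ^ 2 := by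
    rw [abs_mul]
    refine mul_le_mul ?_ (PrB_sub_sin _) (abs_nonneg _) (by positivity)
    rw [abs_le]
    constructor <;> nlinarith [sq_nonneg (t + β), sq_nonneg (t - β)]
  have h4 : |(t * Real.cos y + β * Real.sin y) ^ 2 - t ^ 2 - 2 * (t * β * y)| ≤
      3 * ((t ^ 2 + β ^ 2) * y ^ 2) := by
    rw [h1]
    refine (abs_sub _ _).trans ?_
    linarith
  have h5 := le_abs_self (l * ((t * Real.cos y + β * Real.sin y) ^ 2 - t ^ 2 - 2 * (t * β * y)))
  rw [abs_mul] at h5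
  have h6 := mul_le_mul_of_nonneg_left h4 (abs_nonneg l)
  linarith

theorem PrB_rot {s t β a b k σ c d : ℝ} (h : t ^ 2 + β ^ 2 = s ^ 2) (hc : d ^ 2 + c ^ 2 = 1) :
    (a * c + t * (-σ * d * k) + (b * d + β * (σ * c * k))) ^ 2 +
      (b * c + β * (-σ * d * k) - (a * d + t * (σ * c * k))) ^ 2 =
      a ^ 2 + b ^ 2 + 2 * σ * ((β * a - t * b) * k) + σ ^ 2 * (s * k) ^ 2 := by
  linear_combination (a ^ 2 + b ^ 2 + 2 * σ * ((β * a - t * b) * k) +
    σ ^ 2 * k ^ 2 * (t ^ 2 + β ^ 2)) * hc + σ ^ 2 * k ^ 2 * h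

theorem PrB_memLp {s t β : X → ℝ} {gt gβ : Fin 3 → X → ℝ} (h : IsPair s t gt β gβ)
    (hm : Measurable s) : MemLp s 2 volume := by
  refine (h.ht.l2.abs.add h.hβ.l2.abs).mono' hm.aestronglyMeasurable ?_
  filter_upwards [h.sum] with x hx
  simp only [Pi.add_apply, Pi.abs_apply, Real.norm_eq_abs]
  refine abs_le_of_sq_le_sq' ?_ (by positivity) |>.2
  rw [sq_abs, ← hx]
  nlinarith [sq_abs (t x), sq_abs (β x), mul_nonneg (abs_nonneg (t x)) (abs_nonneg (β x))]

theorem PrB_mulk {s u k : X → ℝ} (hu : Measurable u) (hkm : Measurable k)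
    (hle : ∀ᵐ x, |u x| ≤ |s x|) (hk : MemLp (fun x => s x * k x) 2 volume) :
    MemLp (fun x => u x * k x) 2 volume := by
  refine hk.of_le (hu.mul hkm).aestronglyMeasurable ?_
  filter_upwards [hle] with x hx
  rw [Real.norm_eq_abs, Real.norm_eq_abs, abs_mul, abs_mul]
  exact mul_le_mul_of_nonneg_right hx (abs_nonneg _)

theorem PrB_h1 {s u ξ : X → ℝ} {g k : Fin 3 → X → ℝ} (hu : H1 eX u g)
    (hle : ∀ᵐ x, |u x| ≤ |s x|) (hξ : H1l eX ξ k)
    (hk : ∀ i, MemLp (fun x => s x * k i x) 2 volume) {Φ Φ' : ℝ → ℝ}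
    (hΦ : ∀ r, HasDerivAt Φ (Φ' r) r) (hc : Continuous Φ') {L : ℝ} (hL : ∀ r, |Φ' r| ≤ L)
    (h1 : ∀ r, |Φ r| ≤ 1) :
    H1 eX (fun x => u x * Φ (ξ x)) fun i x => g i x * Φ (ξ x) + u x * (Φ' (ξ x) * k i x) := by
  have h := hξ.comp hΦ hc hL
  refine hu.mul_h1l h (M := 1) (Eventually.of_forall fun x => h1 _) fun i => ?_
  refine (PrB_mulk hu.m (hξ.gm i) hle (hk i)).of_le_mul (c := L)
    (hu.m.mul (h.gm i)).aestronglyMeasurable (Eventually.of_forall fun x => ?_)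
  simp only [Real.norm_eq_abs, abs_mul]
  nlinarith [mul_le_mul_of_nonneg_right (hL (ξ x))
    (mul_nonneg (abs_nonneg (u x)) (abs_nonneg (k i x)))]

theorem PrB_int3 {t β ξ : X → ℝ} {M : ℝ} (ht : MemLp t 2 volume) (hβ : MemLp β 2 volume)
    (hξ : Measurable ξ) (hM : ∀ᵐ x, |ξ x| ≤ M) : Integrable fun x => t x * β x * ξ x :=
  (ht.integrable_mul hβ).mul_bdd (c := M) hξ.aestronglyMeasurable hM

theorem PrB_sMξ {s ξ : X → ℝ} {M : ℝ} (hs : MemLp s 2 volume) (hm : Measurable s)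
    (hξ : Measurable ξ) (hM : ∀ᵐ x, |ξ x| ≤ M) : MemLp (fun x => s x * ξ x) 2 volume := by
  refine hs.of_le_mul (c := M) (hm.mul hξ).aestronglyMeasurable ?_
  filter_upwards [hM] with x hx
  simp only [Real.norm_eq_abs, abs_mul]
  nlinarith [abs_nonneg (s x)]

/-- Rotate: `t_σ = t cos (σ ξ) + β sin (σ ξ)`, `β_σ = β cos (σ ξ) - t sin (σ ξ)` is a pair
(`H1.mul_h1l`, `H1l.comp`; `|β_σ| ≤ |β| + |σ| |s ξ|`), its energy is
`E + 2 σ ∫ (β ∇t - t ∇β)·∇ξ + σ² ∫ s² |∇ξ|²`, its mass is `2 + 2 σ ∫ t β ξ + O(σ²)`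
(`t_σ² - t² = (β² - t²) sin² (σ ξ) + t β sin (2 σ ξ)`). -/
theorem pair_el (pr : Pair0 s) (hm : Measurable s) {ξ : X → ℝ} {k : Fin 3 → X → ℝ} {M : ℝ}
    (hξ : H1l eX ξ k) (hM : ∀ᵐ x, |ξ x| ≤ M) (hk : ∀ i, MemLp (fun x => s x * k i x) 2 volume)
    (hv : Van fun x => s x * ξ x) :
    ∫ x, (gd (fun i x => pr.β x * pr.gt i x - pr.t x * pr.gβ i x) k x +
      2 * pr.lam * (pr.t x * pr.β x * ξ x)) = 0 := by
  have hts : ∀ᵐ x, |pr.t x| ≤ |s x| := pr.pair.sum.mono fun x hx => (PrB_le hx).1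
  have hβs : ∀ᵐ x, |pr.β x| ≤ |s x| := pr.pair.sum.mono fun x hx => (PrB_le hx).2
  have ht := pr.pair.ht
  have hβ := pr.pair.hβ
  have hs2 := PrB_memLp pr.pair hm
  have hsξ := PrB_sMξ hs2 hm hξ.m hM
  have iJ : Integrable (gd (fun i x => pr.β x * pr.gt i x - pr.t x * pr.gβ i x) k) := by
    refine integrable_finsetSum Finset.univ fun i _ => ?_
    refine (((ht.gl2 i).integrable_mul (PrB_mulk hβ.m (hξ.gm i) hβs (hk i))).sub
      ((hβ.gl2 i).integrable_mul (PrB_mulk ht.m (hξ.gm i) hts (hk i)))).congr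
      (Eventually.of_forall fun x => ?_)
    simp only [Pi.sub_apply, Pi.mul_apply]
    ring
  have i3 := PrB_int3 ht.l2 hβ.l2 hξ.m hM
  have iF := iJ.add (i3.const_mul (2 * pr.lam))
  have iG : Integrable fun x => (∑ i, (s x * k i x) ^ 2) + 6 * |pr.lam| * (s x * ξ x) ^ 2 :=
    (integrable_finsetSum Finset.univ fun i _ => (hk i).integrable_sq).add
      (hsξ.integrable_sq.const_mul _)
  have key : ∀ σ : ℝ, 0 ≤
      (∫ x, ((∑ i, (s x * k i x) ^ 2) + 6 * |pr.lam| * (s x * ξ x) ^ 2)) * (σ * σ) +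
      2 * (∫ x, (gd (fun i x => pr.β x * pr.gt i x - pr.t x * pr.gβ i x) k x +
        2 * pr.lam * (pr.t x * pr.β x * ξ x))) * σ + 0 := by
    intro σ
    have dc : ∀ r, HasDerivAt (fun r => Real.cos (σ * r)) (-σ * Real.sin (σ * r)) r := fun r => by
      have := ((hasDerivAt_id r).const_mul σ).cos
      simp only [id, mul_one] at this
      exact this.congr_deriv (by ring)
    have ds : ∀ r, HasDerivAt (fun r => Real.sin (σ * r)) (σ * Real.cos (σ * r)) r := fun r => by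
      have := ((hasDerivAt_id r).const_mul σ).sin
      simp only [id, mul_one] at this
      exact this.congr_deriv (by ring)
    have bc : ∀ r, |-σ * Real.sin (σ * r)| ≤ |σ| := fun r => by
      rw [abs_mul, abs_neg]
      exact mul_le_of_le_one_right (abs_nonneg _) (Real.abs_sin_le_one _)
    have bs : ∀ r, |σ * Real.cos (σ * r)| ≤ |σ| := fun r => by
      rw [abs_mul]
      exact mul_le_of_le_one_right (abs_nonneg _) (Real.abs_cos_le_one _)
    have tc := PrB_h1 ht hts hξ hk dc (by fun_prop) bc fun r => Real.abs_cos_le_one _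
    have td := PrB_h1 ht hts hξ hk ds (by fun_prop) bs fun r => Real.abs_sin_le_one _
    have βc := PrB_h1 hβ hβs hξ hk dc (by fun_prop) bc fun r => Real.abs_cos_le_one _
    have βd := PrB_h1 hβ hβs hξ hk ds (by fun_prop) bs fun r => Real.abs_sin_le_one _
    have hn := tc.add βd
    have hb := βc.sub td
    have v1 : Van fun x => pr.β x * Real.cos (σ * ξ x) :=
      pr.pair.van.mono hβ.l2 (C := 1) (Eventually.of_forall fun x => by
        rw [abs_mul, one_mul]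
        exact mul_le_of_le_one_right (abs_nonneg _) (Real.abs_cos_le_one _))
    have v2 : Van fun x => -(pr.t x * Real.sin (σ * ξ x)) :=
      hv.mono hsξ (C := |σ|) (by
        filter_upwards [hts] with x hx
        have h1 := Real.abs_sin_le_abs (x := σ * ξ x)
        rw [abs_mul] at h1
        rw [abs_neg, abs_mul, abs_mul]
        calc _ ≤ |s x| * (|σ| * |ξ x|) := mul_le_mul hx h1 (abs_nonneg _) (abs_nonneg _)
          _ = _ := by ring)
    have v3 : Van fun x => pr.β x * Real.cos (σ * ξ x) - pr.t x * Real.sin (σ * ξ x) := by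
      simpa only [sub_eq_add_neg] using v1.add v2 βc.l2 td.l2.neg
    have hmin := pr.min _ _ _ _ ⟨hn, hb, v3, by
      filter_upwards [pr.pair.sum] with x hx
      linear_combination hx + (pr.t x ^ 2 + pr.β x ^ 2) * Real.sin_sq_add_cos_sq (σ * ξ x)⟩
    have hmass := pr.mass
    have iR := (((ht.integrable_gs.add hβ.integrable_gs).add
      (ht.integrable_sq.const_mul (2 * pr.lam))).add (iF.const_mul (2 * σ))).add
      (iG.const_mul (σ ^ 2))
    have iL := (hn.integrable_gs.add hb.integrable_gs).add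
      (hn.integrable_sq.const_mul (2 * pr.lam))
    have hle := integral_mono_ae iL iR (by
      filter_upwards [pr.pair.sum] with x hx
      have h1 := fun i => PrB_rot (a := pr.gt i x) (b := pr.gβ i x) (k := k i x) (σ := σ) hx
        (Real.sin_sq_add_cos_sq (σ * ξ x))
      have h2 := PrB_mass (t := pr.t x) (β := pr.β x) (y := σ * ξ x) (l := pr.lam)
      rw [hx] at h2
      simp only [Pi.add_apply, gs, gd, Fin.sum_univ_three]
      linarith [h1 0, h1 1, h1 2])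
    rw [integral_add' (hn.integrable_gs.add hb.integrable_gs)
        (hn.integrable_sq.const_mul (2 * pr.lam)),
      integral_add' hn.integrable_gs hb.integrable_gs,
      integral_add' (((ht.integrable_gs.add hβ.integrable_gs).add
        (ht.integrable_sq.const_mul (2 * pr.lam))).add (iF.const_mul (2 * σ)))
        (iG.const_mul (σ ^ 2)),
      integral_add' ((ht.integrable_gs.add hβ.integrable_gs).add
        (ht.integrable_sq.const_mul (2 * pr.lam))) (iF.const_mul (2 * σ)),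
      integral_add' (ht.integrable_gs.add hβ.integrable_gs)
        (ht.integrable_sq.const_mul (2 * pr.lam)),
      integral_add' ht.integrable_gs hβ.integrable_gs, integral_const_mul, integral_const_mul,
      integral_const_mul, integral_const_mul] at hle
    simp only [Pi.add_apply] at hle
    simp only [dir, nsq] at hmin hmass
    rw [hmass] at hle
    linarith
  have h := discrim_le_zero key
  rw [discrim] at h
  nlinarith

theorem pair1_exists (pr : Pair0 s) (hs : H1 eX s gr) (h0 : ∀ x, 0 ≤ s x)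
    (hP : ∀ x, s (P x) = s x) (hp : LocPos s) : ∃ pr' : Pair1 s, pr'.toPair0 = pr := by
  obtain ⟨θ, gθ, h1, h2, h3, h4, h5, h6, h7⟩ := pair_angle pr hs h0 hP hp
  refine ⟨⟨pr, θ, gθ, h1, h2, h3, h4, h5, h6, h7, fun ξ k M hξ hM hk hv => ?_⟩, rfl⟩
  rw [← pair_el pr hs.m hξ hM hk hv]
  refine integral_congr_ae ?_
  filter_upwards [h6] with x hx
  simp only [gd, Fin.sum_univ_three, ← hx]
  ring

theorem Pair1.integrable_el (pr : Pair1 s) (hm : Measurable s) {ξ : X → ℝ} {k : Fin 3 → X → ℝ}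
    {M : ℝ} (hξ : H1l eX ξ k) (hM : ∀ᵐ x, |ξ x| ≤ M)
    (hk : ∀ i, MemLp (fun x => s x * k i x) 2 volume) :
    Integrable (fun x => s x ^ 2 * gd pr.gθ k x) ∧
      Integrable fun x => pr.t x * pr.β x * ξ x := by
  refine ⟨?_, PrB_int3 pr.pair.ht.l2 pr.pair.hβ.l2 hξ.m hM⟩
  refine (integrable_finsetSum Finset.univ fun i _ => (pr.J2 i).integrable_mul (hk i)).congr
    (Eventually.of_forall fun x => ?_)
  simp only [gd, Fin.sum_univ_three, Pi.mul_apply]
  ring

/-- The equation for bounded tests with compact support which vanish near the plane or where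
`θ ≥ 1` (`|s ξ| ≤ M β / cos 1` there). -/
theorem Pair1.el_c (pr : Pair1 s) (hm : Measurable s) (h0 : ∀ x, 0 ≤ s x) {B : ℝ}
    (hB : ∀ᵐ x, s x ≤ B) {ξ : X → ℝ} {k : Fin 3 → X → ℝ} {M : ℝ} {K : Set X} (hξ : H1l eX ξ k)
    (hK : IsCompact K) (hM : ∀ᵐ x, |ξ x| ≤ M) (hK0 : ∀ᵐ x, x ∉ K → ξ x = 0)
    (hv : (∀ x ∈ K, x 2 ≠ 0) ∨ ∀ᵐ x, 1 ≤ pr.θ x → ξ x = 0) :
    Integrable (fun x => s x ^ 2 * gd pr.gθ k x) ∧
      Integrable (fun x => pr.t x * pr.β x * ξ x) ∧
      ∫ x, (s x ^ 2 * gd pr.gθ k x + 2 * pr.lam * (pr.t x * pr.β x * ξ x)) = 0 := by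
  have hk : ∀ i, MemLp (fun x => s x * k i x) 2 volume := fun i => by
    refine ((memLp_indicator_iff_restrict hK.measurableSet).2 (hξ.gl2 i K hK)).of_le_mul (c := B)
      (hm.mul (hξ.gm i)).aestronglyMeasurable ?_
    filter_upwards [hB, hK0, hξ.grad_zero] with x h1 h2 h3
    by_cases hx : x ∈ K
    · rw [indicator_of_mem hx, norm_mul, Real.norm_of_nonneg (h0 x)]
      exact mul_le_mul_of_nonneg_right h1 (norm_nonneg _)
    · simp [indicator_of_notMem hx, h3 (h2 hx) i]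
  have hV : Van fun x => s x * ξ x := by
    rcases hv with hv | hv
    · obtain ⟨δ, hδ, h⟩ := hK.exists_forall_le' (f := fun x : X => |x 2|) (a := 0)
        (Continuous.continuousOn (by fun_prop)) fun x hx => abs_pos.2 (hv x hx)
      refine van_of_zero (PrB_sMξ (PrB_memLp pr.pair hm) hm hξ.m hM) hδ ?_
      filter_upwards [hK0] with x hx h1
      rw [hx fun h2 => (h x h2).not_gt h1, mul_zero]
    · refine pr.pair.van.mono pr.pair.hβ.l2 (C := M / Real.cos 1) ?_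
      filter_upwards [hv, hM, pr.cos] with x h1 h2 h3
      have hM0 : 0 ≤ M := (abs_nonneg _).trans h2
      have hc := Real.cos_one_pos
      rcases le_or_gt 1 (pr.θ x) with h4 | h4
      · rw [h1 h4, mul_zero, abs_zero]
        positivity
      · have h5 : Real.cos 1 ≤ Real.cos (pr.θ x) :=
          Real.cos_le_cos_of_nonneg_of_le_pi (pr.θ0 x).1 (by linarith [Real.pi_gt_three]) h4.le
        rw [abs_mul, abs_of_nonneg (h0 x), abs_of_nonneg (pr.β0 x), h3, div_mul_eq_mul_div,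
          le_div_iff₀ hc]
        calc _ = s x * (|ξ x| * Real.cos 1) := by ring
          _ ≤ s x * (M * Real.cos (pr.θ x)) :=
            mul_le_mul_of_nonneg_left (mul_le_mul h2 h5 hc.le hM0) (h0 x)
          _ = _ := by ring
  obtain ⟨h1, h2⟩ := pr.integrable_el hm hξ hM hk
  exact ⟨h1, h2, pr.el ξ k M hξ hM hk hV⟩

/-- The hypothesis of `mp` (`t β ≤ s² θ`). -/
theorem Pair1.mp_hyp (pr : Pair1 s) (hm : Measurable s) (h0 : ∀ x, 0 ≤ s x) {B : ℝ}
    (hB : ∀ᵐ x, s x ≤ B) (hl : 0 ≤ pr.lam) {ξ : X → ℝ} {k : Fin 3 → X → ℝ} {M : ℝ} {K : Set X}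
    (hξ : H1l eX ξ k) (hK : IsCompact K) (hM : ∀ᵐ x, 0 ≤ ξ x ∧ ξ x ≤ M)
    (hK0 : ∀ᵐ x, x ∉ K → ξ x = 0) (hv : ∀ᵐ x, 1 ≤ pr.θ x → ξ x = 0) :
    0 ≤ ∫ x, (s x ^ 2 * gd pr.gθ k x + 2 * pr.lam * (s x ^ 2 * pr.θ x * ξ x)) := by
  have hM' : ∀ᵐ x, |ξ x| ≤ M := hM.mono fun x hx => by rw [abs_of_nonneg hx.1]; exact hx.2
  obtain ⟨h1, h2, h3⟩ := pr.el_c hm h0 hB hξ hK hM' hK0 (Or.inr hv)
  have h4 : Integrable fun x => s x ^ 2 * pr.θ x * ξ x :=
    (((PrB_memLp pr.pair hm).integrable_sq.mul_bdd (c := Real.pi / 2)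
      pr.hθ.m.aestronglyMeasurable (Eventually.of_forall fun x => by
        rw [Real.norm_of_nonneg (pr.θ0 x).1]; exact (pr.θ0 x).2))).mul_bdd (c := M)
      hξ.m.aestronglyMeasurable hM'
  rw [← h3]
  refine integral_mono_ae (h1.add (h2.const_mul _)) (h1.add (h4.const_mul _)) ?_
  filter_upwards [pr.sin, pr.cos, hM] with x h5 h6 h7
  have h8 : Real.sin (pr.θ x) * Real.cos (pr.θ x) ≤ pr.θ x :=
    (mul_le_of_le_one_right (Real.sin_nonneg_of_nonneg_of_le_pi (pr.θ0 x).1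
      (by linarith [(pr.θ0 x).2, Real.pi_pos])) (Real.cos_le_one _)).trans
      (Real.sin_le (pr.θ0 x).1)
  have h9 : pr.t x * pr.β x ≤ s x ^ 2 * pr.θ x := by
    rw [h5, h6]
    nlinarith [mul_le_mul_of_nonneg_left h8 (sq_nonneg (s x))]
  have h10 := mul_le_mul_of_nonneg_left (mul_le_mul_of_nonneg_right h9 h7.1) hl
  linarith

theorem Pair1.t_ge (pr : Pair1 s) (h0 : ∀ x, 0 ≤ s x) :
    ∀ᵐ x, s x * pr.θ x ≤ 2 * pr.t x ∧ pr.t x ≤ s x * pr.θ x ∧ pr.t x ≤ s x ∧ pr.β x ≤ s x := by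
  filter_upwards [pr.sin, pr.cos] with x h1 h2
  obtain ⟨h3, h4⟩ := pr.θ0 x
  have h5 : pr.θ x ≤ 2 * Real.sin (pr.θ x) := by
    have h6 := Real.mul_le_sin h3 h4
    have h7 : 1 / 2 ≤ 2 / Real.pi := by
      rw [div_le_div_iff₀ two_pos Real.pi_pos]
      linarith [Real.pi_le_four]
    nlinarith
  rw [h1, h2]
  refine ⟨?_, mul_le_mul_of_nonneg_left (Real.sin_le h3) (h0 x),
    mul_le_of_le_one_right (h0 x) (Real.sin_le_one _),
    mul_le_of_le_one_right (h0 x) (Real.cos_le_one _)⟩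
  nlinarith [mul_le_mul_of_nonneg_left h5 (h0 x)]

end Crest.Agent.R335
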