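import Crest.Agent.R335.PrA
import Crest.Agent.R335.PrB
import Crest.Agent.R335.StA
import Crest.Agent.R335.LMP

/-! Row 335. The pair of a small coupling constant. -/

set_option autoImplicit false

open MeasureTheory Set Filter Topology
open scoped ENNReal

noncomputable section

namespace Crest.Agent.R335

variable {c : ℝ} {o : One c} {C ε : ℝ}

/-- `mp` with `r = 1`, `S` a large ball which contains a set of positive measure where `θ ≥ a`
(`nsq t = 2`), uniformly for the centres `x₀` in the compact set; `ae_of_local`. -/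
theorem Pair1.t_locpos {s : X → ℝ} (pr : Pair1 s) (hm : Measurable s) (h0 : ∀ x, 0 ≤ s x) {B : ℝ}
    (hB : ∀ᵐ x, s x ≤ B) (hp : LocPos s) (hl : 0 ≤ pr.lam) (hl1 : pr.lam ≤ 1) : LocPos pr.t := by
  intro K hK
  obtain ⟨j, hj⟩ : ∃ j : ℕ, volume {x : X | ‖x‖ < j ∧ 1 / ((j : ℝ) + 1) ≤ pr.θ x} ≠ 0 := by
    by_contra hc
    push Not at hc
    have h1 : ∀ᵐ x : X, ∀ j : ℕ, ¬(‖x‖ < j ∧ 1 / ((j : ℝ) + 1) ≤ pr.θ x) :=
      ae_all_iff.2 fun j => by simpa only [ae_iff, not_not] using hc j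
    have h2 : nsq pr.t = ∫ _ : X, (0 : ℝ) := integral_congr_ae (by
      filter_upwards [h1, pr.sin] with x hx hs
      have h3 : pr.θ x = 0 := by
        by_contra h4
        have h5 : 0 < pr.θ x := lt_of_le_of_ne (pr.θ0 x).1 (Ne.symm h4)
        obtain ⟨j, hj1, hj2⟩ := ((tendsto_natCast_atTop_atTop.eventually_gt_atTop ‖x‖).and
          (tendsto_one_div_add_atTop_nhds_zero_nat.eventually_le_const h5)).exists
        exact hx j ⟨hj1, hj2⟩
      simp [hs, h3])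
    have h3 := pr.mass
    simp [h2] at h3
  obtain ⟨R₀, hR₀⟩ := hK.isBounded.subset_closedBall 0
  obtain ⟨R, hR1, hR2, hR3⟩ : ∃ R : ℝ, R₀ + 2 ≤ R ∧ (j : ℝ) ≤ R ∧ 0 ≤ R :=
    ⟨max (R₀ + 2) j, le_max_left _ _, le_max_right _ _,
      (Nat.cast_nonneg j).trans (le_max_right _ _)⟩
  obtain ⟨m, hm0, hm1⟩ := hp (Metric.closedBall 0 (R + 1)) (isCompact_closedBall _ _)
  have hμ : 0 < volume.real {x : X | x ∈ Metric.ball (0 : X) R ∧ 1 / ((j : ℝ) + 1) ≤ pr.θ x} := by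
    refine ENNReal.toReal_pos (fun h => hj (measure_mono_null (fun x hx => ?_) h))
      ((measure_mono fun x hx => hx.1).trans_lt measure_ball_lt_top).ne
    exact ⟨mem_ball_zero_iff.2 (hx.1.trans_le hR2), hx.2⟩
  obtain ⟨c, hc, hmp⟩ := mp (max 1 (B ^ 2 / m ^ 2)) _ (2 * R) (le_max_left _ _) hμ
  have ha : 0 < 1 / ((j : ℝ) + 1) := by positivity
  have key : ∀ᵐ x, x ∈ K → c * (1 / ((j : ℝ) + 1)) ≤ pr.θ x := ae_of_local fun x₀ hx₀ => by
    refine ⟨1, one_pos, hmp pr.θ (fun x => s x ^ 2) pr.gθ (Metric.ball 0 R) x₀ 1 (m ^ 2) pr.lam _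
      one_pos (by positivity) hl (by simpa using hl1) ha
      (div_le_one_of_le₀ (by simp) (by positivity)) (convex_ball _ _) measurableSet_ball
      (fun x hx y hy => ?_) (fun x hx => ?_) pr.hθ (ae_of_all _ fun x => (pr.θ0 x).1)
      (hm.pow_const 2) ?_ (fun ξ k M K' hξ hK' _ hM hK0 hv => pr.mp_hyp hm h0 hB hl hξ hK' hM hK0 hv)
      (by simp)⟩
    · linarith [dist_triangle_right x y 0, Metric.mem_ball.1 hx, Metric.mem_ball.1 hy]
    · have := Metric.mem_closedBall.1 (hR₀ hx₀)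
      exact Metric.mem_ball.2 (by linarith [dist_triangle x x₀ 0, Metric.mem_ball.1 hx])
    · filter_upwards [hm1, hB] with x h1 h2 hx
      obtain ⟨y, hy, hxy⟩ := Metric.mem_thickening_iff.1 hx
      have h3 := h1 (Metric.mem_closedBall.2
        (by linarith [dist_triangle x y 0, Metric.mem_ball.1 hy]))
      refine ⟨pow_le_pow_left₀ hm0.le h3 2, (pow_le_pow_left₀ (h0 x) h2 2).trans ?_⟩
      rw [← div_le_iff₀ (by positivity)]
      exact le_max_right _ _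
  refine ⟨m * (c * (1 / ((j : ℝ) + 1))) / 2, by positivity, ?_⟩
  filter_upwards [key, hm1, pr.t_ge h0] with x h1 h2 h3 hx
  have h4 := h2 (Metric.closedBall_subset_closedBall (by linarith) (hR₀ hx))
  have h5 := mul_le_mul h4 (h1 hx) (by positivity) (h0 x)
  linarith [h3.1]

theorem PrC_P2 (x : X) : P x 2 = -x 2 := rfl

theorem PrC_odd {u w : X → ℝ} (h : ∀ᵐ x, u (P x) * w (P x) = -(u x * w x)) : ip u w = 0 := by
  have h1 := integral_P fun x => u x * w x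
  rw [integral_congr_ae h, integral_neg] at h1
  unfold ip
  linarith

theorem PrC_b_nonneg (o : One c) {x : X} (h : 0 ≤ x 2) : 0 ≤ o.b x := by
  obtain ⟨c', hc, h1⟩ := o.bpos ‖x‖
  exact (mul_nonneg hc.le h).trans (h1 x le_rfl h)

theorem PrC_close {D e κ : ℝ} {w u : X → ℝ} {gw g : Fin 3 → X → ℝ} (hw : H1 eX w gw)
    (he : Eig eX (V D) e w gw) (nw : nsq w = 1) (e0 : e ≤ 0) (hu : H1 eX u g) (hκ : 0 < κ)
    (nu : nsq u = κ ^ 2) (h0 : 0 ≤ ip w u) :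
    nsq (fun x => u x - κ * w x) ≤ 2 * (κ ^ 2 - ip w u ^ 2) ∧
      dir (fun i x => g i x - κ * gw i x) ≤
        4 * (qf (V D) u g - κ ^ 2 * e + 32 * (κ ^ 2 - ip w u ^ 2)) := by
  have e1 : (fun x => u x - κ * w x) = fun x => -κ * w x + 1 * u x := by funext x; ring
  have e2 : (fun i x => g i x - κ * gw i x) = fun i x => -κ * gw i x + 1 * g i x := by
    funext i x; ring
  have h1 := nsq_lin hw.l2 hu.l2 (-κ) 1
  have h2 := (fb_V D).qf_lin hw hu (-κ) 1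
  have h3 := (fb_V D).dir_le (hw.lin hu (-κ) 1)
  have h4 := he w gw hw
  have h5 : ip w w = 1 := by rw [← nw]; simp only [ip, nsq, sq]
  have h6 := ip_sq_le hw.l2 hu.l2
  rw [nw, nu, one_mul] at h6
  have h7 : ip w u ≤ κ := (pow_le_pow_iff_left₀ h0 hκ.le two_ne_zero).1 h6
  rw [bf_self, h5] at h4
  rw [he u g hu, h4] at h2
  rw [nw, nu] at h1
  rw [e1, e2]
  have h8 : nsq (fun x => -κ * w x + 1 * u x) ≤ 2 * (κ ^ 2 - ip w u ^ 2) := by
    rw [h1]; nlinarith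
  refine ⟨h8, h3.trans ?_⟩
  have h9 : e * (κ * (κ - ip w u)) ≤ 0 :=
    mul_nonpos_of_nonpos_of_nonneg e0 (mul_nonneg hκ.le (by linarith))
  rw [h2]
  nlinarith

theorem PrC_real {g ea eb c A B q1 q2 μ : ℝ} (hg : 0 < g) (hgd : g = eb - ea)
    (g1 : ea * 2 + (eb - ea) * 0 ^ 2 + c * (2 - A ^ 2 - 0 ^ 2) ≤ q1)
    (g2 : ea * 1 + (eb - ea) * B ^ 2 + c * (1 - 0 ^ 2 - B ^ 2) ≤ q2)
    (hq : q1 + q2 ≤ 2 * ea + eb + μ) (c1 : g * (2 - A ^ 2) ≤ c * (2 - A ^ 2))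
    (c2 : 2 * g * (1 - B ^ 2) ≤ c * (1 - B ^ 2)) (c3 : 0 ≤ g * (2 - A ^ 2))
    (c4 : 0 ≤ g * (1 - B ^ 2)) :
    2 - A ^ 2 ≤ μ / g ∧ 1 - B ^ 2 ≤ μ / g ∧ q1 - 2 * ea ≤ μ ∧ q2 - eb ≤ μ ∧ 0 ≤ μ := by
  obtain rfl : eb = g + ea := by linarith
  refine ⟨?_, ?_, ?_, ?_, ?_⟩
  · rw [le_div_iff₀ hg]; linarith
  · rw [le_div_iff₀ hg]; linarith
  · linarith
  · linarith
  · linarith

/-- With `b = sign(z) β` (`H1.sgn`; odd, `nsq b = 1`): `qf V t + qf V b ≤ 2 ea + eb + μ`.  By `gap`,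
`qf V t ≥ 2 ea + c (2 - ⟨a, t⟩²)` and `qf V b ≥ eb + (c - g) (1 - ⟨o.b, b⟩²)`, `c - g ≥ g`; the
scalar products are nonnegative.  For the gradients: `(qf + 16 nsq) (t - √2 a)` is computed with
`eiga` (`FB.qf_lin`, `FB.dir_le`). -/
theorem pair_close (o : One c) : ∃ C₁ : ℝ, 0 < C₁ ∧ ∀ (s : X → ℝ) (pr : Pair0 s) (μ : ℝ),
    nsq s = 3 → (dir pr.gt + dir pr.gβ) / 2 + ∫ x, V o.D x * s x ^ 2 ≤ 2 * o.ea + o.eb + μ →
    nsq (fun x => pr.t x - √2 * o.a x) ≤ C₁ * μ ∧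
      dir (fun i x => pr.gt i x - √2 * o.ga i x) ≤ C₁ * μ ∧
      nsq (fun x => (if 0 < x 2 then pr.β x else -pr.β x) - o.b x) ≤ C₁ * μ ∧
      dir (fun i x => (if 0 < x 2 then pr.gβ i x else -pr.gβ i x) - o.gb i x) ≤ C₁ * μ := by
  have hg := o.g_pos
  refine ⟨4 + 130 / o.g, by positivity, fun s pr μ hs he => ?_⟩
  have ht := pr.pair.ht
  have hβ := pr.pair.hβ
  have hb := hβ.sgn pr.pair.van
  set b : X → ℝ := fun x => if 0 < x 2 then pr.β x else -pr.β x with hbd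
  set gb : Fin 3 → X → ℝ := fun i x => if 0 < x 2 then pr.gβ i x else -pr.gβ i x with hgb
  have hb2 : ∀ x, b x ^ 2 = pr.β x ^ 2 := fun x => by simp only [hbd]; split_ifs <;> ring
  have hnb : nsq b = 1 := by
    have h1 : nsq s = ∫ x, (pr.t x ^ 2 + b x ^ 2) :=
      integral_congr_ae (pr.pair.sum.mono fun x hx => by simp only [hb2, hx])
    rw [integral_add ht.integrable_sq hb.integrable_sq, hs] at h1
    have h2 := pr.mass
    unfold nsq at h2 ⊢
    linarith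
  have hdb : dir gb = dir pr.gβ := by
    unfold dir gs
    congr 1
    funext x
    refine Finset.sum_congr rfl fun i _ => ?_
    simp only [hgb]
    split_ifs <;> ring
  have hq : qf (V o.D) pr.t pr.gt + qf (V o.D) b gb ≤ 2 * o.ea + o.eb + μ := by
    have h1 : ∫ x, V o.D x * s x ^ 2 = ∫ x, (V o.D x * pr.t x ^ 2 + V o.D x * b x ^ 2) :=
      integral_congr_ae (pr.pair.sum.mono fun x hx => by simp only [hb2, ← hx]; ring)
    rw [integral_add ((fb_V _).int _ _ ht) ((fb_V _).int _ _ hb)] at h1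
    unfold qf
    rw [hdb]
    linarith
  have o1 : ip o.b pr.t = 0 := PrC_odd (ae_of_all _ fun x => by rw [o.bP, pr.tP]; ring)
  have o2 : ip o.a b = 0 := PrC_odd (ae_two_ne.mono fun x hx => by
    simp only [hbd, o.aP, pr.βP, PrC_P2]
    rcases lt_or_gt_of_ne hx with h | h
    · rw [if_pos (by linarith), if_neg (by linarith)]; ring
    · rw [if_neg (by linarith), if_pos h]; ring)
  have g1 := o.gap _ _ ht
  have g2 := o.gap _ _ hb
  rw [o1, pr.mass] at g1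
  rw [o2, hnb] at g2
  have A0 : 0 ≤ ip o.a pr.t := integral_nonneg fun x => mul_nonneg (o.apos x).le (pr.t0 x)
  have B0 : 0 ≤ ip o.b b := integral_nonneg fun x => by
    simp only [hbd, Pi.zero_apply]
    split_ifs with h
    · exact mul_nonneg (PrC_b_nonneg o h.le) (pr.β0 x)
    · have := PrC_b_nonneg o (x := P x) (by rw [PrC_P2]; linarith)
      rw [o.bP] at this
      nlinarith [pr.β0 x]
  have A1 := ip_sq_le o.ha.l2 ht.l2
  have B1 := ip_sq_le o.hb.l2 hb.l2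
  rw [o.na, pr.mass] at A1
  rw [o.nb, hnb] at B1
  have hea : o.ea ≤ -(49 / 100) := by linarith [(abs_le.1 o.ea_near).2]
  have hc := o.g2
  have hgd : o.g = o.eb - o.ea := rfl
  obtain ⟨a1, a2⟩ := PrC_close o.ha o.eiga o.na (by linarith) ht (κ := √2) (by positivity)
    (by rw [pr.mass, Real.sq_sqrt zero_le_two]) A0
  obtain ⟨b1, b2⟩ := PrC_close o.hb o.eigb o.nb (by linarith [o.gsm]) hb (κ := 1) one_pos
    (by rw [hnb, one_pow]) B0
  simp only [one_mul, one_pow, Real.sq_sqrt zero_le_two] at a1 a2 b1 b2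
  have c1 : o.g * (2 - ip o.a pr.t ^ 2) ≤ c * (2 - ip o.a pr.t ^ 2) :=
    mul_le_mul_of_nonneg_right (by linarith) (by linarith)
  have c2 : 2 * o.g * (1 - ip o.b b ^ 2) ≤ c * (1 - ip o.b b ^ 2) :=
    mul_le_mul_of_nonneg_right (by linarith) (by linarith)
  have c3 : 0 ≤ o.g * (2 - ip o.a pr.t ^ 2) := mul_nonneg hg.le (by linarith)
  have c4 : 0 ≤ o.g * (1 - ip o.b b ^ 2) := mul_nonneg hg.le (by linarith)
  obtain ⟨d1, d2, d3, d4, d5⟩ := PrC_real hg hgd g1 g2 hq c1 c2 c3 c4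
  have d6 : 0 ≤ μ / o.g := by positivity
  have e : (4 + 130 / o.g) * μ = 4 * μ + 130 * (μ / o.g) := by ring
  rw [e]
  exact ⟨by linarith, by linarith, by linarith, by linarith⟩

theorem PrC_comp {u : X → ℝ} {g : Fin 3 → X → ℝ} (h : H1 eX u g) (i : Fin 3) :
    nsq (g i) ≤ dir g :=
  integral_mono (h.gl2 i).integrable_sq h.integrable_gs fun x =>
    Finset.single_le_sum (f := fun i => g i x ^ 2) (fun _ _ => sq_nonneg _) (Finset.mem_univ i)

theorem PrC_bil {p q h : X → ℝ} {L μ N : ℝ} (hp : MemLp p 2 volume) (hq : MemLp q 2 volume)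
    (hh : Continuous h) (hL : ∀ x, |h x| ≤ L) (h1 : nsq p ≤ μ) (h2 : nsq q ≤ N) :
    |∫ x, p x * (h x * q x)| ≤ L * √N * √μ := by
  have hq' := LWD_memLp_mul hq hh hL
  have L0 : 0 ≤ L := (abs_nonneg _).trans (hL 0)
  have a1 := ip_sq_le hp hq'
  have a2 : nsq (fun x => h x * q x) ≤ L ^ 2 * N := by
    refine le_trans ?_ (mul_le_mul_of_nonneg_left h2 (sq_nonneg L))
    rw [nsq, nsq, ← integral_const_mul]
    refine integral_mono hq'.integrable_sq (hq.integrable_sq.const_mul _) fun x => ?_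
    simp only [mul_pow]
    exact mul_le_mul_of_nonneg_right (sq_le_sq' (abs_le.1 (hL x)).1 (abs_le.1 (hL x)).2)
      (sq_nonneg _)
  have μ0 : 0 ≤ μ := (nsq_nonneg p).trans h1
  refine (Real.abs_le_sqrt (a1.trans (mul_le_mul h1 a2 (nsq_nonneg _) μ0))).trans_eq ?_
  rw [Real.sqrt_mul μ0, Real.sqrt_mul (sq_nonneg L), Real.sqrt_sq L0, mul_comm]

theorem PrC_tri {p p' q q' h : X → ℝ} {L μ N : ℝ} (hp : MemLp p 2 volume)
    (hp' : MemLp p' 2 volume) (hq : MemLp q 2 volume) (hq' : MemLp q' 2 volume)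
    (hh : Continuous h) (hL : ∀ x, |h x| ≤ L) (h1 : nsq (fun x => p x - p' x) ≤ μ)
    (h2 : nsq (fun x => q x - q' x) ≤ μ) (hμ : μ ≤ 1) (n1 : nsq p' ≤ N) (n2 : nsq q' ≤ N) :
    |(∫ x, p x * (h x * q x)) - ∫ x, p' x * (h x * q' x)| ≤ 2 * L * √(2 * N + 2) * √μ := by
  have N0 : 0 ≤ N := (nsq_nonneg _).trans n1
  have dp : MemLp (fun x => p x - p' x) 2 volume := hp.sub hp'
  have dq : MemLp (fun x => q x - q' x) 2 volume := hq.sub hq'
  have a0 := LDuh_nsq_add hq' dq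
  simp only [add_sub_cancel] at a0
  have a1 := PrC_bil dp hq hh hL h1 (N := 2 * N + 2) (a0.trans (by linarith))
  have a2 := PrC_bil dq hp' hh hL h2 (N := 2 * N + 2) (by linarith)
  have e : (∫ x, p x * (h x * q x)) - ∫ x, p' x * (h x * q' x) =
      (∫ x, (p x - p' x) * (h x * q x)) + ∫ x, (q x - q' x) * (h x * p' x) := by
    rw [← integral_sub (LWD_int_mul hp (LWD_memLp_mul hq hh hL))
      (LWD_int_mul hp' (LWD_memLp_mul hq' hh hL)),
      ← integral_add (LWD_int_mul dp (LWD_memLp_mul hq hh hL))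
      (LWD_int_mul dq (LWD_memLp_mul hp' hh hL))]
    congr 1
    funext x
    ring
  rw [e]
  linarith [abs_add_le (∫ x, (p x - p' x) * (h x * q x)) (∫ x, (q x - q' x) * (h x * p' x))]

/-- Fix `0 ≤ ξ ∈ C¹_c` supported in the upper half space, `ξ ≠ 0`.  `pair_el` gives
`∫ (β ∇t - t ∇β)·∇ξ = -2 lam ∫ t β ξ`; `eiga` tested with `b ξ` and `eigb` tested with `a ξ` give
`∫ (b ∇a - a ∇b)·∇ξ = -2 g ∫ a b ξ`, and `∫ a b ξ > 0`. -/
theorem lam_close (o : One c) : ∃ C₁ μ₀ : ℝ, 0 < C₁ ∧ 0 < μ₀ ∧ ∀ (s : X → ℝ) (pr : Pair0 s)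
    (μ : ℝ), Measurable s → MemLp s 2 volume → (∃ B : ℝ, ∀ᵐ x, |s x| ≤ B) → μ ≤ μ₀ →
    nsq (fun x => pr.t x - √2 * o.a x) ≤ μ →
    dir (fun i x => pr.gt i x - √2 * o.ga i x) ≤ μ →
    nsq (fun x => (if 0 < x 2 then pr.β x else -pr.β x) - o.b x) ≤ μ →
    dir (fun i x => (if 0 < x 2 then pr.gβ i x else -pr.gβ i x) - o.gb i x) ≤ μ →
    |pr.lam - o.g| ≤ C₁ * √μ := by
  obtain ⟨M, hM, hcut⟩ := exists_cut_ball
  obtain ⟨ξ, hξ, hξc, hξ0, hξ1, hξ2, -, hξ3, hξ4, -⟩ := hcut (Rn 2) (1 / 2) (1 / 2) (by norm_num)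
    (by norm_num)
  have hfar : ∀ x : X, x 2 < 1 → 1 / 2 + 1 / 2 < ‖x - Rn 2‖ := fun x hx => by
    have h1 := abs_two_le (x - Rn 2)
    have h2 : (x - Rn 2) 2 = x 2 - 2 := by simp [Rn]
    rw [h2] at h1
    linarith [neg_abs_le (x 2 - 2)]
  have hk2 : ∀ i x, pd eX ξ i x ^ 2 ≤ gs (pd eX ξ) x := fun i x =>
    Finset.single_le_sum (f := fun i => pd eX ξ i x ^ 2) (fun i _ => sq_nonneg _)
      (Finset.mem_univ i)
  have hk0 : ∀ i (x : X), x 2 < 1 → pd eX ξ i x = 0 := fun i x hx => by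
    have := hk2 i x
    rw [hξ4 x (Or.inr (hfar x hx))] at this
    exact pow_eq_zero_iff two_ne_zero |>.1 (le_antisymm this (sq_nonneg _))
  obtain ⟨L, hL1, hL⟩ : ∃ L : ℝ, 1 ≤ L ∧ ∀ i x, |pd eX ξ i x| ≤ L :=
    ⟨max 1 √(M / (1 / 2) ^ 2), le_max_left _ _, fun i x =>
      (Real.abs_le_sqrt ((hk2 i x).trans (hξ3 x))).trans (le_max_right _ _)⟩
  have hξL : ∀ x, |ξ x| ≤ L := fun x => by rw [abs_of_nonneg (hξ0 x).1]; exact (hξ0 x).2.trans hL1
  have hkc : ∀ i, Continuous (pd eX ξ i) := LWD_pd_cont hξ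
  have int3 : ∀ {p q h : X → ℝ}, MemLp p 2 volume → MemLp q 2 volume → Continuous h →
      (∀ x, |h x| ≤ L) → Integrable fun x => p x * (h x * q x) := fun hp hq hh hb =>
    LWD_int_mul hp (LWD_memLp_mul hq hh hb)
  -- the Wronskian form
  have wr : ∀ {t b : X → ℝ} {gt gb : Fin 3 → X → ℝ}, H1 eX t gt → H1 eX b gb →
      Integrable (gd (fun i x => b x * gt i x - t x * gb i x) (pd eX ξ)) ∧
      ∫ x, gd (fun i x => b x * gt i x - t x * gb i x) (pd eX ξ) x =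
        ∑ i, ((∫ x, b x * (pd eX ξ i x * gt i x)) - ∫ x, t x * (pd eX ξ i x * gb i x)) := by
    intro t b gt gb ht hb
    have e : gd (fun i x => b x * gt i x - t x * gb i x) (pd eX ξ) =
        fun x => ∑ i, (b x * (pd eX ξ i x * gt i x) - t x * (pd eX ξ i x * gb i x)) := by
      funext x
      exact Finset.sum_congr rfl fun i _ => by ring
    have hi : ∀ i, Integrable fun x =>
        b x * (pd eX ξ i x * gt i x) - t x * (pd eX ξ i x * gb i x) := fun i =>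
      (int3 hb.l2 (ht.gl2 i) (hkc i) (hL i)).sub (int3 ht.l2 (hb.gl2 i) (hkc i) (hL i))
    rw [e]
    exact ⟨integrable_finsetSum _ fun i _ => hi i, (integral_finsetSum _ fun i _ => hi i).trans
      (Finset.sum_congr rfl fun i _ => integral_sub (int3 hb.l2 (ht.gl2 i) (hkc i) (hL i))
        (int3 ht.l2 (hb.gl2 i) (hkc i) (hL i)))⟩
  have ha2 := o.ha.smul √2
  obtain ⟨I₀, hI₀⟩ : ∃ I₀, I₀ = ∫ x, √2 * o.a x * (ξ x * o.b x) := ⟨_, rfl⟩
  have hI : 0 < I₀ := by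
    have h0 : ∀ x, 0 ≤ √2 * o.a x * (ξ x * o.b x) := fun x => by
      refine mul_nonneg (mul_nonneg (by positivity) (o.apos x).le) ?_
      rcases lt_or_ge (x 2) 1 with h | h
      · rw [hξ2 x (hfar x h).le, zero_mul]
      · exact mul_nonneg (hξ0 x).1 (PrC_b_nonneg o (by linarith))
    rw [hI₀]
    refine Continuous.integral_pos_of_hasCompactSupport_nonneg_nonzero (x := Rn 2)
      ((continuous_const.mul o.ca).mul (hξ.continuous.mul o.cb)) (hξc.mul_right.mul_left) h0 ?_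
    obtain ⟨c', hc, h1⟩ := o.bpos ‖Rn 2‖
    have h2 : Rn 2 2 = 2 := by simp [Rn]
    have h3 := h1 (Rn 2) le_rfl (by rw [h2]; norm_num)
    rw [h2] at h3
    have h4 := o.apos (Rn 2)
    have h5 : 0 < o.b (Rn 2) := by linarith
    rw [hξ1 _ (by simp)]
    positivity
  have ref : ∫ x, gd (fun i x => o.b x * (√2 * o.ga i x) - √2 * o.a x * o.gb i x) (pd eX ξ) x =
      -2 * o.g * I₀ := by
    have t1 := o.hb.mul_bdd hξ hξL hL
    have t2 := o.ha.mul_bdd hξ hξL hL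
    have e1 := o.eiga _ _ t1
    have e2 := o.eigb _ _ t2
    have e3 : (fun x => V o.D x * (o.b x * (ξ x * o.a x))) =
      fun x => V o.D x * (o.a x * (ξ x * o.b x)) := by funext x; ring
    have e4 : ip o.b (fun x => ξ x * o.a x) = ip o.a fun x => ξ x * o.b x := by
      unfold ip; congr 1; funext x; ring
    have e5 : I₀ = √2 * ip o.a fun x => ξ x * o.b x := by
      rw [hI₀, ip, ← integral_const_mul]; simp only [mul_assoc]
    have e6 : gd (fun i x => o.b x * (√2 * o.ga i x) - √2 * o.a x * o.gb i x) (pd eX ξ) = fun x =>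
        √2 * gd o.ga (fun i x => ξ x * o.gb i x + pd eX ξ i x * o.b x) x +
        -√2 * gd o.gb (fun i x => ξ x * o.ga i x + pd eX ξ i x * o.a x) x := by
      funext x
      simp only [gd, Finset.mul_sum, ← Finset.sum_add_distrib]
      exact Finset.sum_congr rfl fun i _ => by ring
    unfold bf at e1 e2
    rw [e3, e4] at e2
    rw [e6, LWD_int2 (o.ha.integrable_gd t1) (o.hb.integrable_gd t2), e5, One.g]
    linear_combination (2 * √2) * e1 - (2 * √2) * e2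
  obtain ⟨N, hN, n1, n2, n3, n4⟩ : ∃ N : ℝ, 0 ≤ N ∧ nsq (fun x => √2 * o.a x) ≤ N ∧ nsq o.b ≤ N ∧
      dir (fun i x => √2 * o.ga i x) ≤ N ∧ dir o.gb ≤ N := by
    have := nsq_nonneg fun x => √2 * o.a x
    have := nsq_nonneg o.b
    have := dir_nonneg fun i x => √2 * o.ga i x
    have := dir_nonneg o.gb
    exact ⟨nsq (fun x => √2 * o.a x) + nsq o.b + dir (fun i x => √2 * o.ga i x) + dir o.gb,
      by linarith, by linarith, by linarith, by linarith, by linarith⟩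
  obtain ⟨K, hK, hKd⟩ : ∃ K : ℝ, 0 < K ∧ K = 2 * L * √(2 * N + 2) := ⟨_, by positivity, rfl⟩
  have hg := o.g_pos
  refine ⟨(2 * o.g + 6) * K / I₀, min 1 ((I₀ / (2 * K)) ^ 2), by positivity, by positivity,
    fun s pr μ hm hs _ hμ c1 c2 c3 c4 => ?_⟩
  have hμ1 : μ ≤ 1 := hμ.trans (min_le_left _ _)
  have hμ2 : K * √μ ≤ I₀ / 2 := by
    have := Real.sqrt_le_sqrt (hμ.trans (min_le_right _ _))
    rw [Real.sqrt_sq (by positivity), le_div_iff₀ (by positivity)] at this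
    linarith
  have ht := pr.pair.ht
  have hb := pr.pair.hβ.sgn pr.pair.van
  have el := pair_el pr hm (H1l.of_contDiff hξ) (ae_of_all _ hξL)
    (fun i => by simpa only [mul_comm] using LWD_memLp_mul hs (hkc i) (hL i))
    (van_of_zero (by simpa only [mul_comm] using LWD_memLp_mul hs hξ.continuous hξL) one_pos
      (ae_of_all _ fun x hx => by rw [hξ2 x (hfar x (abs_lt.1 hx).2).le, mul_zero]))
  set b : X → ℝ := fun x => if 0 < x 2 then pr.β x else -pr.β x with hbd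
  set gb : Fin 3 → X → ℝ := fun i x => if 0 < x 2 then pr.gβ i x else -pr.gβ i x with hgb
  have e1 : (fun x => gd (fun i x => pr.β x * pr.gt i x - pr.t x * pr.gβ i x) (pd eX ξ) x +
      2 * pr.lam * (pr.t x * pr.β x * ξ x)) = fun x =>
      gd (fun i x => b x * pr.gt i x - pr.t x * gb i x) (pd eX ξ) x +
        2 * pr.lam * (pr.t x * (ξ x * b x)) := by
    funext x
    by_cases h : 0 < x 2
    · simp only [gd, hbd, hgb, if_pos h]; ring
    · have h' : x 2 < 1 := by linarith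
      simp only [gd, hk0 _ x h', hξ2 x (hfar x h').le, mul_zero, zero_mul]
  rw [e1, integral_add (wr ht hb).1 ((int3 ht.l2 hb.l2 hξ.continuous hξL).const_mul _),
    integral_const_mul, (wr ht hb).2] at el
  rw [(wr ha2 o.hb).2] at ref
  have p0 := PrC_tri ht.l2 ha2.l2 hb.l2 o.hb.l2 hξ.continuous hξL c1 c3 hμ1 n1 n2
  have p1 := fun i => PrC_tri hb.l2 o.hb.l2 (ht.gl2 i) (ha2.gl2 i) (hkc i) (hL i) c3
    ((PrC_comp (ht.sub ha2) i).trans c2) hμ1 n2 ((PrC_comp ha2 i).trans n3)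
  have p2 := fun i => PrC_tri ht.l2 ha2.l2 (hb.gl2 i) (o.hb.gl2 i) (hkc i) (hL i) c1
    ((PrC_comp (hb.sub o.hb) i).trans c4) hμ1 n1 ((PrC_comp o.hb i).trans n4)
  rw [← hKd, ← hI₀] at p0
  simp only [← hKd, abs_le] at p0 p1 p2
  rw [Fin.sum_univ_three] at el ref
  obtain ⟨I, hId⟩ : ∃ I, I = ∫ x, pr.t x * (ξ x * b x) := ⟨_, rfl⟩
  rw [← hId] at el p0
  have q1 : |pr.lam * I - o.g * I₀| ≤ 3 * (K * √μ) := abs_le.2
    ⟨by linarith [p1 0, p1 1, p1 2, p2 0, p2 1, p2 2, (p1 0).2, (p1 1).2, (p1 2).2, (p2 0).1,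
        (p2 1).1, (p2 2).1],
      by linarith [(p1 0).1, (p1 1).1, (p1 2).1, (p2 0).2, (p2 1).2, (p2 2).2]⟩
  have q2 : |o.g * I₀ - o.g * I| ≤ o.g * (K * √μ) := by
    rw [← mul_sub, abs_mul, abs_of_pos hg]
    exact mul_le_mul_of_nonneg_left (abs_le.2 ⟨by linarith [p0.2], by linarith [p0.1]⟩) hg.le
  have q3 : |pr.lam - o.g| * I ≤ (o.g + 3) * (K * √μ) := by
    have h1 := abs_sub_le (pr.lam * I) (o.g * I₀) (o.g * I)
    rw [← sub_mul, abs_mul, abs_of_nonneg (show 0 ≤ I by linarith [p0.1])] at h1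
    linarith
  have q4 := mul_le_mul_of_nonneg_left (show I₀ / 2 ≤ I by linarith [p0.1])
    (abs_nonneg (pr.lam - o.g))
  rw [div_mul_eq_mul_div, le_div_iff₀ hI]
  linarith

theorem pair_exists' (o : One c) (C : ℝ) : ∃ C' ε₀ : ℝ, 1 ≤ C' ∧ 0 < ε₀ ∧
    ∀ (ε : ℝ) (ch : Chan o C ε), ε ≤ ε₀ → LocPos ch.s → Nonempty (Pair ch C') := by
  by_cases hC : 1 ≤ C
  swap
  · exact ⟨1, 1, le_rfl, one_pos, fun ε ch _ _ => absurd ch.C1 hC⟩
  obtain ⟨C₂, hC₂, h2⟩ := pair0_exists C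
  obtain ⟨C₁, hC₁, h1⟩ := pair_close o
  obtain ⟨C₃, μ₀, hC₃, hμ₀, h3⟩ := lam_close o
  have hg := o.g_pos
  obtain ⟨K, hK, hKd⟩ : ∃ K : ℝ, 0 < K ∧ K = C₁ * (C + C₂ * C) := ⟨_, by positivity, rfl⟩
  have hev : ∀ᶠ ε in 𝓝 (0 : ℝ), C * √ε < 1 / 2 ∧ K * √ε < μ₀ ∧ C₃ * √K * √(√ε) < o.g / 2 := by
    refine (ContinuousAt.eventually_lt (by fun_prop) (by fun_prop) (by simp)).and
      ((ContinuousAt.eventually_lt (by fun_prop) (by fun_prop) (by simpa using hμ₀)).and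
        (ContinuousAt.eventually_lt (by fun_prop) (by fun_prop) (by simpa using hg)))
  obtain ⟨δ, hδ, hev⟩ := Metric.eventually_nhds_iff.1 hev
  refine ⟨1 + K + C₃ * √K, δ / 2, by linarith [show 0 ≤ C₃ * √K by positivity], half_pos hδ,
    fun ε ch hε hp => ?_⟩
  have ε0 := ch.ε0
  obtain ⟨s1, s2, s3⟩ := hev (y := ε) (by rw [dist_zero_right, Real.norm_of_nonneg ε0.le]; linarith)
  obtain ⟨t, gt, β, gβ, hpair, hm, he⟩ := ch.pair0
  have hs := ch.subs.h1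
  obtain ⟨pr, hpr⟩ := h2 ch.s ch.gr hs ch.s0 ch.sP ch.mass ch.dr t gt β gβ _ hpair hm s1.le
  have hε1 : ε ≤ √ε := Real.le_sqrt_of_sq_le (by nlinarith [ch.ε_le])
  have hε2 : C * ε ≤ C * √ε := mul_le_mul_of_nonneg_left hε1 (by linarith)
  have hε3 : 0 ≤ C₂ * (C * √ε) := by positivity
  obtain ⟨c1, c2, c3, c4⟩ := h1 ch.s pr ((C + C₂ * C) * √ε) ch.mass (by linarith)
  rw [← mul_assoc, ← hKd] at c1 c2 c3 c4
  have hl := h3 ch.s pr _ hs.m hs.l2
    ⟨C, ch.sbd.mono fun x hx => by rwa [abs_of_nonneg (ch.s0 x)]⟩ s2.le c1 c2 c3 c4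
  rw [Real.sqrt_mul hK.le, ← mul_assoc] at hl
  obtain ⟨pr', rfl⟩ := pair1_exists pr hs ch.s0 ch.sP hp
  obtain ⟨l1, l2⟩ := abs_le.1 hl
  have r1 : 0 ≤ √ε := Real.sqrt_nonneg _
  have r2 : 0 ≤ √(√ε) := Real.sqrt_nonneg _
  have r3 : 0 ≤ C₃ * √K := by positivity
  exact ⟨⟨pr', hp, pr'.t_locpos hs.m ch.s0 ch.sbd hp (by linarith) (by linarith [o.g_le]),
    c1.trans (mul_le_mul_of_nonneg_right (by linarith) r1),
    hl.trans (mul_le_mul_of_nonneg_right (by linarith) r2), by linarith, by linarith⟩⟩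

end Crest.Agent.R335
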