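import Crest.Agent.R335.StU

/-! Row 335. The density is comparable to `p² + q²`. -/

set_option autoImplicit false

open MeasureTheory Set Filter Topology
open scoped ENNReal

noncomputable section

namespace Crest.Agent.R335

variable {c : ℝ} {o : One c} {C ε : ℝ}

theorem StC_eps (ch : Chan o C ε) : ε ≤ √(√ε) ∧ 0 < √(√ε) := by
  have h0 := ch.ε0
  have h1 : ε ≤ 1 := ch.ε_le.trans (by norm_num)
  have h2 : ε ≤ √ε := Real.le_sqrt_of_sq_le (by nlinarith)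
  have h3 : √ε ≤ 1 := Real.sqrt_le_one.2 h1
  have h4 : 0 < √ε := Real.sqrt_pos.2 h0
  have h5 : √ε ≤ √(√ε) := Real.le_sqrt_of_sq_le (by nlinarith)
  exact ⟨h2.trans h5, Real.sqrt_pos.2 h4⟩

theorem StC_shell (o : One c) (hC : 1 ≤ C) (R : ℝ) : ∃ ε₀ : ℝ, 0 < ε₀ ∧ ∀ ε : ℝ, ε ≤ ε₀ →
    ∀ x : X, ‖x‖ ≤ R → 5 * (C * √ε) ≤ o.a x := by
  obtain ⟨m, hm, h⟩ := o.a_lb R
  refine ⟨(m / (5 * C)) ^ 2, by positivity, fun ε hε x hx => le_trans ?_ (h x hx)⟩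
  have h1 : √ε ≤ m / (5 * C) := Real.sqrt_le_iff.2 ⟨by positivity, hε⟩
  rw [le_div_iff₀ (by positivity)] at h1
  linarith

theorem StC_S (ch : Chan o C ε) {x : X} (hx : 1 ≤ ‖x‖) {A q w : ℝ} (hA : 1 ≤ A)
    (hq : ch.Q0 x ≤ A * q) (hw : q ≤ w) :
    ε * C * Real.exp (-2 * (√(2 * ch.I) + 4 * o.g) * ‖x‖) / w ≤ C * A * (ε * ch.Q0 x) := by
  have hQ := ch.Q0_pos (x := x) (by linarith)
  have hAw : ch.Q0 x ≤ A * w := hq.trans (by gcongr)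
  have hw0 : 0 < w := (mul_pos_iff_of_pos_left (show 0 < A by linarith)).1 (by linarith)
  have hE : Real.exp (-(ch.k + 4 * o.g) * ‖x‖) ≤ ch.Q0 x := by
    refine le_trans ?_ ((ch.H_ge hx).trans (ch.H_le_Q0 x))
    refine Real.exp_le_exp.2 (mul_le_mul_of_nonneg_right ?_ (by linarith))
    linarith [ch.k'_sub.2, o.g_pos]
  have e : Real.exp (-2 * (√(2 * ch.I) + 4 * o.g) * ‖x‖)
      = Real.exp (-(ch.k + 4 * o.g) * ‖x‖) * Real.exp (-(ch.k + 4 * o.g) * ‖x‖) := by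
    rw [← Real.exp_add]
    congr 1
    unfold Chan.k
    ring
  have h1 : Real.exp (-(ch.k + 4 * o.g) * ‖x‖) * Real.exp (-(ch.k + 4 * o.g) * ‖x‖)
      ≤ ch.Q0 x * (A * w) :=
    mul_le_mul hE (hE.trans hAw) (Real.exp_pos _).le hQ.le
  have hε := ch.ε0
  have hC := ch.C1
  rw [div_le_iff₀ hw0, e]
  calc ε * C * (Real.exp (-(ch.k + 4 * o.g) * ‖x‖) * Real.exp (-(ch.k + 4 * o.g) * ‖x‖))
      ≤ ε * C * (ch.Q0 x * (A * w)) := by gcongr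
    _ = C * A * (ε * ch.Q0 x) * w := by ring

theorem StC_lev {L a b U n : ℝ} (h0 : 0 ≤ L - a) (hb : b ≤ a) (hU : 0 ≤ U) (hn : U ≤ n) :
    (L - a) * U ≤ (L - b) * n :=
  mul_le_mul (by linarith) hn hU (by linarith)

theorem StC_B {ε μ C A d r z p q nE h Q0 : ℝ} (hε : 0 < ε) (hεμ : ε ≤ μ) (hC : 1 ≤ C)
    (hA : 1 ≤ A) (hr : 1 ≤ r) (hd : 0 ≤ d) (hzp : z * p = |z| * |p|) (hp : |p| ≤ A * |z| * h)
    (hq0 : 0 < q) (hq : q ≤ A * Q0) (hE : nE ≤ A * (1 + |z|) / r ^ 2 * h) (hh : 0 < h)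
    (hQ : 0 < Q0) :
    ε * (3 * d * |z| / r ^ 3 + C * (1 + |z|) / r ^ 4) * |p| + ε * C / r ^ 2 * |q| +
        ε * C * |z| / r ^ 2 * nE + C * A * (ε * Q0) ≤
      4 * (ε * d * z / r ^ 3 * p) +
        (4 * C * A + 2 * C) * (μ * Q0 + ε * (1 + z ^ 2) / r ^ 4 * h) := by
  have hr0 : 0 < r := by linarith
  have hz := abs_nonneg z
  have hz2 : (1 + |z|) * |z| ≤ 2 * (1 + z ^ 2) := by
    rw [← sq_abs z]; nlinarith [sq_nonneg (|z| - 1)]
  have e1 : ε * d * z / r ^ 3 * p = ε * d / r ^ 3 * (|z| * |p|) := by rw [← hzp]; ring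
  have e1' : 0 ≤ ε * d / r ^ 3 * (|z| * |p|) := by positivity
  have e2 : ε * (C * (1 + |z|) / r ^ 4) * |p| ≤ 2 * C * A * (ε * (1 + z ^ 2) / r ^ 4 * h) := by
    calc ε * (C * (1 + |z|) / r ^ 4) * |p| ≤ ε * (C * (1 + |z|) / r ^ 4) * (A * |z| * h) := by
          gcongr
      _ = ε * C * A * h / r ^ 4 * ((1 + |z|) * |z|) := by ring
      _ ≤ ε * C * A * h / r ^ 4 * (2 * (1 + z ^ 2)) := by gcongr
      _ = 2 * C * A * (ε * (1 + z ^ 2) / r ^ 4 * h) := by ring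
  have e3 : ε * C * |z| / r ^ 2 * nE ≤ 2 * C * A * (ε * (1 + z ^ 2) / r ^ 4 * h) := by
    calc ε * C * |z| / r ^ 2 * nE ≤ ε * C * |z| / r ^ 2 * (A * (1 + |z|) / r ^ 2 * h) := by
          gcongr
      _ = ε * C * A * h / r ^ 4 * ((1 + |z|) * |z|) := by ring
      _ ≤ ε * C * A * h / r ^ 4 * (2 * (1 + z ^ 2)) := by gcongr
      _ = 2 * C * A * (ε * (1 + z ^ 2) / r ^ 4 * h) := by ring
  have e4 : ε * C / r ^ 2 * |q| ≤ C * A * (ε * Q0) := by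
    have h1 : ε * C / r ^ 2 ≤ ε * C := div_le_self (by positivity) (one_le_pow₀ hr)
    rw [abs_of_pos hq0]
    calc ε * C / r ^ 2 * q ≤ ε * C * (A * Q0) := by gcongr
      _ = C * A * (ε * Q0) := by ring
  have e5 : C * A * (ε * Q0) ≤ C * A * (μ * Q0) := by gcongr
  have hμ : 0 < μ := by linarith
  have e6 : 0 ≤ C * A * (μ * Q0) := by positivity
  have e7 : 0 ≤ C * (μ * Q0) := by positivity
  have e8 : 0 ≤ C * (ε * (1 + z ^ 2) / r ^ 4 * h) := by positivity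
  have e9 : ε * (3 * d * |z| / r ^ 3 + C * (1 + |z|) / r ^ 4) * |p|
      = 3 * (ε * d / r ^ 3 * (|z| * |p|)) + ε * (C * (1 + |z|) / r ^ 4) * |p| := by ring
  rw [e9, e1]
  generalize ε * (1 + z ^ 2) / r ^ 4 * h = t at *
  generalize μ * Q0 = u at *
  linarith

theorem StC_Ealg {ε μ C A g r z p q nE nB nL Sp Q0 : ℝ} (hε : 0 < ε) (hεμ : ε ≤ μ) (hC : 1 ≤ C)
    (hA : 1 ≤ A) (hr : 1 ≤ r) (hz : |z| ≤ r) (hg : C * ε ≤ g / 100) (hp : 0 ≤ p) (hq0 : 0 < q)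
    (hq : q ≤ A * Q0) (hE : 0 ≤ nE) (hB0 : 0 ≤ nB) (hB : nB ≤ 5 * q) (hL : nL ≤ nE + |q| + nB)
    (hQ : 0 < Q0) (hSp : |Sp + 2 * ε / r * p| ≤ ε * C / r ^ 2 * (|p| + nL)) :
    ε * C / r ^ 2 * (|p| + |q|) + ε * C * |z| / r ^ 2 * nB + C * A * (ε * Q0) ≤
      Sp + C * ε * nE + (g - 2 * (C * ε)) * p + 13 * C * A * (μ * Q0) := by
  have hr0 : 0 < r := by linarith
  rw [abs_of_nonneg hp, abs_of_pos hq0] at *
  have h1 : ε * C / r ^ 2 ≤ C * ε := by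
    rw [mul_comm C]; exact div_le_self (by positivity) (one_le_pow₀ hr)
  have h2 : ε * C * |z| / r ^ 2 ≤ C * ε := by
    rw [div_le_iff₀ (by positivity)]
    have : |z| ≤ r ^ 2 := by nlinarith
    calc ε * C * |z| ≤ ε * C * r ^ 2 := by gcongr
      _ = C * ε * r ^ 2 := by ring
  have h3 : 2 * ε / r ≤ 2 * (C * ε) := by
    refine (div_le_self (by positivity) hr).trans ?_
    nlinarith
  have h10 : 0 ≤ ε * C / r ^ 2 := by positivity
  have e1 : ε * C / r ^ 2 * (p + q) ≤ C * ε * (p + q) := by gcongr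
  have e2 : ε * C * |z| / r ^ 2 * nB ≤ C * ε * (5 * q) := by gcongr
  have e3 : ε * C / r ^ 2 * (p + nL) ≤ C * ε * (p + nE + 6 * q) := by
    calc ε * C / r ^ 2 * (p + nL) ≤ ε * C / r ^ 2 * (p + nE + 6 * q) :=
          mul_le_mul_of_nonneg_left (by linarith) h10
      _ ≤ C * ε * (p + nE + 6 * q) := by gcongr
  have e4 : 2 * ε / r * p ≤ 2 * (C * ε) * p := by gcongr
  have e5 := (abs_le.1 hSp).1
  have e6 : C * ε * q ≤ C * A * (ε * Q0) := by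
    calc C * ε * q ≤ C * ε * (A * Q0) := by gcongr
      _ = C * A * (ε * Q0) := by ring
  have e7 : C * A * (ε * Q0) ≤ C * A * (μ * Q0) := by gcongr
  have hCε : 0 < C * ε := by positivity
  have e8 : 6 * (C * ε) * p ≤ g * p := mul_le_mul_of_nonneg_right (by linarith) hp
  nlinarith

/-- `stU` with `K = 4`, `A' = 4 C A + 2 C`; `cmp_ext` for `nD`, `cmp2_ext` for `nB`.
`exp (-(k + 4 g) r) ≤ H` (`H_ge`, `k'_sub`).  Shell: `cD`, `cB`, `cq`, `One.a_lb`. -/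
theorem stC_DB (o : One c) (C R₀ A : ℝ) : ∃ R ε₀ : ℝ, R₀ ≤ R ∧ 0 < ε₀ ∧
    ∀ (ε : ℝ) (ch : Chan o C ε), ε ≤ ε₀ → ch.FA R₀ A →
      ∀ᵐ x : X, R < ‖x‖ → ch.nD x ≤ 5 * ch.q x ∧ ch.nB x ≤ 5 * ch.q x := by
  by_cases hCA : 1 ≤ C ∧ 1 ≤ A
  swap
  · exact ⟨R₀, 1, le_rfl, one_pos, fun ε ch _ hF => (hCA ⟨ch.C1, hF.A1⟩).elim⟩
  obtain ⟨hC, hA⟩ := hCA
  obtain ⟨R, ε₁, hR, hε₁, hU⟩ := stU o C R₀ A 4 (4 * C * A + 2 * C) (by norm_num) (by positivity)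
  obtain ⟨ε₂, hε₂, hsh⟩ := StC_shell o hC (R + 1)
  refine ⟨R, min ε₁ ε₂, hR, lt_min hε₁ hε₂, fun ε ch hε hF => ?_⟩
  obtain ⟨U, g, f, hsup, hae⟩ := hU ε ch (hε.trans (min_le_left _ _)) hF
  have hsh' := hsh ε (hε.trans (min_le_right _ _))
  have hRs := o.Rs_ge
  have hR1 := hF.R1
  have hsub : ext R ⊆ ext o.Rs := fun x hx => by
    simp only [ext, mem_ofPred_eq] at hx ⊢; linarith
  obtain ⟨hεμ, hμ0⟩ := StC_eps ch
  have hε0 := ch.ε0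
  have hCε : C * ε ≤ (4 * C * A + 2 * C) * √(√ε) := by
    have h1 : C * ε ≤ C * √(√ε) := by gcongr
    have h2 : 0 ≤ (4 * C * A + C) * √(√ε) := by positivity
    linarith
  have hCs : 0 ≤ C * √ε := by positivity
  have hD : ∀ᵐ x : X, R < ‖x‖ → ch.nD x ≤ U x := by
    refine cmp_ext (by linarith) (ch.subD.subset hsub) hsup ?_ ?_
    · filter_upwards [hae, ch.cD, ch.cq] with x h1 h2 h3 hx hx'
      have h4 := (h1 hx).1
      have h5 := hsh' x hx'.le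
      have h6 := abs_le.1 h2
      have h7 := abs_le.1 h3
      linarith [h6.2, h7.1]
    · filter_upwards [hae, hF.zp] with x h1 h2 hx hlt
      obtain ⟨h3, -, h4, h5⟩ := h1 hx
      obtain ⟨-, -, h6, h7⟩ := h2 (by linarith)
      have hr : 0 < ‖x‖ := by linarith
      have hh := ch.h_pos hr
      have hQ := ch.Q0_pos hr
      have hd : 0 ≤ ch.d := by linarith [ch.d1]
      have e1 : 0 ≤ ε * ch.d * x 2 / ‖x‖ ^ 3 * ch.p x := by
        have : ε * ch.d * x 2 / ‖x‖ ^ 3 * ch.p x = ε * ch.d / ‖x‖ ^ 3 * (x 2 * ch.p x) := by ring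
        rw [this, h6]; positivity
      have e2 : 0 ≤ (4 * C * A + 2 * C) *
          (√(√ε) * ch.Q0 x + ε * (1 + x 2 ^ 2) / ‖x‖ ^ 4 * ch.h x) := by positivity
      have e3 := StC_lev h4 hCε (by linarith) hlt.le
      linarith
  have hB : ∀ᵐ x : X, R < ‖x‖ → ch.nB x ≤ U x := by
    refine cmp2_ext (by linarith) (ch.subB.subset hsub) hsup ?_ ?_ ?_
    · filter_upwards [hae, hF.zp] with x h1 h2 hx
      have h3 := (h1 hx).1
      have h7 := (h2 (by linarith)).2.2.2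
      linarith
    · filter_upwards [hae, ch.cB, ch.cq] with x h1 h2 h3 hx hx'
      have h4 := (h1 hx).1
      have h5 := hsh' x hx'.le
      have h6 := abs_le.1 h2
      have h7 := abs_le.1 h3
      linarith [h6.2, h7.1]
    · filter_upwards [hae, hF.zp, hF.p_hi, hF.q_hi, hF.q_lo, hF.L_hi, ch.p_le_s] with
        x h1 h2 hp hq hq' hL hs hx hlt
      have hx0 : R₀ < ‖x‖ := by linarith
      obtain ⟨h3, -, h4, h5⟩ := h1 hx
      obtain ⟨-, -, h6, h7⟩ := h2 hx0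
      have hr : 0 < ‖x‖ := by linarith
      have hS := StC_S ch (x := x) (by linarith) hA (hq' hx0) (show ch.q x ≤ U x by linarith)
      have e3 := StC_lev h4 hCε (by linarith) hlt.le
      have e4 := StC_B (ε := ε) (μ := √(√ε)) (d := ch.d) (nE := ch.nE x) hε0 hεμ hC hA
        (show 1 ≤ ‖x‖ by linarith) (by linarith [ch.d1]) h6 (hp hx0) h7 (hq hx0)
        (hs.2.2.2.2.1.trans (hL hx0)) (ch.h_pos hr) (ch.Q0_pos hr)
      linarith
  filter_upwards [hD, hB, hae] with x h1 h2 h3 hx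
  have h4 := (h3 hx).2.1
  exact ⟨by linarith [h1 hx], by linarith [h2 hx]⟩

/-- `cmp2_up` with `w = p + U`, `U` from `stU` (`K = 4`, `A'` a multiple of `C A`).  Where `w < nE`
use `Sp ≥ -2 ε p / r - ε C (p + nE + q + nB) / r²` and absorb `ε C nE / r²` in the level:
`(V + I + g - 2 C ε) (p + U)`; the slack `(g - 2 C ε) p` absorbs the multiples of `p`. -/
theorem stC_E (o : One c) (C R₀ A R₁ : ℝ) (hR : R₀ ≤ R₁) : ∃ R ε₀ : ℝ, R₁ ≤ R ∧ 0 < ε₀ ∧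
    ∀ (ε : ℝ) (ch : Chan o C ε), ε ≤ ε₀ → ch.FA R₀ A →
      (∀ᵐ x : X, R₁ < ‖x‖ → ch.nB x ≤ 5 * ch.q x) →
      ∀ᵐ x : X, R < ‖x‖ → ch.nE x ≤ |ch.p x| + 5 * ch.q x := by
  by_cases hCA : 1 ≤ C ∧ 1 ≤ A
  swap
  · exact ⟨R₁, 1, le_rfl, one_pos, fun ε ch _ hF => (hCA ⟨ch.C1, hF.A1⟩).elim⟩
  obtain ⟨hC, hA⟩ := hCA
  obtain ⟨R, ε₁, hR', hε₁, hU⟩ := stU o C R₁ A 4 (13 * C * A) (by norm_num) (by positivity)
  obtain ⟨ε₂, hε₂, hsh⟩ := StC_shell o hC (R + 1)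
  refine ⟨R, min ε₁ ε₂, hR', lt_min hε₁ hε₂, fun ε ch hε hF0 hB => ?_⟩
  have hF := hF0.mono hR le_rfl
  obtain ⟨U, g, f, hsup, hae⟩ := hU ε ch (hε.trans (min_le_left _ _)) hF
  have hsh' := hsh ε (hε.trans (min_le_right _ _))
  have hRs := o.Rs_ge
  have hR1 := hF.R1
  have hsub : up R ⊆ ext o.Rs := fun x hx => by
    simp only [ext, up, mem_ofPred_eq] at hx ⊢; linarith [hx.1]
  have hsub' : up R ⊆ ext R := fun x hx => hx.1
  obtain ⟨hεμ, hμ0⟩ := StC_eps ch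
  have hε0 := ch.ε0
  have hCε : 2 * (C * ε) ≤ 13 * C * A * √(√ε) := by
    have h1 : C * ε ≤ C * √(√ε) := by gcongr
    have h2 : C * √(√ε) * 1 ≤ C * √(√ε) * A := by gcongr
    have h3 : 0 ≤ C * √(√ε) * A := by positivity
    linarith
  have hCs : 0 ≤ C * √ε := by positivity
  have hw := Sup.lin (measurableSet_up R) (ch.solp.sup.subset (subset_univ _)) (hsup.subset hsub')
    zero_le_one zero_le_one
  have hpp : ∀ᵐ x : X, R < ‖x‖ → 0 < x 2 → 0 ≤ ch.p x := by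
    filter_upwards [hF.p_lo] with x h1 hx hz
    have h2 := h1 (by linarith) hz
    have h3 : 0 < x 2 * ch.h x := mul_pos hz (ch.h_pos (by linarith))
    exact ((mul_pos_iff_of_pos_left (show 0 < A by linarith)).1 (by linarith)).le
  have hE : ∀ᵐ x : X, x ∈ up R → ch.nE x ≤ 1 * ch.p x + 1 * U x := by
    refine cmp2_up (by linarith) (ch.subE.subset hsub) hw ?_ ?_ ch.vanE ?_
    · filter_upwards [hae, hF.zp, hpp] with x h1 h2 h3 hx
      have h4 := (h1 hx.1).1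
      have h7 := (h2 (by linarith [hx.1])).2.2.2
      have h8 := h3 hx.1 hx.2
      linarith
    · filter_upwards [hae, ch.cE, ch.cq, hpp] with x h1 h2 h3 h8 hx hx' hz
      have h4 := (h1 hx).1
      have h5 := hsh' x hx'.le
      have h7 := abs_le.1 h3
      linarith [h7.1, h8 hx hz]
    · filter_upwards [hae, hF.zp, hpp, hF.q_hi, hF.q_lo, hB, ch.p_le_s, ch.Sp_ext] with
        x h1 h2 hp hq hq' hb hs hSp hx hlt
      obtain ⟨hx, hz⟩ := hx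
      have hx0 : R₁ < ‖x‖ := by linarith
      obtain ⟨h3, -, h4, h5⟩ := h1 hx
      obtain ⟨-, -, h6, h7⟩ := h2 hx0
      have hp0 := hp hx hz
      have hr : 0 < ‖x‖ := by linarith
      have hh := ch.h_pos hr
      have hS := StC_S ch (x := x) (by linarith) hA (hq' hx0)
        (show ch.q x ≤ 1 * ch.p x + 1 * U x by linarith)
      have e4 := StC_Ealg (μ := √(√ε)) hε0 hεμ hC hA (show 1 ≤ ‖x‖ by linarith) (abs_two_le x)
        ch.εC hp0 h7 (hq hx0) (ch.subE.nn x) (ch.subB.nn x) (hb hx0) hs.2.2.2.2.2.2.1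
        (ch.Q0_pos hr) (hSp (by linarith))
      have hd : 0 ≤ ch.d := by linarith [ch.d1]
      have e1 : 0 ≤ ε * ch.d * x 2 / ‖x‖ ^ 3 * ch.p x := by positivity
      have e2 : 0 ≤ 13 * C * A * (ε * (1 + x 2 ^ 2) / ‖x‖ ^ 4 * ch.h x) := by positivity
      have e3 : (V o.D x + ch.I + o.g - 2 * (C * ε)) * (1 * ch.p x + 1 * U x)
          ≤ (V o.D x + ch.I + o.g - 2 * (C * ε)) * ch.nE x :=
        mul_le_mul_of_nonneg_left hlt.le (by linarith)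
      have e5 := StC_lev h4 hCε (show 0 ≤ U x by linarith) le_rfl
      linarith
  have hE' : ∀ᵐ x : X, R < ‖x‖ → 0 < x 2 → ch.nE x ≤ |ch.p x| + 5 * ch.q x := by
    filter_upwards [hE, hae] with x h1 h2 hx hz
    have h3 := h1 ⟨hx, hz⟩
    have h4 := (h2 hx).2.1
    linarith [le_abs_self (ch.p x)]
  filter_upwards [hE', ae_P hE', ae_two_ne] with x h1 h2 h3 hx
  rcases lt_or_gt_of_ne h3 with hz | hz
  · have h4 := h2 (by rwa [norm_P]) (by rw [P_two]; linarith)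
    rwa [ch.EP, ch.pP, ch.qP, abs_neg] at h4
  · exact h1 hx hz

theorem stC (o : One c) (C R₀ A : ℝ) : ∃ R ε₀ : ℝ, R₀ ≤ R ∧ 0 < ε₀ ∧
    ∀ (ε : ℝ) (ch : Chan o C ε), ε ≤ ε₀ → ch.FA R₀ A → ch.FC R := by
  obtain ⟨R₁, ε₁, hR₁, hε₁, h1⟩ := stC_DB o C R₀ A
  obtain ⟨R, ε₂, hR, hε₂, h2⟩ := stC_E o C R₀ A R₁ hR₁
  refine ⟨R, min ε₁ ε₂, hR₁.trans hR, lt_min hε₁ hε₂, fun ε ch hε hF => ?_⟩
  have h3 := h1 ε ch (hε.trans (min_le_left _ _)) hF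
  have h4 := h2 ε ch (hε.trans (min_le_right _ _)) hF (h3.mono fun x h hx => (h hx).2)
  filter_upwards [h3, h4, ch.rho] with x a1 a2 a3 hx
  obtain ⟨b1, b2⟩ := a1 (by linarith)
  have b3 := a2 hx
  have c1 : ch.nD x ^ 2 ≤ (5 * ch.q x) ^ 2 := pow_le_pow_left₀ (ch.D0 x) b1 2
  have c2 : ch.nB x ^ 2 ≤ (5 * ch.q x) ^ 2 := pow_le_pow_left₀ (ch.subB.nn x) b2 2
  have c3 : ch.nE x ^ 2 ≤ (|ch.p x| + 5 * ch.q x) ^ 2 := pow_le_pow_left₀ (ch.subE.nn x) b3 2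
  have c4 := sq_abs (ch.p x)
  nlinarith [sq_nonneg (|ch.p x| - 5 * ch.q x), sq_nonneg (ch.p x), sq_nonneg (ch.q x)]

end Crest.Agent.R335
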