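import Crest.Agent.R335.F2
import Crest.Agent.R335.PG
import Crest.Agent.R335.PS
import Crest.Agent.R335.LS
import Crest.Agent.R335.CO
import Crest.Agent.R335.PrC
import Crest.Agent.R335.StC

/-! Row 335. The density of a small coupling constant is not representable. -/

set_option autoImplicit false

open MeasureTheory Set Filter Topology
open scoped ENNReal

noncomputable section

namespace Crest.Agent.R335

/-- Order of the choices.  Absolute: `Kc` (`core`), `Ku = 200 Kc + 700`, `K` (`stG`),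
`z₁, η, lam₀, K'` (`t_lb`), `K₅` (`ext_ineq`), `L, Ks` (`pstar_bdd`); `η₀` with `2 η₀ ≤ lam₀` and
`4 η₀ Ks ≤ 1`.  Then `R₀, A` (`stA`), `C'` (`pair_exists'`), `R₁` (`stC`), `R₂` (`t_ub`), `R₃` (`stG`),
`R₄ = max R₂ R₃ K`, `R₅` (`ext_ineq`), `core` with the radius `max (R₂ + 1) (R₅ + 1 + L)`. -/
theorem no_rep (c : ℝ) (hc : 0 < c) : ∃ η : ℝ, 0 < η ∧ ∀ o : One c, o.g ≤ η → ∀ C : ℝ,
    ∃ ε₀ : ℝ, 0 < ε₀ ∧ ∀ (ε : ℝ) (ch : Chan o C ε), ε ≤ ε₀ → ¬Rep fun x => ch.s x ^ 2 := by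
  obtain ⟨Kc, hKc, hcore⟩ := core
  have hKu : 0 ≤ 200 * Kc + 700 := by linarith
  obtain ⟨K, hK, hG⟩ := stG
  obtain ⟨z₁, η, lam₀, K', hz, hz', hη, hl₀, hK', hL⟩ := t_lb K _ hK hKu
  obtain ⟨K₅, hK₅, hX⟩ := ext_ineq K _ K' z₁ hK hKu (by linarith) hz hz'
  obtain ⟨L, Ks, hL0, hKs, hP⟩ := pstar_bdd c Kc K₅ hc hKc hK₅
  refine ⟨min (lam₀ / 2) (1 / (4 * Ks)), by positivity, fun o ho C => ?_⟩
  obtain ⟨R₀, A, ε₁, h₁, hA⟩ := stA o C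
  obtain ⟨ε₂, h₂, hs⟩ := s_locpos o C R₀ A
  obtain ⟨C', ε₃, hC', h₃, hp⟩ := pair_exists' o C
  obtain ⟨R₁, ε₄, r₁, h₄, hC⟩ := stC o C R₀ A
  obtain ⟨R₂, ε₅, r₂, h₅, hU⟩ := t_ub hKc o C C' R₀ A R₁ r₁ hC'
  obtain ⟨R₃, r₃, hG⟩ := hG c o C R₀ A η hη
  obtain ⟨R₄, r₄, r₅, r₆⟩ : ∃ R₄, R₂ ≤ R₄ ∧ R₃ ≤ R₄ ∧ K ≤ R₄ :=
    ⟨max R₂ (max R₃ K), le_max_left _ _, (le_max_left _ _).trans (le_max_right _ _),
      (le_max_right _ _).trans (le_max_right _ _)⟩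
  obtain ⟨R₅, r₇, hX⟩ := hX c o C R₀ A R₄ (r₃.trans r₅) r₆
  obtain ⟨ε₆, h₆, hcore⟩ := hcore c o C C' (R₅ + 1 + L)
  refine ⟨min (min ε₁ (min ε₂ ε₃)) (min ε₄ (min ε₅ ε₆)), by positivity, fun ε ch hε hrep => ?_⟩
  simp only [le_min_iff] at hε ho
  obtain ⟨⟨e₁, e₂, e₃⟩, e₄, e₅, e₆⟩ := hε
  have fA := hA ε ch e₁
  obtain ⟨pr⟩ := hp ε ch e₃ (hs ε ch e₂ fA)
  have fC := hC ε ch e₄ fA
  have fK := hcore ε ch pr e₆
  have fU := (hU ε ch pr e₅ fA fC (fK.mono (by linarith))).mono r₄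
  obtain ⟨τ, h0, fG⟩ := hG ε ch fA
  have fG := fG.mono r₅
  have g0 := o.g_pos
  have l1 := pr.lam_lo
  have l2 := pr.lam_hi
  have fL := hL c o C ε C' ch pr R₄ τ h0 (by linarith [ho.1])
    (fC.mono fun x hx hr => hx (by linarith)) fG fU
  have tp := pr.tpos.ae_pos
  have fP := pstar_of_bdd pr.toPair0 tp hKs.le (hP o C C' ε R₅ ch pr (by linarith) fK
    (hX C' ε η ch pr τ h0 fA fG fU fL))
  obtain ⟨v, hm, hv, Ω, _, μ, _, Θ, g, hF⟩ := hrep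
  obtain ⟨e₀, he⟩ := t_eig pr.toPair0 ch.mass hm hv hF (fam_lb pr.toPair0 tp fP (by linarith) (by
    have := (le_div_iff₀ (by positivity)).1 ho.2
    nlinarith) hF)
  obtain ⟨R, hR, hf⟩ := ext_form pr (r₃.trans r₅) fA fU hm hv he
  have I0 := ch.I_bd.1
  refine not_decay pr (α := √(2 * ch.I + pr.lam / 2)) fA hz fL
    (Real.sqrt_lt_sqrt (by linarith) (by linarith))
    (agmon_decay pr.pair.ht tp hR (Real.sqrt_nonneg _) ?_ hf)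
  rw [Real.sq_sqrt (by linarith)]
  linarith

end Crest.Agent.R335
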