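import Crest.Agent.R335.O3

/-! Row 335. The one-body problem: assembly. -/

set_option autoImplicit false

open MeasureTheory Set Filter Topology
open scoped ENNReal

noncomputable section

namespace Crest.Agent.R335

theorem O4_memLp {α M : ℝ} {u ζ : X → ℝ} (hu : Measurable u) (hζ : Measurable ζ)
    (h : MemLp (fun x => Real.exp (α * jb x) * u x) 2 volume)
    (hM : ∀ x, |ζ x| ≤ M * Real.exp (α * jb x)) : MemLp (fun x => ζ x * u x) 2 volume := by
  refine h.of_le_mul (c := M) (hζ.mul hu).aestronglyMeasurable (Eventually.of_forall fun x => ?_)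
  rw [Real.norm_eq_abs, Real.norm_eq_abs, abs_mul, abs_mul, abs_of_pos (Real.exp_pos _),
    ← mul_assoc]
  exact mul_le_mul_of_nonneg_right (hM x) (abs_nonneg _)

theorem O4_z_le {α : ℝ} (hα : 0 < α) (x : X) :
    |x 2| ≤ 1 / α * Real.exp (α * jb x) ∧ |x 2 * x 2| ≤ 4 / α ^ 2 * Real.exp (α * jb x) := by
  have h1 : |x 2| ≤ jb x := (abs_two_le x).trans (norm_le_jb x)
  constructor
  · rw [div_mul_eq_mul_div, le_div_iff₀ hα, one_mul]
    nlinarith [Real.add_one_le_exp (α * jb x), mul_le_mul_of_nonneg_left h1 hα.le]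
  · rw [div_mul_eq_mul_div, le_div_iff₀ (by positivity)]
    have h2 : α * |x 2| / 2 ≤ Real.exp (α * jb x / 2) := by
      nlinarith [Real.add_one_le_exp (α * jb x / 2), mul_le_mul_of_nonneg_left h1 hα.le]
    have h3 := mul_self_le_mul_self (by positivity) h2
    rw [← Real.exp_add, add_halves] at h3
    rw [abs_mul]
    nlinarith

theorem O4_contDiff_z : ContDiff ℝ 1 fun x : X => x 2 :=
  (EuclideanSpace.proj (𝕜 := ℝ) (2 : Fin 3) : X →L[ℝ] ℝ).contDiff

theorem O4_pd_z (i : Fin 3) (x : X) : pd eX (fun x : X => x 2) i x = if i = 2 then 1 else 0 := by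
  have : fderiv ℝ (fun x : X => x 2) x = (EuclideanSpace.proj (𝕜 := ℝ) (2 : Fin 3) : X →L[ℝ] ℝ) :=
    (EuclideanSpace.proj (𝕜 := ℝ) (2 : Fin 3) : X →L[ℝ] ℝ).fderiv
  unfold pd
  rw [this]
  fin_cases i <;> simp [eX]

theorem O4_wk {α C : ℝ} {w : X → ℝ} {k : Fin 3 → X → ℝ} (hw : WB eX jb α C w k)
    (i : Fin 3) : MemLp (fun x => Real.exp (α * jb x) * k i x) 2 volume := by
  have h1 : MemLp (fun x => pd eX jb i x * (Real.exp (α * jb x) * w x)) 2 volume := by
    refine LWD_memLp_mul hw.1.l2 (LWD_pd_cont contDiff_jb i) (M := 1) fun x => ?_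
    have := (LGap_sq_le_gs (pd eX jb) i x).trans (gs_jb_le x)
    exact abs_le_one_iff_mul_self_le_one.2 (by nlinarith)
  refine ((hw.1.gl2 i).sub (h1.const_mul α)).ae_eq (Eventually.of_forall fun x => ?_)
  simp only [Pi.sub_apply]
  ring

/-- `z w ∈ H¹`, `z² w ∈ H¹` by the weighted bound; test the equation with `z² w`. -/
theorem dipole_ident {D e α C : ℝ} {w : X → ℝ} {k : Fin 3 → X → ℝ} (h : H1 eX w k)
    (he : Eig eX (V D) e w k) (hα : 0 < α) (hw : WB eX jb α C w k) :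
    ∃ l, H1 eX (fun x => x 2 * w x) l ∧
      qf (V D) (fun x => x 2 * w x) l = e * nsq (fun x => x 2 * w x) + nsq w / 2 := by
  have mz : Measurable fun x : X => x 2 := O4_contDiff_z.continuous.measurable
  have a1 : MemLp (fun x : X => x 2 * w x) 2 volume :=
    O4_memLp h.m mz hw.1.l2 fun x => (O4_z_le hα x).1
  have a2 : MemLp (fun x : X => x 2 * x 2 * w x) 2 volume :=
    O4_memLp h.m (mz.mul mz) hw.1.l2 fun x => (O4_z_le hα x).2
  have a3 : ∀ i, MemLp (fun x : X => x 2 * k i x) 2 volume := fun i =>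
    O4_memLp (h.gm i) mz (O4_wk hw i) fun x => (O4_z_le hα x).1
  have a4 : ∀ i, MemLp (fun x : X => x 2 * x 2 * k i x) 2 volume := fun i =>
    O4_memLp (h.gm i) (mz.mul mz) (O4_wk hw i) fun x => (O4_z_le hα x).2
  have h1 : H1 eX (fun x : X => x 2 * w x)
      fun i x => x 2 * k i x + pd eX (fun x : X => x 2) i x * w x := by
    refine (h.h1l.mul_contDiff O4_contDiff_z).h1 a1 fun i => ?_
    simp only [O4_pd_z]
    exact (a3 i).add (h.l2.const_mul _)
  have h2 : H1 eX (fun x : X => x 2 * (x 2 * w x))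
      fun i x => x 2 * (x 2 * k i x + pd eX (fun x : X => x 2) i x * w x) +
        pd eX (fun x : X => x 2) i x * (x 2 * w x) := by
    refine (h1.h1l.mul_contDiff O4_contDiff_z).h1 (by simpa only [mul_assoc] using a2) fun i => ?_
    simp only [O4_pd_z]
    refine ((a4 i).add (a1.const_mul (2 * if i = 2 then 1 else 0))).ae_eq
      (Eventually.of_forall fun x => ?_)
    simp only [Pi.add_apply]
    ring
  refine ⟨_, h1, ?_⟩
  have h3 := he _ _ h2
  unfold bf ip at h3
  have h4 : dir (fun i (x : X) => x 2 * k i x + pd eX (fun x : X => x 2) i x * w x) =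
      (∫ x, gd k (fun i x => x 2 * (x 2 * k i x + pd eX (fun x : X => x 2) i x * w x) +
        pd eX (fun x : X => x 2) i x * (x 2 * w x)) x) + nsq w := by
    unfold dir nsq
    rw [← integral_add (h.integrable_gd h2) h.integrable_sq]
    refine integral_congr_ae (Eventually.of_forall fun x => ?_)
    simp [gs, gd, O4_pd_z, Fin.sum_univ_three]
    ring
  have h5 : ∫ x : X, V D x * (x 2 * w x) ^ 2 = ∫ x : X, V D x * (w x * (x 2 * (x 2 * w x))) :=
    integral_congr_ae (Eventually.of_forall fun x => by ring)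
  have h6 : nsq (fun x : X => x 2 * w x) = ∫ x : X, w x * (x 2 * (x 2 * w x)) :=
    integral_congr_ae (Eventually.of_forall fun x => by ring)
  unfold qf
  rw [h4, h5, h6]
  linarith

theorem O4_qf_P (D : ℝ) (u : X → ℝ) (g : Fin 3 → X → ℝ) :
    qf (V D) (fun x => u (P x)) (fun i x => sg i * g i (P x)) = qf (V D) u g := by
  unfold qf dir
  rw [← integral_P (gs g), ← integral_P fun x => V D x * u x ^ 2]
  simp only [gs_P, V_P]

theorem O4_nsq_P (u : X → ℝ) : nsq (fun x => u (P x)) = nsq u :=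
  integral_P fun x => u x ^ 2

theorem O4_ip_P {a : X → ℝ} {s : ℝ} (ha : ∀ x, a (P x) = s * a x) (u : X → ℝ) :
    ip a (fun x => u (P x)) = s * ip a u := by
  unfold ip
  rw [← integral_P fun x => a x * u (P x), ← integral_const_mul]
  simp only [P_P, ha, mul_assoc]

theorem O4_ip_zero {a u : X → ℝ} (ha : ∀ x, a (P x) = 1 * a x) (hu : ∀ x, u (P x) = -u x) :
    ip a u = 0 := by
  have h1 := O4_ip_P ha u
  have h2 : ip a (fun x => u (P x)) = -ip a u := by
    unfold ip
    rw [← integral_neg]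
    simp only [hu, mul_neg]
  linarith

/-- Split `u` into its even and odd parts. -/
theorem gap_full {c η D : ℝ} {a b : X → ℝ} {ga gb : Fin 3 → X → ℝ} {ea eb : ℝ}
    (ha : SG c η D 1 a ga ea) (hb : SG c η D (-1) b gb eb) (hη : 4 * η ≤ c) {u : X → ℝ}
    {g : Fin 3 → X → ℝ} (hu : H1 eX u g) :
    ea * nsq u + (eb - ea) * ip b u ^ 2 + c / 2 * (nsq u - ip a u ^ 2 - ip b u ^ 2) ≤
      qf (V D) u g := by
  have hP := hu.comp_P
  have he := hu.lin hP (1 / 2) (1 / 2)
  have ho := hu.lin hP (1 / 2) (-1 / 2)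
  have h1 := ha.gap _ _ he fun x => by rw [P_P]; ring
  have h2 := hb.gap _ _ ho fun x => by rw [P_P]; ring
  have h3 := ip_sq_le ha.h1.l2 he.l2
  have h4 := ip_sq_le hb.h1.l2 ho.l2
  rw [(fb_V D).qf_lin hu hP, O4_qf_P] at h1 h2
  rw [TP_ip_lin hu.l2 hP.l2 ha.h1.l2, O4_ip_P ha.par, nsq_lin hu.l2 hP.l2, O4_nsq_P] at h1 h3
  rw [TP_ip_lin hu.l2 hP.l2 hb.h1.l2, O4_ip_P hb.par, nsq_lin hu.l2 hP.l2, O4_nsq_P] at h2 h4
  rw [ha.n] at h3
  rw [hb.n] at h4
  have h5 : 0 ≤ nsq u - ip a u ^ 2 - ip b u ^ 2 := by linarith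
  have h6 : 0 ≤ -1 / 2 - η + c - (ea + c / 2) := by linarith [ha.hi]
  nlinarith [mul_nonneg h5 h6]

/-- `|b|` is even with energy `eb`; equality would give `|b| = a`, but `b 0 = 0 < a 0`. -/
theorem gap_pos {c η D : ℝ} {a b : X → ℝ} {ga gb : Fin 3 → X → ℝ} {ea eb : ℝ}
    (ha : SG c η D 1 a ga ea) (hb : SG c η D (-1) b gb eb) (hη : 2 * η < c) : ea < eb := by
  by_contra hle
  push Not at hle
  have hb' := hb.h1.abs
  have h1 := ha.gap _ _ hb' fun x => by rw [hb.par]; simp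
  have hn : nsq (fun x => |b x|) = 1 := by
    rw [← hb.n]
    simp only [nsq, sq_abs]
  have hq : qf (V D) (fun x => |b x|) (fun i x => if 0 ≤ b x then gb i x else -gb i x) = eb := by
    have h2 := hb.eig _ _ hb.h1
    rw [bf_self, LGap0_ip_self, hb.n, mul_one] at h2
    rw [← h2]
    unfold qf dir gs
    simp only [sq_abs]
    congr 3
    funext x
    refine Finset.sum_congr rfl fun i _ => ?_
    split_ifs <;> simp
  rw [hn, hq] at h1
  have h3 : 0 < -1 / 2 - η + c - ea := by linarith [ha.hi]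
  have h4 : 1 ≤ ip a (fun x => |b x|) ^ 2 := by
    by_contra h5
    push Not at h5
    nlinarith [mul_pos h3 (sub_pos.2 h5)]
  have hb0 : b 0 = 0 := by
    have h5 := hb.par 0
    have h6 : P 0 = 0 := norm_eq_zero.1 (by rw [norm_P, norm_zero])
    rw [h6] at h5
    linarith
  have ha0 := ha.pos_even 0
  rcases eq_of_ip_sq hb'.l2 ha.h1.l2 hn ha.n h4 with h5 | h5
  · have := congrFun ((Continuous.ae_eq_iff_eq volume hb.cont.abs ha.cont).1 h5) 0
    rw [hb0, abs_zero] at this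
    linarith
  · have := congrFun ((Continuous.ae_eq_iff_eq volume hb.cont.abs ha.cont.neg).1 h5) 0
    rw [hb0, abs_zero, Pi.neg_apply] at this
    linarith

theorem O4_lower {D τ : ℝ} (hD : 0 ≤ D) {a : X → ℝ} (ha : MemLp a 2 volume) (hn : nsq a = 1)
    (hz : MemLp (fun x : X => x 2 * a x) 2 volume)
    (ht : ∫ x in {x : X | |x 2| < D / 2}, a x ^ 2 ≤ τ) :
    D ^ 2 / 4 * (1 - τ) ≤ nsq fun x : X => x 2 * a x := by
  have hS : MeasurableSet {x : X | |x 2| < D / 2} :=
    (isOpen_lt O4_contDiff_z.continuous.abs continuous_const).measurableSet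
  have i1 := ha.integrable_sq
  have i2 := i1.indicator hS
  calc D ^ 2 / 4 * (1 - τ) ≤ D ^ 2 / 4 * (1 - ∫ x in {x : X | |x 2| < D / 2}, a x ^ 2) := by
        gcongr
    _ = ∫ x : X, D ^ 2 / 4 * (a x ^ 2 - {x : X | |x 2| < D / 2}.indicator (fun x => a x ^ 2) x) := by
        rw [integral_const_mul, integral_sub i1 i2, integral_indicator hS, ← hn]
        rfl
    _ ≤ _ := by
        refine integral_mono ((i1.sub i2).const_mul _) hz.integrable_sq fun x => ?_
        by_cases hx : x ∈ {x : X | |x 2| < D / 2}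
        · simp only [indicator_of_mem hx, sub_self, mul_zero]
          positivity
        · simp only [indicator_of_notMem hx, sub_zero, mul_pow]
          have h1 : D / 2 ≤ |x 2| := not_lt.1 hx
          have h2 := mul_self_le_mul_self (by positivity) h1
          rw [abs_mul_abs_self] at h2
          exact mul_le_mul_of_nonneg_right (by nlinarith) (sq_nonneg _)

/-- The constant is half the constant of `loc2`.  Dipole bounds: with `κ = ⟨b, z a⟩ ≥ 0`,
`(c / 2) (‖z a‖² - κ²) ≤ 1/2` (`gap_full`, `dipole_ident`) and `‖z a‖² ≥ D² / 8` (`tail`). -/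
theorem one_exists : ∃ c : ℝ, 0 < c ∧ ∀ η : ℝ, 0 < η → ∃ D₀ : ℝ, ∀ D : ℝ, D₀ ≤ D →
    ∃ o : One c, o.D = D ∧ o.g ≤ η := by
  obtain ⟨c, hc, hc4, hloc⟩ := loc2
  refine ⟨c / 2, half_pos hc, fun η hη => ?_⟩
  obtain ⟨δ, hδ, hδ1, hδ2, hδ3⟩ : ∃ δ : ℝ, 0 < δ ∧ δ ≤ η / 2 ∧ δ ≤ c / 8 ∧ δ ≤ 1 / 20000 :=
    ⟨min (η / 2) (min (c / 8) (1 / 20000)), by positivity, min_le_left _ _,
      (min_le_right _ _).trans (min_le_left _ _), (min_le_right _ _).trans (min_le_right _ _)⟩
  obtain ⟨D₀, hD₀⟩ := hloc δ hδ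
  refine ⟨max D₀ (max 1 (16 / c)), fun D hD => ?_⟩
  have hD1 : 1 ≤ D := ((le_max_left _ _).trans (le_max_right _ _)).trans hD
  have hD2 : 16 / c ≤ D := ((le_max_right _ _).trans (le_max_right _ _)).trans hD
  obtain ⟨l1, l2⟩ := hD₀ D ((le_max_left _ _).trans hD)
  obtain ⟨a, ga, ea, ha⟩ := sg_exists hδ (by linarith) (Or.inl rfl) l1
  obtain ⟨b, gb, eb, hb⟩ := sg_exists hδ (by linarith) (Or.inr rfl) l2
  have hg : ea < eb := gap_pos ha hb (by linarith)
  have hg' : eb - ea ≤ 2 * δ := by linarith [ha.lo, hb.hi]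
  have hα : 0 < √(eb - ea) := Real.sqrt_pos.2 (sub_pos.2 hg)
  have hα2 : √(eb - ea) ^ 2 ≤ c - 2 * δ := by
    rw [Real.sq_sqrt (sub_pos.2 hg).le]
    linarith
  obtain ⟨Ca, wa⟩ := ha.wt _ hα.le hα2
  obtain ⟨Cb, wb⟩ := hb.wt _ hα.le hα2
  have hbP : ∀ x, b (P x) = -b x := fun x => by rw [hb.par, neg_one_mul]
  obtain ⟨l, hl, hq⟩ := dipole_ident ha.h1 ha.eig hα wa
  have h1 := gap_full ha hb (by linarith) hl
  have h2 : ip a (fun x : X => x 2 * a x) = 0 :=
    O4_ip_zero ha.par fun x => by rw [P_two, ha.par]; ring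
  rw [hq, h2, ha.n] at h1
  have h3 := O4_lower (by linarith) ha.h1.l2 ha.n hl.l2 ha.tail
  set N := nsq fun x : X => x 2 * a x with hN
  set κ := ip b fun x : X => x 2 * a x with hκ
  have h4 : 4 * δ / c ≤ 1 / 2 := by
    rw [div_le_iff₀ hc]
    linarith
  rw [div_le_iff₀ hc] at hD2
  have h5 : D / 8 ≤ N := by nlinarith [mul_le_mul_of_nonneg_left h4 (sq_nonneg D)]
  have h6 : 2 ≤ c * N := by nlinarith
  have h7 : c * (N - κ ^ 2) ≤ 1 := by nlinarith [mul_nonneg (sub_pos.2 hg).le (sq_nonneg κ)]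
  have h8 : N ≤ 2 * κ ^ 2 := by
    by_contra h9
    push Not at h9
    nlinarith [mul_pos hc (sub_pos.2 h9)]
  have h9 : 0 ≤ κ := by
    refine integral_nonneg fun x => ?_
    have ha0 := ha.pos_even x
    change 0 ≤ b x * (x 2 * a x)
    rcases lt_trichotomy (x 2) 0 with h | h | h
    · have := hb.pos (P x) (by rw [P_two]; linarith)
      rw [hbP] at this
      exact mul_nonneg_of_nonpos_of_nonpos (by linarith) (mul_nonpos_of_nonpos_of_nonneg h.le ha0.le)
    · simp [h]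
    · exact mul_nonneg (hb.pos x h) (mul_nonneg h.le ha0.le)
  have h10 : 1 ≤ κ := by
    have : 8 ≤ N := by nlinarith [nsq_nonneg fun x : X => x 2 * a x]
    nlinarith
  obtain ⟨Ma, hMa⟩ := ha.bdd
  obtain ⟨Mb, hMb⟩ := hb.bdd
  refine ⟨{
    D := D, a := a, b := b, ga := ga, gb := gb, ea := ea, eb := eb, D1 := hD1
    ha := ha.h1, hb := hb.h1, ca := ha.cont, cb := hb.cont, apos := ha.pos_even
    aP := fun x => by rw [ha.par, one_mul]
    bP := hbP, bpos := hb.pos_odd
    bdd := ⟨max Ma Mb, fun x => ⟨(hMa x).trans (le_max_left _ _), (hMb x).trans (le_max_right _ _)⟩⟩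
    na := ha.n, nb := hb.n, ab := O4_ip_zero ha.par hbP, eiga := ha.eig, eigb := hb.eig
    gap := fun u g hu => gap_full ha hb (by linarith) hu
    gpos := hg, gsm := by linarith, g2 := by linarith
    ea_near := abs_le.2 ⟨by linarith [ha.lo], by linarith [ha.hi]⟩
    dip := h8, dip1 := h10, wa := wa.1.l2, wb := wb.1.l2 }, rfl, ?_⟩
  change eb - ea ≤ η
  linarith

end Crest.Agent.R335
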