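import Crest.Agent.R335.C4
import Crest.Agent.R335.C6
import Crest.Agent.R335.C7
import Crest.Agent.R335.NoRep
import Crest.Agent.R335.O4

/-! Row 335. Assembly of the scaled problem. -/

set_option autoImplicit false

open MeasureTheory Set Filter Topology
open scoped ENNReal

noncomputable section

namespace Crest.Agent.R335

variable {c : ℝ} {o : One c} {C ε : ℝ}

theorem chan_exists (o : One c) : ∃ C ε₀ : ℝ, 0 < ε₀ ∧ ∀ ε : ℝ, 0 < ε → ε ≤ ε₀ →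
    ∃ (ψ : T → ℝ) (g : IT → T → ℝ), RGS (U3 o.D ε) ψ g ∧
      ∃ ch : Chan o C ε, ∀ x, ch.s x ^ 2 = rho3 ψ x := by
  obtain ⟨C, ε₀, h0, hm⟩ := mb_exists o
  obtain ⟨C1, h1⟩ := subB o C
  obtain ⟨C2, h2⟩ := subE o C
  obtain ⟨C3, h3⟩ := chan_close o C
  obtain ⟨C4, h4⟩ := chan_close_z o C
  obtain ⟨C5, h5⟩ := pair_nat o C
  obtain ⟨K, K1, KC, k1, k2, k3, k4, k5⟩ : ∃ K : ℝ, 1 ≤ K ∧ 3 * C ≤ K ∧ C1 ≤ K ∧ C2 ≤ K ∧ C3 ≤ K ∧
      C4 ≤ K ∧ C5 ≤ K :=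
    ⟨max 1 (max (3 * C) (max C1 (max C2 (max C3 (max C4 C5))))), by simp⟩
  have hg := o.g_pos
  refine ⟨K, min ε₀ (o.g / 100 / K), by positivity, fun ε hε he => ?_⟩
  obtain ⟨m⟩ := hm ε hε (he.trans (min_le_left _ _))
  have c1 := m.C1
  have e1 := m.ε_le
  have CK : C ≤ K := by linarith
  have Ce : C * ε ≤ K := by nlinarith
  have Rs : ∀ {x : X}, o.Rs < ‖x‖ → 1 ≤ ‖x‖ := fun h => by linarith [o.Rs_ge]
  have cl := h3 K k3 ε m
  refine ⟨m.th.ψ, m.th.gψ, ⟨m.th.hψ, m.th.anti, m.th.nψ, fun u k hu ha => ?_⟩,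
    { I := m.I, gS := m.tw.gS, d := m.d, p := m.p, q := m.q, s := m.s, nL := sn m.L, nB := sn m.B
      nE := sn m.E, nD := sn m.Dn, Sp := m.Sp, Sq := m.Sq, gp := m.gp, gq := m.gq, gr := m.gr
      gL := gsn m.L m.gL, gB := gsn m.B m.gB, gE := gsn m.E m.gE, gD := gsn m.Dn m.gDn
      ε0 := hε, C1 := K1
      εC := (le_div_iff₀' (by positivity)).1 (he.trans (min_le_right _ _))
      I_near := m.I_near.1.trans (by nlinarith)
      gS_near := m.tw.gS_near.trans (by gcongr)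
      d1 := m.d1, dC := m.dC.trans CK, solp := m.solp.1, solq := m.solq.1
      Sp2 := m.solp.2.1, Sq2 := m.solq.2.1
      Spn := m.solp.2.2.1.trans Ce, Sqn := m.solq.2.2.1.trans Ce
      dp := m.solp.2.2.2.trans CK, dq := m.solq.2.2.2.trans CK, dr := m.s_spec.2.2.trans KC
      SpP := .of_forall fun x => (m.parity x).2.2.2.2.1
      pP := fun x => (m.parity x).1, qP := fun x => (m.parity x).2.1
      sP := fun x => (m.parity x).2.2.1, EP := fun x => (m.parity x).2.2.2.1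
      s0 := fun _ => Real.sqrt_nonneg _, L0 := fun _ => Real.sqrt_nonneg _
      D0 := fun _ => Real.sqrt_nonneg _
      Sp_ext := m.Sp_ext.mono fun x h hx => (h (Rs hx)).trans ?_
      Sq_ext := m.Sq_ext.mono fun x h hx => (h (Rs hx)).trans ?_
      subs := m.subs (by linarith), subL := m.subL CK, subD := m.subD CK
      subB := h1 K k1 ε m, subE := h2 K k2 ε m, vanE := m.vanE
      Lsq := m.slices.mono fun x h => h.2.2.2.2.2.2.1
      rho := m.slices.mono fun x h => h.2.2.2.2.2.2.2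
      sbd := cl.mono fun x h => h.2.2.2.2.2, mass := m.s_spec.2.1
      cp := cl.mono fun x h => h.1, cq := cl.mono fun x h => h.2.1
      cB := cl.mono fun x h => h.2.2.1, cE := cl.mono fun x h => h.2.2.2.1
      cD := cl.mono fun x h => h.2.2.2.2.1, cpz := h4 K k4 ε m, pair0 := h5 K k5 ε m }, m.s_sq⟩
  · rw [← bf_self, m.th.eig _ _ m.th.hψ, TS_ip_self, m.th.nψ, mul_one]
    exact m.th.min u k hu ha
  all_goals
    unfold sn
    gcongr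

theorem main_real : ∃ D₀ : ℝ, ∀ D : ℝ, D₀ ≤ D → ∃ ε₀ : ℝ, 0 < ε₀ ∧ ∀ ε : ℝ, 0 < ε → ε ≤ ε₀ →
    ∃ (ψ : T → ℝ) (g : IT → T → ℝ), RGS (U3 D ε) ψ g ∧ ¬Rep (rho3 ψ) := by
  obtain ⟨c, hc, h1⟩ := one_exists
  obtain ⟨η, hη, h2⟩ := no_rep c hc
  obtain ⟨D₀, h1⟩ := h1 η hη
  refine ⟨D₀, fun D hD => ?_⟩
  obtain ⟨o, rfl, hg⟩ := h1 D hD
  obtain ⟨C, ε₀, h0, h3⟩ := chan_exists o
  obtain ⟨ε₁, h0', h2⟩ := h2 o hg C
  refine ⟨min ε₀ ε₁, lt_min h0 h0', fun ε hε he => ?_⟩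
  obtain ⟨ψ, g, hr, ch, hs⟩ := h3 ε hε (he.trans (min_le_left _ _))
  exact ⟨ψ, g, hr, funext hs ▸ h2 ε ch (he.trans (min_le_right _ _))⟩

end Crest.Agent.R335
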