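import Crest.Agent.R335.LMax

/-! Row 335. Kato inequality: from the tests `n ζ` to general tests. -/

set_option autoImplicit false

open MeasureTheory Set Filter Topology
open scoped ENNReal

noncomputable section

namespace Crest.Agent.R335

/-- The weak inequality `-n Δn / 2 + Q ≤ 0`, tested with the multipliers `ζ ≥ 0`. -/
def Zf (Ω : Set X) (n : X → ℝ) (g : Fin 3 → X → ℝ) (Q : X → ℝ) : Prop :=
  ∀ (ζ : X → ℝ) (k : Fin 3 → X → ℝ) (M : ℝ), H1l eX ζ k → (∀ᵐ x, 0 ≤ ζ x ∧ ζ x ≤ M) →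
    (∀ᵐ x, x ∉ Ω → ζ x = 0) → (∀ i, MemLp (fun x => n x * k i x) 2 volume) →
    ∫ x, (ζ x * gs g x / 2 + n x * gd g k x / 2 + ζ x * Q x) ≤ 0

variable {Ω : Set X} {n : X → ℝ} {g : Fin 3 → X → ℝ} {f S Q : X → ℝ}

theorem LKato_int (hΩ : MeasurableSet Ω) (hQ : IntegrableOn Q Ω) {ζ : X → ℝ} (hm : Measurable ζ)
    {M : ℝ} (hb : ∀ᵐ x, |ζ x| ≤ M) (h0 : ∀ᵐ x, x ∉ Ω → ζ x = 0) :
    Integrable fun x => ζ x * Q x := by
  have h1 := ((integrable_indicator_iff hΩ).2 hQ).bdd_mul (c := M) hm.aestronglyMeasurable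
    (by simpa only [Real.norm_eq_abs] using hb)
  refine h1.congr ?_
  filter_upwards [h0] with x hx
  by_cases hxΩ : x ∈ Ω
  · rw [indicator_of_mem hxΩ]
  · rw [hx hxΩ, zero_mul, zero_mul]

theorem LKato_intgd (h : H1 eX n g) {k : Fin 3 → X → ℝ}
    (h2 : ∀ i, MemLp (fun x => n x * k i x) 2 volume) :
    Integrable fun x => n x * gd g k x := by
  have : (fun x => n x * gd g k x) = fun x => ∑ i, g i x * (n x * k i x) := by
    ext x
    simp only [gd, Finset.mul_sum]
    exact Finset.sum_congr rfl fun i _ => by ring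
  rw [this]
  exact integrable_finsetSum _ fun i _ => (h.gl2 i).integrable_mul (h2 i)

theorem LKato_intZ (hΩ : MeasurableSet Ω) (h : H1 eX n g) (hQ : IntegrableOn Q Ω) {ζ : X → ℝ}
    {k : Fin 3 → X → ℝ} {M : ℝ} (hm : Measurable ζ) (hb : ∀ᵐ x, 0 ≤ ζ x ∧ ζ x ≤ M)
    (h0 : ∀ᵐ x, x ∉ Ω → ζ x = 0) (h2 : ∀ i, MemLp (fun x => n x * k i x) 2 volume) :
    Integrable fun x => ζ x * gs g x / 2 + n x * gd g k x / 2 + ζ x * Q x := by
  have hb' : ∀ᵐ x, |ζ x| ≤ M := by
    filter_upwards [hb] with x hx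
    rw [abs_of_nonneg hx.1]; exact hx.2
  have i1 : Integrable fun x => ζ x * gs g x :=
    h.integrable_gs.bdd_mul (c := M) hm.aestronglyMeasurable
      (by simpa only [Real.norm_eq_abs] using hb')
  exact ((i1.div_const 2).add ((LKato_intgd h h2).div_const 2)).add (LKato_int hΩ hQ hm hb' h0)

theorem LKato_frac (h0 : ∀ x, 0 ≤ n x) {δ : ℝ} (hδ : 0 < δ) (x : X) :
    0 ≤ n x / (n x + δ) ∧ n x / (n x + δ) ≤ 1 := by
  have := h0 x
  exact ⟨by positivity, (div_le_one (by positivity)).2 (by linarith)⟩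

theorem LKato_core (hΩ : MeasurableSet Ω) (h : H1 eX n g) (h0 : ∀ x, 0 ≤ n x)
    (hQ : IntegrableOn Q Ω) (hZ : Zf Ω n g Q) (hf : MemLp f 2 (volume.restrict Ω))
    (hS : IntegrableOn S Ω) (hle : ∀ᵐ x, x ∈ Ω → -(f x * n x) - S x ≤ Q x)
    {φ : X → ℝ} {l : Fin 3 → X → ℝ} (hφ : H1 eX φ l) (hφ0 : ∀ᵐ x, 0 ≤ φ x)
    (hφΩ : ∀ᵐ x, x ∉ Ω → φ x = 0) {δ M : ℝ} (hδ : 0 < δ) (hM : ∀ᵐ x, φ x ≤ M * (n x + δ)) :
    (∫ x, gd g l x * (n x / (n x + δ))) / 2 ≤
      (∫ x, f x * φ x * (n x / (n x + δ))) + ∫ x, φ x / (n x + δ) * S x := by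
  have hpos : ∀ x, 0 < n x + δ := fun x => by have := h0 x; positivity
  have hw : H1l eX (fun x => n x + δ) g := by
    have := h.h1l.lin (H1l.const (e := eX) δ) 1 1
    simpa using this
  have hp : LocPos fun x => n x + δ := fun K _ =>
    ⟨δ, hδ, Eventually.of_forall fun x _ => by have := h0 x; linarith⟩
  have hζ := hφ.h1l.div hw hp (M := M) (by
    filter_upwards [hφ0, hM] with x h1 h2
    rwa [abs_of_nonneg h1])
  have hb : ∀ᵐ x, 0 ≤ φ x / (n x + δ) ∧ φ x / (n x + δ) ≤ M := by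
    filter_upwards [hφ0, hM] with x h1 h2
    exact ⟨div_nonneg h1 (hpos x).le, (div_le_iff₀ (hpos x)).2 h2⟩
  have hb' : ∀ᵐ x, |φ x / (n x + δ)| ≤ M := by
    filter_upwards [hb] with x hx
    rw [abs_of_nonneg hx.1]; exact hx.2
  have hz : ∀ᵐ x, x ∉ Ω → φ x / (n x + δ) = 0 := by
    filter_upwards [hφΩ] with x hx hxΩ
    rw [hx hxΩ, zero_div]
  have hfr := LKato_frac h0 hδ
  have hfrm : Measurable fun x => n x / (n x + δ) := h.m.div (h.m.add_const δ)
  have hfrb : ∀ᵐ x, ‖n x / (n x + δ)‖ ≤ 1 := Eventually.of_forall fun x => by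
    rw [Real.norm_eq_abs, abs_of_nonneg (hfr x).1]; exact (hfr x).2
  have h2 : ∀ i, MemLp (fun x => n x * ((l i x - φ x / (n x + δ) * g i x) / (n x + δ))) 2
      volume := by
    intro i
    have hb2 : MemLp (fun x => |l i x| + |M| * |g i x|) 2 volume :=
      (hφ.gl2 i).abs.add ((h.gl2 i).abs.const_mul _)
    refine hb2.mono' (h.m.mul (hζ.gm i)).aestronglyMeasurable ?_
    filter_upwards [hb'] with x hx
    have e : n x * ((l i x - φ x / (n x + δ) * g i x) / (n x + δ)) =
        n x / (n x + δ) * (l i x - φ x / (n x + δ) * g i x) := by ring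
    rw [e, Real.norm_eq_abs, abs_mul, abs_of_nonneg (hfr x).1]
    have e2 : |l i x - φ x / (n x + δ) * g i x| ≤ |l i x| + |M| * |g i x| := by
      refine (abs_sub _ _).trans ?_
      rw [abs_mul]
      have := mul_le_mul_of_nonneg_right (hx.trans (le_abs_self M)) (abs_nonneg (g i x))
      linarith
    exact (mul_le_of_le_one_left (abs_nonneg _) (hfr x).2).trans e2
  have hmain := hZ _ _ M hζ hb hz h2
  have iZ := LKato_intZ hΩ h hQ hζ.m hb hz h2
  have i1 : Integrable fun x => gd g l x * (n x / (n x + δ)) :=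
    (h.integrable_gd hφ).mul_bdd hfrm.aestronglyMeasurable hfrb
  have i2 : Integrable fun x => f x * φ x * (n x / (n x + δ)) :=
    (integrable_test hΩ hf hφ.l2 hφΩ).mul_bdd hfrm.aestronglyMeasurable hfrb
  have i3 : Integrable fun x => φ x / (n x + δ) * S x := LKato_int hΩ hS hζ.m hb' hz
  have key : ∫ x, (gd g l x * (n x / (n x + δ)) / 2 -
      (f x * φ x * (n x / (n x + δ)) + φ x / (n x + δ) * S x)) ≤ 0 := by
    refine le_trans (integral_mono_ae ((i1.div_const 2).sub (i2.add i3)) iZ ?_) hmain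
    filter_upwards [hb, hz, hle] with x h1 h3 h4
    have e1 : n x * gd g (fun i x => (l i x - φ x / (n x + δ) * g i x) / (n x + δ)) x =
        gd g l x * (n x / (n x + δ)) - φ x / (n x + δ) * gs g x * (n x / (n x + δ)) := by
      simp only [gd, gs, Finset.mul_sum, Finset.sum_mul, ← Finset.sum_sub_distrib]
      exact Finset.sum_congr rfl fun i _ => by ring
    have e2 : φ x / (n x + δ) * gs g x * (n x / (n x + δ)) ≤ φ x / (n x + δ) * gs g x :=
      mul_le_of_le_one_right (mul_nonneg h1.1 (gs_nonneg g x)) (hfr x).2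
    have e3 : -(f x * φ x * (n x / (n x + δ)) + φ x / (n x + δ) * S x) ≤
        φ x / (n x + δ) * Q x := by
      have e4 : -(f x * φ x * (n x / (n x + δ)) + φ x / (n x + δ) * S x) =
          φ x / (n x + δ) * (-(f x * n x) - S x) := by ring
      rw [e4]
      by_cases hxΩ : x ∈ Ω
      · exact mul_le_mul_of_nonneg_left (h4 hxΩ) h1.1
      · rw [h3 hxΩ, zero_mul, zero_mul]
    rw [e1]
    linarith
  have i23 : Integrable fun x => f x * φ x * (n x / (n x + δ)) + φ x / (n x + δ) * S x :=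
    i2.add i3
  rw [integral_sub (i1.div_const 2) i23, integral_div, integral_add i2 i3] at key
  linarith

theorem LKato_lim {a : ℝ} (ha : 0 < a) :
    Tendsto (fun m : ℕ => a / (a + 1 / ((m : ℝ) + 1))) atTop (𝓝 1) := by
  have h1 : Tendsto (fun m : ℕ => a + 1 / ((m : ℝ) + 1)) atTop (𝓝 (a + 0)) :=
    tendsto_const_nhds.add tendsto_one_div_add_atTop_nhds_zero_nat
  have h2 := (tendsto_const_nhds (x := a)).div h1 (by simpa using ha.ne')
  rw [add_zero, div_self ha.ne'] at h2
  exact h2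

/-- `ζ = φ / (n + δ)`; `ζ |∇n|² + n ∇n·∇ζ = ∇n·∇φ n / (n + δ) + φ |∇n|² δ / (n + δ)²`;
let `δ → 0` (`∇n = 0` on `{n = 0}`). -/
theorem kato2 (hΩ : MeasurableSet Ω) (h : H1 eX n g) (h0 : ∀ x, 0 ≤ n x) (hQ : IntegrableOn Q Ω)
    (hZ : Zf Ω n g Q) (hf : MemLp f 2 (volume.restrict Ω)) (hS : IntegrableOn S Ω)
    (hS0 : ∀ x, 0 ≤ S x) (hle : ∀ᵐ x, x ∈ Ω → -(f x * n x) - S x ≤ Q x) : Sub2 Ω n g f S := by
  refine ⟨h, h0, hf, hS, hS0, fun φ l hφ hφn hφΩ => ?_⟩
  have hδ : ∀ m : ℕ, (0 : ℝ) < 1 / ((m : ℝ) + 1) := fun m => by positivity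
  have hφ0 : ∀ᵐ x, 0 ≤ φ x := hφn.mono fun x hx => hx.1
  have hfrm : ∀ m : ℕ, Measurable fun x => n x / (n x + 1 / ((m : ℝ) + 1)) := fun m =>
    h.m.div (h.m.add_const _)
  have hfrb : ∀ (m : ℕ) x, |n x / (n x + 1 / ((m : ℝ) + 1))| ≤ 1 := fun m x => by
    rw [abs_of_nonneg (LKato_frac h0 (hδ m) x).1]; exact (LKato_frac h0 (hδ m) x).2
  have iG := h.integrable_gd hφ
  have iF := integrable_test hΩ hf hφ.l2 hφΩ
  have hq : ∀ᵐ x, |φ x / n x| ≤ 1 := by
    filter_upwards [hφn] with x hx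
    rw [abs_of_nonneg (div_nonneg hx.1 (h0 x))]
    exact div_le_one_of_le₀ hx.2 (h0 x)
  have iS : Integrable fun x => φ x / n x * S x :=
    LKato_int hΩ hS (hφ.m.div h.m) hq (by
      filter_upwards [hφΩ] with x hx hxΩ
      rw [hx hxΩ, zero_div])
  have t1 : Tendsto (fun m : ℕ => ∫ x, gd g l x * (n x / (n x + 1 / ((m : ℝ) + 1)))) atTop
      (𝓝 (∫ x, gd g l x)) := by
    refine tendsto_integral_of_dominated_convergence (fun x => ‖gd g l x‖)
      (fun m => iG.aestronglyMeasurable.mul (hfrm m).aestronglyMeasurable) iG.norm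
      (fun m => Eventually.of_forall fun x => ?_) ?_
    · rw [norm_mul]
      exact mul_le_of_le_one_right (norm_nonneg _) (hfrb m x)
    · filter_upwards [h.h1l.grad_zero] with x hx
      rcases (h0 x).eq_or_lt with e | e
      · have : gd g l x = 0 := by simp [gd, hx e.symm]
        simp [this]
      · simpa using (LKato_lim e).const_mul (gd g l x)
  have t2 : Tendsto (fun m : ℕ => ∫ x, f x * φ x * (n x / (n x + 1 / ((m : ℝ) + 1)))) atTop
      (𝓝 (∫ x, f x * φ x)) := by
    refine tendsto_integral_of_dominated_convergence (fun x => ‖f x * φ x‖)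
      (fun m => iF.aestronglyMeasurable.mul (hfrm m).aestronglyMeasurable) iF.norm
      (fun m => Eventually.of_forall fun x => ?_) ?_
    · rw [norm_mul (f x * φ x)]
      exact mul_le_of_le_one_right (norm_nonneg _) (hfrb m x)
    · filter_upwards [hφn] with x hx
      rcases (h0 x).eq_or_lt with e | e
      · have : φ x = 0 := le_antisymm (e ▸ hx.2) hx.1
        simp [this]
      · simpa using (LKato_lim e).const_mul (f x * φ x)
  refine le_of_tendsto_of_tendsto' (t1.div_const 2)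
    (t2.add_const (∫ x, S x * (φ x / n x))) fun m => ?_
  have hc := LKato_core hΩ h h0 hQ hZ hf hS hle hφ hφ0 hφΩ (hδ m) (M := 1) (by
    filter_upwards [hφn] with x hx
    have := hδ m
    linarith [hx.2])
  refine hc.trans ?_
  have : ∫ x, φ x / (n x + 1 / ((m : ℝ) + 1)) * S x ≤ ∫ x, S x * (φ x / n x) := by
    refine integral_mono_of_nonneg ?_ (iS.congr (Eventually.of_forall fun x => mul_comm _ _)) ?_
    · filter_upwards [hφ0] with x hx
      have := h0 x
      have := hδ m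
      exact mul_nonneg (div_nonneg hx (by linarith)) (hS0 x)
    · filter_upwards [hφn] with x hx
      rw [mul_comm]
      refine mul_le_mul_of_nonneg_left ?_ (hS0 x)
      rcases (h0 x).eq_or_lt with e | e
      · have : φ x = 0 := le_antisymm (e ▸ hx.2) hx.1
        simp [this]
      · exact div_le_div_of_nonneg_left hx.1 e (by linarith [hδ m])
  linarith

/-- First for bounded tests (`H1.min_const`). -/
theorem kato (hΩ : MeasurableSet Ω) (h : H1 eX n g) (h0 : ∀ x, 0 ≤ n x) (hQ : IntegrableOn Q Ω)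
    (hZ : Zf Ω n g Q) (hf : MemLp f 2 (volume.restrict Ω))
    (hf0 : ∀ᵐ x, x ∈ Ω → n x = 0 → 0 ≤ f x) (hle : ∀ᵐ x, x ∈ Ω → -(f x * n x) ≤ Q x) :
    Sub Ω n g f := by
  refine ⟨h, hf, fun φ l hφ hφ0 hφΩ => ?_⟩
  have hδ : ∀ m : ℕ, (0 : ℝ) < 1 / ((m : ℝ) + 1) := fun m => by positivity
  have hfrm : ∀ m : ℕ, Measurable fun x => n x / (n x + 1 / ((m : ℝ) + 1)) := fun m =>
    h.m.div (h.m.add_const _)
  have hfrb : ∀ (m : ℕ) x, |n x / (n x + 1 / ((m : ℝ) + 1))| ≤ 1 := fun m x => by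
    rw [abs_of_nonneg (LKato_frac h0 (hδ m) x).1]; exact (LKato_frac h0 (hδ m) x).2
  have iG := h.integrable_gd hφ
  have iF := integrable_test hΩ hf hφ.l2 hφΩ
  have hT : ∀ m : ℕ, H1 eX (fun x => min (φ x) (m : ℝ))
      fun i x => if φ x < (m : ℝ) then l i x else 0 := fun m => hφ.min_const (Nat.cast_nonneg m)
  have hT0 : ∀ m : ℕ, ∀ᵐ x, 0 ≤ min (φ x) (m : ℝ) := fun m =>
    hφ0.mono fun x hx => le_min hx (Nat.cast_nonneg m)
  have hTΩ : ∀ m : ℕ, ∀ᵐ x, x ∉ Ω → min (φ x) (m : ℝ) = 0 := fun m => by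
    filter_upwards [hφΩ] with x hx hxΩ
    rw [hx hxΩ]; exact min_eq_left (Nat.cast_nonneg m)
  have hgd : ∀ (m : ℕ) x, gd g (fun i x => if φ x < (m : ℝ) then l i x else 0) x =
      if φ x < (m : ℝ) then gd g l x else 0 := by
    intro m x
    by_cases hx : φ x < (m : ℝ) <;> simp [gd, hx]
  have hev : ∀ x, ∀ᶠ m : ℕ in atTop, φ x < (m : ℝ) := fun x =>
    tendsto_natCast_atTop_atTop.eventually_gt_atTop (φ x)
  have t1 : Tendsto (fun m : ℕ => ∫ x, gd g (fun i x => if φ x < (m : ℝ) then l i x else 0) x *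
      (n x / (n x + 1 / ((m : ℝ) + 1)))) atTop (𝓝 (∫ x, gd g l x)) := by
    refine tendsto_integral_of_dominated_convergence (fun x => ‖gd g l x‖)
      (fun m => (h.integrable_gd (hT m)).aestronglyMeasurable.mul (hfrm m).aestronglyMeasurable)
      iG.norm (fun m => Eventually.of_forall fun x => ?_) ?_
    · rw [norm_mul, hgd]
      refine (mul_le_of_le_one_right (norm_nonneg _) (hfrb m x)).trans ?_
      split_ifs
      · exact le_rfl
      · simp
    · filter_upwards [h.h1l.grad_zero] with x hx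
      rcases (h0 x).eq_or_lt with e | e
      · have : gd g l x = 0 := by simp [gd, hx e.symm]
        simp [hgd, this]
      · have := (LKato_lim e).const_mul (gd g l x)
        rw [mul_one] at this
        refine this.congr' ?_
        filter_upwards [hev x] with m hm
        rw [hgd, if_pos hm]
  have iF' : Integrable fun x => f x * φ x * (if 0 < n x then 1 else 0) :=
    iF.mul_bdd (c := 1) (Measurable.ite (measurableSet_lt measurable_const h.m) measurable_const
      measurable_const).aestronglyMeasurable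
      (Eventually.of_forall fun x => by split_ifs <;> simp)
  have t2 : Tendsto (fun m : ℕ => ∫ x, f x * min (φ x) (m : ℝ) *
      (n x / (n x + 1 / ((m : ℝ) + 1)))) atTop
      (𝓝 (∫ x, f x * φ x * (if 0 < n x then 1 else 0))) := by
    refine tendsto_integral_of_dominated_convergence (fun x => ‖f x * φ x‖)
      (fun m => (integrable_test hΩ hf (hT m).l2 (hTΩ m)).aestronglyMeasurable.mul
        (hfrm m).aestronglyMeasurable) iF.norm (fun m => ?_) ?_
    · filter_upwards [hφ0, hT0 m] with x hx hx'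
      rw [norm_mul (f x * min (φ x) (m : ℝ))]
      refine (mul_le_of_le_one_right (norm_nonneg _) (hfrb m x)).trans ?_
      rw [norm_mul, norm_mul]
      refine mul_le_mul_of_nonneg_left ?_ (norm_nonneg _)
      rw [Real.norm_eq_abs, Real.norm_eq_abs, abs_of_nonneg hx, abs_of_nonneg hx']
      exact min_le_left _ _
    · refine Eventually.of_forall fun x => ?_
      rcases (h0 x).eq_or_lt with e | e
      · simp [← e]
      · have := (LKato_lim e).const_mul (f x * φ x)
        rw [if_pos e]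
        refine this.congr' ?_
        filter_upwards [hev x] with m hm
        rw [min_eq_left hm.le]
  have hfin : ∫ x, f x * φ x * (if 0 < n x then 1 else 0) ≤ ∫ x, f x * φ x := by
    refine integral_mono_ae iF' iF ?_
    filter_upwards [hφ0, hφΩ, hf0] with x h1 h2 h3
    split_ifs with e
    · rw [mul_one]
    · rw [mul_zero]
      by_cases hxΩ : x ∈ Ω
      · exact mul_nonneg (h3 hxΩ (le_antisymm (not_lt.1 e) (h0 x))) h1
      · rw [h2 hxΩ, mul_zero]
  refine le_trans (le_of_tendsto_of_tendsto' (t1.div_const 2) t2 fun m => ?_) hfin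
  have hc := LKato_core (S := fun _ => 0) hΩ h h0 hQ hZ hf integrableOn_zero
    (by simpa only [sub_zero] using hle) (hT m) (hT0 m) (hTΩ m) (hδ m)
    (M := (m : ℝ) * ((m : ℝ) + 1)) (Eventually.of_forall fun x => by
      have h1 := h0 x
      have h2 : (m : ℝ) * ((m : ℝ) + 1) * (1 / ((m : ℝ) + 1)) = m := by
        field_simp
      have h3 : 0 ≤ (m : ℝ) * ((m : ℝ) + 1) * n x := by positivity
      have h4 := min_le_right (φ x) (m : ℝ)
      rw [mul_add, h2]
      linarith)
  simpa only [mul_zero, integral_zero, add_zero] using hc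

/-- Two subsolutions: `s = √(n² + n'²)`; `s ∇s = n ∇n + n' ∇n'`, `|∇s|² ≤ |∇n|² + |∇n'|²`. -/
theorem Zf.sqrt {n' : X → ℝ} {g' : Fin 3 → X → ℝ} {Q' : X → ℝ} (hΩ : MeasurableSet Ω)
    (h : H1 eX n g) (h' : H1 eX n' g') (hQ : IntegrableOn Q Ω) (hQ' : IntegrableOn Q' Ω)
    (hZ : Zf Ω n g Q) (hZ' : Zf Ω n' g' Q') :
    Zf Ω (fun x => √(n x ^ 2 + n' x ^ 2))
      (fun i x => (n x * g i x + n' x * g' i x) / √(n x ^ 2 + n' x ^ 2)) fun x => Q x + Q' x := by
  intro ζ k M hζ hb hz h2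
  have hle : ∀ (a b : ℝ), |a| ≤ √(a ^ 2 + b ^ 2) := fun a b =>
    Real.abs_le_sqrt (by nlinarith [sq_nonneg b])
  have hk : ∀ i, MemLp (fun x => n x * k i x) 2 volume := fun i =>
    (h2 i).of_le (h.m.mul (hζ.gm i)).aestronglyMeasurable (Eventually.of_forall fun x => by
      rw [norm_mul, norm_mul]
      refine mul_le_mul_of_nonneg_right ?_ (norm_nonneg _)
      rw [Real.norm_eq_abs, Real.norm_eq_abs]
      exact (hle _ _).trans (le_abs_self _))
  have hk' : ∀ i, MemLp (fun x => n' x * k i x) 2 volume := fun i =>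
    (h2 i).of_le (h'.m.mul (hζ.gm i)).aestronglyMeasurable (Eventually.of_forall fun x => by
      rw [norm_mul, norm_mul]
      refine mul_le_mul_of_nonneg_right ?_ (norm_nonneg _)
      rw [Real.norm_eq_abs, Real.norm_eq_abs]
      have := hle (n' x) (n x)
      rw [add_comm] at this
      exact this.trans (le_abs_self _))
  have a1 := hZ ζ k M hζ hb hz hk
  have a2 := hZ' ζ k M hζ hb hz hk'
  have i1 := LKato_intZ hΩ h hQ hζ.m hb hz hk
  have i2 := LKato_intZ hΩ h' hQ' hζ.m hb hz hk'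
  have i3 := LKato_intZ (Q := fun x => Q x + Q' x) hΩ (h.sqrt_sq_add h') (hQ.add hQ') hζ.m hb hz h2
  refine le_trans (integral_mono_ae i3 (i1.add i2) ?_) ?_
  · filter_upwards [hb] with x hx
    have e1 := mul_le_mul_of_nonneg_left (gs_sqrt_le n n' g g' x) hx.1
    have e2 : √(n x ^ 2 + n' x ^ 2) *
        gd (fun i x => (n x * g i x + n' x * g' i x) / √(n x ^ 2 + n' x ^ 2)) k x =
        n x * gd g k x + n' x * gd g' k x := by
      by_cases hs : √(n x ^ 2 + n' x ^ 2) = 0
      · have b1 : n x = 0 := abs_nonpos_iff.1 (hs ▸ hle (n x) (n' x))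
        have b2 : n' x = 0 := by
          have := hle (n' x) (n x)
          rw [add_comm, hs] at this
          exact abs_nonpos_iff.1 this
        rw [hs, b1, b2]; simp
      · simp only [gd, Finset.mul_sum, ← Finset.sum_add_distrib]
        refine Finset.sum_congr rfl fun i _ => ?_
        field_simp
    simp only [Pi.add_apply]
    rw [e2]
    linarith
  · simp only [Pi.add_apply]
    rw [integral_add i1 i2]
    linarith

theorem Zf.smul (hZ : Zf Ω n g Q) {a : ℝ} (ha : 0 < a) :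
    Zf Ω (fun x => a * n x) (fun i x => a * g i x) fun x => a ^ 2 * Q x := by
  intro ζ k M hζ hb hz h2
  have hk : ∀ i, MemLp (fun x => n x * k i x) 2 volume := fun i => by
    have := (h2 i).const_mul a⁻¹
    refine (memLp_congr_ae (Eventually.of_forall fun x => ?_)).1 this
    field_simp
  have a1 := hZ ζ k M hζ hb hz hk
  have e : (fun x => ζ x * gs (fun i x => a * g i x) x / 2 +
      a * n x * gd (fun i x => a * g i x) k x / 2 + ζ x * (a ^ 2 * Q x)) =
      fun x => a ^ 2 * (ζ x * gs g x / 2 + n x * gd g k x / 2 + ζ x * Q x) := by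
    ext x
    simp only [gs, gd, Fin.sum_univ_three]
    ring
  rw [e, integral_const_mul]
  exact mul_nonpos_of_nonneg_of_nonpos (sq_nonneg a) a1

end Crest.Agent.R335
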