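import Crest.Agent.R335.TS
import Crest.Agent.R335.LKato

/-! Row 335. The channels of the three-body ground state: definitions. -/

set_option autoImplicit false

open MeasureTheory Set Filter Topology
open scoped ENNReal

noncomputable section

namespace Crest.Agent.R335

/-- The norm of a slice and its gradient. -/
def sn (Φ : T → ℝ) (x : X) : ℝ := √(∫ y, Φ (x, y) ^ 2)

def gsn (Φ : T → ℝ) (g : IT → T → ℝ) (i : Fin 3) (x : X) : ℝ :=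
  (∫ y, Φ (x, y) * g (.inl i) (x, y)) / sn Φ x

/-- Slices. -/
def sl (Φ : T → ℝ) (x : X) (y : Y) : ℝ := Φ (x, y)

def gsl (g : IT → T → ℝ) (x : X) (j : IY) (y : Y) : ℝ := g (.inr j) (x, y)

/-- The projection `α + β PY - |χ⟩⟨χ|` in the second variable. -/
def prj (α β : ℝ) (χ : Y → ℝ) (Φ : T → ℝ) (p : T) : ℝ :=
  α * Φ p + β * Φ (p.1, PY p.2) - (∫ y, Φ (p.1, y) * χ y) * χ p.2

def gprj (α β : ℝ) (χ : Y → ℝ) (k : IY → Y → ℝ) (Φ : T → ℝ) (g : IT → T → ℝ) : IT → T → ℝ :=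
  Sum.elim (fun i => prj α β χ (g (.inl i))) fun j p =>
    α * g (.inr j) p + β * gPY g (.inr j) p - (∫ y, Φ (p.1, y) * χ y) * k j p.2

/-- At least one of the two electrons is far away. -/
def far (r : ℝ) : Set Y := {y | r / 2 ≤ ‖y.1‖ ∨ r / 2 ≤ ‖y.2‖}

/-- The dipole moment. -/
def dz (y : Y) : ℝ := y.1 2 + y.2 2

/-- The multipole estimates. -/
structure Mult (α C : ℝ) (χ : Y → ℝ) : Prop where
  m0 : ∀ x, MemLp (fun y => W x y * χ y) 2 volume ∧ √(nsq fun y => W x y * χ y) ≤ C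
  m1 : ∀ x, 1 ≤ ‖x‖ → √(nsq fun y => (W x y - 2 / ‖x‖) * χ y) ≤ C / ‖x‖ ^ 2
  m2 : ∀ x : X, 1 ≤ ‖x‖ →
    √(nsq fun y => (Wo x y - x 2 / ‖x‖ ^ 3 * dz y) * χ y) ≤ C * (1 + |x 2|) / ‖x‖ ^ 4
  m3 : ∀ x : X, 1 ≤ ‖x‖ → √(nsq fun y => Wo x y * χ y) ≤ C * (1 + |x 2|) / ‖x‖ ^ 3
  mo : ∀ x, MemLp (fun y => Wo x y * χ y) 2 volume
  mz : MemLp (fun y => dz y * χ y) 2 volume
  mf : ∀ r : ℝ, ∫ y in far r, χ y ^ 2 ≤ C * Real.exp (-α * r)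

/-- All the many-body data. -/
structure MB {c : ℝ} (o : One c) (C ε : ℝ) where
  tw : Two o C ε
  th : Three o C ε
  ε0 : 0 < ε
  C1 : 1 ≤ C
  εC : C * ε ≤ o.g / 1000
  mu0 : Mult o.al C tw.χ0
  mu1 : Mult o.al C tw.χ1
  d1 : 1 ≤ ip tw.χ1 fun y => dz y * tw.χ0 y
  dC : (ip tw.χ1 fun y => dz y * tw.χ0 y) ≤ C
  d3 : √(nsq fun y => dz y * tw.χ0 y) ≤ 3 * ip tw.χ1 fun y => dz y * tw.χ0 y

namespace MB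

variable {c : ℝ} {o : One c} {C ε : ℝ} (m : MB o C ε)

def I : ℝ := m.tw.E2 - m.th.E3
def d : ℝ := ip m.tw.χ1 fun y => dz y * m.tw.χ0 y
def p (x : X) : ℝ := -∫ y, m.th.ψ (x, y) * m.tw.χ0 y
def q (x : X) : ℝ := ∫ y, m.th.ψ (x, y) * m.tw.χ1 y
def gp (i : Fin 3) (x : X) : ℝ := -∫ y, m.th.gψ (.inl i) (x, y) * m.tw.χ0 y
def gq (i : Fin 3) (x : X) : ℝ := ∫ y, m.th.gψ (.inl i) (x, y) * m.tw.χ1 y
def Sp (x : X) : ℝ := ε * ∫ y, W x y * m.th.ψ (x, y) * m.tw.χ0 y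
def Sq (x : X) : ℝ := -(ε * ∫ y, W x y * m.th.ψ (x, y) * m.tw.χ1 y)
def L : T → ℝ := prj 1 0 m.tw.χ0 m.th.ψ
def gL : IT → T → ℝ := gprj 1 0 m.tw.χ0 m.tw.g0 m.th.ψ m.th.gψ
def E : T → ℝ := prj (1 / 2) (1 / 2) m.tw.χ0 m.th.ψ
def gE : IT → T → ℝ := gprj (1 / 2) (1 / 2) m.tw.χ0 m.tw.g0 m.th.ψ m.th.gψ
def B : T → ℝ := prj (1 / 2) (-1 / 2) m.tw.χ1 m.th.ψ
def gB : IT → T → ℝ := gprj (1 / 2) (-1 / 2) m.tw.χ1 m.tw.g1 m.th.ψ m.th.gψ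
def Dn (p : T) : ℝ := m.th.ψ (cyc p)
def gDn : IT → T → ℝ := gcyc m.th.gψ
def s (x : X) : ℝ := √((√2 * sn m.th.ψ x) ^ 2 + sn m.Dn x ^ 2)
def gr (i : Fin 3) (x : X) : ℝ :=
  (√2 * sn m.th.ψ x * (√2 * gsn m.th.ψ m.th.gψ i x) + sn m.Dn x * gsn m.Dn m.gDn i x) /
    √((√2 * sn m.th.ψ x) ^ 2 + sn m.Dn x ^ 2)

end MB

/-- `Φ` is an orthogonal component of `ψ`. -/
structure Orth (U : Y → ℝ) (ψ : T → ℝ) (gψ : IT → T → ℝ) (Φ : T → ℝ) (g : IT → T → ℝ) :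
    Prop where
  h1 : H1 eT Φ g
  o1 : ∀ᵐ x, ∫ y, ψ (x, y) * Φ (x, y) = ∫ y, Φ (x, y) ^ 2
  o2 : ∀ᵐ x, ∀ i, ∫ y, gψ (.inl i) (x, y) * Φ (x, y) = ∫ y, Φ (x, y) * g (.inl i) (x, y)
  o3 : ∀ᵐ x, ∫ y, ∑ i, gψ (.inl i) (x, y) * g (.inl i) (x, y) = ∫ y, ∑ i, g (.inl i) (x, y) ^ 2
  o4 : ∀ᵐ x, bf U (sl ψ x) (gsl gψ x) (sl Φ x) (gsl g x) = qf U (sl Φ x) (gsl g x)

end Crest.Agent.R335
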