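import Crest.Agent.R335.CT

/-! Row 335. The projections. -/

set_option autoImplicit false

open MeasureTheory Set Filter Topology
open scoped ENNReal

noncomputable section

namespace Crest.Agent.R335

/-- On `Y`: `Π u = α u + β u ∘ PY - ⟨u, χ⟩ χ` is an orthogonal projection. -/
def prY (α β : ℝ) (χ u : Y → ℝ) (y : Y) : ℝ := α * u y + β * u (PY y) - (∫ y, u y * χ y) * χ y

/-- The admissible parameters. -/
structure PP (α β s : ℝ) (χ : Y → ℝ) : Prop where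
  h1 : α ^ 2 + β ^ 2 = α
  h2 : 2 * α * β = β
  h3 : α + β * s = 1
  par : ∀ y, χ (PY y) = s * χ y
  l2 : MemLp χ 2 volume
  m : Measurable χ
  n : nsq χ = 1

variable {α β s : ℝ} {χ : Y → ℝ}

theorem sl_prj (α β : ℝ) (χ : Y → ℝ) (Φ : T → ℝ) (x : X) :
    sl (prj α β χ Φ) x = prY α β χ (sl Φ x) := by
  rfl

theorem CP_R {u : Y → ℝ} (hu : MemLp u 2 volume) : MemLp (fun y => u (PY y)) 2 volume :=
  hu.comp_measurePreserving mp_PY

theorem CP_ipR (u w : Y → ℝ) : ip (fun y => u (PY y)) w = ip u fun y => w (PY y) := by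
  unfold ip
  rw [← integral_PY fun y => u y * w (PY y)]
  simp only [PY_PY]

theorem CP_ipRR (u w : Y → ℝ) : ip (fun y => u (PY y)) (fun y => w (PY y)) = ip u w :=
  integral_PY fun y => u y * w y

/-- Even and odd functions are orthogonal. -/
theorem CP_eo {u w : Y → ℝ} (hu : ∀ y, u (PY y) = u y) (hw : ∀ y, w (PY y) = -w y) :
    ip u w = 0 := by
  have h := CP_ipRR u w
  simp only [hu, hw, ip, mul_neg, integral_neg] at h
  unfold ip
  linarith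

theorem CP_prY (α β : ℝ) (χ u : Y → ℝ) :
    prY α β χ u = fun y => 1 * (α * u y + β * u (PY y)) + (-ip u χ) * χ y := by
  funext y
  simp only [prY, ip]
  ring

theorem CP_lin {u w : Y → ℝ} (hu : MemLp u 2 volume) (hw : MemLp w 2 volume) (a b : ℝ) :
    MemLp (fun y => a * u y + b * w y) 2 volume :=
  (hu.const_mul a).add (hw.const_mul b)

theorem CP_ip (hχ : MemLp χ 2 volume) {v w : Y → ℝ} (hv : MemLp v 2 volume)
    (hw : MemLp w 2 volume) : ip v (prY α β χ w) =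
      α * ip v w + β * ip v (fun y => w (PY y)) - ip w χ * ip v χ := by
  rw [CP_prY, TP_ip_lin (CP_lin hw (CP_R hw) α β) hχ hv, TP_ip_lin hw (CP_R hw) hv]
  ring

theorem CP_ipχ (h : PP α β s χ) (u : Y → ℝ) : ip (fun y => u (PY y)) χ = s * ip u χ := by
  rw [CP_ipR]
  simp only [ip, h.par]
  rw [← integral_const_mul]
  congr 1
  funext y
  ring

theorem CP_orth (h : PP α β s χ) {u : Y → ℝ} (hu : MemLp u 2 volume) :
    ip χ (prY α β χ u) = 0 := by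
  rw [CP_ip h.l2 h.l2 hu, TP_ip_comm χ fun y => u (PY y), CP_ipχ h, TS_ip_self, h.n,
    TP_ip_comm χ u]
  linear_combination ip u χ * h.h3

/-- The gradient of `u ∘ PY`. -/
def CP_gR (g : IY → Y → ℝ) : IY → Y → ℝ := fun i y =>
  (TS_prod TS_P TS_P).sgn i * g ((TS_prod TS_P TS_P).σ i) (PY y)

theorem CP_H1R {u : Y → ℝ} {g : IY → Y → ℝ} (h : H1 eY u g) :
    H1 eY (fun y => u (PY y)) (CP_gR g) :=
  TS_H1 (TS_prod TS_P TS_P) h

theorem CP_qfR (D ε : ℝ) (u : Y → ℝ) (g : IY → Y → ℝ) :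
    qf (U2 D ε) (fun y => u (PY y)) (CP_gR g) = qf (U2 D ε) u g := by
  unfold qf
  rw [show dir (CP_gR g) = dir g from TS_dir (TS_prod TS_P TS_P) g,
    ← integral_PY fun y => U2 D ε y * u y ^ 2]
  simp only [U2_PY]

theorem CP_gsl (k : IY → Y → ℝ) (Φ : T → ℝ) (g : IT → T → ℝ) (x : X) :
    gsl (gprj α β χ k Φ g) x = fun j y =>
      1 * (α * gsl g x j y + β * CP_gR (gsl g x) j y) + (-ip (sl Φ x) χ) * k j y := by
  funext j y
  have : gPY g (.inr j) (x, y) = CP_gR (gsl g x) j y := by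
    rcases j with j | j <;> rfl
  simp only [gsl, gprj, Sum.elim_inr, this, ip, sl]
  ring

theorem CP_bf (h : PP α β s χ) {D ε b : ℝ} (h0 : 0 ≤ ε) (h1 : ε ≤ 1) {k : IY → Y → ℝ}
    (hχ : H1 eY χ k) (he : Eig eY (U2 D ε) b χ k) {u : Y → ℝ} {g : IY → Y → ℝ} (hu : H1 eY u g) :
    bf (U2 D ε) u g (prY α β χ u)
        (fun j y => 1 * (α * g j y + β * CP_gR g j y) + (-ip u χ) * k j y) =
      qf (U2 D ε) (prY α β χ u)
        fun j y => 1 * (α * g j y + β * CP_gR g j y) + (-ip u χ) * k j y := by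
  have hU := fb_U2 D h0 h1
  have hR := CP_H1R hu
  have hv := hu.lin hR α β
  have hP : H1 eY (prY α β χ u)
      fun j y => 1 * (α * g j y + β * CP_gR g j y) + (-ip u χ) * k j y := by
    rw [CP_prY]
    exact hv.lin hχ _ _
  have key : ∀ (v : Y → ℝ) (l : IY → Y → ℝ), H1 eY v l → bf (U2 D ε) v l (prY α β χ u)
      (fun j y => 1 * (α * g j y + β * CP_gR g j y) + (-ip u χ) * k j y) =
      α * bf (U2 D ε) v l u g + β * bf (U2 D ε) v l (fun y => u (PY y)) (CP_gR g) -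
        ip u χ * (b * ip χ v) := by
    intro v l hl
    rw [CP_prY, hU.bf_lin hv hχ hl, hU.bf_lin hu hR hl, bf_comm _ v χ, he v l hl]
    ring
  have k1 := key _ _ hu
  have k2 := key _ _ hR
  have k3 := key _ _ hP
  rw [bf_self] at k1 k2 k3
  rw [CP_qfR, bf_comm _ (fun y => u (PY y)) u, TP_ip_comm χ, CP_ipχ h] at k2
  rw [CP_orth h hu.l2, bf_comm _ (prY α β χ u) u, bf_comm _ (prY α β χ u) fun y => u (PY y),
    k1, k2] at k3
  rw [k1, k3, TP_ip_comm χ u]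
  linear_combination (-qf (U2 D ε) u g) * h.h1 -
    bf (U2 D ε) u g (fun y => u (PY y)) (CP_gR g) * h.h2 + b * ip u χ ^ 2 * h.h3

theorem PP.memLp (h : PP α β s χ) {u : Y → ℝ} (hu : MemLp u 2 volume) :
    MemLp (prY α β χ u) 2 volume := by
  rw [CP_prY]
  exact CP_lin (CP_lin hu (CP_R hu) α β) h.l2 _ _

theorem PP.ip_prY (h : PP α β s χ) {u w : Y → ℝ} (hu : MemLp u 2 volume)
    (hw : MemLp w 2 volume) : ip u (prY α β χ w) = ip (prY α β χ u) (prY α β χ w) := by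
  have hP := h.memLp hu
  rw [CP_ip h.l2 hP hw, TP_ip_comm (prY α β χ u) χ, CP_orth h hu, TP_ip_comm (prY α β χ u) w,
    TP_ip_comm (prY α β χ u) fun y => w (PY y), CP_ip h.l2 hw hu, CP_ip h.l2 (CP_R hw) hu,
    CP_ip h.l2 hu hw, CP_ipRR, CP_ipχ h, TP_ip_comm w u, TP_ip_comm w fun y => u (PY y),
    CP_ipR u w, TP_ip_comm (fun y => w (PY y)) u]
  linear_combination (-ip u w) * h.h1 - ip u (fun y => w (PY y)) * h.h2 +
    ip u χ * ip w χ * h.h3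

theorem PP.orth (h : PP α β s χ) {u : Y → ℝ} (hu : MemLp u 2 volume) :
    ip χ (prY α β χ u) = 0 := by
  exact CP_orth h hu

theorem PP.nsq_le (h : PP α β s χ) {u : Y → ℝ} (hu : MemLp u 2 volume) :
    nsq (prY α β χ u) ≤ nsq u := by
  have h1 := h.ip_prY hu hu
  rw [TS_ip_self] at h1
  have h2 := ip_sq_le hu (h.memLp hu)
  rw [h1] at h2
  have h3 := nsq_nonneg (prY α β χ u)
  have h4 := nsq_nonneg u
  by_contra hc
  nlinarith [not_le.1 hc]

theorem PP.h1_prj (h : PP α β s χ) {k : IY → Y → ℝ} (hχ : H1 eY χ k) {Φ : T → ℝ}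
    {g : IT → T → ℝ} (hΦ : H1 eT Φ g) : H1 eT (prj α β χ Φ) (gprj α β χ k Φ g) := by
  have := (hΦ.lin hΦ.comp_PY α β).sub ((hΦ.contract h.m h.l2).tensor hχ)
  refine Eq.subst (motive := H1 eT _) ?_ this
  funext i p
  rcases i with i | j <;> rfl

/-- `o4`: on a slice `u`, with `v = α u + β u ∘ PY` and `κ = ⟨u, χ⟩`: `bf u v = qf v` by the
invariance of the form under `PY`, `bf u χ = bf v χ = b κ`, `qf χ = b`. -/
theorem PP.orth_prj (h : PP α β s χ) {D ε b : ℝ} (h0 : 0 ≤ ε) (h1 : ε ≤ 1) {k : IY → Y → ℝ}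
    (hχ : H1 eY χ k) (he : Eig eY (U2 D ε) b χ k) {Φ : T → ℝ} {g : IT → T → ℝ}
    (hΦ : H1 eT Φ g) : Orth (U2 D ε) Φ g (prj α β χ Φ) (gprj α β χ k Φ g) := by
  refine ⟨h.h1_prj hχ hΦ, ?_, ?_, ?_, ?_⟩
  · filter_upwards [hΦ.sl] with x hx
    exact (h.ip_prY hx.1.l2 hx.1.l2).trans (TS_ip_self _)
  · filter_upwards [hΦ.sl] with x hx i
    exact (h.ip_prY (hx.2 i) hx.1.l2).trans (TP_ip_comm _ _)
  · filter_upwards [hΦ.sl] with x hx
    rw [integral_finsetSum, integral_finsetSum]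
    · exact Finset.sum_congr rfl fun i _ => (h.ip_prY (hx.2 i) (hx.2 i)).trans (TS_ip_self _)
    · exact fun i _ => (h.memLp (hx.2 i)).integrable_sq
    · exact fun i _ => LWD_int_mul (hx.2 i) (h.memLp (hx.2 i))
  · filter_upwards [hΦ.sl] with x hx
    rw [sl_prj, CP_gsl]
    exact CP_bf h h0 h1 hχ he hx.1

variable {c : ℝ} {o : One c} {C ε : ℝ} (m : MB o C ε)

include m in
theorem MB.ε_le : ε ≤ 1 / 10000000 := by
  have h1 := m.εC
  have h2 := o.g_le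
  have h3 := m.C1
  have h4 := m.ε0
  nlinarith

theorem MB.ppL : PP 1 0 1 m.tw.χ0 := by
  exact ⟨by norm_num, by norm_num, by norm_num, fun y => by rw [m.tw.P0, one_mul], m.tw.h0.l2,
    m.tw.h0.m, m.tw.n0⟩

theorem MB.ppE : PP (1 / 2) (1 / 2) 1 m.tw.χ0 := by
  exact ⟨by norm_num, by norm_num, by norm_num, fun y => by rw [m.tw.P0, one_mul], m.tw.h0.l2,
    m.tw.h0.m, m.tw.n0⟩

theorem MB.ppB : PP (1 / 2) (-1 / 2) (-1) m.tw.χ1 := by
  exact ⟨by norm_num, by norm_num, by norm_num, fun y => by rw [m.tw.P1, neg_one_mul], m.tw.h1.l2,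
    m.tw.h1.m, m.tw.n1⟩

theorem MB.orthL : Orth (U2 o.D ε) m.th.ψ m.th.gψ m.L m.gL := by
  exact m.ppL.orth_prj m.ε0.le (m.ε_le.trans (by norm_num)) m.tw.h0 m.tw.eig0 m.th.hψ

theorem MB.orthE : Orth (U2 o.D ε) m.th.ψ m.th.gψ m.E m.gE := by
  exact m.ppE.orth_prj m.ε0.le (m.ε_le.trans (by norm_num)) m.tw.h0 m.tw.eig0 m.th.hψ

theorem MB.orthB : Orth (U2 o.D ε) m.th.ψ m.th.gψ m.B m.gB := by
  exact m.ppB.orth_prj m.ε0.le (m.ε_le.trans (by norm_num)) m.tw.h1 m.tw.eig1 m.th.hψ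

theorem MB.decomp (x : X) (y : Y) :
    m.th.ψ (x, y) = -m.p x * m.tw.χ0 y + m.L (x, y) ∧
      m.L (x, y) = m.E (x, y) + m.q x * m.tw.χ1 y + m.B (x, y) ∧
      m.E (x, PY y) = m.E (x, y) ∧ m.B (x, PY y) = -m.B (x, y) := by
  simp only [MB.p, MB.q, MB.L, MB.E, MB.B, prj, PY_PY, m.tw.P0, m.tw.P1]
  refine ⟨?_, ?_, ?_, ?_⟩ <;> ring

theorem CP_ψP (x : X) (y : Y) : m.th.ψ (P x, y) = -m.th.ψ (x, PY y) := by
  rw [← m.th.odd x (PY y), PY_PY]

theorem CP_DP (x : X) (y : Y) : m.Dn (P x, y) = -m.Dn (x, PY y) := by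
  have := m.th.odd (P y.1) (P y.2, x)
  rw [P_P] at this
  simp only [PY, P_P] at this
  exact this

theorem CP_snP {Φ : T → ℝ} (h : ∀ x y, Φ (P x, y) = -Φ (x, PY y)) (x : X) :
    sn Φ (P x) = sn Φ x := by
  simp only [sn, h, neg_sq]
  rw [integral_PY fun y => Φ (x, y) ^ 2]

theorem CP_s_sq (x : X) : m.s x ^ 2 = 2 * sn m.th.ψ x ^ 2 + sn m.Dn x ^ 2 := by
  rw [MB.s, Real.sq_sqrt (by positivity), mul_pow, Real.sq_sqrt (by norm_num)]

theorem MB.parity (x : X) : m.p (P x) = -m.p x ∧ m.q (P x) = m.q x ∧ m.s (P x) = m.s x ∧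
    sn m.E (P x) = sn m.E x ∧ m.Sp (P x) = -m.Sp x ∧ ∀ y, m.E (P x, y) = -m.E (x, y) := by
  have h0 : ∫ y, m.th.ψ (P x, y) * m.tw.χ0 y = -∫ y, m.th.ψ (x, y) * m.tw.χ0 y := by
    rw [← integral_PY fun y => m.th.ψ (x, y) * m.tw.χ0 y, ← integral_neg]
    simp only [CP_ψP, m.tw.P0, neg_mul]
  have hE : ∀ x y, m.E (P x, y) = -m.E (x, y) := by
    intro x y
    have h0 : ∫ y, m.th.ψ (P x, y) * m.tw.χ0 y = -∫ y, m.th.ψ (x, y) * m.tw.χ0 y := by
      rw [← integral_PY fun y => m.th.ψ (x, y) * m.tw.χ0 y, ← integral_neg]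
      simp only [CP_ψP, m.tw.P0, neg_mul]
    simp only [MB.E, prj, h0]
    simp only [CP_ψP, PY_PY]
    ring
  refine ⟨?_, ?_, ?_, ?_, ?_, hE x⟩
  · rw [MB.p, MB.p, h0]
  · rw [MB.q, MB.q, ← integral_PY fun y => m.th.ψ (x, y) * m.tw.χ1 y]
    simp only [CP_ψP, m.tw.P1, neg_mul, mul_neg]
  · rw [MB.s, MB.s, CP_snP (CP_ψP m), CP_snP (CP_DP m)]
  · simp only [sn, hE, neg_sq]
  · rw [MB.Sp, MB.Sp, ← integral_PY fun y => W x y * m.th.ψ (x, y) * m.tw.χ0 y, ← mul_neg,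
      ← integral_neg]
    simp only [CP_ψP, m.tw.P0, W_PY, neg_mul, mul_neg]

/-- Orthogonality relations on slices. -/
theorem MB.slices : ∀ᵐ x, ip m.tw.χ0 (sl m.L x) = 0 ∧ ip m.tw.χ0 (sl m.E x) = 0 ∧
    ip m.tw.χ0 (sl m.B x) = 0 ∧ ip m.tw.χ1 (sl m.B x) = 0 ∧ ip m.tw.χ0 (sl m.Dn x) = 0 ∧
    sn m.th.ψ x ^ 2 = m.p x ^ 2 + sn m.L x ^ 2 ∧
    sn m.L x ^ 2 = sn m.E x ^ 2 + m.q x ^ 2 + sn m.B x ^ 2 ∧
    m.s x ^ 2 = 2 * (m.p x ^ 2 + sn m.E x ^ 2 + m.q x ^ 2 + sn m.B x ^ 2) + sn m.Dn x ^ 2 := by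
  filter_upwards [m.th.hψ.sl] with x hx
  have hu := hx.1.l2
  have hL : MemLp (sl m.L x) 2 volume := m.ppL.memLp hu
  have hE : MemLp (sl m.E x) 2 volume := m.ppE.memLp hu
  have hB : MemLp (sl m.B x) 2 volume := m.ppB.memLp hu
  have oL : ip m.tw.χ0 (sl m.L x) = 0 := m.ppL.orth hu
  have oB : ip m.tw.χ1 (sl m.B x) = 0 := m.ppB.orth hu
  have e1 : sn m.th.ψ x ^ 2 = m.p x ^ 2 + sn m.L x ^ 2 := by
    have : sl m.th.ψ x = fun y => -m.p x * m.tw.χ0 y + 1 * sl m.L x y := by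
      funext y
      rw [one_mul]
      exact (m.decomp x y).1
    rw [sn_sq, sn_sq, this, nsq_lin m.tw.h0.l2 hL, oL, m.tw.n0]
    ring
  have e2 : sn m.L x ^ 2 = sn m.E x ^ 2 + m.q x ^ 2 + sn m.B x ^ 2 := by
    have : sl m.L x = fun y => 1 * sl m.E x y + 1 * (m.q x * m.tw.χ1 y + 1 * sl m.B x y) := by
      funext y
      simp only [one_mul, sl]
      rw [(m.decomp x y).2.1, add_assoc]
    have o : ip (sl m.E x) (fun y => m.q x * m.tw.χ1 y + 1 * sl m.B x y) = 0 := by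
      refine CP_eo (fun y => (m.decomp x y).2.2.1) fun y => ?_
      simp only [sl]
      rw [(m.decomp x y).2.2.2, m.tw.P1]
      ring
    rw [sn_sq, sn_sq, sn_sq, this, nsq_lin hE (CP_lin m.tw.h1.l2 hB _ _), o,
      nsq_lin m.tw.h1.l2 hB, oB, m.tw.n1]
    ring
  refine ⟨oL, m.ppE.orth hu, CP_eo m.tw.P0 fun y => (m.decomp x y).2.2.2, oB, ?_, e1, e2, ?_⟩
  · have h := TS_integral TS_swap fun y => m.tw.χ0 y * sl m.Dn x y
    have h' : ∀ y : Y, sl m.Dn x y.swap = -sl m.Dn x y := fun y => m.th.anti y.1 y.2 x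
    simp only [m.tw.s0, h', mul_neg, integral_neg] at h
    unfold ip
    linarith
  · rw [CP_s_sq, e1, e2]
    ring

theorem MB.s_sq (x : X) : m.s x ^ 2 = rho3 m.th.ψ x := by
  rw [CP_s_sq, sn_sq, sn_sq]
  rfl

theorem MB.vanE : Van (sn m.E) := by
  have h := m.orthE.h1
  exact van_norm (μ := volume) (g := fun i => m.gE (.inl i)) h.m (fun i => h.gm _) h.l2
    (fun i => h.gl2 _) h.slice_left
    (.of_forall fun y => .of_forall fun x => (m.parity x).2.2.2.2.2 y)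

theorem MB.I_near : |m.I + o.eb| ≤ 2 * C * ε ∧ 48 / 100 ≤ m.I ∧ m.I ≤ 52 / 100 := by
  have h1 := abs_le.1 m.tw.E2_near
  have h2 := abs_le.1 m.th.E3_near
  have h3 := abs_le.1 o.ea_near
  have h4 := m.εC
  have h5 := o.g_le
  have h6 := o.gpos
  have h7 := o.gsm
  rw [MB.I, abs_le, mul_assoc]
  refine ⟨⟨?_, ?_⟩, ?_, ?_⟩ <;> linarith

theorem MB.s_spec : H1 eX m.s m.gr ∧ nsq m.s = 3 ∧ dir m.gr ≤ 3 * C := by
  have hD : H1 eT m.Dn m.gDn := m.th.hψ.comp_cyc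
  obtain ⟨a1, -, a2, -, a3⟩ := sn_spec m.th.hψ
  obtain ⟨b1, -, b2, -, b3⟩ := sn_spec hD
  have c1 := a1.smul √2
  have hs : H1 eX m.s m.gr := c1.sqrt_sq_add b1
  have nD : nsq m.Dn = 1 := (TS_integral TS_cyc fun p => m.th.ψ p ^ 2).trans m.th.nψ
  have dD : dir m.gDn = dir m.th.gψ := by
    rw [← TS_dir TS_cyc m.th.gψ]
    congr 1
    funext i p
    rcases i with i | j | j <;> exact (one_mul _).symm
  refine ⟨hs, ?_, ?_⟩
  · rw [m.th.nψ] at a2
    rw [nD] at b2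
    unfold nsq at a2 b2 ⊢
    simp only [CP_s_sq]
    rw [integral_add (a1.integrable_sq.const_mul 2) b1.integrable_sq, integral_const_mul, a2, b2]
    norm_num
  · have h1 : dir m.gr ≤ ∫ x, (2 * gs (gsn m.th.ψ m.th.gψ) x + gs (gsn m.Dn m.gDn) x) := by
      refine integral_mono hs.integrable_gs
        ((a1.integrable_gs.const_mul 2).add b1.integrable_gs) fun x => ?_
      refine (gs_sqrt_le (fun x => √2 * sn m.th.ψ x) (sn m.Dn)
        (fun i x => √2 * gsn m.th.ψ m.th.gψ i x) (gsn m.Dn m.gDn) x).trans (le_of_eq ?_)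
      simp only [gs, mul_pow, Real.sq_sqrt (show (0 : ℝ) ≤ 2 by norm_num), Finset.mul_sum]
    rw [integral_add (a1.integrable_gs.const_mul 2) b1.integrable_gs, integral_const_mul] at h1
    have := m.th.dψ
    unfold dir at *
    linarith

end Crest.Agent.R335
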