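import Crest.Agent.R335.CDefs

/-! Row 335. Testing the three-body equation with components. -/

set_option autoImplicit false

open MeasureTheory Set Filter Topology
open scoped ENNReal

noncomputable section

namespace Crest.Agent.R335

theorem sn_spec {Φ : T → ℝ} {g : IT → T → ℝ} (h : H1 eT Φ g) :
    H1 eX (sn Φ) (gsn Φ g) ∧ (∀ᵐ x, gs (gsn Φ g) x ≤ ∫ y, ∑ i, g (.inl i) (x, y) ^ 2) ∧
      nsq (sn Φ) = nsq Φ ∧ dir (gsn Φ g) ≤ ∫ p, ∑ i, g (.inl i) p ^ 2 ∧ dir (gsn Φ g) ≤ dir g := by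
  obtain ⟨h1, h2⟩ := H1.norm (μ := (volume : Measure Y)) (g := fun i => g (.inl i)) h.m
    (fun i => h.gm _) h.l2 (fun i => h.gl2 _) h.slice_left
  have i1 := TP_int_inl h
  have h3 : dir (gsn Φ g) ≤ ∫ p, ∑ i, g (.inl i) p ^ 2 := by
    rw [Measure.volume_eq_prod, integral_prod _ i1]
    exact integral_mono_ae h1.integrable_gs i1.integral_prod_left h2
  refine ⟨h1, h2, ?_, h3, h3.trans ?_⟩
  · rw [(nsq_prod h.l2).2.2.1]
    exact integral_congr_ae (Eventually.of_forall fun x =>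
      Real.sq_sqrt (integral_nonneg fun _ => sq_nonneg _))
  · rw [TP_dir h]
    exact le_add_of_nonneg_right
      (integral_nonneg fun _ => Finset.sum_nonneg fun _ _ => sq_nonneg _)

theorem sn_nonneg (Φ : T → ℝ) (x : X) : 0 ≤ sn Φ x :=
  Real.sqrt_nonneg _

theorem sn_sq (Φ : T → ℝ) (x : X) : sn Φ x ^ 2 = nsq (sl Φ x) :=
  Real.sq_sqrt (integral_nonneg fun _ => sq_nonneg _)

theorem H1.sl {Φ : T → ℝ} {g : IT → T → ℝ} (h : H1 eT Φ g) :
    ∀ᵐ x, H1 eY (sl Φ x) (gsl g x) ∧ ∀ i, MemLp (fun y => g (.inl i) (x, y)) 2 volume :=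
  h.slice_right.and (ae_all_iff.2 fun i => LSlice_memLp_right (h.gl2 (.inl i)))

theorem Zf.congr {Ω : Set X} {n : X → ℝ} {g : Fin 3 → X → ℝ} {Q Q' : X → ℝ} (h : Zf Ω n g Q)
    (he : Q =ᵐ[volume] Q') : Zf Ω n g Q' := by
  intro ζ k M h1 h2 h3 h4
  refine le_of_eq_of_le (integral_congr_ae ?_) (h ζ k M h1 h2 h3 h4)
  filter_upwards [he] with x hx
  rw [hx]

theorem Zf.of_univ {Ω : Set X} {n : X → ℝ} {g : Fin 3 → X → ℝ} {Q : X → ℝ} (h : Zf univ n g Q) :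
    Zf Ω n g Q :=
  fun ζ k M h1 h2 _ h4 => h ζ k M h1 h2 (Eventually.of_forall fun x hx => (hx (mem_univ x)).elim) h4

theorem Sub2.mono {Ω : Set X} {n : X → ℝ} {g : Fin 3 → X → ℝ} {f S f' S' : X → ℝ}
    (h : Sub2 Ω n g f S) (hΩ : MeasurableSet Ω) (hf : MemLp f' 2 (volume.restrict Ω))
    (hS : IntegrableOn S' Ω) (hle : ∀ᵐ x, x ∈ Ω → f x ≤ f' x) (hle' : ∀ x, S x ≤ S' x) :
    Sub2 Ω n g f' S' := by
  refine ⟨h.h1, h.nn, hf, hS, fun x => (h.Snn x).trans (hle' x), fun φ l h1 h2 h0 => ?_⟩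
  have hq : ∀ᵐ x, 0 ≤ φ x / n x ∧ φ x / n x ≤ 1 := by
    filter_upwards [h2] with x hx
    exact ⟨div_nonneg hx.1 (h.nn x), div_le_one_of_le₀ hx.2 (h.nn x)⟩
  have hq' : ∀ᵐ x, |φ x / n x| ≤ 1 := hq.mono fun x hx => by rw [abs_of_nonneg hx.1]; exact hx.2
  have hz : ∀ᵐ x, x ∉ Ω → φ x / n x = 0 := h0.mono fun x hx hx' => by rw [hx hx', zero_div]
  have i1 := LKato_int hΩ h.Sint (h1.m.div h.h1.m) hq' hz
  have i2 := LKato_int hΩ hS (h1.m.div h.h1.m) hq' hz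
  refine (h.le φ l h1 h2 h0).trans (add_le_add
    (LMax0_le hΩ h.fl2 hf hle h1.l2 (h2.mono fun _ hx => hx.1) h0) ?_)
  simp only [mul_comm _ (φ _ / n _)]
  refine integral_mono_ae i1 i2 ?_
  filter_upwards [hq] with x hx
  exact mul_le_mul_of_nonneg_left (hle' x) hx.1

theorem CT_test {U : T → ℝ} {C : ℝ} (hU : FB eT U C) {ψ S w : T → ℝ} {gψ k : IT → T → ℝ}
    (hψ : H1 eT ψ gψ) (hS : MemLp S 2 volume) (hw : H1 eT w k) (he : bf U ψ gψ w k = ip S w) :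
    Integrable (fun x => ∫ y, (gd gψ k (x, y) / 2 + U (x, y) * (ψ (x, y) * w (x, y)) -
      S (x, y) * w (x, y))) ∧
    ∫ x, ∫ y, (gd gψ k (x, y) / 2 + U (x, y) * (ψ (x, y) * w (x, y)) - S (x, y) * w (x, y)) = 0 := by
  have i1 := (hψ.integrable_gd hw).div_const 2
  have i2 := hU.int_mul hψ hw
  have i3 := LWD_int_mul hS hw.l2
  have i4 : Integrable fun p => gd gψ k p / 2 + U p * (ψ p * w p) := i1.add i2
  have i5 : Integrable (fun p => gd gψ k p / 2 + U p * (ψ p * w p) - S p * w p)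
    (volume.prod volume) := i4.sub i3
  refine ⟨i5.integral_prod_left, ?_⟩
  rw [← integral_prod _ i5, ← Measure.volume_eq_prod, integral_sub i4 i3, integral_add i1 i2,
    integral_div, sub_eq_zero]
  exact he

/-- Test with `ζ(x) Ξ(x, y)` (`H1.mul_fst`) and use Fubini. -/
theorem ct {U : T → ℝ} {C : ℝ} (hU : FB eT U C) {ψ Ξ S : T → ℝ} {gψ gΞ : IT → T → ℝ}
    (hψ : H1 eT ψ gψ) (hS : MemLp S 2 volume)
    (he : ∀ w k, H1 eT w k → bf U ψ gψ w k = ip S w) (hΞ : H1 eT Ξ gΞ) {n : X → ℝ}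
    {gn : Fin 3 → X → ℝ} (hn : H1 eX n gn) {M : ℝ} (hM : ∀ᵐ x, ∫ y, Ξ (x, y) ^ 2 ≤ M * n x ^ 2)
    (h1 : ∀ᵐ x, gs gn x ≤ ∫ y, ∑ i, gψ (.inl i) (x, y) * gΞ (.inl i) (x, y))
    (h2 : ∀ᵐ x, ∀ i, n x * gn i x = ∫ y, gψ (.inl i) (x, y) * Ξ (x, y)) :
    Integrable (fun x => ∫ y, ((∑ j, gψ (.inr j) (x, y) * gΞ (.inr j) (x, y)) / 2 +
      U (x, y) * (ψ (x, y) * Ξ (x, y)) - S (x, y) * Ξ (x, y))) ∧
    Zf univ n gn fun x => ∫ y, ((∑ j, gψ (.inr j) (x, y) * gΞ (.inr j) (x, y)) / 2 +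
      U (x, y) * (ψ (x, y) * Ξ (x, y)) - S (x, y) * Ξ (x, y)) := by
  have iA : Integrable (fun p : T => ∑ i, gψ (.inl i) p * gΞ (.inl i) p) (volume.prod volume) :=
    integrable_finsetSum _ fun i _ => LWD_int_mul (hψ.gl2 _) (hΞ.gl2 _)
  have iB0 : Integrable fun p : T => ∑ j, gψ (.inr j) p * gΞ (.inr j) p :=
    integrable_finsetSum _ fun i _ => LWD_int_mul (hψ.gl2 _) (hΞ.gl2 _)
  have iB : Integrable (fun p : T => (∑ j, gψ (.inr j) p * gΞ (.inr j) p) / 2 +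
      U p * (ψ p * Ξ p) - S p * Ξ p) (volume.prod volume) :=
    ((iB0.div_const 2).add (hU.int_mul hψ hΞ)).sub (LWD_int_mul hS hΞ.l2)
  have iC : ∀ i, Integrable (fun p : T => gψ (.inl i) p * Ξ p) (volume.prod volume) := fun i =>
    LWD_int_mul (hψ.gl2 _) hΞ.l2
  refine ⟨iB.integral_prod_left, fun ζ k M' hζ hb _ hk => ?_⟩
  have hw := hΞ.mul_fst hζ (M := M') (hb.mono fun x hx => by rw [abs_of_nonneg hx.1]; exact hx.2)
    fun i => by
      refine ((hk i).integrable_sq.const_mul M).mono'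
        (((hζ.gm i).pow_const 2).aestronglyMeasurable.mul (nsq_prod hΞ.l2).1.aestronglyMeasurable) ?_
      filter_upwards [hM] with x hx
      rw [Real.norm_of_nonneg (mul_nonneg (sq_nonneg _) (integral_nonneg fun _ => sq_nonneg _))]
      calc _ ≤ k i x ^ 2 * (M * n x ^ 2) := mul_le_mul_of_nonneg_left hx (sq_nonneg _)
        _ = _ := by ring
  obtain ⟨i1, e1⟩ := CT_test hU hψ hS hw (he _ _ hw)
  refine le_of_le_of_eq ?_ e1
  have iG : Integrable fun x => ζ x * gs gn x / 2 + n x * gd gn k x / 2 + ζ x * ∫ y,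
      ((∑ j, gψ (.inr j) (x, y) * gΞ (.inr j) (x, y)) / 2 +
        U (x, y) * (ψ (x, y) * Ξ (x, y)) - S (x, y) * Ξ (x, y)) := by
    have hb' : ∀ᵐ x, ‖ζ x‖ ≤ M' := hb.mono fun x hx => by rw [Real.norm_of_nonneg hx.1]; exact hx.2
    have j1 := hn.integrable_gs.bdd_mul hζ.m.aestronglyMeasurable hb'
    have j2 := iB.integral_prod_left.bdd_mul hζ.m.aestronglyMeasurable hb'
    have j3 : Integrable fun x => n x * gd gn k x := by
      refine (integrable_finsetSum Finset.univ fun i _ => LWD_int_mul (hn.gl2 i) (hk i)).congr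
        (Eventually.of_forall fun x => ?_)
      simp only [gd, Finset.mul_sum]
      exact Finset.sum_congr rfl fun i _ => by ring
    exact ((j1.div_const 2).add (j3.div_const 2)).add j2
  refine integral_mono_ae iG i1 ?_
  filter_upwards [iA.prod_right_ae, iB.prod_right_ae, ae_all_iff.2 fun i => (iC i).prod_right_ae,
    hb, h1, h2] with x jA jB jC hx hx1 hx2
  have jD : Integrable fun y => ∑ i, k i x * (gψ (.inl i) (x, y) * Ξ (x, y)) :=
    integrable_finsetSum _ fun i _ => (jC i).const_mul _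
  have e2 : ∫ y, ∑ i, k i x * (gψ (.inl i) (x, y) * Ξ (x, y)) = n x * gd gn k x := by
    rw [integral_finsetSum _ fun i _ => (jC i).const_mul _, gd, Finset.mul_sum]
    refine Finset.sum_congr rfl fun i _ => ?_
    rw [integral_const_mul, ← hx2 i]
    ring
  have e3 := LWD_int3 jA jD jB (ζ x / 2) (1 / 2) (ζ x)
  rw [e2] at e3
  refine le_of_le_of_eq (le_of_le_of_eq ?_ e3.symm)
    (integral_congr_ae (Eventually.of_forall fun y => ?_))
  · nlinarith [mul_le_mul_of_nonneg_left hx1 hx.1]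
  · simp only [gd, Fintype.sum_sum_type, Sum.elim_inl, Sum.elim_inr, Fin.sum_univ_three]
    ring

theorem Orth.refl (U : Y → ℝ) {ψ : T → ℝ} {g : IT → T → ℝ} (h : H1 eT ψ g) : Orth U ψ g ψ g :=
  ⟨h, Eventually.of_forall fun _ => by simp only [sq],
    Eventually.of_forall fun _ _ => by simp only [mul_comm],
    Eventually.of_forall fun _ => by simp only [sq], Eventually.of_forall fun _ => bf_self _ _ _⟩

theorem CT_slice {D ε : ℝ} (a : ℝ) (h0 : 0 ≤ ε) (h1 : ε ≤ 1) (x : X) {u w : Y → ℝ}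
    {g k : IY → Y → ℝ} (hu : H1 eY u g) (hw : H1 eY w k) :
    Integrable (fun y => gd g k y / 2 + U3 D ε (x, y) * (u y * w y) - a * u y * w y) ∧
    ∫ y, (gd g k y / 2 + U3 D ε (x, y) * (u y * w y) - a * u y * w y) =
      bf (U2 D ε) u g w k + (V D x - a) * ip u w + ε * ∫ y, W x y * u y * w y := by
  have i1 := (hu.integrable_gd hw).div_const 2
  have i2 := (fb_U2 D h0 h1).int_mul hu hw
  have i3 : Integrable fun y => gd g k y / 2 + U2 D ε y * (u y * w y) := i1.add i2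
  have i4 := hu.integrable_mul hw
  have i5 := LWD_int_mul (hardy_Y hu x).1 hw.l2
  have e : (fun y => gd g k y / 2 + U3 D ε (x, y) * (u y * w y) - a * u y * w y) =
      fun y => 1 * (gd g k y / 2 + U2 D ε y * (u y * w y)) + (V D x - a) * (u y * w y) +
        ε * (W x y * u y * w y) := by
    funext y
    simp only [U3]
    ring
  rw [e, LWD_int3 i3 i4 i5, integral_add i1 i2, integral_div, one_mul]
  exact ⟨((i3.const_mul _).add (i4.const_mul _)).add (i5.const_mul _), rfl⟩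

theorem CT_eig {U ψ : T → ℝ} {a : ℝ} {gψ : IT → T → ℝ} (he : Eig eT U a ψ gψ) (w : T → ℝ)
    (k : IT → T → ℝ) (hw : H1 eT w k) : bf U ψ gψ w k = ip (fun p => a * ψ p) w := by
  rw [he w k hw, ip, ip, ← integral_const_mul]
  simp only [mul_assoc]

theorem Orth.zf {D ε a : ℝ} (h0 : 0 ≤ ε) (h1 : ε ≤ 1) {ψ Φ : T → ℝ} {gψ g : IT → T → ℝ}
    (hψ : H1 eT ψ gψ) (he : Eig eT (U3 D ε) a ψ gψ) (h : Orth (U2 D ε) ψ gψ Φ g) :
    Integrable (fun x => qf (U2 D ε) (sl Φ x) (gsl g x) + (V D x - a) * sn Φ x ^ 2 +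
      ε * ∫ y, W x y * ψ (x, y) * Φ (x, y)) ∧
    Zf univ (sn Φ) (gsn Φ g) fun x => qf (U2 D ε) (sl Φ x) (gsl g x) + (V D x - a) * sn Φ x ^ 2 +
      ε * ∫ y, W x y * ψ (x, y) * Φ (x, y) := by
  obtain ⟨s1, s2, -⟩ := sn_spec h.h1
  obtain ⟨i1, z1⟩ := ct (fb_U3 D h0 h1) hψ (hψ.l2.const_mul a) (CT_eig he) h.h1 s1 (M := 1)
    (Eventually.of_forall fun x => by rw [one_mul, sn_sq]; rfl)
    (by
      filter_upwards [s2, h.o3] with x a1 a2
      rwa [a2])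
    (by
      filter_upwards [h.h1.sl, h.o2] with x a1 a2 i
      rw [a2, gsn]
      by_cases hx : sn Φ x = 0
      · have a3 := ip_sq_le a1.1.l2 (a1.2 i)
        rw [← sn_sq, hx] at a3
        have a4 : ip (sl Φ x) (fun y => g (.inl i) (x, y)) = 0 := by nlinarith
        rw [hx, zero_mul]
        exact a4.symm
      · rw [mul_div_cancel₀ _ hx])
  have e : (fun x => ∫ y, ((∑ j, gψ (.inr j) (x, y) * g (.inr j) (x, y)) / 2 +
      U3 D ε (x, y) * (ψ (x, y) * Φ (x, y)) - a * ψ (x, y) * Φ (x, y))) =ᵐ[volume]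
      fun x => qf (U2 D ε) (sl Φ x) (gsl g x) + (V D x - a) * sn Φ x ^ 2 +
        ε * ∫ y, W x y * ψ (x, y) * Φ (x, y) := by
    filter_upwards [hψ.sl, h.h1.sl, h.o1, h.o4] with x a1 a2 a3 a4
    have a5 : sn Φ x ^ 2 = ip (sl ψ x) (sl Φ x) := (sn_sq Φ x).trans a3.symm
    rw [← a4, a5]
    exact (CT_slice a h0 h1 x a1.1 a2.1).2
  exact ⟨i1.congr e, z1.congr e⟩

/-- The scalar channels: test with `φ ⊗ χ`. -/
theorem chan_eq {D ε a b : ℝ} (h0 : 0 ≤ ε) (h1 : ε ≤ 1) {ψ : T → ℝ} {gψ : IT → T → ℝ}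
    (hψ : H1 eT ψ gψ) (he : Eig eT (U3 D ε) a ψ gψ) {χ : Y → ℝ} {k : IY → Y → ℝ} (hχ : H1 eY χ k)
    (hχe : Eig eY (U2 D ε) b χ k) :
    MemLp (fun x => ∫ y, W x y * ψ (x, y) * χ y) 2 volume ∧
    nsq (fun x => ∫ y, W x y * ψ (x, y) * χ y) ≤ 8 * dir k * nsq ψ ∧
    Sol univ (fun x => ∫ y, ψ (x, y) * χ y) (fun i x => ∫ y, gψ (.inl i) (x, y) * χ y) fun x =>
      -(ε * ∫ y, W x y * ψ (x, y) * χ y) - (V D x + (b - a)) * ∫ y, ψ (x, y) * χ y := by
  have hm : Measurable fun x => ∫ y, W x y * ψ (x, y) * χ y :=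
    LSlice_meas_contract (measurable_W.mul hψ.m) hχ.m
  obtain ⟨n1, -, n2, -⟩ := nsq_prod hψ.l2
  have hb : ∀ᵐ x, (∫ y, W x y * ψ (x, y) * χ y) ^ 2 ≤ 8 * dir k * nsq fun y => ψ (x, y) := by
    filter_upwards [hψ.sl] with x hx
    have a1 := ip_sq_le (hardy_Y hχ x).1 hx.1.l2
    have a2 : ∫ y, W x y * ψ (x, y) * χ y = ip (fun y => W x y * χ y) (sl ψ x) :=
      integral_congr_ae (Eventually.of_forall fun y => by simp only [sl]; ring)
    rw [a2]
    exact a1.trans (mul_le_mul_of_nonneg_right (hardy_Y hχ x).2.1 (nsq_nonneg _))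
  have i1 : Integrable fun x => (∫ y, W x y * ψ (x, y) * χ y) ^ 2 :=
    (n1.const_mul (8 * dir k)).mono' (hm.pow_const 2).aestronglyMeasurable
      (hb.mono fun x hx => by rwa [Real.norm_of_nonneg (sq_nonneg _)])
  have m1 : MemLp (fun x => ∫ y, W x y * ψ (x, y) * χ y) 2 volume :=
    (memLp_two_iff_integrable_sq hm.aestronglyMeasurable).2 i1
  have hp := hψ.contract hχ.m hχ.l2
  have m2 : MemLp (fun x => -(ε * ∫ y, W x y * ψ (x, y) * χ y) -
      (V D x + (b - a)) * ∫ y, ψ (x, y) * χ y) 2 volume := by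
    simp only [add_mul]
    exact (m1.const_mul ε).neg.sub ((memLp_V_mul D hp).1.add (hp.l2.const_mul _))
  refine ⟨m1, ?_, hp, by rwa [Measure.restrict_univ], fun φ l hφ _ => ?_⟩
  · rw [n2, ← integral_const_mul]
    exact integral_mono_ae i1 (n1.const_mul _) hb
  have hw := hφ.tensor hχ
  have e1 := (CT_test (fb_U3 D h0 h1) hψ (hψ.l2.const_mul a) hw (CT_eig he _ _ hw)).2
  rw [← sub_eq_zero, ← integral_div,
    ← integral_sub ((hp.integrable_gd hφ).div_const 2) (LWD_int_mul m2 hφ.l2), ← e1]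
  refine integral_congr_ae ?_
  filter_upwards [hψ.sl] with x hx
  obtain ⟨j1, e2⟩ := CT_slice (D := D) a h0 h1 x hx.1 hχ
  have jC : ∀ i, Integrable fun y => l i x * (gψ (.inl i) (x, y) * χ y) := fun i =>
    (LWD_int_mul (hx.2 i) hχ.l2).const_mul _
  have e3 := LWD_int2 (integrable_finsetSum Finset.univ fun i _ => jC i) j1 (1 / 2) (φ x)
  rw [e2, integral_finsetSum _ fun i _ => jC i, bf_comm, hχe _ _ hx.1, TP_ip_comm χ] at e3
  refine Eq.trans (Eq.trans ?_ e3.symm) (integral_congr_ae (Eventually.of_forall fun y => ?_))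
  · simp only [gd, integral_const_mul, ip, sl, Fin.sum_univ_three]
    ring
  · simp only [gd, Fintype.sum_sum_type, Sum.elim_inl, Sum.elim_inr, Fin.sum_univ_three, sl, gsl]
    ring

end Crest.Agent.R335
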