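import Mathlib

/-! Row 335 (S0521): basic definitions.  Weak derivatives, `H¹`, weak differential inequalities.

Everything is real valued.  A gradient is a family `g : ι → E → ℝ` of weak directional derivatives
along the vectors of a frame `e : ι → E`. -/

set_option autoImplicit false

open MeasureTheory Set Filter Topology
open scoped ENNReal

noncomputable section

namespace Crest.Agent.R335

/-- One electron. -/
abbrev X := EuclideanSpace ℝ (Fin 3)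
/-- Two electrons. -/
abbrev Y := X × X
/-- Three electrons. -/
abbrev T := X × Y

/-- The standard frame of `X`. -/
def eX (i : Fin 3) : X := EuclideanSpace.single i 1

/-- The frame of a product. -/
def eP {E F ι κ : Type} [Zero E] [Zero F] (e : ι → E) (f : κ → F) : ι ⊕ κ → E × F :=
  Sum.elim (fun i => (e i, 0)) fun j => (0, f j)

abbrev IY := Fin 3 ⊕ Fin 3
abbrev IT := Fin 3 ⊕ IY
def eY : IY → Y := eP eX eX
def eT : IT → T := eP eX eY

section general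

variable {E : Type} [NormedAddCommGroup E] [NormedSpace ℝ E] [MeasureSpace E] {ι : Type}

/-- Classical directional derivatives along a frame. -/
def pd (e : ι → E) (φ : E → ℝ) (i : ι) (x : E) : ℝ := fderiv ℝ φ x (e i)

/-- `g` is the weak derivative of `u` in the direction `v`. -/
structure WD (v : E) (u g : E → ℝ) : Prop where
  lu : LocallyIntegrable u volume
  lg : LocallyIntegrable g volume
  eq : ∀ φ : E → ℝ, ContDiff ℝ 1 φ → HasCompactSupport φ →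
    ∫ x, u x * fderiv ℝ φ x v = -∫ x, g x * φ x

/-- Locally square integrable. -/
def L2l (u : E → ℝ) : Prop := ∀ K : Set E, IsCompact K → MemLp u 2 (volume.restrict K)

/-- `H¹_loc` (with measurable representatives). -/
structure H1l (e : ι → E) (u : E → ℝ) (g : ι → E → ℝ) : Prop where
  m : Measurable u
  gm : ∀ i, Measurable (g i)
  l2 : L2l u
  gl2 : ∀ i, L2l (g i)
  wd : ∀ i, WD (e i) u (g i)

/-- `H¹` (with measurable representatives). -/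
structure H1 (e : ι → E) (u : E → ℝ) (g : ι → E → ℝ) : Prop where
  m : Measurable u
  gm : ∀ i, Measurable (g i)
  l2 : MemLp u 2 volume
  gl2 : ∀ i, MemLp (g i) 2 volume
  wd : ∀ i, WD (e i) u (g i)

/-- Locally bounded below by a positive constant, almost everywhere. -/
def LocPos (w : E → ℝ) : Prop :=
  ∀ K : Set E, IsCompact K → ∃ c : ℝ, 0 < c ∧ ∀ᵐ x, x ∈ K → c ≤ w x

/-- `∫ u²`. -/
def nsq (u : E → ℝ) : ℝ := ∫ x, u x ^ 2

/-- `∫ u w`. -/
def ip (u w : E → ℝ) : ℝ := ∫ x, u x * w x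

variable [Fintype ι]

/-- `|∇u|²`. -/
def gs (g : ι → E → ℝ) (x : E) : ℝ := ∑ i, g i x ^ 2

/-- `∇u · ∇w`. -/
def gd (g h : ι → E → ℝ) (x : E) : ℝ := ∑ i, g i x * h i x

/-- The Dirichlet integral `∫ |∇u|²`. -/
def dir (g : ι → E → ℝ) : ℝ := ∫ x, gs g x

/-- The quadratic form of `-Δ/2 + U`. -/
def qf (U u : E → ℝ) (g : ι → E → ℝ) : ℝ := dir g / 2 + ∫ x, U x * u x ^ 2

/-- The bilinear form of `-Δ/2 + U`. -/
def bf (U u : E → ℝ) (g : ι → E → ℝ) (w : E → ℝ) (h : ι → E → ℝ) : ℝ :=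
  (∫ x, gd g h x) / 2 + ∫ x, U x * (u x * w x)

/-- `U` is form bounded with relative bound `1/2` of `-Δ/2`. -/
structure FB (e : ι → E) (U : E → ℝ) (C : ℝ) : Prop where
  m : Measurable U
  int : ∀ u g, H1 e u g → Integrable fun x => U x * u x ^ 2
  bd : ∀ u g, H1 e u g → ∫ x, |U x| * u x ^ 2 ≤ dir g / 4 + C * nsq u

/-- Weak eigenfunction equation `(-Δ/2 + U) u = a u`. -/
def Eig (e : ι → E) (U : E → ℝ) (a : ℝ) (u : E → ℝ) (g : ι → E → ℝ) : Prop :=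
  ∀ w h, H1 e w h → bf U u g w h = a * ip u w

/-- A symmetry sector: a linear space of functions, closed in `L²` up to the representative. -/
structure Sector (S : (E → ℝ) → Prop) : Prop where
  lin : ∀ u w (a b : ℝ), S u → S w → S fun x => a * u x + b * w x
  lim : ∀ (u : ℕ → E → ℝ) (w : E → ℝ), (∀ k, S (u k)) → (∀ k, MemLp (u k) 2 volume) →
    Measurable w → MemLp w 2 volume → Tendsto (fun k => nsq fun x => u k x - w x) atTop (𝓝 0) →
    ∃ w', Measurable w' ∧ w' =ᵐ[volume] w ∧ S w'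

end general

/-! ### Geometry of `X` -/

/-- The reflection `z ↦ -z` (`z = x 2`). -/
def P (x : X) : X := WithLp.toLp 2 ![x 0, x 1, -x 2]

/-- Projection on the plane `z = 0`. -/
def pl (x : X) : X := WithLp.toLp 2 ![x 0, x 1, 0]

/-- Exterior of a ball. -/
def ext (R : ℝ) : Set X := {x | R < ‖x‖}
/-- Upper half of the exterior of a ball. -/
def up (R : ℝ) : Set X := {x | R < ‖x‖ ∧ 0 < x 2}

/-- `u` vanishes on the plane `z = 0`. -/
def Van (u : X → ℝ) : Prop :=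
  ∃ C : ℝ, ∀ δ : ℝ, 0 < δ → δ ≤ 1 → ∫ x in {x : X | |x 2| < δ}, u x ^ 2 ≤ C * δ ^ 2

/-- `-Δu/2 ≤ f` weakly in `Ω`. -/
structure Sub (Ω : Set X) (u : X → ℝ) (g : Fin 3 → X → ℝ) (f : X → ℝ) : Prop where
  h1 : H1 eX u g
  fl2 : MemLp f 2 (volume.restrict Ω)
  le : ∀ φ h, H1 eX φ h → (∀ᵐ x, 0 ≤ φ x) → (∀ᵐ x, x ∉ Ω → φ x = 0) →
    (∫ x, gd g h x) / 2 ≤ ∫ x, f x * φ x

/-- `-Δu/2 ≥ f` weakly in `Ω`. -/
structure Sup (Ω : Set X) (u : X → ℝ) (g : Fin 3 → X → ℝ) (f : X → ℝ) : Prop where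
  h1 : H1 eX u g
  fl2 : MemLp f 2 (volume.restrict Ω)
  ge : ∀ φ h, H1 eX φ h → (∀ᵐ x, 0 ≤ φ x) → (∀ᵐ x, x ∉ Ω → φ x = 0) →
    ∫ x, f x * φ x ≤ (∫ x, gd g h x) / 2

/-- `-Δu/2 = f` weakly in `Ω`. -/
structure Sol (Ω : Set X) (u : X → ℝ) (g : Fin 3 → X → ℝ) (f : X → ℝ) : Prop where
  h1 : H1 eX u g
  fl2 : MemLp f 2 (volume.restrict Ω)
  eq : ∀ φ h, H1 eX φ h → (∀ᵐ x, x ∉ Ω → φ x = 0) →
    (∫ x, gd g h x) / 2 = ∫ x, f x * φ x

/-- `-Δn/2 ≤ f + S / n` weakly in `Ω`, for the tests `0 ≤ φ ≤ n`. -/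
structure Sub2 (Ω : Set X) (n : X → ℝ) (g : Fin 3 → X → ℝ) (f S : X → ℝ) : Prop where
  h1 : H1 eX n g
  nn : ∀ x, 0 ≤ n x
  fl2 : MemLp f 2 (volume.restrict Ω)
  Sint : IntegrableOn S Ω
  Snn : ∀ x, 0 ≤ S x
  le : ∀ φ h, H1 eX φ h → (∀ᵐ x, 0 ≤ φ x ∧ φ x ≤ n x) → (∀ᵐ x, x ∉ Ω → φ x = 0) →
    (∫ x, gd g h x) / 2 ≤ (∫ x, f x * φ x) + ∫ x, S x * (φ x / n x)

/-- The heat kernel of `Δ/2`. -/
def G (τ : ℝ) (x : X) : ℝ := (2 * Real.pi * τ) ^ (-(3 / 2 : ℝ)) * Real.exp (-‖x‖ ^ 2 / (2 * τ))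

/-- The heat semigroup. -/
def Gc (τ : ℝ) (f : X → ℝ) (x : X) : ℝ := ∫ y, G τ (x - y) * f y

/-- The right hand side of Duhamel's formula for `(-Δ/2 + m) u = S`. -/
def duh (m t : ℝ) (u S : X → ℝ) (x : X) : ℝ :=
  Real.exp (-m * t) * Gc t u x + ∫ τ in Ioc 0 t, Real.exp (-m * τ) * Gc τ S x

/-- Barriers `A(z) r^γ e^{-κ r}`. -/
def bar (A : ℝ → ℝ) (γ κ : ℝ) (x : X) : ℝ := A (x 2) * ‖x‖ ^ γ * Real.exp (-κ * ‖x‖)

/-- `-Δ/2` of a barrier (`A'`, `A''` are the derivatives of `A`). -/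
def lbar (A A' A'' : ℝ → ℝ) (γ κ : ℝ) (x : X) : ℝ :=
  (-(A'' (x 2)) / 2 + A' (x 2) * x 2 * (κ / ‖x‖ - γ / ‖x‖ ^ 2) +
      A (x 2) * (-κ ^ 2 / 2 + κ * (γ + 1) / ‖x‖ - γ * (γ + 1) / (2 * ‖x‖ ^ 2))) *
    ‖x‖ ^ γ * Real.exp (-κ * ‖x‖)

/-- The Japanese bracket. -/
def jb (x : X) : ℝ := √(1 + ‖x‖ ^ 2)

/-- `|∇φ - φ ∇t / t|²`. -/
def Dq (t : X → ℝ) (gt : Fin 3 → X → ℝ) (φ : X → ℝ) (g : Fin 3 → X → ℝ) (x : X) : ℝ :=
  ∑ i, (g i x - φ x * gt i x / t x) ^ 2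

instance instHaarProd {E F : Type} [NormedAddCommGroup E] [NormedSpace ℝ E]
    [FiniteDimensional ℝ E] [MeasureSpace E] [BorelSpace E]
    [(volume : Measure E).IsAddHaarMeasure] [NormedAddCommGroup F] [NormedSpace ℝ F]
    [FiniteDimensional ℝ F] [MeasureSpace F] [BorelSpace F]
    [(volume : Measure F).IsAddHaarMeasure] : (volume : Measure (E × F)).IsAddHaarMeasure :=
  Measure.prod.instIsAddHaarMeasure _ _

example : (volume : Measure Y).IsAddHaarMeasure := inferInstance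
example : (volume : Measure T).IsAddHaarMeasure := inferInstance
example : BorelSpace T := inferInstance
example : FiniteDimensional ℝ T := inferInstance

end Crest.Agent.R335
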