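import Crest.Agent.R335.TP
import Crest.Agent.R335.Par

/-! Row 335. Symmetries of `Y` and `T`, form bounds, Slater states. -/

set_option autoImplicit false

open MeasureTheory Set Filter Topology
open scoped ENNReal

noncomputable section

namespace Crest.Agent.R335

/-- A symmetry of a space with a frame. -/
structure Sym {E : Type} [NormedAddCommGroup E] [NormedSpace ℝ E] [MeasureSpace E] {ι : Type}
    (e : ι → E) (a : E → E) where
  A : E ≃L[ℝ] E
  σ : ι ≃ ι
  sgn : ι → ℝ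
  eq : ∀ x, A x = a x
  hsg : ∀ i, sgn i ^ 2 = 1
  fr : ∀ i, A (e i) = sgn i • e (σ i)
  mp : MeasurePreserving A volume volume

section general

set_option linter.unusedSectionVars false

variable {E : Type} [NormedAddCommGroup E] [NormedSpace ℝ E] [FiniteDimensional ℝ E]
  [MeasureSpace E] [BorelSpace E] [(volume : Measure E).IsAddHaarMeasure]
  {ι : Type} [Fintype ι] {e : ι → E}
  {F : Type} [NormedAddCommGroup F] [NormedSpace ℝ F] [FiniteDimensional ℝ F]
  [MeasureSpace F] [BorelSpace F] [(volume : Measure F).IsAddHaarMeasure]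
  {κ : Type} [Fintype κ] {f : κ → F}

/-- the identity -/
def TS_refl (e : ι → E) : Sym e fun x => x :=
  ⟨.refl ℝ E, .refl ι, fun _ => 1, fun _ => rfl, fun _ => one_pow 2, fun _ => (one_smul _ _).symm,
    .id _⟩

/-- products -/
def TS_prod {a : E → E} {b : F → F} (s : Sym e a) (t : Sym f b) :
    Sym (eP e f) fun p => (a p.1, b p.2) where
  A := s.A.prodCongr t.A
  σ := s.σ.sumCongr t.σ
  sgn := Sum.elim s.sgn t.sgn
  eq p := Prod.ext (s.eq _) (t.eq _)
  hsg := by rintro (i | j) <;> simp [s.hsg, t.hsg]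
  fr := by rintro (i | j) <;> simp [eP, s.fr, t.fr]
  mp := s.mp.prod t.mp

theorem TS_mp {a : E → E} (s : Sym e a) : MeasurePreserving a volume volume :=
  funext s.eq ▸ s.mp

theorem TS_integral {a : E → E} (s : Sym e a) (u : E → ℝ) : ∫ x, u (a x) = ∫ x, u x := by
  simp only [← s.eq]
  exact s.mp.integral_comp s.A.toHomeomorph.measurableEmbedding u

theorem TS_integrable {a : E → E} (s : Sym e a) {u : E → ℝ} (h : Integrable fun x => u (a x)) :
    Integrable u := by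
  simp only [← s.eq] at h
  exact (s.mp.integrable_comp_emb s.A.toHomeomorph.measurableEmbedding).1 h

theorem TS_H1 {a : E → E} (s : Sym e a) {u : E → ℝ} {g : ι → E → ℝ} (h : H1 e u g) :
    H1 e (fun x => u (a x)) fun i x => s.sgn i * g (s.σ i) (a x) := by
  simp only [← s.eq]
  exact h.comp_equiv s.A s.σ s.sgn s.fr

theorem TS_dir {a : E → E} (s : Sym e a) (g : ι → E → ℝ) :
    dir (fun i x => s.sgn i * g (s.σ i) (a x)) = dir g := by
  rw [dir, dir, ← TS_integral s (gs g)]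
  simp only [gs, mul_pow, s.hsg, one_mul]
  exact integral_congr_ae (.of_forall fun x => s.σ.sum_comp fun j => g j (a x) ^ 2)

theorem TS_dir_sum {Φ : E × F → ℝ} {g : ι ⊕ κ → E × F → ℝ} (h : H1 (eP e f) Φ g) :
    dir g = (∫ p, ∑ i, g (.inl i) p ^ 2) + ∫ p, ∑ j, g (.inr j) p ^ 2 := by
  rw [dir, ← integral_add (integrable_finsetSum _ fun i _ => (h.gl2 _).integrable_sq)
    (integrable_finsetSum _ fun i _ => (h.gl2 _).integrable_sq)]
  simp only [gs_sum]

/-- Hardy weights -/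
structure TS_H (e : ι → E) (r : E → ℝ) : Prop where
  m : Measurable r
  nn : ∀ x, 0 ≤ r x
  le : ∀ u g, H1 e u g →
    Integrable (fun x => u x ^ 2 / r x ^ 2) ∧ ∫ x, u x ^ 2 / r x ^ 2 ≤ 4 * dir g

theorem TS_H_prod {c : F → X} (hc : Measurable c) :
    TS_H (eP eX f) fun p => ‖p.1 - c p.2‖ :=
  ⟨by fun_prop, fun _ => norm_nonneg _, fun u g h => ⟨(hardy_prod h hc).1,
    (hardy_prod h hc).2.trans (by
      have : 0 ≤ ∫ p, ∑ j, g (.inr j) p ^ 2 := integral_nonneg fun p => by positivity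
      linarith [TS_dir_sum h])⟩⟩

theorem TS_H.of_comp {a : E → E} (s : Sym e a) {r : E → ℝ} (hr : Measurable r) (h0 : ∀ x, 0 ≤ r x)
    (h : TS_H e fun x => r (a x)) : TS_H e r :=
  ⟨hr, h0, fun u g hu => by
    obtain ⟨p, q⟩ := h.le _ _ (TS_H1 s hu)
    rw [TS_dir, TS_integral s fun x => u x ^ 2 / r x ^ 2] at q
    exact ⟨TS_integrable s p, q⟩⟩

/-- potentials which are bounded by `n` Coulomb terms -/
structure TS_B (e : ι → E) (U : E → ℝ) (n : ℝ) : Prop where
  m : Measurable U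
  le : ∀ u g, H1 e u g → ∀ η : ℝ, 0 < η → Integrable (fun x => |U x| * u x ^ 2) ∧
    ∫ x, |U x| * u x ^ 2 ≤ n * (η * dir g + nsq u / η)

theorem TS_H.B {r : E → ℝ} (h : TS_H e r) {c : ℝ} (hc : |c| ≤ 1) :
    TS_B e (fun x => c / r x) 1 :=
  ⟨measurable_const.div h.m, fun u g hu η hη => by
    obtain ⟨p, q⟩ := h.le u g hu
    obtain ⟨p', q'⟩ := LHardy_coul hu.m h.m h.nn hu.integrable_sq p hη
    have e : ∀ x, |c / r x| * u x ^ 2 = |c| * (u x ^ 2 / r x) := fun x => by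
      rw [abs_div, abs_of_nonneg (h.nn x)]
      ring
    have : 0 ≤ ∫ x, u x ^ 2 / r x := integral_nonneg fun x => div_nonneg (sq_nonneg _) (h.nn x)
    simp only [e, integral_const_mul]
    refine ⟨p'.const_mul _, ?_⟩
    unfold nsq
    nlinarith⟩

theorem TS_B.of_le {U U' U'' : E → ℝ} {n n' : ℝ} (h : TS_B e U n) (h' : TS_B e U' n')
    (hm : Measurable U'') (hle : ∀ x, |U'' x| ≤ |U x| + |U' x|) : TS_B e U'' (n + n') :=
  ⟨hm, fun u g hu η hη => by
    obtain ⟨p, q⟩ := h.le u g hu η hη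
    obtain ⟨p', q'⟩ := h'.le u g hu η hη
    have le : ∀ x, |U'' x| * u x ^ 2 ≤ |U x| * u x ^ 2 + |U' x| * u x ^ 2 := fun x => by
      nlinarith [hle x, sq_nonneg (u x)]
    have i : Integrable fun x => |U'' x| * u x ^ 2 :=
      (p.add p').mono' (hm.abs.mul (hu.m.pow_const 2)).aestronglyMeasurable
        (.of_forall fun x => (Real.norm_of_nonneg (by positivity)).trans_le (le x))
    have := integral_mono i (p.add p') le
    rw [integral_add' p p'] at this
    exact ⟨i, by linarith⟩⟩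

theorem TS_B.add {U U' : E → ℝ} {n n' : ℝ} (h : TS_B e U n) (h' : TS_B e U' n') :
    TS_B e (fun x => U x + U' x) (n + n') :=
  h.of_le h' (h.m.add h'.m) fun _ => abs_add_le _ _

theorem TS_B.sub {U U' : E → ℝ} {n n' : ℝ} (h : TS_B e U n) (h' : TS_B e U' n') :
    TS_B e (fun x => U x - U' x) (n + n') :=
  h.of_le h' (h.m.sub h'.m) fun _ => abs_sub _ _

theorem TS_B.int {U : E → ℝ} {n : ℝ} (h : TS_B e U n) {u : E → ℝ} {g : ι → E → ℝ}
    (hu : H1 e u g) : Integrable fun x => U x * u x ^ 2 :=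
  (h.le u g hu 1 one_pos).1.mono' (h.m.mul (hu.m.pow_const 2)).aestronglyMeasurable
    (.of_forall fun x => by simp)

theorem TS_B.fb {U : E → ℝ} {n C : ℝ} (h : TS_B e U n) (hn : n ≤ 10) (hC : 40 * n ≤ C) :
    FB e U C :=
  ⟨h.m, fun _ _ hu => h.int hu, fun u g hu => by
    nlinarith [(h.le u g hu (1 / 40) (by norm_num)).2, dir_nonneg g, nsq_nonneg u]⟩

theorem TS_B.qf {U W : E → ℝ} {C n ε : ℝ} (hU : FB e U C) (hW : TS_B e W n) (h0 : ∀ x, 0 ≤ W x)
    (hε : 0 ≤ ε) {u : E → ℝ} {g : ι → E → ℝ} (h : H1 e u g) :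
    qf U u g ≤ qf (fun x => U x + ε * W x) u g ∧
      qf (fun x => U x + ε * W x) u g ≤ qf U u g + n * ε * (dir g + nsq u) := by
  have q := (hW.le u g h 1 one_pos).2
  simp only [abs_of_nonneg (h0 _)] at q
  have : 0 ≤ ∫ x, W x * u x ^ 2 := integral_nonneg fun x => mul_nonneg (h0 x) (sq_nonneg _)
  simp only [R335.qf, add_mul, mul_assoc]
  rw [integral_add (hU.int u g h) ((hW.int h).const_mul ε), integral_const_mul]
  constructor <;> nlinarith

theorem TS_memLp {w b : E → ℝ} (hw : Measurable w) (hb : Integrable b) (h : ∀ x, w x ^ 2 ≤ b x) :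
    MemLp w 2 volume ∧ nsq w ≤ ∫ x, b x := by
  have i : Integrable fun x => w x ^ 2 := hb.mono' (hw.pow_const 2).aestronglyMeasurable
    (.of_forall fun x => (Real.norm_of_nonneg (sq_nonneg _)).trans_le (h x))
  exact ⟨(memLp_two_iff_integrable_sq hw.aestronglyMeasurable).2 i, integral_mono i hb h⟩

theorem TS_ip_self (u : E → ℝ) : ip u u = nsq u := by simp only [ip, nsq, sq]

theorem TS_ip_comm (u w : E → ℝ) : ip u w = ip w u := by simp only [ip, mul_comm]

end general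

/-- the reflection -/
def TS_P : Sym eX P where
  A := exists_PL.choose.toContinuousLinearEquiv
  σ := .refl _
  sgn := sg
  eq := exists_PL.choose_spec
  hsg i := by fin_cases i <;> simp [sg]
  fr i := (exists_PL.choose_spec _).trans (P_eX i)
  mp := exists_PL.choose.measurePreserving

/-- the exchange -/
def TS_swap : Sym eY Prod.swap where
  A := .prodComm ℝ X X
  σ := .sumComm _ _
  sgn _ := 1
  eq _ := rfl
  hsg _ := one_pow 2
  fr := by rintro (i | j) <;> simp [eY, eP]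
  mp := Measure.measurePreserving_swap

/-- the cyclic permutation -/
def TS_cyc : Sym eT cyc where
  A := (ContinuousLinearEquiv.prodComm ℝ X Y).trans (.prodAssoc ℝ X X X)
  σ := (Equiv.sumComm _ _).trans (.sumAssoc _ _ _)
  sgn _ := 1
  eq _ := rfl
  hsg _ := one_pow 2
  fr := by rintro (i | j | j) <;> simp [eT, eY, eP]
  mp := volume_preserving_prodAssoc.comp Measure.measurePreserving_swap

/-- the exchange of the first two electrons -/
def TS_12 : Sym eT fun p => (p.2.1, p.1, p.2.2) where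
  A := (ContinuousLinearEquiv.prodAssoc ℝ X X X).symm.trans
    (((ContinuousLinearEquiv.prodComm ℝ X X).prodCongr (.refl ℝ X)).trans (.prodAssoc ℝ X X X))
  σ := (Equiv.sumAssoc _ _ _).symm.trans
    (((Equiv.sumComm _ _).sumCongr (.refl _)).trans (.sumAssoc _ _ _))
  sgn _ := 1
  eq _ := rfl
  hsg _ := one_pow 2
  fr := by rintro (i | j | j) <;> exact (one_smul ℝ _).symm
  mp := volume_preserving_prodAssoc.comp ((Measure.measurePreserving_swap.prod (.id _)).comp
    (volume_preserving_prodAssoc.symm _))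

theorem sym_P : Nonempty (Sym eX P) := by
  exact ⟨TS_P⟩

theorem sym_swap : Nonempty (Sym eY Prod.swap) := by
  exact ⟨TS_swap⟩

theorem sym_PY : Nonempty (Sym eY PY) := by
  exact ⟨TS_prod TS_P TS_P⟩

theorem sym_12 : Nonempty (Sym eT fun p => (p.2.1, p.1, p.2.2)) := by
  exact ⟨TS_12⟩

theorem sym_PT : Nonempty (Sym eT fun p => (P p.1, PY p.2)) := by
  exact ⟨TS_prod TS_P (TS_prod TS_P TS_P)⟩

theorem mp_PY : MeasurePreserving PY volume volume := by
  exact mp_P.prod mp_P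

theorem integral_PY (u : Y → ℝ) : ∫ y, u (PY y) = ∫ y, u y := by
  exact TS_integral (TS_prod TS_P TS_P) u

@[simp] theorem PY_PY (y : Y) : PY (PY y) = y := by
  simp [PY]

/-- The gradient of `Φ (x, PY y)`. -/
def gPY (g : IT → T → ℝ) : IT → T → ℝ :=
  Sum.elim (fun i p => g (.inl i) (p.1, PY p.2))
    (Sum.elim (fun j p => sg j * g (.inr (.inl j)) (p.1, PY p.2))
      fun j p => sg j * g (.inr (.inr j)) (p.1, PY p.2))

theorem H1.comp_PY {Φ : T → ℝ} {g : IT → T → ℝ} (h : H1 eT Φ g) :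
    H1 eT (fun p => Φ (p.1, PY p.2)) (gPY g) := by
  refine Eq.subst (motive := H1 eT _) ?_ (TS_H1 (TS_prod (TS_refl eX) (TS_prod TS_P TS_P)) h)
  funext i p
  rcases i with i | j | j
  exacts [one_mul _, rfl, rfl]

theorem mp_PY' : MeasurePreserving (fun p : T => (p.1, PY p.2)) volume volume := by
  exact (MeasurePreserving.id volume).prod mp_PY

/-- The gradient of `Φ ∘ cyc`. -/
def gcyc (g : IT → T → ℝ) : IT → T → ℝ :=
  Sum.elim (fun i p => g (.inr (.inr i)) (cyc p))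
    (Sum.elim (fun j p => g (.inl j) (cyc p)) fun j p => g (.inr (.inl j)) (cyc p))

theorem H1.comp_cyc {Φ : T → ℝ} {g : IT → T → ℝ} (h : H1 eT Φ g) :
    H1 eT (fun p => Φ (cyc p)) (gcyc g) := by
  convert TS_H1 TS_cyc h using 1
  funext i p
  rcases i with i | j | j <;> exact (one_mul _).symm

theorem mp_cyc : MeasurePreserving cyc volume volume := by
  exact TS_mp TS_cyc

theorem sym_cyc : Nonempty (Sym eT cyc) := by
  exact ⟨TS_cyc⟩

theorem U3_cyc (D ε : ℝ) (p : T) : U3 D ε (cyc p) = U3 D ε p := by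
  simp only [U3, U2, W, cyc, norm_sub_rev p.2.1 p.1, norm_sub_rev p.2.2 p.1]
  ring

theorem U3_12 (D ε : ℝ) (p : T) : U3 D ε (p.2.1, p.1, p.2.2) = U3 D ε p := by
  simp only [U3, U2, W, norm_sub_rev p.2.1 p.1]
  ring

theorem U3_PT (D ε : ℝ) (p : T) : U3 D ε (P p.1, PY p.2) = U3 D ε p := by
  simp only [U3, U2, W, PY, V_P, ← P_sub, norm_P]

theorem U2_swap (D ε : ℝ) (y : Y) : U2 D ε y.swap = U2 D ε y := by
  simp only [U2, Prod.fst_swap, Prod.snd_swap, norm_sub_rev y.2 y.1]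
  ring

theorem U2_PY (D ε : ℝ) (y : Y) : U2 D ε (PY y) = U2 D ε y := by
  simp only [U2, PY, V_P, ← P_sub, norm_P]

theorem W_PY (x : X) (y : Y) : W x (PY y) = W (P x) y := by
  have : ∀ z, ‖x - P z‖ = ‖P x - z‖ := fun z => by rw [← norm_P, P_sub, P_P]
  simp only [W, PY, this]

theorem W_nonneg (x : X) (y : Y) : 0 ≤ W x y := by
  unfold W
  positivity

theorem measurable_W : Measurable fun p : T => W p.1 p.2 := by
  unfold W
  fun_prop

theorem Eig.comp_cyc {D ε a : ℝ} {Φ : T → ℝ} {g : IT → T → ℝ} (he : Eig eT (U3 D ε) a Φ g) :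
    Eig eT (U3 D ε) a (fun p => Φ (cyc p)) (gcyc g) := by
  intro w k hw
  have := he _ _ hw.comp_cyc.comp_cyc
  rw [bf, ip, ← TS_integral TS_cyc (gd _ _), ← TS_integral TS_cyc fun p => U3 D ε p * _,
    ← TS_integral TS_cyc fun p => Φ p * _] at this
  simp only [U3_cyc] at this
  refine Eq.trans (congrArg (· / 2 + _) (integral_congr_ae (.of_forall fun p => ?_))) this
  simp only [gd, gcyc, Fintype.sum_sum_type, Sum.elim_inl, Sum.elim_inr, cyc]
  ring

theorem TS_H12 : TS_H eY fun y => ‖y.1 - y.2‖ := TS_H_prod (c := fun x => x) measurable_id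

theorem TS_HT12 : TS_H eT fun p => ‖p.1 - p.2.1‖ := TS_H_prod measurable_fst

theorem TS_HT13 : TS_H eT fun p => ‖p.1 - p.2.2‖ := TS_H_prod measurable_snd

theorem TS_HT23 : TS_H eT fun p => ‖p.2.1 - p.2.2‖ :=
  .of_comp TS_12 (by fun_prop) (fun _ => norm_nonneg _) TS_HT13

theorem TS_BV {F : Type} [NormedAddCommGroup F] [NormedSpace ℝ F] [FiniteDimensional ℝ F]
    [MeasureSpace F] [BorelSpace F] [(volume : Measure F).IsAddHaarMeasure] {κ : Type} [Fintype κ]
    (f : κ → F) (D : ℝ) : TS_B (eP eX f) (fun p => V D p.1) (1 + 1) := by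
  simpa only [V, sub_neg_eq_add] using
    ((TS_H_prod (f := f) (c := fun _ => Rn D) measurable_const).B (c := -1) (by simp)).sub
      ((TS_H_prod (c := fun _ => -Rn D) measurable_const).B (c := 1) (by simp))

theorem TS_B.of_comp {E : Type} [NormedAddCommGroup E] [NormedSpace ℝ E] [FiniteDimensional ℝ E]
    [MeasureSpace E] [BorelSpace E] [(volume : Measure E).IsAddHaarMeasure] {ι : Type} [Fintype ι]
    {e : ι → E} {a : E → E} (s : Sym e a) {U : E → ℝ} {n : ℝ} (hU : Measurable U)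
    (h : TS_B e (fun x => U (a x)) n) : TS_B e U n :=
  ⟨hU, fun u g hu η hη => by
    obtain ⟨p, q⟩ := h.le _ _ (TS_H1 s hu) η hη
    rw [TS_dir, TS_integral s fun x => |U x| * u x ^ 2, nsq, TS_integral s fun x => u x ^ 2] at q
    exact ⟨TS_integrable s p, q⟩⟩

theorem TS_BW : TS_B eT (fun p => W p.1 p.2 + 1 / ‖p.2.1 - p.2.2‖) (1 + 1 + 1) :=
  ((TS_HT12.B (by simp)).add (TS_HT13.B (by simp))).add (TS_HT23.B (by simp))

/-- Hardy's inequality for all pairs (`hardy_prod`, `H1.swap`, `H1.comp_cyc`). -/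
theorem hardy_Y {u : Y → ℝ} {g : IY → Y → ℝ} (h : H1 eY u g) (x : X) :
    MemLp (fun y => W x y * u y) 2 volume ∧ nsq (fun y => W x y * u y) ≤ 8 * dir g ∧
      MemLp (fun y => u y / ‖y.1 - y.2‖) 2 volume ∧
      nsq (fun y => u y / ‖y.1 - y.2‖) ≤ 4 * dir g := by
  obtain ⟨p1, q1⟩ := hardy_prod h (c := fun _ => x) measurable_const
  obtain ⟨p2, q2⟩ := hardy_prod h.swap (c := fun _ => x) measurable_const
  obtain ⟨p3, q3⟩ := TS_H12.le u g h
  replace p2 := TS_integrable TS_swap (u := fun y => u y ^ 2 / ‖y.2 - x‖ ^ 2) p2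
  have e1 := TS_integral TS_swap fun y => u y ^ 2 / ‖y.2 - x‖ ^ 2
  have e2 := TS_integral TS_swap fun y => ∑ j, g (.inr j) y ^ 2
  have := h.m
  obtain ⟨a, b⟩ := TS_memLp (w := fun y => W x y * u y) (by unfold W; fun_prop)
    ((p1.add p2).const_mul 2) fun y => by
      simp only [W, Pi.add_apply, ← div_pow, norm_sub_rev x, add_mul, one_div_mul_eq_div]
      nlinarith [sq_nonneg (u y / ‖y.1 - x‖ - u y / ‖y.2 - x‖)]
  obtain ⟨a', b'⟩ := TS_memLp (w := fun y => u y / ‖y.1 - y.2‖) (by fun_prop) p3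
    fun y => (div_pow _ _ _).le
  rw [integral_const_mul, integral_add' p1 p2] at b
  simp only [Prod.snd_swap, Sum.swap_inl] at e1 e2 q2
  exact ⟨a, by linarith [TS_dir_sum h], a', b'.trans q3⟩

theorem hardy_T {u : T → ℝ} {g : IT → T → ℝ} (h : H1 eT u g) :
    MemLp (fun p => (W p.1 p.2 + 1 / ‖p.2.1 - p.2.2‖) * u p) 2 volume ∧
      nsq (fun p => (W p.1 p.2 + 1 / ‖p.2.1 - p.2.2‖) * u p) ≤ 36 * dir g := by
  obtain ⟨p1, q1⟩ := TS_HT12.le u g h
  obtain ⟨p2, q2⟩ := TS_HT13.le u g h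
  obtain ⟨p3, q3⟩ := TS_HT23.le u g h
  have := h.m
  obtain ⟨a, b⟩ := TS_memLp (w := fun p => (W p.1 p.2 + 1 / ‖p.2.1 - p.2.2‖) * u p)
    (by unfold W; fun_prop) (((p1.add p2).add p3).const_mul 3) fun p => by
      simp only [W, Pi.add_apply, ← div_pow, add_mul, one_div_mul_eq_div]
      generalize u p / ‖p.1 - p.2.1‖ = r
      generalize u p / ‖p.1 - p.2.2‖ = s
      generalize u p / ‖p.2.1 - p.2.2‖ = t
      nlinarith [sq_nonneg (r - s), sq_nonneg (s - t), sq_nonneg (r - t)]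
  rw [integral_const_mul, integral_add' (p1.add p2) p3, integral_add' p1 p2] at b
  exact ⟨a, by linarith⟩

/-- `coul_prod` with `η = 1/32` for each term. -/
theorem fb_U2 (D : ℝ) {ε : ℝ} (h0 : 0 ≤ ε) (h1 : ε ≤ 1) : FB eY (U2 D ε) 200 := by
  have := measurable_V D
  exact (((TS_BV eX D).add (.of_comp TS_swap (U := fun y => V D y.2) (by fun_prop)
    (TS_BV eX D))).add (TS_H12.B (by rwa [abs_of_nonneg h0]))).fb (by norm_num) (by norm_num)

theorem fb_U3 (D : ℝ) {ε : ℝ} (h0 : 0 ≤ ε) (h1 : ε ≤ 1) : FB eT (U3 D ε) 400 := by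
  have := measurable_V D
  have e : |ε| ≤ 1 := by rwa [abs_of_nonneg h0]
  have b2 : TS_B eT (fun p => V D p.2.1) (1 + 1) := .of_comp TS_12 (by fun_prop) (TS_BV eY D)
  have b3 : TS_B eT (fun p => V D p.2.2) (1 + 1) := .of_comp TS_cyc (by fun_prop) (TS_BV eY D)
  refine Eq.subst (motive := (FB eT · 400)) ?_ ((((TS_BV eY D).add ((b2.add b3).add
    (TS_HT23.B e))).add ((TS_HT12.B e).add (TS_HT13.B e))).fb (by norm_num) (by norm_num))
  funext p
  simp only [U3, U2, W]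
  ring

theorem U2_zero (D : ℝ) : U2 D 0 = fun y => V D y.1 + V D y.2 := by
  funext y
  simp [U2]

theorem U3_zero (D : ℝ) : U3 D 0 = fun p => V D p.1 + (V D p.2.1 + V D p.2.2) := by
  funext p
  simp [U3, U2]

theorem qf_U2 (D : ℝ) {ε : ℝ} (h0 : 0 ≤ ε) {u : Y → ℝ} {g : IY → Y → ℝ} (h : H1 eY u g) :
    qf (U2 D 0) u g ≤ qf (U2 D ε) u g ∧
      qf (U2 D ε) u g ≤ qf (U2 D 0) u g + ε * (dir g + nsq u) := by
  have e : U2 D ε = fun y => U2 D 0 y + ε * (1 / ‖y.1 - y.2‖) := by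
    funext y
    simp only [U2]
    ring
  simpa only [e, one_mul] using TS_B.qf (fb_U2 D le_rfl zero_le_one) (TS_H12.B (c := 1) (by simp))
    (fun _ => by positivity) h0 h

theorem qf_U3 (D : ℝ) {ε : ℝ} (h0 : 0 ≤ ε) {u : T → ℝ} {g : IT → T → ℝ} (h : H1 eT u g) :
    qf (U3 D 0) u g ≤ qf (U3 D ε) u g ∧
      qf (U3 D ε) u g ≤ qf (U3 D 0) u g + 3 * ε * (dir g + nsq u) := by
  have e : U3 D ε = fun p => U3 D 0 p + ε * (W p.1 p.2 + 1 / ‖p.2.1 - p.2.2‖) := by
    funext y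
    simp only [U3, U2]
    ring
  rw [e, show (3 : ℝ) = 1 + 1 + 1 by norm_num]
  exact TS_B.qf (fb_U3 D le_rfl zero_le_one) TS_BW
    (fun _ => add_nonneg (W_nonneg _ _) (by positivity)) h0 h

theorem slater_anti (a b φ : X → ℝ) : Anti (slater a b φ) := by
  intro x y z
  simp only [slater]
  ring

/-- `H1.tensor`, `bf_tensor`, `ip_tensor`, `FB.qf_lin`, `eig_tensor`. -/
theorem slater_spec {v : X → ℝ} {C : ℝ} (hv : FB eX v C) {a b φ : X → ℝ}
    {ga gb g : Fin 3 → X → ℝ} (ha : H1 eX a ga) (hb : H1 eX b gb) (hφ : H1 eX φ g)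
    (na : nsq a = 1) (nb : nsq b = 1) (nφ : nsq φ = 1) (hab : ip a b = 0) :
    ∃ k, H1 eT (slater a b φ) k ∧ nsq (slater a b φ) = 1 ∧
      qf (fun p : T => v p.1 + (v p.2.1 + v p.2.2)) (slater a b φ) k =
        qf v a ga + qf v b gb + qf v φ g ∧
      ∀ α β γ : ℝ, Eig eX v α a ga → Eig eX v β b gb → Eig eX v γ φ g →
        Eig eT (fun p : T => v p.1 + (v p.2.1 + v p.2.2)) (α + β + γ) (slater a b φ) k := by
  have h1 := ha.tensor (hb.tensor hφ)
  have h2 := hb.tensor (ha.tensor hφ)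
  have e : slater a b φ = fun p : T => 1 / √2 * (a p.1 * (b p.2.1 * φ p.2.2)) +
      -(1 / √2) * (b p.1 * (a p.2.1 * φ p.2.2)) := by
    funext p
    simp only [slater]
    ring
  have s : (1 / √2 : ℝ) ^ 2 = 1 / 2 := by rw [div_pow, Real.sq_sqrt zero_le_two, one_pow]
  have hba : ip b a = 0 := (TS_ip_comm b a).trans hab
  rw [← TS_ip_self] at na nb nφ
  rw [e]
  refine ⟨_, h1.lin h2 _ _, ?_, ?_, fun α β γ ea eb eφ => ?_⟩
  · rw [nsq_lin h1.l2 h2.l2, ← TS_ip_self, ← TS_ip_self, neg_sq, s,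
      ip_tensor (b := fun y : Y => b y.1 * φ y.2) (b' := fun y : Y => b y.1 * φ y.2),
      ip_tensor (b := fun y : Y => b y.1 * φ y.2) (b' := fun y : Y => a y.1 * φ y.2),
      ip_tensor (b := fun y : Y => a y.1 * φ y.2) (b' := fun y : Y => a y.1 * φ y.2)]
    simp only [ip_tensor, na, nb, nφ, hab]
    norm_num
  · rw [(hv.prod (hv.prod hv)).qf_lin h1 h2, ← bf_self, ← bf_self, neg_sq, s,
      bf_tensor hv (hv.prod hv) ha ha (hb.tensor hφ) (hb.tensor hφ),
      bf_tensor hv (hv.prod hv) ha hb (hb.tensor hφ) (ha.tensor hφ),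
      bf_tensor hv (hv.prod hv) hb hb (ha.tensor hφ) (ha.tensor hφ),
      bf_tensor hv hv hb hb hφ hφ, bf_tensor hv hv ha ha hφ hφ]
    simp only [ip_tensor, na, nb, nφ, hab, hba, bf_self]
    ring
  · refine Eig.lin (hv.prod (hv.prod hv)) h1 h2 ?_ ?_ _ _
    · rw [add_assoc]
      exact eig_tensor hv (hv.prod hv) ha (hb.tensor hφ) ea (eig_tensor hv hv hb hφ eb eφ)
    · rw [add_comm α, add_assoc]
      exact eig_tensor hv (hv.prod hv) hb (ha.tensor hφ) eb (eig_tensor hv hv ha hφ ea eφ)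

end Crest.Agent.R335
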