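import Crest.Agent.R335.PrD
import Crest.Agent.R335.TS
import Crest.Agent.R335.LSob

/-! Row 335. Every ensemble has at least the kinetic energy of the pair; the equation for `t`. -/

set_option autoImplicit false

open MeasureTheory Set Filter Topology
open scoped ENNReal

noncomputable section

namespace Crest.Agent.R335

theorem F1_two : (√2)⁻¹ ^ 2 = (1 / 2 : ℝ) := by
  rw [inv_pow, Real.sq_sqrt two_pos.le, one_div]

theorem F1_nsq (u : X → ℝ) (c : ℝ) : nsq (fun x => c * u x) = c ^ 2 * nsq u := by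
  simp only [nsq, mul_pow, integral_const_mul]

theorem F1_qf (v u : X → ℝ) (g : Fin 3 → X → ℝ) (c : ℝ) :
    qf v (fun x => c * u x) (fun i x => c * g i x) = c ^ 2 * qf v u g := by
  simp only [qf, dir, gs, mul_pow, ← Finset.mul_sum, mul_left_comm _ (c ^ 2), integral_const_mul]
  ring

section F1

variable {Ω : Type} [MeasurableSpace Ω] {μ : Measure Ω} [SigmaFinite μ]

/-- A square integrable family of `H¹` functions. -/
structure F1_S (μ : Measure Ω) (Θ : X × Ω → ℝ) (g : Fin 3 → X × Ω → ℝ) : Prop where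
  m : Measurable Θ
  gm : ∀ i, Measurable (g i)
  l2 : MemLp Θ 2 (volume.prod μ)
  gl2 : ∀ i, MemLp (g i) 2 (volume.prod μ)
  h1 : ∀ᵐ ω ∂μ, H1 eX (fun x => Θ (x, ω)) fun i x => g i (x, ω)

/-- Even (`σ = 1`) and odd (`σ = -1`) parts. -/
def F1_p (σ : ℝ) (Θ : X × Ω → ℝ) (p : X × Ω) : ℝ := 1 / 2 * Θ p + σ / 2 * Θ (P p.1, p.2)

/-- Their gradients. -/
def F1_g (σ : ℝ) (g : Fin 3 → X × Ω → ℝ) (i : Fin 3) (p : X × Ω) : ℝ :=
  1 / 2 * g i p + σ / 2 * (sg i * g i (P p.1, p.2))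

theorem F1_mp : MeasurePreserving (fun p : X × Ω => (P p.1, p.2)) (volume.prod μ)
    (volume.prod μ) := mp_P.prod (MeasurePreserving.id μ)

variable {Θ : X × Ω → ℝ} {g : Fin 3 → X × Ω → ℝ}

theorem F1_S.par (h : F1_S μ Θ g) (σ : ℝ) : F1_S μ (F1_p σ Θ) (F1_g σ g) := by
  have hm := (F1_mp (μ := μ)).measurable
  refine ⟨(h.m.const_mul _).add ((h.m.comp hm).const_mul _),
    fun i => ((h.gm i).const_mul _).add ((((h.gm i).comp hm).const_mul _).const_mul _),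
    (h.l2.const_mul _).add ((h.l2.comp_measurePreserving F1_mp).const_mul _),
    fun i => ((h.gl2 i).const_mul _).add
      ((((h.gl2 i).comp_measurePreserving F1_mp).const_mul _).const_mul _), ?_⟩
  filter_upwards [h.h1] with ω hω
  exact hω.lin hω.comp_P (1 / 2) (σ / 2)

omit [SigmaFinite μ] in
theorem F1_S.int (h : F1_S μ Θ g) : Integrable (fun p => ∑ i, g i p ^ 2) (volume.prod μ) :=
  integrable_finsetSum _ fun i _ => (h.gl2 i).integrable_sq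

theorem F1_S.split (h : F1_S μ Θ g) : (∫ p, ∑ i, F1_g 1 g i p ^ 2 ∂volume.prod μ) +
    ∫ p, ∑ i, F1_g (-1) g i p ^ 2 ∂volume.prod μ = ∫ p, ∑ i, g i p ^ 2 ∂volume.prod μ := by
  have h1 : ∫ p, ∑ i, g i (P p.1, p.2) ^ 2 ∂volume.prod μ = ∫ p, ∑ i, g i p ^ 2 ∂volume.prod μ := by
    have h2 := integral_map (μ := volume.prod μ) (f := fun p => ∑ i, g i p ^ 2)
      (F1_mp (μ := μ)).measurable.aemeasurable (by rw [F1_mp.map_eq]; exact h.int.1)
    rw [F1_mp.map_eq] at h2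
    exact h2.symm
  have h2 : Integrable (fun p : X × Ω => ∑ i, g i (P p.1, p.2) ^ 2) (volume.prod μ) :=
    F1_mp.integrable_comp_of_integrable h.int
  have h3 : ∫ p, (∑ i, F1_g 1 g i p ^ 2 + ∑ i, F1_g (-1) g i p ^ 2) ∂volume.prod μ =
      ∫ p, (1 / 2 * ∑ i, g i p ^ 2 + 1 / 2 * ∑ i, g i (P p.1, p.2) ^ 2) ∂volume.prod μ :=
    integral_congr_ae (.of_forall fun p => by
      simp only [F1_g, Fin.sum_univ_three, sg, Matrix.cons_val_zero, Matrix.cons_val_one,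
        Matrix.cons_val]
      ring)
  rw [← integral_add (h.par 1).int (h.par (-1)).int, h3,
    integral_add (h.int.const_mul _) (h2.const_mul _), integral_const_mul, integral_const_mul, h1]
  ring

theorem F1_slice {Φ : X × Ω → ℝ} (hm : Measurable Φ) (h : MemLp Φ 2 (volume.prod μ)) :
    ∀ᵐ x, MemLp (fun ω => Φ (x, ω)) 2 μ := by
  filter_upwards [h.integrable_sq.prod_right_ae] with x hx
  exact (memLp_two_iff_integrable_sq
    (hm.comp measurable_prodMk_left).aestronglyMeasurable).2 hx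

omit [SigmaFinite μ] in
theorem F1_pt {a b : Ω → ℝ} (ha : MemLp a 2 μ) (hb : MemLp b 2 μ) (c τ : ℝ) :
    Integrable (fun ω => (b ω - a ω * c / τ) ^ 2) μ ∧
    ∫ ω, (b ω - a ω * c / τ) ^ 2 ∂μ = (∫ ω, b ω ^ 2 ∂μ) -
      ((∫ ω, a ω * b ω ∂μ) / √(∫ ω, a ω ^ 2 ∂μ)) ^ 2 +
      ((∫ ω, a ω * b ω ∂μ) / √(∫ ω, a ω ^ 2 ∂μ) - √(∫ ω, a ω ^ 2 ∂μ) * c / τ) ^ 2 := by
  have hab := LNorm_int ha hb
  have e : (fun ω => (b ω - a ω * c / τ) ^ 2) =
      fun ω => b ω ^ 2 - 2 * (c / τ) * (a ω * b ω) + (c / τ) ^ 2 * a ω ^ 2 := by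
    funext ω; ring
  have i1 := hb.integrable_sq.sub' (hab.const_mul (2 * (c / τ)))
  have h0 : 0 ≤ ∫ ω, a ω ^ 2 ∂μ := integral_nonneg fun _ => sq_nonneg _
  have h1 : √(∫ ω, a ω ^ 2 ∂μ) * ((∫ ω, a ω * b ω ∂μ) / √(∫ ω, a ω ^ 2 ∂μ)) =
      ∫ ω, a ω * b ω ∂μ := by
    rcases h0.eq_or_lt with h | h
    · have h2 := LNorm0_cs ha.integrable_sq hb.integrable_sq hab
      rw [← h, zero_mul] at h2
      rw [pow_eq_zero_iff two_ne_zero |>.1 (le_antisymm h2 (sq_nonneg _)), zero_div, mul_zero]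
    · exact mul_div_cancel₀ _ (Real.sqrt_pos.2 h).ne'
  rw [e]
  refine ⟨i1.add (ha.integrable_sq.const_mul _), ?_⟩
  rw [integral_add i1 (ha.integrable_sq.const_mul _),
    integral_sub hb.integrable_sq (hab.const_mul _), integral_const_mul, integral_const_mul]
  linear_combination 2 * (c / τ) * h1 - (c / τ) ^ 2 * Real.sq_sqrt h0

theorem F1_main {s : X → ℝ} (pr : Pair0 s) {Ks : ℝ} (hP : pr.PStar Ks) (h : F1_S μ Θ g)
    (he : ∀ x ω, Θ (P x, ω) = Θ (x, ω))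
    (hn : H1 eX (fun x => √(∫ ω, Θ (x, ω) ^ 2 ∂μ))
      fun i x => (∫ ω, Θ (x, ω) * g i (x, ω) ∂μ) / √(∫ ω, Θ (x, ω) ^ 2 ∂μ))
    (hD : Integrable (Dq pr.t pr.gt (fun x => √(∫ ω, Θ (x, ω) ^ 2 ∂μ))
      fun i x => (∫ ω, Θ (x, ω) * g i (x, ω) ∂μ) / √(∫ ω, Θ (x, ω) ^ 2 ∂μ)))
    (hpa : ∫ ω, (∫ x, (√2)⁻¹ * pr.t x * Θ (x, ω)) ^ 2 ∂μ ≤ 2) :
    ∃ d : ℝ, 0 ≤ d ∧ nsq (fun x => √(∫ ω, Θ (x, ω) ^ 2 ∂μ)) - 2 ≤ Ks * d ∧
      d = (∫ p, ∑ i, g i p ^ 2 ∂volume.prod μ) -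
        dir (fun i x => (∫ ω, Θ (x, ω) * g i (x, ω) ∂μ) / √(∫ ω, Θ (x, ω) ^ 2 ∂μ)) +
        ∫ x, Dq pr.t pr.gt (fun x => √(∫ ω, Θ (x, ω) ^ 2 ∂μ))
          (fun i x => (∫ ω, Θ (x, ω) * g i (x, ω) ∂μ) / √(∫ ω, Θ (x, ω) ^ 2 ∂μ)) x := by
  have ht := pr.pair.ht
  let D : X × Ω → ℝ := fun p => ∑ i, (g i p - Θ p * pr.gt i p.1 / pr.t p.1) ^ 2
  have hD0 : ∀ p, 0 ≤ D p := fun p => Finset.sum_nonneg fun _ _ => sq_nonneg _
  have hDm : Measurable D := Finset.measurable_sum _ fun i _ => ((h.gm i).sub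
    ((h.m.mul ((ht.gm i).comp measurable_fst)).div (ht.m.comp measurable_fst))).pow_const 2
  have h1 : ∀ᵐ x, Integrable (fun ω => D (x, ω)) μ ∧ ∫ ω, D (x, ω) ∂μ =
      (∫ ω, ∑ i, g i (x, ω) ^ 2 ∂μ) -
        gs (fun i x => (∫ ω, Θ (x, ω) * g i (x, ω) ∂μ) / √(∫ ω, Θ (x, ω) ^ 2 ∂μ)) x +
        Dq pr.t pr.gt (fun x => √(∫ ω, Θ (x, ω) ^ 2 ∂μ))
          (fun i x => (∫ ω, Θ (x, ω) * g i (x, ω) ∂μ) / √(∫ ω, Θ (x, ω) ^ 2 ∂μ)) x := by
    filter_upwards [F1_slice h.m h.l2, ae_all_iff.2 fun i => F1_slice (h.gm i) (h.gl2 i)]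
      with x h1 h2
    have h3 := fun i => F1_pt h1 (h2 i) (pr.gt i x) (pr.t x)
    refine ⟨integrable_finsetSum _ fun i _ => (h3 i).1, ?_⟩
    rw [integral_finsetSum _ fun i _ => (h3 i).1, integral_finsetSum _ fun i _ => (h2 i).integrable_sq,
      gs, Dq, ← Finset.sum_sub_distrib, ← Finset.sum_add_distrib]
    exact Finset.sum_congr rfl fun i _ => (h3 i).2
  have i1 := h.int.integral_prod_left.sub' hn.integrable_gs
  have hDi : Integrable D (volume.prod μ) := by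
    refine (integrable_prod_iff hDm.aestronglyMeasurable).2 ⟨h1.mono fun _ hx => hx.1, ?_⟩
    refine (i1.add hD).congr (h1.mono fun x hx => ?_)
    simp only [Real.norm_of_nonneg (hD0 _)]
    exact hx.2.symm
  refine ⟨∫ p, D p ∂volume.prod μ, integral_nonneg hD0, ?_, ?_⟩
  · have ha : MemLp (fun x => (√2)⁻¹ * pr.t x) 2 volume := ht.l2.const_mul _
    have i2 := (LNorm_contl h.l2 ha (by
      change nsq _ = 1
      rw [F1_nsq, pr.mass, F1_two]; norm_num)).integrable_sq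
    have i3 := h.l2.integrable_sq
    have h2 : nsq (fun x => √(∫ ω, Θ (x, ω) ^ 2 ∂μ)) = ∫ ω, (∫ x, Θ (x, ω) ^ 2) ∂μ := by
      rw [← integral_prod_symm _ i3, integral_prod _ i3]
      exact integral_congr_ae (.of_forall fun x =>
        Real.sq_sqrt (integral_nonneg fun _ => sq_nonneg _))
    have h3 : ∫ ω, ((∫ x, Θ (x, ω) ^ 2) - (∫ x, (√2)⁻¹ * pr.t x * Θ (x, ω)) ^ 2) ∂μ ≤
        ∫ ω, Ks * (∫ x, D (x, ω)) ∂μ := by
      refine integral_mono_ae (i3.integral_prod_right.sub i2)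
        (hDi.integral_prod_right.const_mul _) ?_
      filter_upwards [h.h1, hDi.prod_left_ae] with ω h1 h2
      refine le_trans (le_of_eq ?_) (hP _ _ h1 (.of_forall fun x => he x ω) h2)
      simp only [nsq, ip, mul_assoc, integral_const_mul, mul_pow, F1_two]
      ring
    rw [integral_sub i3.integral_prod_right i2, integral_const_mul, ← integral_prod_symm _ hDi] at h3
    linarith only [h2, h3, hpa]
  · rw [integral_prod _ hDi, integral_congr_ae (h1.mono fun _ hx => hx.2), integral_add i1 hD,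
      integral_sub h.int.integral_prod_left hn.integrable_gs, integral_prod _ h.int, dir]

end F1

/-- Even and odd parts `Θe`, `Θo` in `x` (`H1.comp_P` on slices), `n = ‖Θe‖`, `b = ‖Θo‖`
(`H1.norm`, `van_norm`); `n² + b² = s²` because `s²` is even almost everywhere.
`∫ |∇Θ|² = ∫ |∇Θe|² + ∫ |∇Θo|²`.  For almost every `x`:
`∫ (|∇Θe|² - Dq Θe) dω = |∇n|² - Dq n` (both are `2 (n ∇n)·∇t / t - n² |∇t|² / t²`), so
`∫ Dq Θe dω = ∫ |∇Θe|² dω - |∇n|² + Dq n` is integrable in `x` (`pair_picone`).  Tonelli, `PStar`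
on slices (`Dq ≥ 2 lam (nsq - ⟨t, ·⟩² / 2)`), `pauli` with `t / √2` (`⟨t, Θe⟩ = ⟨t, Θ⟩`). -/
theorem fam_lb {s : X → ℝ} (pr : Pair0 s) (hp : ∀ᵐ x, 0 < pr.t x) {Ks : ℝ} (hP : pr.PStar Ks)
    (hl : 0 ≤ pr.lam) (hK : 2 * pr.lam * Ks ≤ 1) {v : X → ℝ} {Ω : Type} [MeasurableSpace Ω]
    {μ : Measure Ω} [SigmaFinite μ] {Θ : X × Ω → ℝ} {g : Fin 3 → X × Ω → ℝ}
    (hF : Fam v (fun x => s x ^ 2) μ Θ g) :
    dir pr.gt + dir pr.gβ ≤ ∫ p, ∑ i, g i p ^ 2 ∂volume.prod μ := by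
  have hS : F1_S μ Θ g := ⟨hF.m, hF.gm, hF.l2, hF.gl2, hF.h1⟩
  have hE := hS.par 1
  have hO := hS.par (-1)
  obtain ⟨hn, -⟩ := H1.norm hE.m hE.gm hE.l2 hE.gl2 hE.h1
  obtain ⟨hb, hb'⟩ := H1.norm hO.m hO.gm hO.l2 hO.gl2 hO.h1
  have hv : Van fun x => √(∫ ω, F1_p (-1) Θ (x, ω) ^ 2 ∂μ) :=
    van_norm hO.m hO.gm hO.l2 hO.gl2 hO.h1 (.of_forall fun ω => .of_forall fun x => by
      simp only [F1_p, P_P]; ring)
  have hsum : ∀ᵐ x, √(∫ ω, F1_p 1 Θ (x, ω) ^ 2 ∂μ) ^ 2 + √(∫ ω, F1_p (-1) Θ (x, ω) ^ 2 ∂μ) ^ 2 =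
      s x ^ 2 := by
    filter_upwards [F1_slice hS.m hS.l2, ae_P (F1_slice hS.m hS.l2), hF.dens, ae_P hF.dens,
      pr.pair.sum, ae_P pr.pair.sum, F1_slice hE.m hE.l2, F1_slice hO.m hO.l2]
      with x h1 h2 h3 h4 h5 h6 h7 h8
    rw [pr.tP, pr.βP] at h6
    rw [Real.sq_sqrt (integral_nonneg fun _ => sq_nonneg _),
      Real.sq_sqrt (integral_nonneg fun _ => sq_nonneg _),
      ← integral_add h7.integrable_sq h8.integrable_sq]
    have h9 : ∫ ω, (F1_p 1 Θ (x, ω) ^ 2 + F1_p (-1) Θ (x, ω) ^ 2) ∂μ =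
        ∫ ω, (1 / 2 * Θ (x, ω) ^ 2 + 1 / 2 * Θ (P x, ω) ^ 2) ∂μ :=
      integral_congr_ae (.of_forall fun ω => by simp only [F1_p]; ring)
    rw [h9, integral_add (h1.integrable_sq.const_mul _) (h2.integrable_sq.const_mul _),
      integral_const_mul, integral_const_mul, h3, h4, ← h5, ← h6]
    ring
  obtain ⟨hD, hpic⟩ := pair_picone pr hp ⟨hn, hb, hv, hsum⟩
  have h1 := F1_main pr hP hE (fun x ω => by simp only [F1_p, P_P]; ring) hn hD (by
    refine le_trans (le_of_eq (integral_congr_ae ?_)) (hF.pauli (fun x => (√2)⁻¹ * pr.t x)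
      (pr.pair.ht.l2.const_mul _) (by rw [F1_nsq, pr.mass, F1_two]; norm_num))
    filter_upwards [hS.h1] with ω hω
    have h2 := pr.pair.ht.integrable_mul hω
    have h3 : ∫ x, pr.t x * Θ (P x, ω) = ∫ x, pr.t x * Θ (x, ω) := by
      rw [← integral_P fun x => pr.t x * Θ (x, ω)]
      simp only [pr.tP]
    have h4 : ∫ x, (√2)⁻¹ * pr.t x * F1_p 1 Θ (x, ω) = ∫ x, (√2)⁻¹ *
        (1 / 2 * (pr.t x * Θ (x, ω)) + 1 / 2 * (pr.t x * Θ (P x, ω))) :=
      integral_congr_ae (.of_forall fun x => by simp only [F1_p]; ring)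
    rw [h4, integral_const_mul, integral_add (h2.const_mul _)
      ((pr.pair.ht.integrable_mul hω.comp_P).const_mul _), integral_const_mul, integral_const_mul,
      h3]
    simp only [mul_assoc, integral_const_mul]
    ring)
  have h2 : dir (fun i x => (∫ ω, F1_p (-1) Θ (x, ω) * F1_g (-1) g i (x, ω) ∂μ) /
      √(∫ ω, F1_p (-1) Θ (x, ω) ^ 2 ∂μ)) ≤ ∫ p, ∑ i, F1_g (-1) g i p ^ 2 ∂volume.prod μ := by
    rw [integral_prod _ hO.int]
    exact integral_mono_ae hb.integrable_gs hO.int.integral_prod_left hb'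
  have h3 := hS.split
  obtain ⟨d, h4, h5, h6⟩ := h1
  have h7 := mul_le_mul_of_nonneg_left h5 (mul_nonneg two_pos.le hl)
  have h8 := mul_le_mul_of_nonneg_right hK h4
  linarith only [hpic, h2, h3, h6, h7, h8]

open Crest.MathPhysics.ThreeBody in
theorem fb_class {v : X → ℝ} (hm : Measurable v) (hv : IsSumClassPotential v) :
    ∃ C : ℝ, 0 ≤ C ∧ FB eX v C := by
  obtain ⟨C, h0, h⟩ := class_form hv (η := 1 / 4) (by norm_num)
  exact ⟨C, h0, hm, fun u g hu => (h u g hu).1, fun u g hu => (h u g hu).2.trans_eq (by ring)⟩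

open Crest.MathPhysics.ThreeBody in
/-- `Fam.min` for `slater a b φ` with `a = t / √2`, `b = sign(z) β` (`H1.sgn`) gives
`qf v a ≤ qf v φ` for normalised `φ`; `le_qf_of_norm`, `eig_of_min`. -/
theorem t_eig {s : X → ℝ} (pr : Pair0 s) (hs : nsq s = 3) {v : X → ℝ} (hm : Measurable v)
    (hv : IsSumClassPotential v) {Ω : Type} [MeasurableSpace Ω] {μ : Measure Ω}
    {Θ : X × Ω → ℝ} {g : Fin 3 → X × Ω → ℝ} (hF : Fam v (fun x => s x ^ 2) μ Θ g)
    (h : dir pr.gt + dir pr.gβ ≤ ∫ p, ∑ i, g i p ^ 2 ∂volume.prod μ) :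
    ∃ e₀ : ℝ, Eig eX v e₀ pr.t pr.gt := by
  obtain ⟨C, -, hU⟩ := fb_class hm hv
  have ht := pr.pair.ht
  have hβ := pr.pair.hβ
  have ha := ht.smul (√2)⁻¹
  have hb := hβ.sgn pr.pair.van
  have hsq : ∀ (q : Prop) [Decidable q] (r : ℝ), (if q then r else -r) ^ 2 = r ^ 2 :=
    fun q _ r => by split_ifs <;> ring
  have na : nsq (fun x => (√2)⁻¹ * pr.t x) = 1 := by rw [F1_nsq, pr.mass, F1_two]; norm_num
  have nβ : nsq pr.t + nsq pr.β = nsq s := by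
    rw [nsq, nsq, ← integral_add ht.integrable_sq hβ.integrable_sq]
    exact integral_congr_ae pr.pair.sum
  have nb : nsq (fun x => if 0 < x 2 then pr.β x else -pr.β x) = 1 := by
    have : nsq (fun x => if 0 < x 2 then pr.β x else -pr.β x) = nsq pr.β := by
      simp only [nsq, hsq]
    linarith only [this, nβ, hs, pr.mass]
  have hab : ip (fun x => (√2)⁻¹ * pr.t x) (fun x => if 0 < x 2 then pr.β x else -pr.β x) = 0 := by
    have h1 := integral_P fun x => (√2)⁻¹ * pr.t x * if 0 < x 2 then pr.β x else -pr.β x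
    have h2 : ∫ x, (√2)⁻¹ * pr.t (P x) * (if 0 < P x 2 then pr.β (P x) else -pr.β (P x)) =
        ∫ x, -((√2)⁻¹ * pr.t x * if 0 < x 2 then pr.β x else -pr.β x) := by
      refine integral_congr_ae ?_
      filter_upwards [ae_two_ne] with x hx
      rw [pr.tP, pr.βP, P_two]
      rcases hx.lt_or_gt with h | h
      · rw [if_pos (neg_pos.2 h), if_neg h.not_gt]; ring
      · rw [if_neg (neg_neg_iff_pos.2 h).not_gt, if_pos h]; ring
    rw [h2, integral_neg] at h1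
    rw [ip]
    linarith only [h1]
  have qb : qf v (fun x => if 0 < x 2 then pr.β x else -pr.β x)
      (fun i x => if 0 < x 2 then pr.gβ i x else -pr.gβ i x) = qf v pr.β pr.gβ := by
    simp only [qf, dir, gs, hsq]
  have qa := F1_qf v pr.t pr.gt (√2)⁻¹
  rw [F1_two] at qa
  have hs2 : ∫ x, v x * s x ^ 2 = (∫ x, v x * pr.t x ^ 2) + ∫ x, v x * pr.β x ^ 2 := by
    rw [← integral_add (hU.int _ _ ht) (hU.int _ _ hβ)]
    refine integral_congr_ae ?_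
    filter_upwards [pr.pair.sum] with x hx
    rw [← hx, mul_add]
  refine ⟨1 / 2 * qf v pr.t pr.gt, eig_of_min hU ht (by rw [pr.mass]; ring) fun w k hw =>
    le_qf_of_norm hU (fun φ l hφ nφ => ?_) hw⟩
  obtain ⟨k, k1, k2, k3, -⟩ := slater_spec hU ha hb hφ na nb nφ hab
  have h1 := hF.min _ k k1 (slater_anti _ _ _) k2
  rw [k3, qa, qb, hs2] at h1
  simp only [qf] at h1 ⊢
  linarith only [h, h1]

theorem Rep.congr {ρ ρ' : X → ℝ} (h : Rep ρ) (he : ρ =ᵐ[volume] ρ') : Rep ρ' := by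
  obtain ⟨v, hm, hv, Ω, _, μ, _, Θ, g, hF⟩ := h
  refine ⟨v, hm, hv, Ω, inferInstance, μ, inferInstance, Θ, g, hF.m, hF.gm, hF.l2, hF.gl2, hF.h1,
    ?_, hF.pauli, fun u k h1 h2 h3 => ?_⟩
  · filter_upwards [hF.dens, he] with x h1 h2
    rw [h1, h2]
  · refine le_trans (le_of_eq ?_) (hF.min u k h1 h2 h3)
    congr 1
    refine integral_congr_ae ?_
    filter_upwards [he] with x hx
    rw [hx]

end Crest.Agent.R335
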