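import Crest.Agent.R335.PB
import Crest.Agent.R335.UB
import Crest.Agent.R335.F1
import Crest.Agent.R335.GDefs

/-! Row 335. The Agmon argument. -/

set_option autoImplicit false

open MeasureTheory Set Filter Topology
open scoped ENNReal

noncomputable section

namespace Crest.Agent.R335

variable {c : ℝ} {o : One c} {C ε C' : ℝ} {ch : Chan o C ε}

/-- Test with `ψ² / t` (`H1.sq_div`, `gd_sq_div`). -/
theorem Dq_int_eq {v t : X → ℝ} {gt : Fin 3 → X → ℝ} {Cv e₀ : ℝ} (hv : FB eX v Cv)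
    (ht : H1 eX t gt) (hp : ∀ᵐ x, 0 < t x) (he : Eig eX v e₀ t gt) {ψ : X → ℝ}
    {g : Fin 3 → X → ℝ} (hψ : H1 eX ψ g) {M : ℝ} (hM : ∀ᵐ x, |ψ x| ≤ M * t x) :
    ∫ x, Dq t gt ψ g x = dir g + 2 * ∫ x, (v x - e₀) * ψ x ^ 2 := by
  have h1 := he _ _ (hψ.sq_div ht (hp.mono fun x hx => hx.le) hM)
  have hD : Integrable (Dq t gt ψ g) := integrable_Dq ht hψ (M := M) (by
    filter_upwards [hM, hp] with x a1 a2
    rwa [abs_of_pos a2])
  have e1 : ∀ᵐ x, t x * (ψ x ^ 2 / t x) = ψ x ^ 2 := hp.mono fun x hx => by field_simp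
  have e2 : ∫ x, v x * (t x * (ψ x ^ 2 / t x)) = ∫ x, v x * ψ x ^ 2 :=
    integral_congr_ae (e1.mono fun x hx => by beta_reduce; rw [hx])
  have e3 : ip t (fun x => ψ x ^ 2 / t x) = ∫ x, ψ x ^ 2 := integral_congr_ae e1
  have e4 : ∫ x, (v x - e₀) * ψ x ^ 2 = (∫ x, v x * ψ x ^ 2) - e₀ * ∫ x, ψ x ^ 2 := by
    rw [← integral_const_mul, ← integral_sub (hv.int _ _ hψ) (hψ.integrable_sq.const_mul e₀)]
    exact integral_congr_ae (Eventually.of_forall fun x => by ring)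
  unfold bf at h1
  simp only [gd_sq_div] at h1
  rw [e2, e3, integral_sub hψ.integrable_gs hD] at h1
  rw [e4]
  unfold dir
  linarith

theorem F2_mul_line {A A' : ℝ → ℝ} (h1 : ∀ z, HasDerivAt A (A' z) z) (hc : Continuous A') {M : ℝ}
    (hM : ∀ z, |A z| ≤ M ∧ |A' z| ≤ M) {φ : X → ℝ} {g : Fin 3 → X → ℝ} (hφ : H1 eX φ g) :
    H1 eX (fun x => A (x 2) * φ x) fun i x => A (x 2) * g i x + A' (x 2) * eX i 2 * φ x := by
  have hζ : ContDiff ℝ 1 fun x : X => A (x 2) :=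
    (LChain0_contDiff h1 hc).comp (EuclideanSpace.proj (2 : Fin 3) : X →L[ℝ] ℝ).contDiff
  have e1 : ∀ i x, pd eX (fun x : X => A (x 2)) i x = A' (x 2) * eX i 2 := fun i x =>
    LBar_pd_coord (h1 _) i
  have := hφ.mul_bdd hζ (M := M) (fun x => (hM _).1) fun i x => by
    rw [e1, abs_mul]
    refine (mul_le_of_le_one_right (abs_nonneg _) ?_).trans (hM _).2
    fin_cases i <;> simp [eX]
  simpa only [e1] using this

theorem F2_int_line {A : ℝ → ℝ} (hc : Continuous A) {M : ℝ} (hM : ∀ z, |A z| ≤ M) {f : X → ℝ}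
    (hf : Integrable f) : Integrable fun x : X => A (x 2) * f x :=
  hf.bdd_mul (c := M) (by fun_prop : Continuous fun x : X => A (x 2)).aestronglyMeasurable
    (Eventually.of_forall fun x => hM _)

theorem F2_abs_mul {a b M : ℝ} (ha : |a| ≤ M) (hb : |b| ≤ M) : |a * b| ≤ M * M := by
  rw [abs_mul]
  exact mul_le_mul ha hb (abs_nonneg _) ((abs_nonneg _).trans ha)

/-- `H1.ibp` for `χ χ' φ` and `φ`. -/
theorem ims_line {χ χ' χ'' : ℝ → ℝ} (h1 : ∀ z, HasDerivAt χ (χ' z) z)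
    (h2 : ∀ z, HasDerivAt χ' (χ'' z) z) (hc : Continuous χ'') {M : ℝ}
    (hM : ∀ z, |χ z| ≤ M ∧ |χ' z| ≤ M ∧ |χ'' z| ≤ M) {φ : X → ℝ} {g : Fin 3 → X → ℝ}
    (hφ : H1 eX φ g) {k : Fin 3 → X → ℝ} (hk : H1 eX (fun x => χ (x 2) * φ x) k) :
    dir k = (∫ x : X, χ (x 2) ^ 2 * gs g x) - ∫ x : X, χ (x 2) * χ'' (x 2) * φ x ^ 2 := by
  have c0 : Continuous χ := continuous_iff_continuousAt.2 fun z => (h1 z).continuousAt
  have c1 : Continuous χ' := continuous_iff_continuousAt.2 fun z => (h2 z).continuousAt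
  have a1 := F2_mul_line h1 c1 (fun z => ⟨(hM z).1, (hM z).2.1⟩) hφ
  have a2 := F2_mul_line (A := fun z => χ z * χ' z) (A' := fun z => χ' z * χ' z + χ z * χ'' z)
    (fun z => (h1 z).mul (h2 z)) (by fun_prop) (M := M * M + M * M) (fun z => ⟨by
      have := F2_abs_mul (hM z).1 (hM z).2.1
      linarith [mul_self_nonneg M], (abs_add_le _ _).trans (add_le_add
        (F2_abs_mul (hM z).2.1 (hM z).2.1) (F2_abs_mul (hM z).1 (hM z).2.2))⟩) hφ
  have a3 := a2.ibp hφ 2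
  have i1 : Integrable fun x : X => χ (x 2) ^ 2 * gs g x :=
    F2_int_line (A := fun z => χ z ^ 2) (by fun_prop) (M := M * M)
      (fun z => by rw [sq]; exact F2_abs_mul (hM z).1 (hM z).1) hφ.integrable_gs
  have i2 : Integrable fun x : X => χ (x 2) * χ' (x 2) * (φ x * g 2 x) :=
    F2_int_line (A := fun z => χ z * χ' z) (by fun_prop)
      (fun z => F2_abs_mul (hM z).1 (hM z).2.1) (LWD_int_mul hφ.l2 (hφ.gl2 2))
  have i3 : Integrable fun x : X => χ' (x 2) * χ' (x 2) * φ x ^ 2 :=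
    F2_int_line (A := fun z => χ' z * χ' z) (by fun_prop)
      (fun z => F2_abs_mul (hM z).2.1 (hM z).2.1) hφ.integrable_sq
  have i4 : Integrable fun x : X => χ (x 2) * χ'' (x 2) * φ x ^ 2 :=
    F2_int_line (A := fun z => χ z * χ'' z) (by fun_prop)
      (fun z => F2_abs_mul (hM z).1 (hM z).2.2) hφ.integrable_sq
  have e1 : dir k = ∫ x : X, (1 * (χ (x 2) ^ 2 * gs g x) +
      2 * (χ (x 2) * χ' (x 2) * (φ x * g 2 x)) + 1 * (χ' (x 2) * χ' (x 2) * φ x ^ 2)) := by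
    refine integral_congr_ae ?_
    filter_upwards [hk.h1l.grad_ae a1.h1l EventuallyEq.rfl] with x hx
    simp only [gs, hx, Fin.sum_univ_three, eX]
    simp
    ring
  have e2 : ∫ x : X, (χ (x 2) * χ' (x 2) * g 2 x +
      (χ' (x 2) * χ' (x 2) + χ (x 2) * χ'' (x 2)) * eX 2 2 * φ x) * φ x =
      ∫ x : X, (1 * (χ (x 2) * χ' (x 2) * (φ x * g 2 x)) +
        1 * (χ' (x 2) * χ' (x 2) * φ x ^ 2) + 1 * (χ (x 2) * χ'' (x 2) * φ x ^ 2)) := by
    refine integral_congr_ae (Eventually.of_forall fun x => ?_)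
    simp only [eX]
    simp
    ring
  have e3 : ∫ x : X, χ (x 2) * χ' (x 2) * φ x * g 2 x =
      ∫ x : X, χ (x 2) * χ' (x 2) * (φ x * g 2 x) := by simp only [mul_assoc]
  rw [e2, e3, LWD_int3 i2 i3 i4] at a3
  rw [e1, LWD_int3 i1 i2 i3]
  linarith

/-- Even cut-off functions. -/
theorem F2_cut {a : ℝ} (ha : 0 < a) : ∃ (χ χ' χ'' : ℝ → ℝ) (M : ℝ),
    (∀ z, HasDerivAt χ (χ' z) z) ∧ (∀ z, HasDerivAt χ' (χ'' z) z) ∧ Continuous χ'' ∧
    (∀ z, |χ z| ≤ M ∧ |χ' z| ≤ M ∧ |χ'' z| ≤ M) ∧ (∀ z, 0 ≤ χ z ∧ χ z ≤ 1) ∧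
    (∀ z, |z| ≤ a → χ z = 0) ∧ ∀ z, 2 * a ≤ |z| → χ z = 1 := by
  obtain ⟨M, hM, h⟩ := exists_cut_line
  obtain ⟨χ, χ', χ'', h1, h2, h3, h4, h5, h6, h7, h8, -⟩ := h a a ha
  have hd : ∀ {F F' : ℝ → ℝ}, (∀ z, HasDerivAt F (F' z) z) →
      ∀ z, HasDerivAt (fun z => F (-z)) (-F' (-z)) z := fun {F F'} hF z =>
    ((hF (-z)).comp z (hasDerivAt_neg z)).congr_deriv (mul_neg_one _)
  have b1 : 0 ≤ M / a := by positivity
  have b2 : 0 ≤ M / a ^ 2 := by positivity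
  have h01 : ∀ z, 0 ≤ χ z + χ (-z) ∧ χ z + χ (-z) ≤ 1 := fun z => by
    rcases le_total z 0 with hz | hz
    · rw [h5 z (by linarith), zero_add]; exact h4 _
    · rw [h5 (-z) (by linarith), add_zero]; exact h4 _
  refine ⟨fun z => χ z + χ (-z), fun z => χ' z + -χ' (-z), fun z => χ'' z + - -χ'' (-z),
    1 + 2 * (M / a) + 2 * (M / a ^ 2), fun z => (h1 z).add (hd h1 z),
    fun z => (h2 z).add (hd h2 z).neg, by fun_prop, fun z => ⟨?_, ?_, ?_⟩, h01, fun z hz => ?_,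
    fun z hz => ?_⟩
  · rw [abs_of_nonneg (h01 z).1]
    linarith [(h01 z).2]
  · rw [abs_le]
    constructor <;> linarith [h7 z, h7 (-z)]
  · rw [abs_le]
    constructor <;> linarith [abs_le.1 (h8 z), abs_le.1 (h8 (-z))]
  · obtain ⟨z1, z2⟩ := abs_le.1 hz
    beta_reduce
    rw [h5 z z2, h5 (-z) (by linarith), add_zero]
  · beta_reduce
    rcases le_total z 0 with hz' | hz'
    · rw [abs_of_nonpos hz'] at hz
      rw [h5 z (by linarith), h6 (-z) (by linarith), zero_add]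
    · rw [abs_of_nonneg hz'] at hz
      rw [h5 (-z) (by linarith), h6 z (by linarith), add_zero]

theorem F2_bulk (pr : Pair ch C') {φ : X → ℝ} {g : Fin 3 → X → ℝ} {M R a η : ℝ} (hφ : H1 eX φ g)
    (hM : ∀ᵐ x, |φ x| ≤ M * pr.t x) (h0 : ∀ᵐ x, ‖x‖ ≤ R → φ x = 0) (hR : o.Rs ≤ R) (ha : 0 < a)
    (hη : 0 ≤ η) (hη' : η ≤ 1 / 4)
    (hβ : ∀ᵐ x : X, R < ‖x‖ → a ≤ |x 2| → (1 - η) * ch.s x ^ 2 ≤ pr.β x ^ 2)
    (hQ : ∀ x : X, R ≤ ‖x‖ → ch.I - η ≤ ch.Qs x) {χ χ' χ'' : ℝ → ℝ}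
    (h1 : ∀ z, HasDerivAt χ (χ' z) z) (h2 : ∀ z, HasDerivAt χ' (χ'' z) z) (hc : Continuous χ'')
    {N : ℝ} (hN : ∀ z, |χ z| ≤ N ∧ |χ' z| ≤ N ∧ |χ'' z| ≤ N) (h01 : ∀ z, 0 ≤ χ z ∧ χ z ≤ 1)
    (hz : ∀ z, |z| ≤ 2 * a → χ z = 0) {k : Fin 3 → X → ℝ}
    (hk : H1 eX (fun x => χ (x 2) * φ x) k) :
    (2 * pr.lam + 2 * (1 - η) * (ch.I - η)) * nsq (fun x => χ (x 2) * φ x) - η * (N * N) * nsq φ ≤
      (∫ x, Dq pr.t pr.gt (fun x => χ (x 2) * φ x) k x) +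
        ∫ x : X, χ (x 2) * χ'' (x 2) * φ x ^ 2 := by
  obtain ⟨ξ, ξ', ξ'', N', x1, x2, -, x4, x5, x6, x7⟩ := F2_cut ha
  have c0 : Continuous χ := continuous_iff_continuousAt.2 fun z => (h1 z).continuousAt
  have cξ : Continuous ξ' := continuous_iff_continuousAt.2 fun z => (x2 z).continuousAt
  have hI : 0 ≤ ch.I - η := by linarith [ch.I_bd.1]
  have hb : ∀ {F : ℝ → ℝ}, (∀ z, 0 ≤ F z ∧ F z ≤ 1) → (∀ z, |z| ≤ a → F z = 0) →
      (∀ᵐ x : X, |F (x 2) * φ x| ≤ M * pr.t x) ∧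
      ∀ᵐ x : X, x ∉ {x : X | R < ‖x‖ ∧ a ≤ |x 2|} → F (x 2) * φ x = 0 := by
    intro F f1 f2
    refine ⟨hM.mono fun x hx => ?_, h0.mono fun x hx hx' => ?_⟩
    · rw [abs_mul, abs_of_nonneg (f1 _).1]
      exact (mul_le_of_le_one_left (abs_nonneg _) (f1 _).2).trans hx
    · rcases not_and_or.1 hx' with h | h
      · rw [hx (not_lt.1 h), mul_zero]
      · rw [f2 _ (not_le.1 h).le, zero_mul]
  have hβ1 : ∀ᵐ x : X, x ∈ {x : X | R < ‖x‖ ∧ a ≤ |x 2|} → (1 - η) * ch.s x ^ 2 ≤ pr.β x ^ 2 :=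
    hβ.mono fun x hx hx' => hx hx'.1 hx'.2
  have hβ2 : ∀ᵐ x : X, x ∈ {x : X | R < ‖x‖ ∧ a ≤ |x 2|} → ch.s x ^ 2 ≤ 2 * pr.β x ^ 2 :=
    hβ1.mono fun x hx hx' => by nlinarith [hx hx', sq_nonneg (ch.s x)]
  obtain ⟨m1, m2⟩ := hb h01 fun z hz' => hz z (by linarith)
  obtain ⟨n1, n2⟩ := hb x5 x6
  have p1 := (bulk_tilde pr hk m1 m2 hβ2).2
  have p2 := (bulk_tilde pr (F2_mul_line x1 cξ (fun z => ⟨(x4 z).1, (x4 z).2.1⟩) hφ) n1 n2 hβ2).2
  obtain ⟨q1, q2⟩ := bulk pr hk m1 (van_of_zero hk.l2 ha (Eventually.of_forall fun x hx => by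
    rw [hz _ (by linarith), zero_mul])) (fun x hx => lt_of_le_of_lt hR hx.1) m2 hη (by linarith)
    hβ1 p1
  have hξ : ∀ z, χ z * ξ z = χ z := fun z => by
    rcases le_total |z| (2 * a) with h | h
    · rw [hz z h, zero_mul]
    · rw [x7 z h, mul_one]
  have e1 : (fun x : X => ch.s x * (χ (x 2) * φ x / pr.β x)) =
      fun x : X => χ (x 2) * (ch.s x * (ξ (x 2) * φ x / pr.β x)) := by
    funext x
    conv_lhs => rw [← hξ (x 2)]
    ring
  have r1 := ims_line h1 h2 hc hN p2 (e1 ▸ p1)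
  have r2 := integral_nonneg (μ := volume) (f := fun x : X => χ (x 2) ^ 2 *
    gs (fun i x => ch.gr i x * (ξ (x 2) * φ x / pr.β x) + ch.s x *
      ((ξ (x 2) * g i x + ξ' (x 2) * eX i 2 * φ x - ξ (x 2) * φ x / pr.β x * pr.gβ i x) / pr.β x)) x)
    fun x => mul_nonneg (sq_nonneg _) (gs_nonneg _ _)
  have hpt : ∀ᵐ x : X, χ (x 2) * φ x = 0 ∨ (R ≤ ‖x‖ ∧ ξ (x 2) = 1 ∧
      1 ≤ (ch.s x / pr.β x) ^ 2 ∧ (1 - η) * (ch.s x / pr.β x) ^ 2 ≤ 1) := by
    filter_upwards [m2, hβ1, pr.spos.ae_pos, pr.toPair1.t_ge ch.s0] with x a1 a2 a3 a4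
    by_cases hx : χ (x 2) * φ x = 0
    · exact Or.inl hx
    have hx' : x ∈ {x : X | R < ‖x‖ ∧ a ≤ |x 2|} := by_contra fun h => hx (a1 h)
    have a5 := a2 hx'
    have a6 : 0 < pr.β x ^ 2 := lt_of_lt_of_le (mul_pos (by linarith) (by positivity)) a5
    refine Or.inr ⟨hx'.1.le, mul_left_cancel₀ (left_ne_zero_of_mul hx) (by rw [hξ, mul_one]), ?_, ?_⟩
    · rw [div_pow, one_le_div a6]
      exact pow_le_pow_left₀ (pr.β0 x) a4.2.2.2 2
    · rwa [div_pow, ← mul_div_assoc, div_le_one a6]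
  have r3 : (ch.I - η) * nsq (fun x => χ (x 2) * φ x) ≤
      ∫ x, ch.Qs x * (ch.s x * (χ (x 2) * φ x / pr.β x)) ^ 2 := by
    unfold nsq
    rw [← integral_const_mul]
    refine integral_mono_ae (hk.integrable_sq.const_mul _) q1 ?_
    filter_upwards [hpt] with x hx
    rcases hx with hx | ⟨b1, -, b3, -⟩
    · simp [hx]
    · refine mul_le_mul (hQ x b1) ?_ (sq_nonneg _) (hI.trans (hQ x b1))
      rw [show ch.s x * (χ (x 2) * φ x / pr.β x) = ch.s x / pr.β x * (χ (x 2) * φ x) by ring,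
        mul_pow (ch.s x / pr.β x)]
      exact le_mul_of_one_le_left (sq_nonneg _) b3
  have hNN : ∀ z, |χ z * χ'' z| ≤ N * N := fun z => F2_abs_mul (hN z).1 (hN z).2.2
  have i1 := F2_int_line (A := fun z => χ z * χ'' z) (by fun_prop) hNN hφ.integrable_sq
  have i2 := F2_int_line (A := fun z => χ z * χ'' z) (by fun_prop) hNN p2.integrable_sq
  have r4 : (1 - η) * ∫ x : X, χ (x 2) * χ'' (x 2) * (ch.s x * (ξ (x 2) * φ x / pr.β x)) ^ 2 ≤
      (∫ x : X, χ (x 2) * χ'' (x 2) * φ x ^ 2) + η * (N * N) * nsq φ := by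
    unfold nsq
    rw [← integral_const_mul, ← integral_const_mul,
      ← integral_add i1 (hφ.integrable_sq.const_mul _)]
    refine integral_mono_ae (i2.const_mul _) (i1.add (hφ.integrable_sq.const_mul _)) ?_
    filter_upwards [hpt] with x hx
    have hN0 : 0 ≤ η * (N * N) * φ x ^ 2 := mul_nonneg (mul_nonneg hη (mul_self_nonneg N)) (sq_nonneg _)
    rcases hx with hx | ⟨-, b2, b3, b4⟩
    · rcases mul_eq_zero.1 hx with hx | hx
      · simpa [hx] using hN0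
      · simp [hx]
    · rw [b2, show ch.s x * (1 * φ x / pr.β x) = ch.s x / pr.β x * φ x by ring, mul_pow]
      have b5 : |(1 - η) * (ch.s x / pr.β x) ^ 2 - 1| ≤ η := by
        rw [abs_le]
        constructor <;> nlinarith
      have b6 : χ (x 2) * χ'' (x 2) * ((1 - η) * (ch.s x / pr.β x) ^ 2 - 1) ≤ N * N * η := by
        refine (le_abs_self _).trans ?_
        rw [abs_mul]
        exact mul_le_mul (hNN _) b5 (abs_nonneg _) (mul_self_nonneg N)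
      have b7 := mul_le_mul_of_nonneg_right b6 (sq_nonneg (φ x))
      linarith
  have r5 := mul_le_mul_of_nonneg_left r3 (show 0 ≤ 1 - η by linarith)
  have r6 := mul_nonneg (show 0 ≤ 1 - η by linarith) r2
  rw [r1] at q2
  linarith

theorem F2_ims {u φ : X → ℝ} {g : Fin 3 → X → ℝ} (hφ : H1 eX φ g)
    (hu : Integrable fun x => u x * φ x ^ 2) {χ χ' χ'' : ℝ → ℝ}
    (h1 : ∀ z, HasDerivAt χ (χ' z) z) (h2 : ∀ z, HasDerivAt χ' (χ'' z) z) (hc : Continuous χ'')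
    {N : ℝ} (hN : ∀ z, |χ z| ≤ N ∧ |χ' z| ≤ N ∧ |χ'' z| ≤ N) (h01 : ∀ z, 0 ≤ χ z ∧ χ z ≤ 1)
    {δ : ℝ} (hz : ∀ z, δ ≤ |z| → χ z = 1) {k : Fin 3 → X → ℝ}
    (hk : H1 eX (fun x => χ (x 2) * φ x) k) :
    dir k + 2 * (∫ x, u x * (χ (x 2) * φ x) ^ 2) + (∫ x : X, χ (x 2) * χ'' (x 2) * φ x ^ 2) ≤
      dir g + 2 * (∫ x, u x * φ x ^ 2) + 2 * ∫ x in {x : X | |x 2| < δ}, |u x| * φ x ^ 2 := by
  have c0 : Continuous χ := continuous_iff_continuousAt.2 fun z => (h1 z).continuousAt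
  have hs : MeasurableSet {x : X | |x 2| < δ} := measurableSet_lt (by fun_prop) measurable_const
  have h3 : ∀ z, 0 ≤ χ z ^ 2 ∧ χ z ^ 2 ≤ 1 := fun z => ⟨sq_nonneg _, pow_le_one₀ (h01 z).1 (h01 z).2⟩
  have r1 := ims_line h1 h2 hc hN hφ hk
  have r2 : ∫ x : X, χ (x 2) ^ 2 * gs g x ≤ dir g :=
    integral_mono_of_nonneg (Eventually.of_forall fun x => mul_nonneg (sq_nonneg _) (gs_nonneg _ _))
      hφ.integrable_gs (Eventually.of_forall fun x => mul_le_of_le_one_left (gs_nonneg _ _) (h3 _).2)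
  have hu' : Integrable fun x => |u x| * φ x ^ 2 := by simpa [abs_mul] using hu.abs
  have i1 : Integrable fun x : X => u x * (χ (x 2) * φ x) ^ 2 :=
    (F2_int_line (A := fun z => χ z ^ 2) (by fun_prop) (M := 1)
      (fun z => by rw [abs_of_nonneg (h3 z).1]; exact (h3 z).2) hu).congr
      (Eventually.of_forall fun x => by ring)
  have r3 : ∫ x, u x * (χ (x 2) * φ x) ^ 2 ≤
      (∫ x, u x * φ x ^ 2) + ∫ x in {x : X | |x 2| < δ}, |u x| * φ x ^ 2 := by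
    rw [← integral_indicator hs, ← integral_add hu (hu'.indicator hs)]
    refine integral_mono i1 (hu.add (hu'.indicator hs)) fun x => ?_
    by_cases hx : x ∈ {x : X | |x 2| < δ}
    · simp only [indicator_of_mem hx]
      have a1 : u x * χ (x 2) ^ 2 ≤ u x + |u x| := by
        nlinarith [h3 (x 2), neg_abs_le (u x), abs_nonneg (u x), le_abs_self (u x)]
      have a2 := mul_le_mul_of_nonneg_right a1 (sq_nonneg (φ x))
      linarith
    · simp only [indicator_of_notMem hx]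
      rw [hz _ (not_lt.1 hx), one_mul, add_zero]
  linarith

theorem F2_mass {φ : X → ℝ} {g : Fin 3 → X → ℝ} (hφ : H1 eX φ g) {χ : ℝ → ℝ} {δ : ℝ} (hδ : 0 < δ)
    (hz : ∀ z, δ ≤ |z| → χ z = 1) {k : Fin 3 → X → ℝ} (hk : H1 eX (fun x => χ (x 2) * φ x) k) :
    nsq φ ≤ nsq (fun x => χ (x 2) * φ x) + 2 * δ * (nsq φ + dir g) := by
  have hs : MeasurableSet {x : X | |x 2| < δ} := measurableSet_lt (by fun_prop) measurable_const
  refine le_trans ?_ (add_le_add le_rfl (slab_trace hφ hδ))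
  unfold nsq
  rw [← integral_indicator hs, ← integral_add hk.integrable_sq (hφ.integrable_sq.indicator hs)]
  refine integral_mono hφ.integrable_sq (hk.integrable_sq.add (hφ.integrable_sq.indicator hs))
    fun x => ?_
  by_cases hx : x ∈ {x : X | |x 2| < δ}
  · simp only [indicator_of_mem hx]
    exact le_add_of_nonneg_left (sq_nonneg _)
  · simp only [indicator_of_notMem hx]
    rw [hz _ (not_lt.1 hx), one_mul, add_zero]

theorem F2_arith {l I η μ δ η₁ C₀ W N N' D Q : ℝ} (hl : 0 < l) (hI : 0 ≤ I - η) (hη : 0 ≤ η)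
    (hη' : η ≤ 1 / 4) (hδ : 0 ≤ δ) (hμ : 0 ≤ μ) (hN : 0 ≤ N) (hD : 0 ≤ D)
    (h1 : 2 * δ * (2 * l + 2 * I) ≤ μ / 2) (h2 : 2 * η₁ = μ / 2)
    (h3 : μ * (4 * C₀ + 1 + 2 * (2 * I + l)) = l / 2) (h4 : η * (2 * (1 + I) + W) ≤ l / 2)
    (h5 : D ≤ 2 * Q + 4 * C₀ * N) (h6 : N ≤ N' + 2 * δ * (N + D))
    (h7 : (2 * l + 2 * (1 - η) * (I - η)) * N' - η * W * N ≤ Q + 2 * (η₁ * (D + N))) :
    (2 * I + l) * N ≤ Q := by
  have a1 : 0 ≤ 2 * l + 2 * (1 - η) * (I - η) := by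
    have := mul_nonneg (show 0 ≤ 1 - η by linarith) hI
    linarith
  have a2 : 2 * l + 2 * (1 - η) * (I - η) ≤ 2 * l + 2 * I := by nlinarith
  have a3 : 2 * l + 2 * I - 2 * η * (1 + I) ≤ 2 * l + 2 * (1 - η) * (I - η) := by nlinarith
  set a := 2 * l + 2 * (1 - η) * (I - η)
  have b1 := mul_le_mul_of_nonneg_left h6 a1
  have b2 : 2 * δ * a * (N + D) ≤ μ / 2 * (N + D) :=
    mul_le_mul_of_nonneg_right ((mul_le_mul_of_nonneg_left a2 (by linarith)).trans h1) (by linarith)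
  have b3 := mul_le_mul_of_nonneg_right a3 hN
  have b4 := mul_le_mul_of_nonneg_left h5 hμ
  have b5 := mul_le_mul_of_nonneg_right h4 hN
  have b6 : 2 * (η₁ * (D + N)) = μ / 2 * (N + D) := by rw [← h2]; ring
  have b7 : μ * (4 * C₀ + 1 + 2 * (2 * I + l)) * N = l / 2 * N := by rw [h3]
  refine le_of_mul_le_mul_left (a := 1 + 2 * μ) ?_ (by linarith)
  linarith

open Crest.MathPhysics.ThreeBody in
/-- `Q φ = dir + 2 ∫ (v - e₀) φ² = ∫ Dq` (`Dq_int_eq`), `Q ≥ dir / 2 - C nsq` (`class_form`).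
Let `χ(z)` be even, `0` for `|z| ≤ δ / 4`, `1` for `|z| ≥ δ / 2`, and `χ₂ = 0` for `|z| ≤ δ / 8`, `1`
for `|z| ≥ δ / 4`.  By `ims_line` and `class_slab`:
`Q φ ≥ Q (χ φ) + ∫ χ χ'' φ² - 2 η₁ (dir + nsq)`.  By `bulk` (`beta_big` with `δ / 8`, `Qs_ge`):
`Q (χ φ) ≥ (2 lam + 2 (1 - η) (I - η)) nsq (χ φ) + (1 - η) dir (χ φ₂)` with `φ₂ = s (χ₂ φ / β)`
(`bulk_tilde`), `dir (χ φ₂) ≥ -∫ χ χ'' φ₂²`, and `0 ≤ φ² - (1 - η) φ₂² ≤ η φ²` where `χ ≠ 0`.
`nsq (χ φ) ≥ nsq φ - 2 δ (nsq + dir)` (`slab_trace`).  Choose `η₁`, then `δ`, then `η`. -/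
theorem ext_form (pr : Pair ch C') {R₀ A R₁ Ku : ℝ} (hR : R₀ ≤ R₁) (hA : ch.FA R₀ A)
    (hU : pr.FU R₁ Ku) {v : X → ℝ} (hm : Measurable v) (hv : IsSumClassPotential v) {e₀ : ℝ}
    (he : Eig eX v e₀ pr.t pr.gt) : ∃ R : ℝ, 0 ≤ R ∧ ∀ (φ : X → ℝ) (g : Fin 3 → X → ℝ) (M : ℝ),
      H1 eX φ g → (∀ᵐ x, |φ x| ≤ M * pr.t x) → (∀ᵐ x, ‖x‖ ≤ R → φ x = 0) →
      (2 * ch.I + pr.lam) * nsq φ ≤ ∫ x, Dq pr.t pr.gt φ g x := by
  obtain ⟨Cv, -, hFB⟩ := fb_class hm hv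
  have hu := class_const hv e₀
  obtain ⟨C₀, hC₀, hform⟩ := class_form hu (η := 1 / 4) (by norm_num)
  have hl : 0 < pr.lam := by linarith [pr.lam_lo, o.g_pos]
  have hI := ch.I_bd.1
  have hI0 : 0 < ch.I := by linarith
  have hp := pr.tpos.ae_pos
  obtain ⟨μ, hμ, h3⟩ : ∃ μ : ℝ, 0 < μ ∧ μ * (4 * C₀ + 1 + 2 * (2 * ch.I + pr.lam)) = pr.lam / 2 :=
    ⟨pr.lam / 2 / (4 * C₀ + 1 + 2 * (2 * ch.I + pr.lam)), by positivity,
      div_mul_cancel₀ _ (by positivity)⟩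
  obtain ⟨δ₀, hδ₀, -, hslab⟩ := class_slab hu (η := μ / 4) (by positivity)
  obtain ⟨a, ha, ha1, ha2⟩ : ∃ a : ℝ, 0 < a ∧ 2 * (2 * a) ≤ δ₀ ∧
      2 * (2 * (2 * a)) * (2 * pr.lam + 2 * ch.I) ≤ μ / 2 := by
    refine ⟨min (δ₀ / 4) (μ / 16 / (2 * pr.lam + 2 * ch.I)), by positivity, ?_, ?_⟩
    · linarith [min_le_left (δ₀ / 4) (μ / 16 / (2 * pr.lam + 2 * ch.I))]
    · have := (le_div_iff₀ (show 0 < 2 * pr.lam + 2 * ch.I by positivity)).1
        (min_le_right (δ₀ / 4) (μ / 16 / (2 * pr.lam + 2 * ch.I)))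
      linarith
  obtain ⟨χ, χ', χ'', N, x1, x2, x3, x4, x5, x6, x7⟩ := F2_cut (a := 2 * a) (by positivity)
  obtain ⟨η, hη, hη1, hη2⟩ : ∃ η : ℝ, 0 < η ∧ η ≤ 1 / 4 ∧
      η * (2 * (1 + ch.I) + N * N) ≤ pr.lam / 2 := by
    have : 0 < 2 * (1 + ch.I) + N * N := by linarith [mul_self_nonneg N]
    exact ⟨min (1 / 4) (pr.lam / 2 / (2 * (1 + ch.I) + N * N)), by positivity, min_le_left _ _,
      (le_div_iff₀ this).1 (min_le_right _ _)⟩
  obtain ⟨R₂, -, hβ⟩ := beta_big o A Ku R₁ ha hη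
  obtain ⟨R₃, hR₃, hQ⟩ := Qs_ge o C hη
  refine ⟨max R₂ R₃, le_max_of_le_right (by linarith [o.Rs_ge]), fun φ g M hφ hM h0 => ?_⟩
  have c1 : Continuous χ' := continuous_iff_continuousAt.2 fun z => (x2 z).continuousAt
  have hk := F2_mul_line x1 c1 (fun z => ⟨(x4 z).1, (x4 z).2.1⟩) hφ
  have a1 := F2_bulk pr hφ hM h0 (le_max_of_le_right hR₃) ha hη.le hη1
    ((hβ C C' ε R₀ ch pr hR hA hU).mono fun x hx hx' => hx ((le_max_left _ _).trans_lt hx'))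
    (fun x hx => hQ ε ch x ((le_max_right _ _).trans hx)) x1 x2 x3 x4 x5 x6 hk
  obtain ⟨b1, b2⟩ := hform φ g hφ
  have a2 := F2_ims hφ b1 x1 x2 x3 x4 x5 (fun z hz => x7 z (ha1.trans hz)) hk
  have a3 := F2_mass hφ (by positivity) x7 hk
  have a4 := hslab φ g hφ
  have a5 := Dq_int_eq hFB pr.pair.ht hp he hφ hM
  have a6 := Dq_int_eq hFB pr.pair.ht hp he hk (M := M) (hM.mono fun x hx => by
    rw [abs_mul, abs_of_nonneg (x5 _).1]
    exact (mul_le_of_le_one_left (abs_nonneg _) (x5 _).2).trans hx)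
  have a7 : -∫ x, |v x - e₀| * φ x ^ 2 ≤ ∫ x, (v x - e₀) * φ x ^ 2 := by
    have := neg_abs_le (∫ x, (v x - e₀) * φ x ^ 2)
    have h := abs_integral_le_integral_abs (f := fun x => (v x - e₀) * φ x ^ 2) (μ := volume)
    simp only [abs_mul, abs_pow, sq_abs] at h
    linarith
  exact F2_arith (η₁ := μ / 4) hl (by linarith) hη.le hη1 (by positivity) hμ.le (nsq_nonneg φ)
    (dir_nonneg g) ha2 (by ring) h3 hη2 (by linarith) a3 (by linarith)

theorem F2_pd_comp {F : ℝ → ℝ} {a : ℝ} {w : X → ℝ} {x : X} (hF : HasDerivAt F a (w x))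
    (hw : DifferentiableAt ℝ w x) (i : Fin 3) :
    pd eX (fun y => F (w y)) i x = a * pd eX w i x := by
  unfold pd
  rw [show fderiv ℝ (fun y => F (w y)) x = a • fderiv ℝ w x from
    (hF.comp_hasFDerivAt x hw.hasFDerivAt).fderiv]
  rfl

theorem F2_pd_le {w : X → ℝ} {x : X} {B : ℝ} (h : gs (pd eX w) x ≤ B) (i : Fin 3) :
    |pd eX w i x| ≤ 1 + B := by
  have h1 : pd eX w i x ^ 2 ≤ gs (pd eX w) x :=
    Finset.single_le_sum (f := fun i => pd eX w i x ^ 2) (fun _ _ => sq_nonneg _)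
      (Finset.mem_univ i)
  have h2 := sq_abs (pd eX w i x)
  nlinarith [sq_nonneg (|pd eX w i x| - 1), abs_nonneg (pd eX w i x)]

/-- Bounded weights. -/
theorem F2_weight (n : ℕ) : ContDiff ℝ 1 (fun x => (n + 1) * jb x / (n + 1 + jb x)) ∧
    ∀ x, gs (pd eX fun x => (n + 1) * jb x / (n + 1 + jb x)) x ≤ 1 ∧
      0 ≤ (n + 1) * jb x / (n + 1 + jb x) ∧ (n + 1) * jb x / (n + 1 + jb x) ≤ n + 1 ∧
      (n + 1) * jb x / (n + 1 + jb x) ≤ jb x := by
  have hj : ∀ x, 0 ≤ jb x := fun x => Real.sqrt_nonneg _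
  have hn : (0 : ℝ) < n + 1 := by positivity
  have hd : ∀ x, 0 < (n : ℝ) + 1 + jb x := fun x => by linarith [hj x]
  refine ⟨(contDiff_const.mul contDiff_jb).div (contDiff_const.add contDiff_jb) fun x => (hd x).ne',
    fun x => ⟨?_, div_nonneg (mul_nonneg hn.le (hj x)) (hd x).le, ?_, ?_⟩⟩
  · have h1 : HasDerivAt (fun s : ℝ => (n + 1) * s / (n + 1 + s))
        (((n + 1) / (n + 1 + jb x)) ^ 2) (jb x) := by
      have := ((hasDerivAt_id' (jb x)).const_mul ((n : ℝ) + 1)).div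
        ((hasDerivAt_id' (jb x)).const_add ((n : ℝ) + 1)) (hd x).ne'
      refine this.congr_deriv ?_
      rw [div_pow]
      congr 1
      ring
    have h2 : (((n : ℝ) + 1) / (n + 1 + jb x)) ^ 2 ≤ 1 :=
      pow_le_one₀ (div_nonneg hn.le (hd x).le) ((div_le_one (hd x)).2 (by linarith [hj x]))
    have h3 := gs_jb_le x
    unfold gs at h3 ⊢
    simp only [F2_pd_comp h1 (contDiff_jb.differentiable one_ne_zero x), mul_pow, ← Finset.mul_sum]
    exact mul_le_one₀ (pow_le_one₀ (sq_nonneg _) h2) (Finset.sum_nonneg fun _ _ => sq_nonneg _) h3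
  · rw [div_le_iff₀ (hd x)]
    nlinarith [hj x]
  · rw [div_le_iff₀ (hd x)]
    nlinarith [hj x]

theorem F2_agmon_step {t : X → ℝ} {gt : Fin 3 → X → ℝ} (ht : H1 eX t gt) (hp : ∀ᵐ x, 0 < t x)
    {b R α η : ℝ} (hα : 0 ≤ α) (hη : 0 < η)
    (h : ∀ (φ : X → ℝ) (g : Fin 3 → X → ℝ) (M : ℝ), H1 eX φ g → (∀ᵐ x, |φ x| ≤ M * t x) →
      (∀ᵐ x, ‖x‖ ≤ R → φ x = 0) → b * nsq φ ≤ ∫ x, Dq t gt φ g x)
    {ζ : X → ℝ} {Mc : ℝ} (hζ : ContDiff ℝ 1 ζ) (h01 : ∀ x, 0 ≤ ζ x ∧ ζ x ≤ 1)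
    (h0 : ∀ x, ‖x‖ ≤ R → ζ x = 0) (hg : ∀ x, gs (pd eX ζ) x ≤ Mc)
    (hg0 : ∀ x, R + 1 < ‖x‖ → gs (pd eX ζ) x = 0) {w : X → ℝ} {B : ℝ} (hw : ContDiff ℝ 1 w)
    (hw' : ∀ x, gs (pd eX w) x ≤ 1 ∧ 0 ≤ w x ∧ w x ≤ B ∧ w x ≤ jb x) :
    Integrable (fun x => (ζ x * Real.exp (α * w x) * t x) ^ 2) ∧
      (b - (1 + η) * α ^ 2) * ∫ x, (ζ x * Real.exp (α * w x) * t x) ^ 2 ≤
        (1 + 1 / η) * Mc * Real.exp (α * (R + 2)) ^ 2 * nsq t := by
  have hMc : 0 ≤ Mc := (gs_nonneg _ _).trans (hg 0)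
  have hE : ContDiff ℝ 1 fun x => Real.exp (α * w x) := (contDiff_const.mul hw).exp
  have hf : ContDiff ℝ 1 fun x => ζ x * Real.exp (α * w x) := hζ.mul hE
  have hEB : ∀ x, Real.exp (α * w x) ≤ Real.exp (α * B) := fun x =>
    Real.exp_le_exp.2 (mul_le_mul_of_nonneg_left (hw' x).2.2.1 hα)
  have hpd : ∀ i x, pd eX (fun x => ζ x * Real.exp (α * w x)) i x =
      Real.exp (α * w x) * (pd eX ζ i x + ζ x * α * pd eX w i x) := by
    intro i x
    have a1 : HasDerivAt (fun s => Real.exp (α * s)) (Real.exp (α * w x) * α) (w x) := by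
      simpa using ((hasDerivAt_id' (w x)).const_mul α).exp
    rw [LBar_pd_mul (hζ.differentiable one_ne_zero x) (hE.differentiable one_ne_zero x),
      F2_pd_comp a1 (hw.differentiable one_ne_zero x)]
    ring
  have hfb : ∀ x, |ζ x * Real.exp (α * w x)| ≤ Real.exp (α * B) := fun x => by
    rw [abs_of_nonneg (mul_nonneg (h01 x).1 (Real.exp_pos _).le)]
    exact (mul_le_of_le_one_left (Real.exp_pos _).le (h01 x).2).trans (hEB x)
  have hφ := ht.mul_bdd hf (M := Real.exp (α * B) * (1 + Mc + α * 2))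
    (fun x => (hfb x).trans (le_mul_of_one_le_right (Real.exp_pos _).le (by linarith)))
    fun i x => by
      rw [hpd, abs_mul, abs_of_pos (Real.exp_pos _)]
      refine mul_le_mul (hEB x) ((abs_add_le _ _).trans (add_le_add (F2_pd_le (hg x) i) ?_))
        (abs_nonneg _) (Real.exp_pos _).le
      rw [abs_mul, abs_mul, abs_of_nonneg hα, abs_of_nonneg (h01 x).1]
      have := F2_pd_le (hw' x).1 i
      exact mul_le_mul (mul_le_of_le_one_left hα (h01 x).2) (by linarith) (abs_nonneg _) hα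
  have hM : ∀ᵐ x, |ζ x * Real.exp (α * w x) * t x| ≤ Real.exp (α * B) * t x :=
    hp.mono fun x hx => by
      rw [abs_mul, abs_of_pos hx]
      exact mul_le_mul_of_nonneg_right (hfb x) hx.le
  have h1 := h _ _ _ hφ hM (Eventually.of_forall fun x hx => by rw [h0 x hx, zero_mul, zero_mul])
  refine ⟨hφ.integrable_sq, ?_⟩
  have h2 := integral_mono_of_nonneg (Eventually.of_forall (Dq_nonneg t gt
      (fun x => ζ x * Real.exp (α * w x) * t x) fun i x => ζ x * Real.exp (α * w x) * gt i x +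
        pd eX (fun x => ζ x * Real.exp (α * w x)) i x * t x))
    ((hφ.integrable_sq.const_mul ((1 + η) * α ^ 2)).add
      (ht.integrable_sq.const_mul ((1 + 1 / η) * Mc * Real.exp (α * (R + 2)) ^ 2))) (by
    filter_upwards [hp] with x hx
    have e1 : Dq t gt (fun x => ζ x * Real.exp (α * w x) * t x) (fun i x =>
        ζ x * Real.exp (α * w x) * gt i x + pd eX (fun x => ζ x * Real.exp (α * w x)) i x * t x) x =
        (Real.exp (α * w x) * t x) ^ 2 * ∑ i, (pd eX ζ i x + ζ x * α * pd eX w i x) ^ 2 := by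
      unfold Dq
      rw [Finset.mul_sum]
      refine Finset.sum_congr rfl fun i _ => ?_
      beta_reduce
      rw [hpd]
      field_simp
      ring
    have e2 : ∑ i, (pd eX ζ i x + ζ x * α * pd eX w i x) ^ 2 ≤
        (1 + 1 / η) * gs (pd eX ζ) x + (1 + η) * (ζ x * α) ^ 2 * gs (pd eX w) x := by
      unfold gs
      rw [Finset.mul_sum, Finset.mul_sum, ← Finset.sum_add_distrib]
      refine Finset.sum_le_sum fun i _ => ?_
      have a1 : 0 ≤ (pd eX ζ i x - η * (ζ x * α * pd eX w i x)) ^ 2 / η := by positivity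
      have a2 : (pd eX ζ i x - η * (ζ x * α * pd eX w i x)) ^ 2 / η =
          (1 + 1 / η) * pd eX ζ i x ^ 2 + (1 + η) * (ζ x * α) ^ 2 * pd eX w i x ^ 2 -
            (pd eX ζ i x + ζ x * α * pd eX w i x) ^ 2 := by
        field_simp
        ring
      linarith
    have e3 : Real.exp (α * w x) ^ 2 * gs (pd eX ζ) x ≤ Mc * Real.exp (α * (R + 2)) ^ 2 := by
      rcases lt_or_ge (R + 1) ‖x‖ with hx' | hx'
      · rw [hg0 x hx', mul_zero]
        positivity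
      · rw [mul_comm]
        refine mul_le_mul (hg x) (pow_le_pow_left₀ (Real.exp_pos _).le (Real.exp_le_exp.2
          (mul_le_mul_of_nonneg_left ?_ hα)) 2) (by positivity) hMc
        linarith [(hw' x).2.2.2, jb_le x]
    have e4 : (1 + η) * (ζ x * α) ^ 2 * gs (pd eX w) x ≤ (1 + η) * (ζ x * α) ^ 2 :=
      mul_le_of_le_one_right (by positivity) (hw' x).1
    have e5 := mul_le_mul_of_nonneg_left (e2.trans (add_le_add le_rfl e4))
      (sq_nonneg (Real.exp (α * w x) * t x))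
    have e6 := mul_le_mul_of_nonneg_left e3 (show 0 ≤ (1 + 1 / η) * t x ^ 2 by positivity)
    rw [e1]
    simp only [Pi.add_apply]
    refine e5.trans ?_
    linarith)
  rw [integral_add' (hφ.integrable_sq.const_mul _) (ht.integrable_sq.const_mul _),
    integral_const_mul, integral_const_mul] at h2
  unfold nsq at h1 ⊢
  linarith

/-- `φ = f t`, `f = ζ exp (α jb / (1 + jb / M))`, `ζ = 1 - ` a cut-off function;
`Dq = t² |∇f|² ≤ (1 + η) α² φ² + (1 + 1 / η) |∇ζ|² exp (2 α jb) t²`; monotone convergence. -/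
theorem agmon_decay {t : X → ℝ} {gt : Fin 3 → X → ℝ} (ht : H1 eX t gt) (hp : ∀ᵐ x, 0 < t x)
    {b R α : ℝ} (hR : 0 ≤ R) (hα : 0 ≤ α) (hb : α ^ 2 < b)
    (h : ∀ (φ : X → ℝ) (g : Fin 3 → X → ℝ) (M : ℝ), H1 eX φ g → (∀ᵐ x, |φ x| ≤ M * t x) →
      (∀ᵐ x, ‖x‖ ≤ R → φ x = 0) → b * nsq φ ≤ ∫ x, Dq t gt φ g x) :
    Integrable fun x => Real.exp (2 * α * ‖x‖) * t x ^ 2 := by
  obtain ⟨Mc, -, hc⟩ := exists_cut_ball
  obtain ⟨ξ, x1, -, x2, x3, x4, -, x5, x6, -⟩ := hc 0 R 1 hR one_pos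
  simp only [sub_zero, one_pow, div_one] at x3 x4 x5 x6
  have hpd : ∀ x, gs (pd eX fun x => 1 - ξ x) x = gs (pd eX ξ) x := fun x => by
    unfold gs pd
    simp only [fderiv_const_sub, neg_apply, neg_sq]
  set η : ℝ := (b - α ^ 2) / (2 * (α ^ 2 + 1)) with hη
  have hb0 : 0 < b - α ^ 2 := sub_pos.2 hb
  have hη0 : 0 < η := by positivity
  have hκ : 0 < b - (1 + η) * α ^ 2 := by
    have : η * (2 * (α ^ 2 + 1)) = b - α ^ 2 := by rw [hη]; field_simp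
    nlinarith
  have key := fun n : ℕ => F2_agmon_step ht hp hα hη0 h (ζ := fun x => 1 - ξ x) (Mc := Mc)
    (contDiff_const.sub x1) (fun x => ⟨by linarith [(x2 x).2], by linarith [(x2 x).1]⟩)
    (fun x hx => by rw [x3 x hx, sub_self]) (fun x => (hpd x).trans_le (x5 x))
    (fun x hx => (hpd x).trans (x6 x (Or.inr hx))) (F2_weight n).1 (F2_weight n).2
  have hm : Measurable fun x => ((1 - ξ x) * Real.exp (α * jb x) * t x) ^ 2 :=
    (((continuous_const.sub x1.continuous).mul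
      (continuous_const.mul contDiff_jb.continuous).rexp).measurable.mul ht.m).pow_const 2
  have hi := (LHardy_fatou (fun n => (key n).1) (fun n x => sq_nonneg _) (fun x => sq_nonneg _)
    hm.aestronglyMeasurable (fun n => (le_div_iff₀' hκ).2 (key n).2)
    (Eventually.of_forall fun x => by
      have a1 : Tendsto (fun n : ℕ => ((n : ℝ) + 1) * jb x / (n + 1 + jb x)) atTop (𝓝 (jb x)) := by
        have a2 : Tendsto (fun n : ℕ => jb x / (1 + jb x * (1 / ((n : ℝ) + 1)))) atTop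
            (𝓝 (jb x / (1 + jb x * 0))) :=
          tendsto_const_nhds.div
            ((tendsto_one_div_add_atTop_nhds_zero_nat.const_mul _).const_add 1) (by simp)
        rw [mul_zero, add_zero, div_one] at a2
        refine a2.congr fun n => ?_
        have hj : 0 ≤ jb x := Real.sqrt_nonneg _
        field_simp
      exact (((a1.const_mul α).rexp.const_mul _).mul_const _).pow 2)).1
  refine (hi.add (ht.integrable_sq.const_mul (Real.exp (2 * α * (R + 1))))).mono'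
    ((by fun_prop : Continuous fun x : X => Real.exp (2 * α * ‖x‖)).measurable.mul
      (ht.m.pow_const 2)).aestronglyMeasurable (Eventually.of_forall fun x => ?_)
  rw [Real.norm_of_nonneg (by positivity)]
  simp only [Pi.add_apply]
  rcases le_total (R + 1) ‖x‖ with hx | hx
  · refine le_add_of_le_of_nonneg ?_ (by positivity)
    rw [x4 x hx, sub_zero, one_mul, mul_pow, ← Real.exp_nat_mul]
    refine mul_le_mul_of_nonneg_right (Real.exp_le_exp.2 ?_) (sq_nonneg _)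
    have := mul_le_mul_of_nonneg_left (norm_le_jb x) hα
    push_cast
    linarith
  · refine le_add_of_nonneg_of_le (sq_nonneg _) (mul_le_mul_of_nonneg_right
      (Real.exp_le_exp.2 (mul_le_mul_of_nonneg_left hx (by positivity))) (sq_nonneg _))

theorem F2_slab_top (R : ℝ) {z : ℝ} (hz : 0 < z) : volume {x : X | R < x 0 ∧ |x 2| ≤ z} = ⊤ := by
  have e1 : {x : X | R < x 0 ∧ |x 2| ≤ z} =
      WithLp.ofLp ⁻¹' (Set.pi univ ![Ioi R, univ, Icc (-z) z] : Set (Fin 3 → ℝ)) := by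
    ext x
    simp [Fin.forall_fin_succ, abs_le]
  rw [e1, (PiLp.volume_preserving_ofLp (Fin 3)).measure_preimage
    (MeasurableSet.univ_pi fun i => by fin_cases i <;> simp).nullMeasurableSet, volume_pi_pi,
    Fin.prod_univ_three]
  simp [hz]

/-- On the slab `t ≥ ε h / (A K r³)`, so the integrand is `≥ 1` for large `r`, on a set of infinite
measure. -/
theorem not_decay (pr : Pair ch C') {R₀ A R₁ z₁ K α : ℝ} (hA : ch.FA R₀ A) (hz : 0 < z₁)
    (hL : pr.FL R₁ z₁ K) (hα : ch.k < α) :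
    ¬Integrable fun x => Real.exp (2 * α * ‖x‖) * pr.t x ^ 2 := by
  intro hi
  have hε := ch.ε0
  have hd : 0 < 2 * (α - ch.k) := by linarith
  have hc : 0 < ε ^ 2 * ((2 * (α - ch.k)) ^ 8 / (Nat.factorial 8 : ℝ)) := by positivity
  have h1 := (hi.const_mul ((A * K) ^ 2)).measure_ge_lt_top hc
  refine h1.ne (top_le_iff.1 ?_)
  rw [← F2_slab_top (max (max R₀ R₁) 1) hz]
  refine measure_mono_ae ?_
  filter_upwards [hA.q_lo, hL] with x a1 a2 hx
  obtain ⟨b1, b2⟩ : max (max R₀ R₁) 1 < x 0 ∧ |x 2| ≤ z₁ := hx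
  simp only [max_lt_iff] at b1
  have c1 : x 0 ≤ ‖x‖ := (le_abs_self _).trans (LBar_abs_coord x 0)
  have c2 : x 0 ≤ ‖pl x‖ := (le_abs_self _).trans (LBar_abs_coord (pl x) 0)
  have hr : 1 < ‖x‖ := b1.2.trans_le c1
  have hr0 : 0 < ‖x‖ := by linarith
  have d1 := a1 (b1.1.1.trans_le c1)
  have d2 := mul_le_mul_of_nonneg_left (a2 (b1.1.2.trans_le c2) b2) (zero_le_one.trans hA.A1)
  have d3 : Real.exp (-ch.k * ‖x‖) / ‖x‖ ≤ ch.h x := by
    unfold Chan.h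
    rw [div_eq_inv_mul, ← Real.rpow_neg_one]
    exact mul_le_mul_of_nonneg_right (Real.rpow_le_rpow_of_exponent_le hr.le
      (by linarith [ch.β_bd.1])) (Real.exp_pos _).le
  have d4 : ε / ‖x‖ ^ 3 * (Real.exp (-ch.k * ‖x‖) / ‖x‖) ≤ ch.Q0 x := by
    refine le_add_of_nonneg_of_le (ch.H_pos hr0).le (mul_le_mul ?_ d3 (by positivity)
      (by positivity))
    exact div_le_div_of_nonneg_right (le_mul_of_one_le_right hε.le (by nlinarith [sq_nonneg (x 2)]))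
      (by positivity)
  have d5 := pow_le_pow_left₀ (by positivity) (d4.trans (d1.trans d2)) 2
  have d6 := Real.pow_div_factorial_le_exp (2 * (α - ch.k) * ‖x‖) (by positivity) 8
  have d7 : Real.exp (2 * (α - ch.k) * ‖x‖) =
      Real.exp (2 * α * ‖x‖) * Real.exp (-ch.k * ‖x‖) ^ 2 := by
    rw [← Real.exp_nat_mul, ← Real.exp_add]
    congr 1
    push_cast
    ring
  change ε ^ 2 * ((2 * (α - ch.k)) ^ 8 / (Nat.factorial 8 : ℝ)) ≤
    (A * K) ^ 2 * (Real.exp (2 * α * ‖x‖) * pr.t x ^ 2)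
  calc ε ^ 2 * ((2 * (α - ch.k)) ^ 8 / (Nat.factorial 8 : ℝ))
      = ε ^ 2 / ‖x‖ ^ 8 * ((2 * (α - ch.k) * ‖x‖) ^ 8 / (Nat.factorial 8 : ℝ)) := by
        field_simp
    _ ≤ ε ^ 2 / ‖x‖ ^ 8 * Real.exp (2 * (α - ch.k) * ‖x‖) :=
        mul_le_mul_of_nonneg_left d6 (by positivity)
    _ = Real.exp (2 * α * ‖x‖) * (ε / ‖x‖ ^ 3 * (Real.exp (-ch.k * ‖x‖) / ‖x‖)) ^ 2 := by
        rw [d7]
        field_simp
    _ ≤ Real.exp (2 * α * ‖x‖) * (A * (K * pr.t x)) ^ 2 :=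
        mul_le_mul_of_nonneg_left d5 (Real.exp_pos _).le
    _ = _ := by ring

end Crest.Agent.R335
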