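import Crest.Agent.R335.LPoinc0

/-! Row 335. Poincare inequalities on convex sets (compare `Crest.Agent.R236.Poinc`). -/

set_option autoImplicit false

open MeasureTheory Set Filter Topology
open scoped ENNReal

noncomputable section

namespace Crest.Agent.R335

theorem LPoinc_line : ∃ M : ℝ, 0 < M ∧ ∀ a L : ℝ, 0 < L → ∃ χ χ' χ'' : ℝ → ℝ,
    (∀ z, HasDerivAt χ (χ' z) z) ∧ (∀ z, HasDerivAt χ' (χ'' z) z) ∧ Continuous χ'' ∧
    (∀ z, 0 ≤ χ z ∧ χ z ≤ 1) ∧ (∀ z, z ≤ a → χ z = 0) ∧ (∀ z, a + L ≤ z → χ z = 1) ∧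
    (∀ z, 0 ≤ χ' z ∧ χ' z ≤ M / L) ∧ (∀ z, |χ'' z| ≤ M / L ^ 2) ∧
    ∀ z, z ≤ a ∨ a + L ≤ z → χ' z = 0 ∧ χ'' z = 0 := by
  set S := Real.smoothTransition with hS
  have c2 : ContDiff ℝ 2 S := Real.smoothTransition.contDiff (n := 2)
  have c1 : ContDiff ℝ 1 (deriv S) := c2.deriv'
  have c0 : Continuous (deriv (deriv S)) := c1.continuous_deriv le_rfl
  have d0 : ∀ z, HasDerivAt S (deriv S z) z := fun z =>
    (c2.differentiable (by norm_num) z).hasDerivAt
  have d1 : ∀ z, HasDerivAt (deriv S) (deriv (deriv S) z) z := fun z =>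
    (c1.differentiable (by norm_num) z).hasDerivAt
  have n1 : ∀ z, 0 ≤ deriv S z := fun z => Real.smoothTransition.monotone.deriv_nonneg
  have z1 : ∀ z, z ≤ 0 ∨ 1 ≤ z → deriv S z = 0 := by
    rintro z (hz | hz)
    · refine IsLocalMin.deriv_eq_zero (Eventually.of_forall fun y => ?_)
      rw [hS, Real.smoothTransition.zero_of_nonpos hz]
      exact Real.smoothTransition.nonneg y
    · refine IsLocalMax.deriv_eq_zero (Eventually.of_forall fun y => ?_)
      rw [hS, Real.smoothTransition.one_of_one_le hz]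
      exact Real.smoothTransition.le_one y
  have z2 : ∀ z, z ≤ 0 ∨ 1 ≤ z → deriv (deriv S) z = 0 := fun z hz =>
    IsLocalMin.deriv_eq_zero (Eventually.of_forall fun y => by rw [z1 z hz]; exact n1 y)
  obtain ⟨M1, hM1⟩ := isCompact_Icc.exists_bound_of_continuousOn
    (c1.continuous.continuousOn (s := Icc (0 : ℝ) 1))
  obtain ⟨M2, hM2⟩ := isCompact_Icc.exists_bound_of_continuousOn
    (c0.continuousOn (s := Icc (0 : ℝ) 1))
  have hM1' : 0 ≤ M1 := (norm_nonneg _).trans (hM1 0 ⟨le_rfl, zero_le_one⟩)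
  have hM2' : 0 ≤ M2 := (norm_nonneg _).trans (hM2 0 ⟨le_rfl, zero_le_one⟩)
  have b1 : ∀ z, deriv S z ≤ M1 + M2 + 1 := by
    intro z
    by_cases hz : z ≤ 0 ∨ 1 ≤ z
    · rw [z1 z hz]; positivity
    · push Not at hz
      have := (le_abs_self _).trans (hM1 z ⟨hz.1.le, hz.2.le⟩)
      linarith
  have b2 : ∀ z, |deriv (deriv S) z| ≤ M1 + M2 + 1 := by
    intro z
    by_cases hz : z ≤ 0 ∨ 1 ≤ z
    · rw [z2 z hz, abs_zero]; positivity
    · push Not at hz
      have : |deriv (deriv S) z| ≤ M2 := hM2 z ⟨hz.1.le, hz.2.le⟩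
      linarith
  refine ⟨M1 + M2 + 1, by positivity, fun a L hL => ?_⟩
  have hl : ∀ z, HasDerivAt (fun z => (z - a) / L) (1 / L) z := fun z =>
    ((hasDerivAt_id z).sub_const a).div_const L
  have e0 : ∀ z, z ≤ a → (z - a) / L ≤ 0 := fun z hz =>
    div_nonpos_of_nonpos_of_nonneg (by linarith) hL.le
  have e1 : ∀ z, a + L ≤ z → 1 ≤ (z - a) / L := fun z hz => by
    rw [le_div_iff₀ hL]; linarith
  refine ⟨fun z => S ((z - a) / L), fun z => deriv S ((z - a) / L) * (1 / L),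
    fun z => deriv (deriv S) ((z - a) / L) * (1 / L) * (1 / L), fun z => (d0 _).comp z (hl z),
    fun z => ((d1 _).comp z (hl z)).mul_const _, by fun_prop,
    fun z => ⟨Real.smoothTransition.nonneg _, Real.smoothTransition.le_one _⟩,
    fun z hz => Real.smoothTransition.zero_of_nonpos (e0 z hz),
    fun z hz => Real.smoothTransition.one_of_one_le (e1 z hz), fun z => ⟨?_, ?_⟩, fun z => ?_,
    fun z hz => ?_⟩
  · exact mul_nonneg (n1 _) (by positivity)
  · beta_reduce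
    rw [mul_one_div]
    exact div_le_div_of_nonneg_right (b1 _) hL.le
  · beta_reduce
    rw [mul_assoc, abs_mul, abs_of_pos (by positivity : 0 < 1 / L * (1 / L)),
      show 1 / L * (1 / L) = 1 / L ^ 2 by field_simp, mul_one_div]
    exact div_le_div_of_nonneg_right (b2 _) (by positivity)
  · have hz' : (z - a) / L ≤ 0 ∨ 1 ≤ (z - a) / L := hz.imp (e0 z) (e1 z)
    simp only [z1 _ hz', z2 _ hz', zero_mul, and_self]

/-- A Lipschitz `C¹` profile. -/
theorem LPoinc_prof : ∃ M : ℝ, 0 < M ∧ ∀ a L : ℝ, 0 < L → ∃ χ : ℝ → ℝ, ContDiff ℝ 1 χ ∧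
    (∀ z, 0 ≤ χ z ∧ χ z ≤ 1) ∧ (∀ z, z ≤ a → χ z = 1) ∧ (∀ z, a + L ≤ z → χ z = 0) ∧
    ∀ z w, |χ z - χ w| ≤ M / L * |z - w| := by
  obtain ⟨M, hM, h⟩ := LPoinc_line
  refine ⟨M, hM, fun a L hL => ?_⟩
  obtain ⟨χ, χ', χ'', d0, d1, -, h01, h0, h1, hb, -, -⟩ := h a L hL
  have hd : deriv χ = χ' := funext fun z => (d0 z).deriv
  have hc : ContDiff ℝ 1 χ := by
    rw [contDiff_one_iff_deriv, hd]
    exact ⟨fun z => (d0 z).differentiableAt,
      continuous_iff_continuousAt.2 fun z => (d1 z).continuousAt⟩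
  refine ⟨fun z => 1 - χ z, contDiff_const.sub hc, fun z => ⟨?_, ?_⟩, fun z hz => ?_,
    fun z hz => ?_, fun z w => ?_⟩
  · linarith [(h01 z).2]
  · linarith [(h01 z).1]
  · simp [h0 z hz]
  · simp [h1 z hz]
  · have := convex_univ.norm_image_sub_le_of_norm_hasDerivWithin_le (f := χ) (f' := χ')
      (C := M / L) (fun x _ => (d0 x).hasDerivWithinAt)
      (fun x _ => by rw [Real.norm_eq_abs, abs_of_nonneg (hb x).1]; exact (hb x).2)
      (mem_univ z) (mem_univ w)
    rw [show 1 - χ z - (1 - χ w) = χ w - χ z by ring, abs_sub_comm z w]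
    exact this

theorem LPoinc_gs_le {ζ : X → ℝ} {K : ℝ} (hK : 0 ≤ K) (h : ∀ x y, |ζ x - ζ y| ≤ K * ‖x - y‖)
    (x : X) : gs (pd eX ζ) x ≤ 3 * K ^ 2 := by
  have hl : LipschitzWith ⟨K, hK⟩ ζ := LipschitzWith.of_dist_le_mul fun x y => by
    rw [Real.dist_eq, dist_eq_norm]; exact h x y
  have h1 : ‖fderiv ℝ ζ x‖ ≤ K := norm_fderiv_le_of_lipschitz ℝ hl
  have h2 : ∀ i, pd eX ζ i x ^ 2 ≤ K ^ 2 := by
    intro i
    have h3 := (fderiv ℝ ζ x).le_opNorm (eX i)
    have h4 : ‖eX i‖ = 1 := by simp [eX]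
    rw [h4, mul_one] at h3
    exact sq_le_sq' (neg_le_of_abs_le (h3.trans h1)) (le_of_abs_le (h3.trans h1))
  rw [gs, Fin.sum_univ_three]
  linarith [h2 0, h2 1, h2 2]

theorem LPoinc_gs_zero {ζ : X → ℝ} {x : X} (h : fderiv ℝ ζ x = 0) : gs (pd eX ζ) x = 0 := by
  simp [gs, pd, h]

/-- Radial cut-off functions. -/
theorem exists_cut_ball : ∃ M : ℝ, 0 < M ∧ ∀ (c : X) (r L : ℝ), 0 ≤ r → 0 < L →
    ∃ ζ : X → ℝ, ContDiff ℝ 1 ζ ∧ HasCompactSupport ζ ∧ (∀ x, 0 ≤ ζ x ∧ ζ x ≤ 1) ∧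
      (∀ x, ‖x - c‖ ≤ r → ζ x = 1) ∧ (∀ x, r + L ≤ ‖x - c‖ → ζ x = 0) ∧
      tsupport ζ ⊆ Metric.closedBall c (r + L) ∧
      (∀ x, gs (pd eX ζ) x ≤ M / L ^ 2) ∧
      (∀ x, ‖x - c‖ < r ∨ r + L < ‖x - c‖ → gs (pd eX ζ) x = 0) ∧
      (c 2 = 0 → ∀ x, ζ (P x) = ζ x) := by
  obtain ⟨M, hM, h⟩ := LPoinc_prof
  refine ⟨12 * M ^ 2, by positivity, fun c r L hr hL => ?_⟩
  obtain ⟨χ, hc, h01, h1, h0, hl⟩ := h (r + L / 2) (L / 2) (by positivity)
  have hz : ∀ x : X, r + L ≤ ‖x - c‖ → χ ‖x - c‖ = 0 := fun x hx => h0 _ (by linarith)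
  have ho : ∀ x : X, ‖x - c‖ ≤ r → χ ‖x - c‖ = 1 := fun x hx => h1 _ (by linarith)
  have hts : tsupport (fun x : X => χ ‖x - c‖) ⊆ Metric.closedBall c (r + L) := by
    refine closure_minimal (fun x hx => ?_) Metric.isClosed_closedBall
    rw [mem_closedBall_iff_norm]
    by_contra hcon
    exact hx (hz x (not_le.1 hcon).le)
  refine ⟨fun x => χ ‖x - c‖, ?_, ?_, fun x => h01 _, ho, hz, hts, fun x => ?_, fun x hx => ?_,
    fun hc2 x => ?_⟩
  · rw [contDiff_iff_contDiffAt]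
    intro x
    by_cases hx : x = c
    · have : (fun x : X => χ ‖x - c‖) =ᶠ[𝓝 x] fun _ => 1 := by
        have hb : Metric.ball c (L / 2) ∈ 𝓝 x := by
          rw [hx]; exact Metric.ball_mem_nhds _ (by positivity)
        filter_upwards [hb] with y hy
        rw [mem_ball_iff_norm] at hy
        exact h1 _ (by linarith)
      exact contDiffAt_const.congr_of_eventuallyEq this
    · exact hc.contDiffAt.comp x
        ((contDiffAt_id.sub contDiffAt_const).norm ℝ (sub_ne_zero.2 hx))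
  · exact (isCompact_closedBall c (r + L)).of_isClosed_subset (isClosed_tsupport _) hts
  · refine (LPoinc_gs_le (K := M / (L / 2)) (by positivity) (fun x y => (hl _ _).trans ?_) x).trans
      (le_of_eq (by field_simp; ring))
    refine mul_le_mul_of_nonneg_left ?_ (by positivity)
    have := abs_norm_sub_norm_le (x - c) (y - c)
    rwa [sub_sub_sub_cancel_right] at this
  · refine LPoinc_gs_zero ?_
    rcases hx with hx | hx
    · refine IsLocalMax.fderiv_eq_zero (Eventually.of_forall fun y => ?_)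
      simp only [ho x hx.le]
      exact (h01 _).2
    · refine IsLocalMin.fderiv_eq_zero (Eventually.of_forall fun y => ?_)
      simp only [hz x hx.le]
      exact (h01 _).1
  · have : ‖P x - c‖ = ‖x - c‖ := by
      simp [EuclideanSpace.norm_eq, Fin.sum_univ_three, P, hc2]
    simp only [this]

/-- Cut-off functions of one variable, of class `C²`. -/
theorem exists_cut_line : ∃ M : ℝ, 0 < M ∧ ∀ a L : ℝ, 0 < L → ∃ χ χ' χ'' : ℝ → ℝ,
    (∀ z, HasDerivAt χ (χ' z) z) ∧ (∀ z, HasDerivAt χ' (χ'' z) z) ∧ Continuous χ'' ∧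
    (∀ z, 0 ≤ χ z ∧ χ z ≤ 1) ∧ (∀ z, z ≤ a → χ z = 0) ∧ (∀ z, a + L ≤ z → χ z = 1) ∧
    (∀ z, 0 ≤ χ' z ∧ χ' z ≤ M / L) ∧ (∀ z, |χ'' z| ≤ M / L ^ 2) ∧
    ∀ z, z ≤ a ∨ a + L ≤ z → χ' z = 0 ∧ χ'' z = 0 := by
  exact LPoinc_line

/-- A cut-off function for a bounded set (mollify the indicator function of a thickening). -/
theorem exists_cut_set : ∃ M : ℝ, 0 < M ∧ ∀ (S : Set X) (r : ℝ), 0 < r → Bornology.IsBounded S →
    ∃ ζ : X → ℝ, ContDiff ℝ 1 ζ ∧ HasCompactSupport ζ ∧ (∀ x, 0 ≤ ζ x ∧ ζ x ≤ 1) ∧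
      (∀ x ∈ S, ζ x = 1) ∧ tsupport ζ ⊆ Metric.thickening r S ∧
      ∀ x, gs (pd eX ζ) x ≤ M / r ^ 2 := by
  obtain ⟨M, hM, h⟩ := LPoinc_prof
  refine ⟨48 * M ^ 2, by positivity, fun S r hr hS => ?_⟩
  rcases S.eq_empty_or_nonempty with rfl | hne
  · refine ⟨fun _ => 0, contDiff_const, HasCompactSupport.zero, fun x => ⟨le_rfl, zero_le_one⟩,
      fun x hx => hx.elim, ?_, fun x => ?_⟩
    · simp [tsupport]
    · rw [LPoinc_gs_zero (by simp)]; positivity
  obtain ⟨χ, hc, h01, h1, h0, hl⟩ := h (r / 4) (r / 4) (by positivity)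
  let f : X → ℝ := fun x => χ (Metric.infDist x S)
  have fc : Continuous f := hc.continuous.comp (Metric.continuous_infDist_pt S)
  have fl : ∀ x y, |f x - f y| ≤ M / (r / 4) * ‖x - y‖ := by
    intro x y
    refine (hl _ _).trans (mul_le_mul_of_nonneg_left ?_ (by positivity))
    have := (Metric.lipschitz_infDist_pt S).dist_le_mul x y
    rwa [Real.dist_eq, NNReal.coe_one, one_mul, dist_eq_norm] at this
  let φ : ContDiffBump (0 : X) := ⟨r / 8, r / 4, by positivity, by linarith⟩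
  let ζ : X → ℝ := MeasureTheory.convolution (φ.normed volume) f (ContinuousLinearMap.lsmul ℝ ℝ)
    volume
  have hζ : ∀ x, ζ x = ∫ t, φ.normed volume t * f (x - t) := fun x => rfl
  have hint : ∀ x, Integrable fun t => φ.normed volume t * f (x - t) := fun x =>
    (φ.continuous_normed.mul (fc.comp (continuous_const.sub continuous_id))).integrable_of_hasCompactSupport
      φ.hasCompactSupport_normed.mul_right
  have hconst : ∀ C : ℝ, ∫ t, φ.normed volume t * C = C := fun C => by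
    rw [integral_mul_const, φ.integral_normed, one_mul]
  have hz : ∀ x, 3 * r / 4 ≤ Metric.infDist x S → ζ x = 0 := by
    intro x hx
    have hy : ∀ y ∈ Metric.ball x φ.rOut, f y = 0 := by
      intro y hy
      have h2 : Metric.infDist x S ≤ Metric.infDist y S + dist x y :=
        Metric.infDist_le_infDist_add_dist
      have h3 : dist y x < r / 4 := hy
      rw [dist_comm] at h3
      exact h0 _ (by linarith)
    have hx0 := hy x (Metric.mem_ball_self φ.rOut_pos)
    rw [← hx0]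
    exact φ.normed_convolution_eq_right fun y hy' => by rw [hy y hy', hx0]
  have hts : tsupport ζ ⊆ Metric.thickening r S := by
    have : tsupport ζ ⊆ {x | Metric.infDist x S ≤ 3 * r / 4} := by
      refine closure_minimal (fun x hx => ?_)
        (isClosed_le (Metric.continuous_infDist_pt S) continuous_const)
      by_contra hcon
      exact hx (hz x (not_le.1 hcon).le)
    refine this.trans fun x hx => (Metric.mem_thickening_iff_infDist_lt hne).2 ?_
    have hx' : Metric.infDist x S ≤ 3 * r / 4 := hx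
    linarith
  refine ⟨ζ, ?_, ?_, fun x => ⟨?_, ?_⟩, fun x hx => ?_, hts, fun x => ?_⟩
  · exact φ.hasCompactSupport_normed.contDiff_convolution_left _ φ.contDiff_normed
      fc.locallyIntegrable
  · exact Metric.isCompact_of_isClosed_isBounded (isClosed_tsupport _) (hS.thickening.subset hts)
  · exact integral_nonneg fun t => mul_nonneg (φ.nonneg_normed t) (h01 _).1
  · rw [hζ, ← hconst 1]
    exact integral_mono (hint x) (φ.integrable_normed.mul_const _) fun t =>
      mul_le_mul_of_nonneg_left (h01 _).2 (φ.nonneg_normed t)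
  · have hy : ∀ y ∈ Metric.ball x φ.rOut, f y = 1 := by
      intro y hy
      have h2 : Metric.infDist y S ≤ dist y x := Metric.infDist_le_dist_of_mem hx
      have h3 : dist y x < r / 4 := hy
      exact h1 _ (by linarith)
    have hx0 := hy x (Metric.mem_ball_self φ.rOut_pos)
    rw [← hx0]
    exact φ.normed_convolution_eq_right fun y hy' => by rw [hy y hy', hx0]
  · refine (LPoinc_gs_le (K := M / (r / 4)) (by positivity) (fun x y => ?_) x).trans
      (le_of_eq (by field_simp; ring))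
    rw [hζ, hζ, ← integral_sub (hint x) (hint y), ← hconst (M / (r / 4) * ‖x - y‖)]
    refine (abs_integral_le_integral_abs).trans (integral_mono ((hint x).sub (hint y)).abs
      (φ.integrable_normed.mul_const _) fun t => ?_)
    simp only
    rw [← mul_sub, abs_mul, abs_of_nonneg (φ.nonneg_normed t)]
    refine mul_le_mul_of_nonneg_left ?_ (φ.nonneg_normed t)
    have := fl (x - t) (y - t)
    rwa [sub_sub_sub_cancel_right] at this

/-- From local to global almost everywhere statements (Lindelöf). -/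
theorem ae_of_local {S : Set X} {q : X → Prop}
    (h : ∀ x ∈ S, ∃ r : ℝ, 0 < r ∧ ∀ᵐ y, y ∈ Metric.ball x r → q y) : ∀ᵐ y, y ∈ S → q y := by
  rw [ae_iff]
  refine measure_null_of_locally_null _ fun x hx => ?_
  have hx' : x ∈ S ∧ ¬ q x := by simpa using hx
  obtain ⟨r, hr, h1⟩ := h x hx'.1
  refine ⟨_, inter_mem_nhdsWithin _ (Metric.ball_mem_nhds x hr), ?_⟩
  refine measure_mono_null (fun y hy => ?_) (ae_iff.1 h1)
  have hy' : y ∈ S ∧ ¬ q y := by simpa using hy.1
  exact fun h2 => hy'.2 (h2 hy.2)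

end Crest.Agent.R335
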