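import Crest.Agent.R335.PrB
import Crest.Agent.R335.LPoinc

/-! Row 335. The flux argument.  Notation: `w = τ / h`, `l = M ζ`, `θ_c = min θ 1`, `γ = 1 - θ_c`, `ρ = s²`,
`K'' = 7 K √K` (so `θ ≤ 2 t / s ≤ 2 K √K w / |z| ≤ 1/2` for `|z| ≥ K'' w / 2 ·`, check: `4 K √K ≤`
use `K'' = 8 K √K`).  All cut-off functions are products `η (pl x) ψ (x 2)`. -/

set_option autoImplicit false

open MeasureTheory Set Filter Topology
open scoped ENNReal

noncomputable section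

namespace Crest.Agent.R335

/-- The data of the flux argument. -/
structure FD {s : X → ℝ} (pr : Pair1 s) (x₀ : X) (l K τ h : ℝ) : Prop where
  m : Measurable s
  s0 : ∀ x, 0 ≤ s x
  bd : ∃ B : ℝ, ∀ᵐ x, s x ≤ B
  lam0 : 0 ≤ pr.lam
  x0 : x₀ 2 = 0
  K1 : 1 ≤ K
  τ0 : 0 < τ
  h0 : 0 < h
  l1 : l ≤ 1
  box : pr.Box x₀ l K τ h

/-- A cylinder. -/
def cyl (x₀ : X) (l a b : ℝ) : Set X := {x | ‖pl x - x₀‖ ≤ l ∧ a ≤ x 2 ∧ x 2 ≤ b}

/-- the projection `pl` as a continuous linear map -/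
def FX_plL : X →L[ℝ] X :=
  ContinuousLinearMap.id ℝ X - (EuclideanSpace.proj (𝕜 := ℝ) (2 : Fin 3)).smulRight (eX 2)

theorem FX_plL_apply (x : X) : FX_plL x = pl x := by
  ext i
  fin_cases i <;> simp [FX_plL, pl, eX]

theorem FX_pl_eq : pl = FX_plL := funext fun x => (FX_plL_apply x).symm

theorem FX_cont_pl : Continuous pl := FX_pl_eq ▸ FX_plL.continuous

theorem FX_isClosed_cyl (x₀ : X) (l a b : ℝ) : IsClosed (cyl x₀ l a b) := by
  have h := FX_cont_pl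
  have h1 : Continuous fun x : X => ‖pl x - x₀‖ := by fun_prop
  have h2 : Continuous fun x : X => x 2 := by fun_prop
  exact (isClosed_le h1 continuous_const).inter
    ((isClosed_le continuous_const h2).inter (isClosed_le h2 continuous_const))

theorem measurableSet_cyl (x₀ : X) (l a b : ℝ) : MeasurableSet (cyl x₀ l a b) := by
  exact (FX_isClosed_cyl x₀ l a b).measurableSet

theorem isCompact_cyl (x₀ : X) (l a b : ℝ) : IsCompact (cyl x₀ l a b) := by
  refine (isCompact_closedBall (0 : X) (‖x₀‖ + |l| + (|a| + |b|))).of_isClosed_subset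
    (FX_isClosed_cyl x₀ l a b) fun x hx => ?_
  obtain ⟨h1, h2, h3⟩ := hx
  rw [mem_closedBall_zero_iff]
  have h4 : ‖pl x‖ ≤ ‖x₀‖ + |l| := by
    have := norm_add_le x₀ (pl x - x₀)
    rw [add_sub_cancel] at this
    linarith [le_abs_self l]
  have h5 : |x 2| ≤ |a| + |b| := by
    rw [abs_le]
    constructor <;> linarith [neg_abs_le a, le_abs_self b, abs_nonneg a, abs_nonneg b]
  have h6 : ‖x‖ ≤ ‖pl x‖ + |x 2| := by
    refine abs_le_of_sq_le_sq' ?_ (by positivity) |>.2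
    rw [norm_pl_sq, ← sq_abs (x 2)]
    nlinarith [mul_nonneg (norm_nonneg (pl x)) (abs_nonneg (x 2))]
  linarith

theorem convex_cyl (x₀ : X) (l a b : ℝ) : Convex ℝ (cyl x₀ l a b) := by
  have h1 : Convex ℝ (FX_plL ⁻¹' Metric.closedBall x₀ l) :=
    (convex_closedBall x₀ l).linear_preimage FX_plL.toLinearMap
  have h2 : Convex ℝ ((EuclideanSpace.proj (𝕜 := ℝ) (2 : Fin 3) : X →L[ℝ] ℝ) ⁻¹' Icc a b) :=
    (convex_Icc a b).linear_preimage
      (EuclideanSpace.proj (𝕜 := ℝ) (2 : Fin 3) : X →L[ℝ] ℝ).toLinearMap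
  convert h1.inter h2 using 1
  ext x
  simp [cyl, FX_plL_apply, dist_eq_norm]

theorem FX_norm_sq {x₀ : X} (h0 : x₀ 2 = 0) (x : X) :
    ‖pl x - x₀‖ ^ 2 = (x 0 - x₀ 0) ^ 2 + (x 1 - x₀ 1) ^ 2 := by
  simp [EuclideanSpace.norm_sq_eq, Fin.sum_univ_three, pl, h0]

theorem FX_box (x₀ : X) {r a b : ℝ} (hr : 0 ≤ r) (hab : a ≤ b) :
    volume {x : X | |x 0 - x₀ 0| ≤ r ∧ |x 1 - x₀ 1| ≤ r ∧ a ≤ x 2 ∧ x 2 ≤ b} ≠ ⊤ ∧
    volume.real {x : X | |x 0 - x₀ 0| ≤ r ∧ |x 1 - x₀ 1| ≤ r ∧ a ≤ x 2 ∧ x 2 ≤ b} =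
      4 * r ^ 2 * (b - a) := by
  have e : {x : X | |x 0 - x₀ 0| ≤ r ∧ |x 1 - x₀ 1| ≤ r ∧ a ≤ x 2 ∧ x 2 ≤ b} =
      WithLp.ofLp ⁻¹' Icc ![x₀ 0 - r, x₀ 1 - r, a] ![x₀ 0 + r, x₀ 1 + r, b] := by
    ext x
    simp only [mem_ofPred_eq, mem_preimage, mem_Icc, Pi.le_def, Fin.forall_fin_succ, abs_le]
    simp only [Fin.succ_zero_eq_one, Fin.succ_one_eq_two, Matrix.cons_val_zero, Matrix.cons_val_one,
      Matrix.cons_val, IsEmpty.forall_iff, and_true]
    constructor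
    · rintro ⟨⟨h1, h2⟩, ⟨h3, h4⟩, h5, h6⟩
      exact ⟨⟨by linarith, by linarith, h5⟩, by linarith, by linarith, h6⟩
    · rintro ⟨⟨h1, h2, h3⟩, h4, h5, h6⟩
      exact ⟨⟨by linarith, by linarith⟩, ⟨by linarith, by linarith⟩, h3, h6⟩
  have h := (PiLp.volume_preserving_ofLp (Fin 3)).measure_preimage
    (s := Icc ![x₀ 0 - r, x₀ 1 - r, a] ![x₀ 0 + r, x₀ 1 + r, b])
    measurableSet_Icc.nullMeasurableSet
  rw [measureReal_def, e, h]
  refine ⟨isCompact_Icc.measure_lt_top.ne, ?_⟩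
  rw [Real.volume_Icc_pi_toReal]
  · simp [Fin.prod_univ_three]
    left
    ring
  · intro i
    fin_cases i <;> simp <;> linarith

/-- Compare with boxes (`EuclideanSpace.volume_preserving_measurableEquiv`,
`PiLp.volume_preserving_ofLp`, `Real.volume_pi_Icc`). -/
theorem volume_cyl {x₀ : X} (h0 : x₀ 2 = 0) {l a b : ℝ} (hl : 0 ≤ l) (hab : a ≤ b) :
    2 * l ^ 2 * (b - a) ≤ volume.real (cyl x₀ l a b) ∧
      volume.real (cyl x₀ l a b) ≤ 4 * l ^ 2 * (b - a) := by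
  have hfin : volume (cyl x₀ l a b) ≠ ⊤ := (isCompact_cyl x₀ l a b).measure_lt_top.ne
  have hs : (0 : ℝ) < √2 := by positivity
  have hs2 : √2 * √2 = (2 : ℝ) := Real.mul_self_sqrt (by norm_num)
  constructor
  · obtain ⟨h1, h2⟩ := FX_box x₀ (r := l / √2) (by positivity) hab
    have e : 4 * (l / √2) ^ 2 * (b - a) = 2 * l ^ 2 * (b - a) := by
      rw [div_pow, Real.sq_sqrt (by norm_num)]; ring
    rw [← e, ← h2]
    refine measureReal_mono (fun x hx => ?_) hfin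
    obtain ⟨k1, k2, k3, k4⟩ := hx
    refine ⟨?_, k3, k4⟩
    refine abs_le_of_sq_le_sq' ?_ hl |>.2
    rw [FX_norm_sq h0, ← sq_abs (x 0 - x₀ 0), ← sq_abs (x 1 - x₀ 1)]
    have k5 := pow_le_pow_left₀ (abs_nonneg _) k1 2
    have k6 := pow_le_pow_left₀ (abs_nonneg _) k2 2
    rw [div_pow, Real.sq_sqrt (by norm_num)] at k5 k6
    linarith
  · obtain ⟨h1, h2⟩ := FX_box x₀ hl hab
    rw [← h2]
    refine measureReal_mono (fun x hx => ?_) h1
    obtain ⟨k1, k3, k4⟩ := hx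
    have k5 := pow_le_pow_left₀ (norm_nonneg _) k1 2
    rw [FX_norm_sq h0] at k5
    refine ⟨abs_le_of_sq_le_sq ?_ hl, abs_le_of_sq_le_sq ?_ hl, k3, k4⟩
    · nlinarith [sq_nonneg (x 1 - x₀ 1)]
    · nlinarith [sq_nonneg (x 0 - x₀ 0)]

/-- Cut-off functions for cylinders: `1` on `cyl x₀ l a b`, supported in
`cyl x₀ (l + l') (a - d) (b + d)`; lateral derivatives `≤ M / l'`, vertical derivative `≤ M / d`;
the lateral derivatives vanish for `‖pl x - x₀‖ < l`, the vertical one for `a < z < b`. -/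
theorem exists_cut_cyl : ∃ M : ℝ, 1 ≤ M ∧ ∀ (x₀ : X) (l l' a b d : ℝ), x₀ 2 = 0 → 0 ≤ l →
    0 < l' → a ≤ b → 0 < d → ∃ χ : X → ℝ, ContDiff ℝ 1 χ ∧ (∀ x, 0 ≤ χ x ∧ χ x ≤ 1) ∧
      (∀ x ∈ cyl x₀ l a b, χ x = 1) ∧ tsupport χ ⊆ cyl x₀ (l + l') (a - d) (b + d) ∧
      (∀ x, |pd eX χ 0 x| ≤ M / l' ∧ |pd eX χ 1 x| ≤ M / l' ∧ |pd eX χ 2 x| ≤ M / d) ∧
      ∀ x : X, a < x 2 → x 2 < b → pd eX χ 2 x = 0 := by
  obtain ⟨M₁, hM₁, H₁⟩ := exists_cut_ball
  obtain ⟨M₂, hM₂, H₂⟩ := exists_cut_line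
  refine ⟨1 + M₁ + M₂, by linarith, fun x₀ l l' a b d _ hl hl' _ hd => ?_⟩
  obtain ⟨η, η1, -, η01, ηo, ηz, -, ηg, -, -⟩ := H₁ x₀ l l' hl hl'
  obtain ⟨f, f', f'', df, df', -, f01, fz, fo, fb, -, fv⟩ := H₂ (a - d) d hd
  obtain ⟨g, g', g'', dg, dg', -, g01, gz, go, gb, -, gv⟩ := H₂ b d hd
  have hψ : ∀ z, HasDerivAt (fun z => f z * (1 - g z)) (f' z * (1 - g z) - f z * g' z) z := by
    intro z
    exact ((df z).fun_mul ((dg z).const_sub 1)).congr_deriv (by ring)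
  have cf : Continuous f := continuous_iff_continuousAt.2 fun z => (df z).continuousAt
  have cg : Continuous g := continuous_iff_continuousAt.2 fun z => (dg z).continuousAt
  have cf' : Continuous f' := continuous_iff_continuousAt.2 fun z => (df' z).continuousAt
  have cg' : Continuous g' := continuous_iff_continuousAt.2 fun z => (dg' z).continuousAt
  have hψ1 : ContDiff ℝ 1 fun z => f z * (1 - g z) := by
    rw [contDiff_one_iff_deriv]
    refine ⟨fun z => (hψ z).differentiableAt, ?_⟩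
    rw [show deriv (fun z => f z * (1 - g z)) = fun z => f' z * (1 - g z) - f z * g' z from
      funext fun z => (hψ z).deriv]
    fun_prop
  have ψ01 : ∀ z, 0 ≤ f z * (1 - g z) ∧ f z * (1 - g z) ≤ 1 := fun z =>
    ⟨mul_nonneg (f01 z).1 (by linarith [(g01 z).2]),
      mul_le_one₀ (f01 z).2 (by linarith [(g01 z).2]) (by linarith [(g01 z).1])⟩
  have hpd : ∀ (x : X) (i : Fin 3),
      pd eX (fun x : X => η (pl x) * (f (x 2) * (1 - g (x 2)))) i x =
        η (pl x) * ((f' (x 2) * (1 - g (x 2)) - f (x 2) * g' (x 2)) * eX i 2) +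
          f (x 2) * (1 - g (x 2)) * fderiv ℝ η (pl x) (pl (eX i)) := by
    intro x i
    have h1 : HasFDerivAt (fun x : X => η (pl x)) ((fderiv ℝ η (pl x)).comp FX_plL) x := by
      have := ((η1.differentiable one_ne_zero) (FX_plL x)).hasFDerivAt.comp x FX_plL.hasFDerivAt
      simpa only [Function.comp_def, FX_plL_apply] using this
    have h2 : HasFDerivAt (fun x : X => f (x 2) * (1 - g (x 2)))
        ((f' (x 2) * (1 - g (x 2)) - f (x 2) * g' (x 2)) •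
          (EuclideanSpace.proj (𝕜 := ℝ) (2 : Fin 3) : X →L[ℝ] ℝ)) x :=
      HasDerivAt.comp_hasFDerivAt (h₂ := fun z => f z * (1 - g z)) (f := fun x : X => x 2) x
        (hψ (x 2)) (EuclideanSpace.proj (𝕜 := ℝ) (2 : Fin 3) : X →L[ℝ] ℝ).hasFDerivAt
    rw [pd, (h1.fun_mul h2).fderiv]
    simp [FX_plL_apply]
  have hlat : ∀ (x : X) (i : Fin 3), eX i 2 = 0 → pl (eX i) = eX i →
      |pd eX (fun x : X => η (pl x) * (f (x 2) * (1 - g (x 2)))) i x| ≤ (1 + M₁ + M₂) / l' := by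
    intro x i h1 h2
    rw [hpd, h1, h2, mul_zero, mul_zero, zero_add, abs_mul, abs_of_nonneg (ψ01 _).1]
    have h3 : pd eX η i (pl x) ^ 2 ≤ gs (pd eX η) (pl x) :=
      Finset.single_le_sum (f := fun i => pd eX η i (pl x) ^ 2) (fun _ _ => sq_nonneg _)
        (Finset.mem_univ i)
    have h4 : |pd eX η i (pl x)| ≤ (1 + M₁ + M₂) / l' := by
      refine abs_le_of_sq_le_sq (h3.trans ((ηg _).trans ?_)) (by positivity)
      rw [div_pow]
      gcongr
      nlinarith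
    exact (mul_le_of_le_one_left (abs_nonneg _) (ψ01 _).2).trans h4
  have e2 : pl (eX 2) = 0 := by
    ext i
    fin_cases i <;> simp [pl, eX]
  have e3 : eX 2 2 = 1 := by simp [eX]
  refine ⟨fun x => η (pl x) * (f (x 2) * (1 - g (x 2))), ?_, fun x => ?_, fun x hx => ?_, ?_,
    fun x => ⟨hlat x 0 (by simp [eX]) ?_, hlat x 1 (by simp [eX]) ?_, ?_⟩, fun x h1 h2 => ?_⟩
  · refine ContDiff.mul ?_ (hψ1.comp (EuclideanSpace.proj (𝕜 := ℝ) (2 : Fin 3) : X →L[ℝ] ℝ).contDiff)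
    rw [FX_pl_eq]
    exact η1.comp FX_plL.contDiff
  · exact ⟨mul_nonneg (η01 _).1 (ψ01 _).1, mul_le_one₀ (η01 _).2 (ψ01 _).1 (ψ01 _).2⟩
  · obtain ⟨h1, h2, h3⟩ := hx
    simp only [ηo _ h1, fo _ (show a - d + d ≤ x 2 by linarith), gz _ h3]
    norm_num
  · refine closure_minimal (fun x hx => ?_) (FX_isClosed_cyl _ _ _ _)
    refine ⟨?_, ?_, ?_⟩ <;> by_contra hcon <;> apply hx
    · simp only [ηz _ (not_le.1 hcon).le, zero_mul]
    · simp only [fz _ (not_le.1 hcon).le, zero_mul, mul_zero]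
    · simp only [go _ (not_le.1 hcon).le, sub_self, mul_zero]
  · ext i
    fin_cases i <;> simp [pl, eX]
  · ext i
    fin_cases i <;> simp [pl, eX]
  · rw [hpd, e2, e3, map_zero, mul_zero, add_zero, mul_one, abs_mul, abs_of_nonneg (η01 _).1]
    refine (mul_le_of_le_one_left (abs_nonneg _) (η01 _).2).trans ?_
    have h1 : M₂ / d ≤ (1 + M₁ + M₂) / d := by gcongr; linarith
    have h2 : f' (x 2) * (1 - g (x 2)) ≤ f' (x 2) :=
      mul_le_of_le_one_right (fb _).1 (by linarith [(g01 (x 2)).1])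
    have h3 : 0 ≤ f' (x 2) * (1 - g (x 2)) := mul_nonneg (fb _).1 (by linarith [(g01 (x 2)).2])
    have h4 : f (x 2) * g' (x 2) ≤ g' (x 2) := mul_le_of_le_one_left (gb _).1 (f01 _).2
    have h5 : 0 ≤ f (x 2) * g' (x 2) := mul_nonneg (f01 _).1 (gb _).1
    rw [abs_le]
    constructor <;> linarith [(fb (x 2)).2, (gb (x 2)).2]
  · rw [hpd, e2, map_zero, mul_zero, add_zero, (fv _ (Or.inr (by linarith))).1,
      (gv _ (Or.inl h2.le)).1]
    ring

variable {s : X → ℝ} {pr : Pair1 s} {x₀ : X} {l K τ h : ℝ}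

theorem FD.θ_le (D : FD pr x₀ l K τ h) : ∀ᵐ x : X, ‖pl x - x₀‖ ≤ l → |x 2| ≤ l →
    |x 2| * h * pr.θ x ≤ 2 * K * √K * τ ∧ s x * pr.θ x ≤ 2 * K * τ := by
  filter_upwards [D.box, pr.t_ge D.s0] with x hx ht h1 h2
  obtain ⟨k1, -, k3⟩ := hx h1 h2
  have hK : 0 ≤ K := by linarith [D.K1]
  have k4 : s x * pr.θ x ≤ 2 * K * τ := by linarith [ht.1]
  refine ⟨?_, k4⟩
  have k5 : |x 2| * h ≤ √K * s x := by
    refine abs_le_of_sq_le_sq' ?_ (mul_nonneg (Real.sqrt_nonneg _) (D.s0 x)) |>.2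
    rw [mul_pow, mul_pow, sq_abs, Real.sq_sqrt hK]
    nlinarith [sq_nonneg τ]
  calc |x 2| * h * pr.θ x ≤ √K * s x * pr.θ x := mul_le_mul_of_nonneg_right k5 (pr.θ0 x).1
    _ = √K * (s x * pr.θ x) := by ring
    _ ≤ √K * (2 * K * τ) := mul_le_mul_of_nonneg_left k4 (Real.sqrt_nonneg _)
    _ = _ := by ring

theorem FX_bdd {χ : X → ℝ} (h : Continuous χ) (hc : HasCompactSupport χ) :
    ∃ M : ℝ, ∀ x, |χ x| ≤ M := by
  simpa using h.bounded_above_of_compact_support hc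

theorem FX_pd_sq {χ : X → ℝ} (h : ContDiff ℝ 1 χ) (i : Fin 3) (x : X) :
    pd eX (fun x => χ x ^ 2) i x = 2 * χ x * pd eX χ i x := by
  have h1 := ((h.differentiable one_ne_zero) x).hasFDerivAt
  have h2 := h1.fun_mul h1
  simp only [← sq] at h2
  rw [pd, h2.fderiv, pd]
  simp
  ring

theorem FX_gamma (pr : Pair1 s) : H1l eX (fun x => max (1 - pr.θ x) 0)
    fun i x => if pr.θ x < 1 then -pr.gθ i x else 0 := by
  have := ((H1l.const 1).lin pr.hθ 1 (-1)).posPart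
  convert this using 3 with x i x
  · ring
  · simp

theorem FX_gamma_le (pr : Pair1 s) (x : X) :
    0 ≤ max (1 - pr.θ x) 0 ∧ max (1 - pr.θ x) 0 ≤ 1 :=
  ⟨le_max_right _ _, max_le (by linarith [(pr.θ0 x).1]) zero_le_one⟩

theorem FX_int (pr : Pair1 s) : Integrable fun x => s x ^ 2 * gs pr.gθ x := by
  have := integrable_finsetSum Finset.univ fun i _ => (pr.J2 i).integrable_sq
  refine this.congr (Eventually.of_forall fun x => ?_)
  simp only [gs, Finset.mul_sum, mul_pow]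

theorem FX_meas_gs {g : Fin 3 → X → ℝ} (h : ∀ i, Measurable (g i)) : Measurable (gs g) :=
  Finset.measurable_sum _ fun i _ => (h i).pow_const 2

theorem FX_meas_ite (pr : Pair1 s) :
    Measurable fun x => if pr.θ x < 1 then gs pr.gθ x else 0 :=
  Measurable.ite (measurableSet_lt pr.hθ.m measurable_const) (FX_meas_gs pr.hθ.gm) measurable_const

theorem FX_ite_le (pr : Pair1 s) (x : X) : 0 ≤ (if pr.θ x < 1 then gs pr.gθ x else 0) ∧
    (if pr.θ x < 1 then gs pr.gθ x else 0) ≤ gs pr.gθ x := by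
  have := gs_nonneg pr.gθ x
  split_ifs
  · exact ⟨this, le_rfl⟩
  · exact ⟨le_rfl, this⟩

/-- The basic identity: test with `-(1 - θ)₊ χ²` (`Pair1.el_c`, `H1l.posPart`). -/
theorem FD.ident (D : FD pr x₀ l K τ h) {χ : X → ℝ} (hχ : ContDiff ℝ 1 χ)
    (hc : HasCompactSupport χ) :
    Integrable (fun x => s x ^ 2 * (if pr.θ x < 1 then gs pr.gθ x else 0) * χ x ^ 2) ∧
    Integrable (fun x => s x ^ 2 * (max (1 - pr.θ x) 0 * χ x * gd pr.gθ (pd eX χ) x)) ∧
    Integrable (fun x => pr.t x * pr.β x * (max (1 - pr.θ x) 0 * χ x ^ 2)) ∧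
    ∫ x, s x ^ 2 * (if pr.θ x < 1 then gs pr.gθ x else 0) * χ x ^ 2 =
      2 * (∫ x, s x ^ 2 * (max (1 - pr.θ x) 0 * χ x * gd pr.gθ (pd eX χ) x)) +
        2 * pr.lam * ∫ x, pr.t x * pr.β x * (max (1 - pr.θ x) 0 * χ x ^ 2) := by
  obtain ⟨B, hB⟩ := D.bd
  obtain ⟨M, hM⟩ := FX_bdd hχ.continuous hc
  have hξ := (FX_gamma pr).mul_contDiff (hχ.pow 2)
  obtain ⟨i1, i2, i3⟩ := pr.el_c D.m D.s0 hB (M := M ^ 2) hξ hc.isCompact
    (Eventually.of_forall fun x => by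
      rw [abs_mul, abs_of_nonneg (FX_gamma_le pr x).1, abs_pow]
      exact (mul_le_of_le_one_right (by positivity) (FX_gamma_le pr x).2).trans
        (pow_le_pow_left₀ (abs_nonneg _) (hM x) 2))
    (Eventually.of_forall fun x hx => by simp [image_eq_zero_of_notMem_tsupport hx])
    (Or.inr (Eventually.of_forall fun x hx => by rw [max_eq_right (by linarith), mul_zero]))
  have hA : Integrable fun x => s x ^ 2 * (if pr.θ x < 1 then gs pr.gθ x else 0) * χ x ^ 2 := by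
    refine ((FX_int pr).const_mul (M ^ 2)).mono' ?_ (Eventually.of_forall fun x => ?_)
    · exact (((D.m.pow_const 2).mul (FX_meas_ite pr)).mul
        (hχ.continuous.measurable.pow_const 2)).aestronglyMeasurable
    · have h0 : 0 ≤ (if pr.θ x < 1 then gs pr.gθ x else 0) := (FX_ite_le pr x).1
      rw [Real.norm_eq_abs, abs_of_nonneg (by positivity), mul_comm (M ^ 2)]
      have h1 : χ x ^ 2 ≤ M ^ 2 := by
        rw [← sq_abs]; exact pow_le_pow_left₀ (abs_nonneg _) (hM x) 2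
      have h2 := gs_nonneg pr.gθ x
      gcongr
      exact (FX_ite_le pr x).2
  have e : ∀ x, s x ^ 2 * gd pr.gθ (fun i x => χ x ^ 2 * (if pr.θ x < 1 then -pr.gθ i x else 0) +
      pd eX (fun x => χ x ^ 2) i x * max (1 - pr.θ x) 0) x =
      2 * (s x ^ 2 * (max (1 - pr.θ x) 0 * χ x * gd pr.gθ (pd eX χ) x)) -
        s x ^ 2 * (if pr.θ x < 1 then gs pr.gθ x else 0) * χ x ^ 2 := by
    intro x
    simp only [gd, gs, Fin.sum_univ_three, FX_pd_sq hχ]
    split_ifs <;> ring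
  simp only [e] at i1 i3
  have hB' : Integrable fun x =>
      s x ^ 2 * (max (1 - pr.θ x) 0 * χ x * gd pr.gθ (pd eX χ) x) := by
    refine ((i1.add hA).const_mul (1 / 2)).congr (Eventually.of_forall fun x => ?_)
    simp only [Pi.add_apply]
    ring
  have hC : Integrable fun x => pr.t x * pr.β x * (max (1 - pr.θ x) 0 * χ x ^ 2) := by
    simpa only [mul_comm (χ _ ^ 2)] using i2
  refine ⟨hA, hB', hC, ?_⟩
  simp only [mul_comm (χ _ ^ 2)] at i3
  rw [integral_add i1 (hC.const_mul _), integral_sub (hB'.const_mul _) hA, integral_const_mul,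
    integral_const_mul] at i3
  linarith

/-- Caccioppoli inequality: test with `θ ζ²`, where `|ζ| ≤ M |z|`; here use `pr.el` directly
(`van_of_le_z`). -/
theorem FD.cacc (D : FD pr x₀ l K τ h) {ζ : X → ℝ} (hζ : ContDiff ℝ 1 ζ)
    (hc : HasCompactSupport ζ) {M : ℝ} (hM : ∀ x, |ζ x| ≤ M * |x 2|) :
    Integrable (fun x => s x ^ 2 * gs pr.gθ x * ζ x ^ 2) ∧
    Integrable (fun x => s x ^ 2 * pr.θ x ^ 2 * gs (pd eX ζ) x) ∧
    ∫ x, s x ^ 2 * gs pr.gθ x * ζ x ^ 2 ≤ 4 * ∫ x, s x ^ 2 * pr.θ x ^ 2 * gs (pd eX ζ) x := by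
  obtain ⟨B, hB⟩ := D.bd
  obtain ⟨N, hN⟩ := FX_bdd hζ.continuous hc
  have hθ2 : ∀ x, pr.θ x ≤ 2 := fun x => by linarith [(pr.θ0 x).2, Real.pi_le_four]
  have hθ0 : ∀ x, 0 ≤ pr.θ x := fun x => (pr.θ0 x).1
  have hξ := pr.hθ.mul_contDiff (hζ.pow 2)
  have h1 := H1.of_c1c (e := eX) hζ hc
  have hbd : ∀ᵐ x, |ζ x ^ 2 * pr.θ x| ≤ N ^ 2 * 2 := Eventually.of_forall fun x => by
    rw [abs_mul, abs_of_nonneg (hθ0 x), abs_pow]
    exact mul_le_mul (pow_le_pow_left₀ (abs_nonneg _) (hN x) 2) (hθ2 x) (hθ0 x) (sq_nonneg _)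
  have hk : ∀ i, MemLp (fun x => s x * (ζ x ^ 2 * pr.gθ i x +
      pd eX (fun x => ζ x ^ 2) i x * pr.θ x)) 2 volume := by
    intro i
    have k1 : MemLp (fun x => ζ x ^ 2 * (s x * pr.gθ i x)) 2 volume :=
      LWD_memLp_mul (pr.J2 i) (hζ.continuous.pow 2) (M := N ^ 2) fun x => by
        rw [abs_pow]; exact pow_le_pow_left₀ (abs_nonneg _) (hN x) 2
    have k2 : MemLp (fun x => s x * (2 * ζ x * pd eX ζ i x * pr.θ x)) 2 volume := by
      refine ((h1.gl2 i).const_mul (B * (2 * N * 2))).mono ?_ ?_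
      · exact (D.m.mul (((measurable_const.mul hζ.continuous.measurable).mul (h1.gm i)).mul
          pr.hθ.m)).aestronglyMeasurable
      · filter_upwards [hB] with x hx
        have hs := D.s0 x
        have hN0 : 0 ≤ N := (abs_nonneg _).trans (hN x)
        have hB0 : 0 ≤ B := hs.trans hx
        have := hθ0 x
        have := hθ2 x
        have := hN x
        simp only [Real.norm_eq_abs, abs_mul, abs_of_nonneg hs, abs_of_nonneg (hθ0 x),
          abs_of_nonneg hN0, abs_of_nonneg hB0, abs_two]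
        calc s x * (2 * |ζ x| * |pd eX ζ i x| * pr.θ x) ≤ B * (2 * N * |pd eX ζ i x| * 2) := by
              gcongr
          _ = _ := by ring
    refine (k1.add k2).congr_norm ?_ (Eventually.of_forall fun x => ?_)
    · exact (D.m.mul (hξ.gm i)).aestronglyMeasurable
    · simp only [Pi.add_apply, FX_pd_sq hζ]
      congr 1
      ring
  have hv : Van fun x => s x * (ζ x ^ 2 * pr.θ x) := by
    refine van_of_le_z h1.l2 (C := B * 2 * M) ?_
    filter_upwards [hB] with x hx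
    have hs := D.s0 x
    have hB0 : 0 ≤ B := hs.trans hx
    have := hθ0 x
    have := hθ2 x
    have := hM x
    rw [abs_mul, abs_mul, abs_of_nonneg hs, abs_of_nonneg (hθ0 x), abs_pow]
    calc s x * (|ζ x| ^ 2 * pr.θ x) = s x * pr.θ x * |ζ x| * |ζ x| := by ring
      _ ≤ B * 2 * (M * |x 2|) * |ζ x| := by gcongr
      _ = _ := by ring
  have i3 := pr.el _ _ _ hξ hbd hk hv
  obtain ⟨i1, i2⟩ := pr.integrable_el D.m hξ hbd hk
  have hA : Integrable fun x => s x ^ 2 * gs pr.gθ x * ζ x ^ 2 := by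
    refine ((FX_int pr).const_mul (N ^ 2)).mono' ?_ (Eventually.of_forall fun x => ?_)
    · exact (((D.m.pow_const 2).mul (FX_meas_gs pr.hθ.gm)).mul
        (hζ.continuous.measurable.pow_const 2)).aestronglyMeasurable
    · have h2 := gs_nonneg pr.gθ x
      rw [Real.norm_eq_abs, abs_of_nonneg (by positivity), mul_comm (N ^ 2)]
      have h1 : ζ x ^ 2 ≤ N ^ 2 := by
        rw [← sq_abs]; exact pow_le_pow_left₀ (abs_nonneg _) (hN x) 2
      gcongr
  have hC : Integrable fun x => s x ^ 2 * pr.θ x ^ 2 * gs (pd eX ζ) x := by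
    refine (h1.integrable_gs.const_mul (B ^ 2 * 2 ^ 2)).mono' ?_ ?_
    · exact (((D.m.pow_const 2).mul (pr.hθ.m.pow_const 2)).mul
        (FX_meas_gs h1.gm)).aestronglyMeasurable
    · filter_upwards [hB] with x hx
      have h2 := gs_nonneg (pd eX ζ) x
      have hs := D.s0 x
      have := hθ0 x
      have := hθ2 x
      rw [Real.norm_eq_abs, abs_of_nonneg (by positivity)]
      gcongr
  refine ⟨hA, hC, ?_⟩
  rw [integral_add i1 (i2.const_mul _), integral_const_mul] at i3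
  have h4 : 0 ≤ ∫ x, pr.t x * pr.β x * (ζ x ^ 2 * pr.θ x) := integral_nonneg fun x =>
    mul_nonneg (mul_nonneg (pr.t0 x) (pr.β0 x)) (mul_nonneg (sq_nonneg _) (hθ0 x))
  have h5 := integral_mono ((hA.const_mul (1 / 2)).sub (hC.const_mul 2)) i1 fun x => by
    simp only [Pi.sub_apply, gd, gs, Fin.sum_univ_three, FX_pd_sq hζ]
    nlinarith [sq_nonneg (s x * (ζ x * pr.gθ 0 x + 2 * pr.θ x * pd eX ζ 0 x)),
      sq_nonneg (s x * (ζ x * pr.gθ 1 x + 2 * pr.θ x * pd eX ζ 1 x)),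
      sq_nonneg (s x * (ζ x * pr.gθ 2 x + 2 * pr.θ x * pd eX ζ 2 x))]
  simp only [Pi.sub_apply] at h5
  rw [integral_sub (hA.const_mul _) (hC.const_mul _), integral_const_mul, integral_const_mul] at h5
  nlinarith [mul_nonneg D.lam0 h4]

/-- Capacity lower bound: `slab_van` with `δ = 8 K √K w` for `γ χ`, where `χ` is a cut-off function
which is `1` on `cyl x₀ (l₁ / 2) (-δ) δ`, supported laterally in `l₁` (`γ ≤ 2 β / s ≤ 2 √K β / τ`);
`γ ≥ 1/2` for `δ / 2 ≤ z ≤ δ`. -/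
theorem FD.cap (D : FD pr x₀ l K τ h) {l₁ : ℝ} (h1 : 0 < l₁) (h2 : l₁ ≤ l)
    (h3 : 16 * K * √K * (τ / h) ≤ l) :
    τ * h * l₁ ^ 2 / (1000 * K ^ 2 * √K) ≤
      ∫ x in cyl x₀ l₁ 0 (8 * K * √K * (τ / h)),
        s x ^ 2 * (if pr.θ x < 1 then gs pr.gθ x else 0) := by
  have hK := D.K1
  have hτ := D.τ0
  have hh := D.h0
  have hK0 : 0 < K := by linarith
  have hsK : 0 < √K := Real.sqrt_pos.2 hK0
  set δ : ℝ := 8 * K * √K * (τ / h) with hδ
  have hδ0 : 0 < δ := by positivity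
  have hδl : 2 * δ ≤ l := by rw [hδ]; linarith
  obtain ⟨M, -, H⟩ := exists_cut_cyl
  obtain ⟨χ, c1, c01, co, cs, -, cz⟩ := H x₀ (l₁ / 2) (l₁ / 2) (-δ) δ δ D.x0 (by linarith)
    (by linarith) (by linarith) hδ0
  rw [add_halves] at cs
  have hc : HasCompactSupport χ := (isCompact_cyl _ _ _ _).of_isClosed_subset (isClosed_tsupport _) cs
  have hu := (FX_gamma pr).mul_c1c c1 hc
  have hin : ∀ x, χ x ≠ 0 → ‖pl x - x₀‖ ≤ l₁ ∧ |x 2| ≤ l := fun x hx => by
    obtain ⟨k1, k2, k3⟩ := cs (subset_tsupport _ hx)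
    exact ⟨k1, abs_le.2 ⟨by linarith, by linarith⟩⟩
  have hv : Van fun x => χ x * max (1 - pr.θ x) 0 := by
    refine pr.pair.van.mono pr.pair.hβ.l2 (C := 2 * √K / τ) ?_
    filter_upwards [D.box, pr.cos] with x hx hcos
    rw [abs_of_nonneg (pr.β0 x), abs_of_nonneg (mul_nonneg (c01 x).1 (FX_gamma_le pr x).1)]
    have hβ := pr.β0 x
    by_cases h0 : χ x = 0
    · rw [h0, zero_mul]; positivity
    by_cases hθ : 1 ≤ pr.θ x
    · rw [max_eq_right (by linarith), mul_zero]; positivity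
    have k1 := (hx ((hin x h0).1.trans h2) (hin x h0).2).1
    have k2 : τ ≤ √K * s x := by
      refine abs_le_of_sq_le_sq' ?_ (mul_nonneg hsK.le (D.s0 x)) |>.2
      rw [mul_pow, Real.sq_sqrt hK0.le]
      nlinarith [sq_nonneg (x 2 * h)]
    have k3 : 1 / 2 ≤ Real.cos (pr.θ x) := by
      have := Real.one_sub_sq_div_two_le_cos (x := pr.θ x)
      nlinarith [(pr.θ0 x).1]
    have k4 : s x ≤ 2 * pr.β x := by rw [hcos]; nlinarith [D.s0 x]
    calc χ x * max (1 - pr.θ x) 0 ≤ 1 := mul_le_one₀ (c01 x).2 (FX_gamma_le pr x).1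
          (FX_gamma_le pr x).2
      _ ≤ 2 * √K / τ * pr.β x := by
          rw [div_mul_eq_mul_div, le_div_iff₀ hτ]
          nlinarith
  have h4 := slab_van hu hv hδ0
  have hI : Integrable fun x => s x ^ 2 * (if pr.θ x < 1 then gs pr.gθ x else 0) := by
    refine (FX_int pr).mono' ((D.m.pow_const 2).mul (FX_meas_ite pr)).aestronglyMeasurable
      (Eventually.of_forall fun x => ?_)
    have h0 : 0 ≤ (if pr.θ x < 1 then gs pr.gθ x else 0) := (FX_ite_le pr x).1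
    rw [Real.norm_eq_abs, abs_of_nonneg (by positivity)]
    exact mul_le_mul_of_nonneg_left (FX_ite_le pr x).2 (sq_nonneg _)
  -- upper bound
  have h5 : ∫ x in {x : X | 0 < x 2 ∧ x 2 < δ}, (χ x * (if pr.θ x < 1 then -pr.gθ 2 x else 0) +
      pd eX χ 2 x * max (1 - pr.θ x) 0) ^ 2 ≤
      K / τ ^ 2 * ∫ x in cyl x₀ l₁ 0 δ, s x ^ 2 * (if pr.θ x < 1 then gs pr.gθ x else 0) := by
    rw [← integral_const_mul, ← integral_indicator (LVan_ms 0 δ),
      ← integral_indicator (measurableSet_cyl _ _ _ _)]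
    refine integral_mono_of_nonneg (Eventually.of_forall fun x => indicator_nonneg
      (fun _ _ => sq_nonneg _) _) ((hI.const_mul _).indicator (measurableSet_cyl _ _ _ _)) ?_
    filter_upwards [D.box] with x hx
    have h0 : 0 ≤ (if pr.θ x < 1 then gs pr.gθ x else 0) := (FX_ite_le pr x).1
    have hnn : 0 ≤ (cyl x₀ l₁ 0 δ).indicator (fun x =>
        K / τ ^ 2 * (s x ^ 2 * (if pr.θ x < 1 then gs pr.gθ x else 0))) x :=
      indicator_nonneg (fun y _ => by have := (FX_ite_le pr y).1; positivity) _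
    by_cases hxs : x ∈ {x : X | 0 < x 2 ∧ x 2 < δ}
    swap
    · rw [indicator_of_notMem hxs]; exact hnn
    rw [indicator_of_mem hxs, cz x (by linarith [hxs.1]) hxs.2, zero_mul, add_zero]
    by_cases hχ0 : χ x = 0
    · rw [hχ0, zero_mul, zero_pow two_ne_zero]; exact hnn
    rw [indicator_of_mem (show x ∈ cyl x₀ l₁ 0 δ from ⟨(hin x hχ0).1, hxs.1.le, hxs.2.le⟩)]
    have k1 := (hx ((hin x hχ0).1.trans h2) (hin x hχ0).2).1
    have k2 : 1 ≤ K / τ ^ 2 * s x ^ 2 := by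
      rw [div_mul_eq_mul_div, le_div_iff₀ (by positivity)]
      nlinarith [sq_nonneg (x 2 * h)]
    have k3 : (χ x * (if pr.θ x < 1 then -pr.gθ 2 x else 0)) ^ 2 ≤
        (if pr.θ x < 1 then gs pr.gθ x else 0) := by
      have k4 : χ x ^ 2 ≤ 1 := pow_le_one₀ (c01 x).1 (c01 x).2
      split_ifs
      · rw [mul_pow, neg_sq]
        exact (mul_le_of_le_one_left (sq_nonneg _) k4).trans (LVan_two_le pr.gθ x)
      · simp
    rw [← mul_assoc]
    exact k3.trans (le_mul_of_one_le_left h0 k2)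
  -- lower bound
  have h6 : 1 / 4 * volume.real (cyl x₀ (l₁ / 2) (δ / 2) (9 / 10 * δ)) ≤
      ∫ x in {x : X | 0 < x 2 ∧ x 2 < δ}, (χ x * max (1 - pr.θ x) 0) ^ 2 := by
    refine le_trans ?_ (setIntegral_mono_set (s := cyl x₀ (l₁ / 2) (δ / 2) (9 / 10 * δ))
      hu.integrable_sq.integrableOn (Eventually.of_forall fun x => sq_nonneg _)
      (LE.le.eventuallyLE fun x hx => ⟨by linarith [hx.2.1], by linarith [hx.2.2]⟩))
    rw [mul_comm, ← smul_eq_mul, ← setIntegral_const]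
    refine setIntegral_mono_on_ae (integrableOn_const (isCompact_cyl _ _ _ _).measure_lt_top.ne)
      hu.integrable_sq.integrableOn (measurableSet_cyl _ _ _ _) ?_
    filter_upwards [D.θ_le] with x hx hxc
    obtain ⟨k1, k2, k3⟩ := hxc
    have k4 := (hx (by linarith) (abs_le.2 ⟨by linarith, by linarith⟩)).1
    rw [abs_of_nonneg (by linarith)] at k4
    have k5 : δ / 2 * h * pr.θ x ≤ x 2 * h * pr.θ x := by
      have := (pr.θ0 x).1
      gcongr
    have k6 : δ / 2 * h = 4 * K * √K * τ := by rw [hδ]; field_simp; ring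
    have k7 : pr.θ x ≤ 1 / 2 := by
      rw [k6] at k5
      have : 0 < K * √K * τ := by positivity
      nlinarith
    rw [co x ⟨k1, by linarith, by linarith⟩, one_mul, max_eq_left (by linarith)]
    nlinarith
  have h7 := (volume_cyl D.x0 (l := l₁ / 2) (a := δ / 2) (b := 9 / 10 * δ) (by linarith)
    (by linarith)).1
  set I := ∫ x in cyl x₀ l₁ 0 δ, s x ^ 2 * (if pr.θ x < 1 then gs pr.gθ x else 0)
  have h8 : l₁ ^ 2 * δ / 20 ≤ 4 * δ ^ 2 * (K / τ ^ 2 * I) := by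
    have := mul_le_mul_of_nonneg_left h5 (show 0 ≤ 4 * δ ^ 2 by positivity)
    nlinarith
  have h9 : l₁ ^ 2 * τ ^ 2 ≤ 80 * δ * K * I := by
    have e : 4 * δ ^ 2 * (K / τ ^ 2 * I) = δ / (20 * τ ^ 2) * (80 * δ * K * I) := by
      field_simp; ring
    have e' : l₁ ^ 2 * δ / 20 = δ / (20 * τ ^ 2) * (l₁ ^ 2 * τ ^ 2) := by field_simp
    rw [e, e'] at h8
    exact le_of_mul_le_mul_left h8 (by positivity)
  have h10 : τ * h * l₁ ^ 2 ≤ 640 * K ^ 2 * √K * I := by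
    have e : 80 * δ * K * I = τ / h * (640 * K ^ 2 * √K * I) := by rw [hδ]; ring
    have e' : l₁ ^ 2 * τ ^ 2 = τ / h * (τ * h * l₁ ^ 2) := by field_simp
    rw [e, e'] at h9
    exact le_of_mul_le_mul_left h9 (by positivity)
  have h11 : 0 ≤ K ^ 2 * √K * I := by
    have : 0 < τ * h * l₁ ^ 2 := by positivity
    linarith
  rw [div_le_iff₀ (by positivity)]
  linarith

end Crest.Agent.R335
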