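import Crest.Agent.R335.FX

/-! Row 335. The flux argument, second part. -/

set_option autoImplicit false

open MeasureTheory Set Filter Topology
open scoped ENNReal

noncomputable section

namespace Crest.Agent.R335

variable {s : X → ℝ}

theorem FX2_ind {S : Set X} (hS : IsCompact S) (B : ℝ) : Integrable (S.indicator fun _ => B) :=
  (integrableOn_const hS.measure_lt_top.ne).integrable_indicator hS.measurableSet

theorem FX2_ind_int {S : Set X} (hS : IsCompact S) (B : ℝ) :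
    ∫ x, S.indicator (fun _ => B) x = volume.real S * B := by
  rw [integral_indicator_const _ hS.measurableSet, smul_eq_mul]

theorem FX2_gs0 (g : Fin 3 → X → ℝ) (x : X) : 0 ≤ gs g x :=
  Finset.sum_nonneg fun _ _ => sq_nonneg _

theorem FX2_E0 (pr : Pair1 s) (x : X) : 0 ≤ (if pr.θ x < 1 then gs pr.gθ x else 0) := by
  split_ifs
  · exact FX2_gs0 _ _
  · exact le_rfl

theorem FX2_E_le (pr : Pair1 s) (x : X) :
    (if pr.θ x < 1 then gs pr.gθ x else 0) ≤ gs pr.gθ x := by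
  split_ifs
  · exact le_rfl
  · exact FX2_gs0 _ _

theorem FX2_gs_int (pr : Pair1 s) : Integrable fun x => s x ^ 2 * gs pr.gθ x := by
  have : (fun x => s x ^ 2 * gs pr.gθ x) = fun x => ∑ i, (s x * pr.gθ i x) ^ 2 := by
    funext x
    simp only [gs, Finset.mul_sum, mul_pow]
  rw [this]
  exact integrable_finsetSum _ fun i _ => (pr.J2 i).integrable_sq

theorem FX2_E_int (pr : Pair1 s) :
    Integrable fun x => s x ^ 2 * (if pr.θ x < 1 then gs pr.gθ x else 0) := by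
  have := (FX2_gs_int pr).indicator (measurableSet_lt pr.hθ.m (measurable_const (a := 1)))
  refine this.congr (ae_of_all _ fun x => ?_)
  by_cases h : pr.θ x < 1
  · simp [h]
  · simp [h]

theorem FX2_s_int (pr : Pair1 s) : Integrable fun x => s x ^ 2 :=
  (pr.pair.ht.l2.integrable_sq.add pr.pair.hβ.l2.integrable_sq).congr pr.pair.sum

theorem FX2_gs_m (pr : Pair1 s) : Measurable (gs pr.gθ) :=
  Finset.measurable_sum _ fun i _ => (pr.hθ.gm i).pow_const 2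

theorem FX2_sqrt_le (a : ℝ) (ha : 0 < a) {e : ℝ} (he : 0 ≤ e) : √e ≤ a / 2 * e + 1 / (2 * a) := by
  have h := Real.sq_sqrt he
  have h2 : a / 2 * e + 1 / (2 * a) - √e = (a * √e - 1) ^ 2 / (2 * a) := by
    field_simp
    rw [sub_sq, mul_pow, h]
    ring
  have h3 : 0 ≤ (a * √e - 1) ^ 2 / (2 * a) := by positivity
  linarith

theorem FX2_sqrt_int (pr : Pair1 s) (hm : Measurable s) {e : X → ℝ} (he : Measurable e)
    (h0 : ∀ x, 0 ≤ e x) (h1 : ∀ x, e x ≤ gs pr.gθ x) :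
    Integrable fun x => s x ^ 2 * √(e x) := by
  refine ((FX2_gs_int pr).add (FX2_s_int pr)).mono'
    ((hm.pow_const 2).mul he.sqrt).aestronglyMeasurable (ae_of_all _ fun x => ?_)
  have h := FX2_sqrt_le 1 one_pos (h0 x)
  have h2 := h1 x
  have h3 := h0 x
  rw [Real.norm_of_nonneg (by positivity)]
  simp only [Pi.add_apply]
  nlinarith [sq_nonneg (s x)]

theorem FX2_E_m (pr : Pair1 s) : Measurable fun x => if pr.θ x < 1 then gs pr.gθ x else 0 :=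
  Measurable.ite (measurableSet_lt pr.hθ.m measurable_const) (FX2_gs_m pr) measurable_const

theorem FX2_out {χ : X → ℝ} {S : Set X} (h : tsupport χ ⊆ S) {x : X} (hx : x ∉ S) :
    χ x = 0 ∧ ∀ i, pd eX χ i x = 0 := by
  have hx' : x ∉ tsupport χ := fun h' => hx (h h')
  refine ⟨image_eq_zero_of_notMem_tsupport hx', fun i => ?_⟩
  unfold pd
  rw [fderiv_of_notMem_tsupport ℝ hx']
  rfl

theorem FX2_hc {χ : X → ℝ} {x₀ : X} {l a b : ℝ} (h : tsupport χ ⊆ cyl x₀ l a b) :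
    HasCompactSupport χ :=
  (isCompact_cyl x₀ l a b).of_isClosed_subset (isClosed_tsupport χ) h

theorem FX2_gs_le {p : Fin 3 → X → ℝ} {x : X} {q : ℝ} (h0 : |p 0 x| ≤ q) (h1 : |p 1 x| ≤ q)
    (h2 : |p 2 x| ≤ q) : gs p x ≤ 3 * q ^ 2 := by
  have a0 := sq_le_sq' (abs_le.1 h0).1 (abs_le.1 h0).2
  have a1 := sq_le_sq' (abs_le.1 h1).1 (abs_le.1 h1).2
  have a2 := sq_le_sq' (abs_le.1 h2).1 (abs_le.1 h2).2
  unfold gs
  rw [Fin.sum_univ_three]
  linarith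

theorem FX2_young (g p : Fin 3 → X → ℝ) (x : X) (γ c : ℝ) :
    2 * (γ * c * gd g p x) ≤ gs g x * c ^ 2 / 2 + 2 * γ ^ 2 * gs p x := by
  unfold gd gs
  simp only [Fin.sum_univ_three]
  nlinarith [sq_nonneg (c * g 0 x - 2 * γ * p 0 x), sq_nonneg (c * g 1 x - 2 * γ * p 1 x),
    sq_nonneg (c * g 2 x - 2 * γ * p 2 x)]

theorem FX2_γ (pr : Pair1 s) (x : X) : 0 ≤ max (1 - pr.θ x) 0 ∧ max (1 - pr.θ x) 0 ≤ 1 :=
  ⟨le_max_right _ _, max_le (by linarith [(pr.θ0 x).1]) zero_le_one⟩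

/-- The box bounds on a cylinder. -/
theorem FX2_box {pr : Pair1 s} {x₀ : X} {l K τ h : ℝ} (D : FD pr x₀ l K τ h) {l' a b r : ℝ}
    (hl : l' ≤ l) (ha : -r ≤ a) (hb : b ≤ r) (hr : r ≤ l) :
    ∀ᵐ x : X, x ∈ cyl x₀ l' a b → s x ^ 2 ≤ K * (x 2 ^ 2 * h ^ 2 + τ ^ 2) ∧
      s x ^ 2 ≤ K * (r ^ 2 * h ^ 2 + τ ^ 2) ∧ pr.t x ≤ K * τ ∧
      |x 2| * h * pr.θ x ≤ 2 * K * √K * τ ∧ s x * pr.θ x ≤ 2 * K * τ := by
  filter_upwards [D.box, D.θ_le] with x h1 h2 hx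
  have hz : |x 2| ≤ r := abs_le.2 ⟨ha.trans hx.2.1, hx.2.2.trans hb⟩
  obtain ⟨-, h3, h4⟩ := h1 (hx.1.trans hl) (hz.trans hr)
  obtain ⟨h5, h6⟩ := h2 (hx.1.trans hl) (hz.trans hr)
  refine ⟨h3, h3.trans ?_, h4, h5, h6⟩
  have := sq_le_sq' (abs_le.1 hz).1 (abs_le.1 hz).2
  have hK := D.K1
  gcongr

theorem FX2_ident {pr : Pair1 s} {x₀ : X} {l K τ h : ℝ} (D : FD pr x₀ l K τ h) {χ : X → ℝ}
    (hχ : ContDiff ℝ 1 χ) (hc : HasCompactSupport χ) {G : X → ℝ} (hG : Integrable G)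
    (hle : ∀ᵐ x, 2 * (s x ^ 2 * (max (1 - pr.θ x) 0 * χ x * gd pr.gθ (pd eX χ) x)) +
      2 * pr.lam * (pr.t x * pr.β x * (max (1 - pr.θ x) 0 * χ x ^ 2)) ≤ G x) :
    ∫ x, s x ^ 2 * (if pr.θ x < 1 then gs pr.gθ x else 0) * χ x ^ 2 ≤ ∫ x, G x := by
  obtain ⟨-, i2, i3, hid⟩ := D.ident hχ hc
  rw [hid, ← integral_const_mul, ← integral_const_mul,
    ← integral_add (i2.const_mul _) (i3.const_mul _)]
  exact integral_mono_ae ((i2.const_mul _).add (i3.const_mul _)) hG hle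

theorem FX2_low {F χ : X → ℝ} (hF : Integrable F) (h0 : ∀ x, 0 ≤ F x)
    (hF' : Integrable fun x => F x * χ x ^ 2) {S : Set X} (hS : MeasurableSet S)
    (h1 : ∀ x ∈ S, χ x = 1) : ∫ x in S, F x ≤ ∫ x, F x * χ x ^ 2 := by
  rw [← integral_indicator hS]
  refine integral_mono (hF.indicator hS) hF' fun x => ?_
  have := h0 x
  by_cases hx : x ∈ S
  · simp [indicator_of_mem hx, h1 x hx]
  · simp only [indicator_of_notMem hx]
    positivity

/-- Energy near the plane: `FD.ident` with `χ = 1` on `cyl x₀ l₁ (-w) w`, `l' = l₁`, `d = w`;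
absorb half of the left hand side; `s² ≤ 5 K τ²` on the support, `t β ≤ s²`, `lam w² ≤ 1`. -/
theorem flux_near (K : ℝ) : ∃ C₁ : ℝ, 0 < C₁ ∧ ∀ (s : X → ℝ) (pr : Pair1 s) (x₀ : X)
    (l τ h l₁ : ℝ), FD pr x₀ l K τ h → pr.lam ≤ 1 → τ / h ≤ l₁ → 2 * l₁ ≤ l →
    ∫ x in cyl x₀ l₁ (-(τ / h)) (τ / h), s x ^ 2 * (if pr.θ x < 1 then gs pr.gθ x else 0) ≤
      C₁ * (τ * h * l₁ ^ 2) := by
  obtain ⟨M, hM, hcut⟩ := exists_cut_cyl
  refine ⟨(3840 * M ^ 2 + 1280) * max K 1, by positivity,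
    fun s pr x₀ l τ h l₁ D hlam hw hl => ?_⟩
  rw [max_eq_left D.K1]
  have hh := D.h0
  have hK := D.K1
  have hl1 := D.l1
  obtain ⟨w, hτ, hwe⟩ : ∃ w, τ = w * h ∧ τ / h = w := ⟨τ / h, by field_simp, rfl⟩
  have hw0 : 0 < w := hwe ▸ div_pos D.τ0 D.h0
  rw [hwe] at hw ⊢
  obtain ⟨χ, hχ, h01, h1, hsup, hd, -⟩ :=
    hcut x₀ l₁ l₁ (-w) w w D.x0 (by linarith) (by linarith) (by linarith) hw0
  obtain ⟨i1, -⟩ := D.ident hχ (FX2_hc hsup)
  have hS := isCompact_cyl x₀ (l₁ + l₁) (-w - w) (w + w)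
  have hv := (volume_cyl D.x0 (l := l₁ + l₁) (a := -w - w) (b := w + w) (by linarith)
    (by linarith)).2
  set A := ∫ x, s x ^ 2 * (if pr.θ x < 1 then gs pr.gθ x else 0) * χ x ^ 2 with hA
  have hB : A ≤ A / 2 + volume.real (cyl x₀ (l₁ + l₁) (-w - w) (w + w)) *
      (30 * K * M ^ 2 * h ^ 2 + 10 * K * τ ^ 2) := by
    rw [← FX2_ind_int hS, hA, ← integral_div, ← integral_add (i1.div_const 2) (FX2_ind hS _)]
    refine FX2_ident D hχ (FX2_hc hsup) ((i1.div_const 2).add (FX2_ind hS _)) ?_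
    filter_upwards [FX2_box D (l' := l₁ + l₁) (a := -w - w) (b := w + w) (r := 2 * w)
      (by linarith) (by linarith) (by linarith) (by linarith), pr.t_ge D.s0] with x hx ht
    by_cases hxS : x ∈ cyl x₀ (l₁ + l₁) (-w - w) (w + w)
    · rw [indicator_of_mem hxS]
      have hs : s x ^ 2 ≤ 5 * K * τ ^ 2 := by
        refine (hx hxS).2.1.trans (le_of_eq ?_)
        rw [hτ]; ring
      obtain ⟨γ0, γ1⟩ := FX2_γ pr x
      have c0 := (h01 x).1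
      have c1 := (h01 x).2
      have hMl : M / l₁ ≤ M / w := by gcongr
      have hp := FX2_gs_le ((hd x).1.trans hMl) ((hd x).2.1.trans hMl) (hd x).2.2
      have e1 : 2 * (s x ^ 2 * (max (1 - pr.θ x) 0 * χ x * gd pr.gθ (pd eX χ) x)) ≤
          s x ^ 2 * (if pr.θ x < 1 then gs pr.gθ x else 0) * χ x ^ 2 / 2 +
            30 * K * M ^ 2 * h ^ 2 := by
        by_cases hθ : pr.θ x < 1
        · rw [if_pos hθ]
          have y := mul_le_mul_of_nonneg_left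
            (FX2_young pr.gθ (pd eX χ) x (max (1 - pr.θ x) 0) (χ x)) (sq_nonneg (s x))
          have y2 : s x ^ 2 * (2 * max (1 - pr.θ x) 0 ^ 2 * gs (pd eX χ) x) ≤
              5 * K * τ ^ 2 * (2 * 1 ^ 2 * (3 * (M / w) ^ 2)) := by
            have := FX2_gs0 (pd eX χ) x
            gcongr
          have y3 : 5 * K * τ ^ 2 * (2 * 1 ^ 2 * (3 * (M / w) ^ 2)) = 30 * K * M ^ 2 * h ^ 2 := by
            rw [hτ]; field_simp; ring
          linarith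
        · rw [if_neg hθ, max_eq_right (by linarith)]
          have : 0 ≤ 30 * K * M ^ 2 * h ^ 2 := by positivity
          linarith
      have e2 : 2 * pr.lam * (pr.t x * pr.β x * (max (1 - pr.θ x) 0 * χ x ^ 2)) ≤
          2 * 1 * (s x * s x * (1 * 1 ^ 2)) := by
        have := pr.t0 x
        have := pr.β0 x
        have := D.s0 x
        gcongr
        · exact ht.2.2.1
        · exact ht.2.2.2
      nlinarith
    · obtain ⟨c0, p0⟩ := FX2_out hsup hxS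
      simp [c0, indicator_of_notMem hxS]
  have hC := FX2_low (FX2_E_int pr) (fun x => mul_nonneg (sq_nonneg _) (FX2_E0 pr x)) i1
    (measurableSet_cyl _ _ _ _) h1
  refine hC.trans ?_
  have hB2 : volume.real (cyl x₀ (l₁ + l₁) (-w - w) (w + w)) *
      (30 * K * M ^ 2 * h ^ 2 + 10 * K * τ ^ 2) ≤ 4 * (l₁ + l₁) ^ 2 * (w + w - (-w - w)) *
        (30 * K * M ^ 2 * h ^ 2 + 10 * K * (1 ^ 2 * h ^ 2)) := by
    have : τ ^ 2 ≤ 1 ^ 2 * h ^ 2 := by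
      rw [hτ, mul_pow]
      gcongr
      linarith
    have : 0 ≤ w + w - (-w - w) := by linarith
    gcongr
  have hB3 : 4 * (l₁ + l₁) ^ 2 * (w + w - (-w - w)) *
      (30 * K * M ^ 2 * h ^ 2 + 10 * K * (1 ^ 2 * h ^ 2)) =
      (3840 * M ^ 2 + 1280) * K * (τ * h * l₁ ^ 2) / 2 := by
    rw [hτ]; ring
  linarith

theorem FX2_cd_z {χ : X → ℝ} (hχ : ContDiff ℝ 1 χ) : ContDiff ℝ 1 fun x : X => x 2 * χ x :=
  (EuclideanSpace.proj (𝕜 := ℝ) (2 : Fin 3) : X →L[ℝ] ℝ).contDiff.mul hχ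

theorem FX2_pd_z {χ : X → ℝ} (hχ : ContDiff ℝ 1 χ) (x : X) (i : Fin 3) :
    pd eX (fun x : X => x 2 * χ x) i x = x 2 * pd eX χ i x + χ x * (if i = 2 then 1 else 0) := by
  have h1 := (EuclideanSpace.proj (𝕜 := ℝ) (2 : Fin 3) : X →L[ℝ] ℝ).hasFDerivAt (x := x)
  have h2 := ((hχ.differentiable one_ne_zero) x).hasFDerivAt
  have h3 : HasFDerivAt (fun x : X => x 2 * χ x) _ x := h1.mul h2
  unfold pd
  rw [h3.fderiv]
  by_cases hi : i = 2
  · simp [eX, hi]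
  · simp [eX, hi, Ne.symm hi]

theorem FX2_supp_z {χ : X → ℝ} : tsupport (fun x : X => x 2 * χ x) ⊆ tsupport χ :=
  tsupport_mul_subset_right

theorem FX2_add3 {f g k : X → ℝ} (hf : Integrable f) (hg : Integrable g) (hk : Integrable k) :
    (∫ x, f x) + (∫ x, g x) + ∫ x, k x = ∫ x, (f x + g x + k x) := by
  rw [← integral_add hf hg]
  exact (integral_add (hf.add hg) hk).symm

/-- The lateral flux.  For `|z| ≤ w` use Cauchy-Schwarz and `flux_near`; for `|z| ≥ w` use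
`s² √(gs) ≤ (s |z| √(gs)) (s / |z|)`, `s² / z² ≤ 2 K h²` and `FD.cacc` with `z χ`
(`s θ ≤ 2 K τ`). -/
theorem flux_lat (K : ℝ) : ∃ C₂ : ℝ, 0 < C₂ ∧ ∀ (s : X → ℝ) (pr : Pair1 s) (x₀ : X)
    (l τ h l₁ ζ : ℝ), FD pr x₀ l K τ h → pr.lam ≤ 1 → τ / h ≤ ζ → ζ ≤ l₁ → 4 * l₁ ≤ l →
    ∫ x in cyl x₀ l₁ (-(2 * ζ)) (2 * ζ), s x ^ 2 * √(if pr.θ x < 1 then gs pr.gθ x else 0) ≤
      C₂ * (τ * h * l₁ ^ 2 * ζ) := by
  obtain ⟨M, hM, hcut⟩ := exists_cut_cyl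
  obtain ⟨C₁, hC₁, hnear⟩ := flux_near K
  refine ⟨C₁ / 2 + 36864 * K ^ 2 * M ^ 2 + 16 * max K 1, by positivity,
    fun s pr x₀ l τ h l₁ ζ D hlam hw hζ hl => ?_⟩
  rw [max_eq_left D.K1]
  have hn := hnear s pr x₀ l τ h l₁ D hlam (hw.trans hζ) (by nlinarith [div_pos D.τ0 D.h0])
  have hh := D.h0
  have hK := D.K1
  have hτ0 := D.τ0
  obtain ⟨w, hτ, hwe⟩ : ∃ w, τ = w * h ∧ τ / h = w := ⟨τ / h, by field_simp, rfl⟩
  have hw0 : 0 < w := hwe ▸ div_pos D.τ0 D.h0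
  rw [hwe] at hw hn
  have hζ0 : 0 < ζ := by linarith
  have hl0 : 0 < l₁ := by linarith
  obtain ⟨χ, hχ, h01, h1, hsup, hd, -⟩ :=
    hcut x₀ l₁ l₁ (-(2 * ζ)) (2 * ζ) ζ D.x0 (by linarith) (by linarith) (by linarith) hζ0
  have hsup' := FX2_supp_z.trans hsup
  obtain ⟨i1, i2, hcac⟩ := D.cacc (FX2_cd_z hχ) (FX2_hc hsup') (M := 1) fun x => by
    rw [abs_mul, abs_of_nonneg (h01 x).1, one_mul]
    exact mul_le_of_le_one_right (abs_nonneg _) (h01 x).2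
  have hS' := isCompact_cyl x₀ (l₁ + l₁) (-(2 * ζ) - ζ) (2 * ζ + ζ)
  have hv' := (volume_cyl D.x0 (l := l₁ + l₁) (a := -(2 * ζ) - ζ) (b := 2 * ζ + ζ) (by linarith)
    (by linarith)).2
  have hS := isCompact_cyl x₀ l₁ (-(2 * ζ)) (2 * ζ)
  have hv := (volume_cyl D.x0 (l := l₁) (a := -(2 * ζ)) (b := 2 * ζ) (by linarith)
    (by linarith)).2
  have hB : ∫ x, s x ^ 2 * pr.θ x ^ 2 * gs (pd eX fun x : X => x 2 * χ x) x ≤
      volume.real (cyl x₀ (l₁ + l₁) (-(2 * ζ) - ζ) (2 * ζ + ζ)) *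
        ((2 * K * τ) ^ 2 * (3 * (4 * M) ^ 2)) := by
    rw [← FX2_ind_int hS']
    refine integral_mono_ae i2 (FX2_ind hS' _) ?_
    filter_upwards [FX2_box D (l' := l₁ + l₁) (a := -(2 * ζ) - ζ) (b := 2 * ζ + ζ) (r := 3 * ζ)
      (by linarith) (by linarith) (by linarith) (by linarith)] with x hx
    by_cases hxS : x ∈ cyl x₀ (l₁ + l₁) (-(2 * ζ) - ζ) (2 * ζ + ζ)
    · rw [indicator_of_mem hxS, ← mul_pow]
      have hz : |x 2| ≤ 3 * ζ := abs_le.2 ⟨by linarith [hxS.2.1], by linarith [hxS.2.2]⟩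
      have hMl : M / l₁ ≤ M / ζ := by gcongr
      have hq : ∀ i, |pd eX χ i x| ≤ M / ζ → |pd eX (fun x : X => x 2 * χ x) i x| ≤ 4 * M := by
        intro i hi
        rw [FX2_pd_z hχ]
        refine (abs_add_le _ _).trans ?_
        have a1 : |x 2 * pd eX χ i x| ≤ 3 * ζ * (M / ζ) := by
          rw [abs_mul]
          gcongr
        have a2 : |χ x * (if i = 2 then (1 : ℝ) else 0)| ≤ 1 := by
          split_ifs
          · rw [mul_one, abs_of_nonneg (h01 x).1]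
            exact (h01 x).2
          · simp
        have a3 : 3 * ζ * (M / ζ) = 3 * M := by field_simp
        linarith
      have hp := FX2_gs_le (hq 0 ((hd x).1.trans hMl)) (hq 1 ((hd x).2.1.trans hMl))
        (hq 2 (hd x).2.2)
      have b0 := mul_nonneg (D.s0 x) (pr.θ0 x).1
      have b1 := (hx hxS).2.2.2.2
      have b2 := FX2_gs0 (pd eX fun x : X => x 2 * χ x) x
      gcongr
    · have p0 := (FX2_out hsup' hxS).2
      simp [gs, p0, indicator_of_notMem hxS]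
  have hm0 := measurableSet_cyl x₀ l₁ (-w) w
  have j1 := ((FX2_E_int pr).indicator hm0).const_mul (w / 2)
  have j2 := i1.const_mul (1 / (2 * w))
  have j3 := FX2_ind hS (K * τ * h)
  have hmain : ∫ x in cyl x₀ l₁ (-(2 * ζ)) (2 * ζ),
      s x ^ 2 * √(if pr.θ x < 1 then gs pr.gθ x else 0) ≤
      w / 2 * (∫ x in cyl x₀ l₁ (-w) w, s x ^ 2 * (if pr.θ x < 1 then gs pr.gθ x else 0)) +
        1 / (2 * w) * (∫ x : X, s x ^ 2 * gs pr.gθ x * (x 2 * χ x) ^ 2) +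
        volume.real (cyl x₀ l₁ (-(2 * ζ)) (2 * ζ)) * (K * τ * h) := by
    rw [← FX2_ind_int hS, ← integral_indicator hS.measurableSet, ← integral_indicator hm0,
      ← integral_const_mul, ← integral_const_mul, FX2_add3 j1 j2 j3]
    refine integral_mono_of_nonneg
      (ae_of_all _ fun x => indicator_nonneg (fun y _ => by positivity) x) ((j1.add j2).add j3) ?_
    filter_upwards [FX2_box D (l' := l₁) (a := -(2 * ζ)) (b := 2 * ζ) (r := 2 * ζ)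
      (by linarith) (by linarith) (by linarith) (by linarith)] with x hx
    have E0 := FX2_E0 pr x
    have E1 := FX2_E_le pr x
    have G0 := FX2_gs0 pr.gθ x
    have n1 : 0 ≤ w / 2 * (cyl x₀ l₁ (-w) w).indicator
        (fun x => s x ^ 2 * (if pr.θ x < 1 then gs pr.gθ x else 0)) x :=
      mul_nonneg (by positivity)
        (indicator_nonneg (fun y _ => mul_nonneg (sq_nonneg _) (FX2_E0 pr y)) x)
    have n2 : 0 ≤ 1 / (2 * w) * (s x ^ 2 * gs pr.gθ x * (x 2 * χ x) ^ 2) := by positivity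
    by_cases hxS : x ∈ cyl x₀ l₁ (-(2 * ζ)) (2 * ζ)
    · rw [indicator_of_mem hxS, indicator_of_mem hxS]
      have hs := (hx hxS).1
      by_cases hx0 : x ∈ cyl x₀ l₁ (-w) w
      · rw [indicator_of_mem hx0]
        have y := mul_le_mul_of_nonneg_left (FX2_sqrt_le w hw0 E0) (sq_nonneg (s x))
        have hz := sq_le_sq' hx0.2.1 hx0.2.2
        have y2 : s x ^ 2 * (1 / (2 * w)) ≤ K * (w ^ 2 * h ^ 2 + τ ^ 2) * (1 / (2 * w)) := by
          gcongr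
          refine hs.trans ?_
          gcongr
        have y3 : K * (w ^ 2 * h ^ 2 + τ ^ 2) * (1 / (2 * w)) = K * τ * h := by
          rw [hτ]; field_simp; ring
        linarith
      · have hz : w ^ 2 ≤ x 2 ^ 2 := by
          by_contra hc
          have := abs_le_of_sq_le_sq' (le_of_not_ge hc) hw0.le
          exact hx0 ⟨hxS.1, this.1, this.2⟩
        have hz0 : 0 < x 2 ^ 2 := lt_of_lt_of_le (by positivity) hz
        have y := mul_le_mul_of_nonneg_left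
          ((Real.sqrt_le_sqrt E1).trans (FX2_sqrt_le (x 2 ^ 2 / w) (by positivity) G0))
          (sq_nonneg (s x))
        have y2 : s x ^ 2 * (1 / (2 * (x 2 ^ 2 / w))) ≤
            K * (x 2 ^ 2 * h ^ 2 + x 2 ^ 2 * h ^ 2) * (1 / (2 * (x 2 ^ 2 / w))) := by
          gcongr
          refine hs.trans ?_
          gcongr
          rw [hτ, mul_pow]
          gcongr
        have y3 : K * (x 2 ^ 2 * h ^ 2 + x 2 ^ 2 * h ^ 2) * (1 / (2 * (x 2 ^ 2 / w))) =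
            K * τ * h := by
          have : x 2 ≠ 0 := fun h0 => by simp [h0] at hz0
          rw [hτ]; field_simp; ring
        have y4 : s x ^ 2 * (x 2 ^ 2 / w / 2 * gs pr.gθ x) =
            1 / (2 * w) * (s x ^ 2 * gs pr.gθ x * (x 2 * χ x) ^ 2) := by
          rw [h1 x hxS]; field_simp
        linarith
    · rw [indicator_of_notMem hxS, indicator_of_notMem hxS]
      linarith
  refine hmain.trans ?_
  have f1 : w / 2 * (∫ x in cyl x₀ l₁ (-w) w,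
      s x ^ 2 * (if pr.θ x < 1 then gs pr.gθ x else 0)) ≤ ζ / 2 * (C₁ * (τ * h * l₁ ^ 2)) :=
    (mul_le_mul_of_nonneg_left hn (by positivity)).trans (by gcongr)
  have f2 : 1 / (2 * w) * (∫ x : X, s x ^ 2 * gs pr.gθ x * (x 2 * χ x) ^ 2) ≤
      1 / (2 * w) * (4 * (4 * (l₁ + l₁) ^ 2 * (2 * ζ + ζ - (-(2 * ζ) - ζ)) *
        ((2 * K * τ) ^ 2 * (3 * (4 * M) ^ 2)))) := by
    refine mul_le_mul_of_nonneg_left (hcac.trans ?_) (by positivity)
    refine mul_le_mul_of_nonneg_left (hB.trans ?_) (by norm_num)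
    gcongr
  have f3 : 1 / (2 * w) * (4 * (4 * (l₁ + l₁) ^ 2 * (2 * ζ + ζ - (-(2 * ζ) - ζ)) *
      ((2 * K * τ) ^ 2 * (3 * (4 * M) ^ 2)))) = 36864 * K ^ 2 * M ^ 2 * (τ * h * l₁ ^ 2 * ζ) := by
    rw [hτ]; field_simp; ring
  have f4 : volume.real (cyl x₀ l₁ (-(2 * ζ)) (2 * ζ)) * (K * τ * h) ≤
      4 * l₁ ^ 2 * (2 * ζ - -(2 * ζ)) * (K * τ * h) := by gcongr
  linarith

theorem FX2_cs {I A B : ℝ} (hI : 0 ≤ I) (hA : 0 ≤ A) (hB : 0 ≤ B)
    (h : ∀ a : ℝ, 0 < a → I ≤ a / 2 * A + 1 / (2 * a) * B) : I ^ 2 ≤ A * B := by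
  have h1 := discrim_le_zero (a := A) (b := -2 * I) (c := B) fun x => by
    rcases le_or_gt x 0 with hx | hx
    · have := mul_nonneg hA (mul_self_nonneg x)
      nlinarith
    · have h2 := mul_le_mul_of_nonneg_left (h x hx) (by positivity : 0 ≤ 2 * x)
      have h3 : 2 * x * (x / 2 * A + 1 / (2 * x) * B) = A * (x * x) + B := by
        field_simp
      linarith
  unfold discrim at h1
  linarith

/-- The flux through the top layer: Cauchy-Schwarz and `FD.cacc` with a cut-off function which is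
`1` on `cyl x₀ l₁ ζ (2 ζ)` (`l' = ζ`, `d = ζ / 2`); `s² ≤ 10 K ζ² h²` on its support. -/
theorem flux_top (K : ℝ) : ∃ C₃ : ℝ, 0 < C₃ ∧ ∀ (s : X → ℝ) (pr : Pair1 s) (x₀ : X)
    (l τ h l₁ ζ : ℝ), FD pr x₀ l K τ h → τ / h ≤ ζ → ζ ≤ l₁ → 3 * l₁ ≤ l →
    (∫ x in cyl x₀ l₁ ζ (2 * ζ), s x ^ 2 * √(gs pr.gθ x)) ^ 2 ≤
      C₃ * (h ^ 4 * ζ ^ 3 * l₁ ^ 2) * ∫ x in cyl x₀ (l₁ + ζ) (ζ / 2) (3 * ζ), pr.θ x ^ 2 := by
  obtain ⟨M, hM, hcut⟩ := exists_cut_cyl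
  refine ⟨9600 * max K 1 ^ 2 * M ^ 2, by positivity,
    fun s pr x₀ l τ h l₁ ζ D hw hζ hl => ?_⟩
  rw [max_eq_left D.K1]
  have hh := D.h0
  have hK := D.K1
  have hτ0 := D.τ0
  have hζ0 : 0 < ζ := lt_of_lt_of_le (div_pos D.τ0 D.h0) hw
  have hτ : τ ^ 2 ≤ ζ ^ 2 * h ^ 2 := by
    rw [← mul_pow]
    exact pow_le_pow_left₀ hτ0.le ((div_le_iff₀ hh).1 hw) 2
  have hl0 : 0 < l₁ := by linarith
  obtain ⟨χ, hχ, h01, h1, hsup, hd, -⟩ :=
    hcut x₀ l₁ ζ ζ (2 * ζ) (ζ / 2) D.x0 (by linarith) hζ0 (by linarith) (by linarith)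
  have hsup' : tsupport χ ⊆ cyl x₀ (l₁ + ζ) (ζ / 2) (3 * ζ) := fun x hx =>
    ⟨(hsup hx).1, by linarith [(hsup hx).2.1], by linarith [(hsup hx).2.2]⟩
  obtain ⟨i1, i2, hcac⟩ := D.cacc hχ (FX2_hc hsup) (M := 2 / ζ) fun x => by
    by_cases hx : x ∈ cyl x₀ (l₁ + ζ) (ζ / 2) (3 * ζ)
    · rw [abs_of_nonneg (h01 x).1, abs_of_nonneg (by linarith [hx.2.1]), div_mul_eq_mul_div,
        le_div_iff₀ hζ0]
      nlinarith [(h01 x).2, hx.2.1]
    · rw [(FX2_out hsup' hx).1, abs_zero]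
      positivity
  have hS' := isCompact_cyl x₀ (l₁ + ζ) (ζ / 2) (3 * ζ)
  have hS := isCompact_cyl x₀ l₁ ζ (2 * ζ)
  have hv := (volume_cyl D.x0 (l := l₁) (a := ζ) (b := 2 * ζ) (by linarith) (by linarith)).2
  have iθ : IntegrableOn (fun x => pr.θ x ^ 2) (cyl x₀ (l₁ + ζ) (ζ / 2) (3 * ζ)) :=
    (pr.hθ.l2 _ hS').integrable_sq
  have hJ0 : 0 ≤ ∫ x in cyl x₀ (l₁ + ζ) (ζ / 2) (3 * ζ), pr.θ x ^ 2 :=
    integral_nonneg fun x => sq_nonneg _
  have hB : ∫ x, s x ^ 2 * pr.θ x ^ 2 * gs (pd eX χ) x ≤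
      120 * K * M ^ 2 * h ^ 2 * ∫ x in cyl x₀ (l₁ + ζ) (ζ / 2) (3 * ζ), pr.θ x ^ 2 := by
    rw [← integral_indicator hS'.measurableSet, ← integral_const_mul]
    refine integral_mono_ae i2 ((iθ.integrable_indicator hS'.measurableSet).const_mul _) ?_
    filter_upwards [FX2_box D (l' := l₁ + ζ) (a := ζ / 2) (b := 3 * ζ) (r := 3 * ζ)
      (by linarith) (by linarith) (by linarith) (by linarith)] with x hx
    by_cases hxS : x ∈ cyl x₀ (l₁ + ζ) (ζ / 2) (3 * ζ)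
    · rw [indicator_of_mem hxS]
      have hMl : M / ζ ≤ M / (ζ / 2) := by gcongr; linarith
      have hp := FX2_gs_le ((hd x).1.trans hMl) ((hd x).2.1.trans hMl) (hd x).2.2
      have b1 : s x ^ 2 ≤ K * ((3 * ζ) ^ 2 * h ^ 2 + ζ ^ 2 * h ^ 2) :=
        (hx hxS).2.1.trans (by gcongr)
      have b2 := FX2_gs0 (pd eX χ) x
      calc s x ^ 2 * pr.θ x ^ 2 * gs (pd eX χ) x ≤
            K * ((3 * ζ) ^ 2 * h ^ 2 + ζ ^ 2 * h ^ 2) * pr.θ x ^ 2 * (3 * (M / (ζ / 2)) ^ 2) := by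
            gcongr
        _ = _ := by field_simp; ring
    · have p0 := (FX2_out hsup' hxS).2
      simp [gs, p0, indicator_of_notMem hxS]
  have hP := FX2_low (FX2_gs_int pr) (fun x => mul_nonneg (sq_nonneg _) (FX2_gs0 _ x)) i1
    hS.measurableSet h1
  have hP0 : 0 ≤ ∫ x in cyl x₀ l₁ ζ (2 * ζ), s x ^ 2 * gs pr.gθ x :=
    integral_nonneg fun x => mul_nonneg (sq_nonneg _) (FX2_gs0 _ x)
  have hcs := FX2_cs (I := ∫ x in cyl x₀ l₁ ζ (2 * ζ), s x ^ 2 * √(gs pr.gθ x))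
    (B := volume.real (cyl x₀ l₁ ζ (2 * ζ)) * (5 * K * ζ ^ 2 * h ^ 2))
    (integral_nonneg fun x => by positivity) hP0 (by positivity) fun a ha => by
      have j1 := ((FX2_gs_int pr).integrableOn (s := cyl x₀ l₁ ζ (2 * ζ))).const_mul (a / 2)
      have j2 : IntegrableOn (fun _ : X => 1 / (2 * a) * (5 * K * ζ ^ 2 * h ^ 2))
          (cyl x₀ l₁ ζ (2 * ζ)) := integrableOn_const hS.measure_lt_top.ne
      rw [mul_left_comm, ← smul_eq_mul (volume.real _), ← setIntegral_const, ← integral_const_mul,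
        ← integral_add j1 j2]
      refine setIntegral_mono_on_ae (FX2_sqrt_int pr D.m (FX2_gs_m pr) (FX2_gs0 _)
        fun _ => le_rfl).integrableOn (j1.add j2) hS.measurableSet ?_
      filter_upwards [FX2_box D (l' := l₁) (a := ζ) (b := 2 * ζ) (r := 2 * ζ)
        (by linarith) (by linarith) (by linarith) (by linarith)] with x hx hxS
      have y := mul_le_mul_of_nonneg_left (FX2_sqrt_le a ha (FX2_gs0 pr.gθ x)) (sq_nonneg (s x))
      have b1 : s x ^ 2 ≤ K * ((2 * ζ) ^ 2 * h ^ 2 + ζ ^ 2 * h ^ 2) :=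
        (hx hxS).2.1.trans (by gcongr)
      have b2 := mul_le_mul_of_nonneg_left b1 (by positivity : 0 ≤ 1 / (2 * a))
      linarith
  refine hcs.trans ?_
  calc _ ≤ (4 * (120 * K * M ^ 2 * h ^ 2 *
          ∫ x in cyl x₀ (l₁ + ζ) (ζ / 2) (3 * ζ), pr.θ x ^ 2)) *
        (4 * l₁ ^ 2 * (2 * ζ - ζ) * (5 * K * ζ ^ 2 * h ^ 2)) := by
        refine mul_le_mul (hP.trans (hcac.trans (by linarith))) (by gcongr) (by positivity)
          (by positivity)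
    _ = _ := by ring

theorem FX2_pl_P (x : X) : pl (P x) = pl x := by
  simp [pl, P]

theorem FX2_sym (pr : Pair1 s) (x₀ : X) (r a b : ℝ) :
    ∫ x in cyl x₀ r (-b) (-a), s x ^ 2 * √(gs pr.gθ x) =
      ∫ x in cyl x₀ r a b, s x ^ 2 * √(gs pr.gθ x) := by
  rw [← integral_indicator (measurableSet_cyl _ _ _ _),
    ← integral_indicator (measurableSet_cyl _ _ _ _), ← integral_P]
  refine integral_congr_ae ?_
  have hg := pr.hθ.grad_P (s := 1) (by simpa using pr.θP)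
  filter_upwards [hg, pr.pair.sum, ae_P pr.pair.sum] with x h1 h2 h3
  have e1 : gs pr.gθ (P x) = gs pr.gθ x := by
    rw [← gs_P]
    unfold gs
    simp only [h1, one_mul]
  have e2 : s (P x) ^ 2 = s x ^ 2 := by rw [← h2, ← h3, pr.tP, pr.βP]
  have e3 : P x ∈ cyl x₀ r (-b) (-a) ↔ x ∈ cyl x₀ r a b := by
    simp only [cyl, mem_ofPred_eq, FX2_pl_P, P_two, neg_le_neg_iff]
    tauto
  by_cases hx : x ∈ cyl x₀ r a b
  · rw [indicator_of_mem hx, indicator_of_mem (e3.2 hx), e1, e2]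
  · rw [indicator_of_notMem hx, indicator_of_notMem fun h => hx (e3.1 h)]

theorem FX2_gd_le (g p : Fin 3 → X → ℝ) (x : X) {γ q q' : ℝ} (γ0 : 0 ≤ γ) (γ1 : γ ≤ 1)
    (h0 : |p 0 x| ≤ q) (h1 : |p 1 x| ≤ q) (h2 : |p 2 x| ≤ q') :
    γ * gd g p x ≤ 2 * q * √(gs g x) + q' * √(gs g x) := by
  have hg : ∀ i, |g i x| ≤ √(gs g x) := fun i =>
    Real.abs_le_sqrt (Finset.single_le_sum (f := fun i => g i x ^ 2) (fun _ _ => sq_nonneg _)
      (Finset.mem_univ i))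
  have hi : ∀ i (c : ℝ), |p i x| ≤ c → |g i x * p i x| ≤ √(gs g x) * c := fun i c hc => by
    rw [abs_mul]
    exact mul_le_mul (hg i) hc (abs_nonneg _) (Real.sqrt_nonneg _)
  have a : |gd g p x| ≤ 2 * q * √(gs g x) + q' * √(gs g x) := by
    unfold gd
    rw [Fin.sum_univ_three]
    have := abs_add_three (g 0 x * p 0 x) (g 1 x * p 1 x) (g 2 x * p 2 x)
    linarith [hi 0 q h0, hi 1 q h1, hi 2 q' h2]
  calc γ * gd g p x ≤ γ * |gd g p x| := mul_le_mul_of_nonneg_left (le_abs_self _) γ0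
    _ ≤ 1 * |gd g p x| := mul_le_mul_of_nonneg_right γ1 (abs_nonneg _)
    _ ≤ _ := by rwa [one_mul]

theorem FX2_main : ∃ M₀ : ℝ, 1 ≤ M₀ ∧ ∀ (s : X → ℝ) (pr : Pair1 s) (x₀ : X) (l K τ h L ζ : ℝ),
    FD pr x₀ l K τ h → τ / h ≤ ζ → ζ ≤ L → 2 * L ≤ l →
    ∫ x in cyl x₀ L (-ζ) ζ, s x ^ 2 * (if pr.θ x < 1 then gs pr.gθ x else 0) ≤
      4 * (M₀ / L) * (∫ x in cyl x₀ (2 * L) (-(2 * ζ)) (2 * ζ),
        s x ^ 2 * √(if pr.θ x < 1 then gs pr.gθ x else 0)) +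
      4 * (M₀ / ζ) * (∫ x in cyl x₀ (2 * L) ζ (2 * ζ), s x ^ 2 * √(gs pr.gθ x)) +
      384 * K ^ 2 * pr.lam * ζ ^ 2 * (τ * h * L ^ 2) := by
  obtain ⟨M, hM, hcut⟩ := exists_cut_cyl
  refine ⟨M, hM, fun s pr x₀ l K τ h L ζ D hw hζ hl => ?_⟩
  have hh := D.h0
  have hK := D.K1
  have hτ0 := D.τ0
  have hlam := D.lam0
  have hζ0 : 0 < ζ := lt_of_lt_of_le (div_pos D.τ0 D.h0) hw
  have hτ : τ ^ 2 ≤ ζ ^ 2 * h ^ 2 := by
    rw [← mul_pow]
    exact pow_le_pow_left₀ hτ0.le ((div_le_iff₀ hh).1 hw) 2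
  have hL0 : 0 < L := by linarith
  obtain ⟨χ, hχ, h01, h1, hsup, hd, hd2⟩ :=
    hcut x₀ L L (-ζ) ζ ζ D.x0 (by linarith) hL0 (by linarith) hζ0
  have hsup' : tsupport χ ⊆ cyl x₀ (2 * L) (-(2 * ζ)) (2 * ζ) := fun x hx =>
    ⟨by linarith [(hsup hx).1], by linarith [(hsup hx).2.1], by linarith [(hsup hx).2.2]⟩
  obtain ⟨i1, -⟩ := D.ident hχ (FX2_hc hsup)
  refine (FX2_low (FX2_E_int pr) (fun x => mul_nonneg (sq_nonneg _) (FX2_E0 pr x)) i1
    (measurableSet_cyl _ _ _ _) h1).trans ?_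
  have hS := isCompact_cyl x₀ (2 * L) (-(2 * ζ)) (2 * ζ)
  have hv := (volume_cyl D.x0 (l := 2 * L) (a := -(2 * ζ)) (b := 2 * ζ) (by linarith)
    (by linarith)).2
  have mT := measurableSet_cyl x₀ (2 * L) ζ (2 * ζ)
  have mB := measurableSet_cyl x₀ (2 * L) (-(2 * ζ)) (-ζ)
  have iE := FX2_sqrt_int pr D.m (FX2_E_m pr) (FX2_E0 pr) (FX2_E_le pr)
  have iG := FX2_sqrt_int pr D.m (FX2_gs_m pr) (FX2_gs0 _) fun _ => le_rfl
  have j1 := (iE.indicator hS.measurableSet).const_mul (4 * (M / L))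
  have j2 : Integrable fun x => 2 * (M / ζ) *
      ((cyl x₀ (2 * L) ζ (2 * ζ)).indicator (fun x => s x ^ 2 * √(gs pr.gθ x)) x +
        (cyl x₀ (2 * L) (-(2 * ζ)) (-ζ)).indicator (fun x => s x ^ 2 * √(gs pr.gθ x)) x) :=
    ((iG.indicator mT).add (iG.indicator mB)).const_mul _
  have j3 := FX2_ind hS (6 * K ^ 2 * pr.lam * ζ * (τ * h))
  refine (FX2_ident D hχ (FX2_hc hsup) ((j1.add j2).add j3) ?_).trans ?_
  · filter_upwards [FX2_box D (l' := 2 * L) (a := -(2 * ζ)) (b := 2 * ζ) (r := 2 * ζ)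
      (by linarith) (by linarith) (by linarith) (by linarith), pr.t_ge D.s0] with x hx ht
    simp only [Pi.add_apply]
    have nT : 0 ≤ (cyl x₀ (2 * L) ζ (2 * ζ)).indicator (fun x => s x ^ 2 * √(gs pr.gθ x)) x :=
      indicator_nonneg (fun y _ => by positivity) x
    have nB : 0 ≤ (cyl x₀ (2 * L) (-(2 * ζ)) (-ζ)).indicator
        (fun x => s x ^ 2 * √(gs pr.gθ x)) x := indicator_nonneg (fun y _ => by positivity) x
    have hMζ : 0 ≤ M / ζ := by positivity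
    have nTB := mul_nonneg hMζ (add_nonneg nT nB)
    by_cases hxS : x ∈ cyl x₀ (2 * L) (-(2 * ζ)) (2 * ζ)
    · rw [indicator_of_mem hxS, indicator_of_mem hxS]
      obtain ⟨γ0, γ1⟩ := FX2_γ pr x
      have c0 := (h01 x).1
      have c1 := (h01 x).2
      have hs : s x ≤ 3 * K * ζ * h := by
        refine (abs_le_of_sq_le_sq' ?_ (by positivity)).2
        calc s x ^ 2 ≤ K * ((2 * ζ) ^ 2 * h ^ 2 + ζ ^ 2 * h ^ 2) :=
              (hx hxS).2.1.trans (by gcongr)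
          _ = 5 * (K * 1) * (ζ * h) ^ 2 := by ring
          _ ≤ 9 * (K * K) * (ζ * h) ^ 2 := by gcongr; norm_num
          _ = _ := by ring
      have e2 : 2 * pr.lam * (pr.t x * pr.β x * (max (1 - pr.θ x) 0 * χ x ^ 2)) ≤
          2 * pr.lam * (K * τ * (3 * K * ζ * h) * (1 * 1 ^ 2)) := by
        have := pr.t0 x
        have := pr.β0 x
        gcongr
        · exact (hx hxS).2.2.1
        · exact ht.2.2.2.trans hs
      have e1 : 2 * (s x ^ 2 * (max (1 - pr.θ x) 0 * χ x * gd pr.gθ (pd eX χ) x)) ≤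
          4 * (M / L) * (s x ^ 2 * √(if pr.θ x < 1 then gs pr.gθ x else 0)) +
          2 * (M / ζ) *
            ((cyl x₀ (2 * L) ζ (2 * ζ)).indicator (fun x => s x ^ 2 * √(gs pr.gθ x)) x +
              (cyl x₀ (2 * L) (-(2 * ζ)) (-ζ)).indicator
                (fun x => s x ^ 2 * √(gs pr.gθ x)) x) := by
        by_cases hθ : pr.θ x < 1
        · rw [if_pos hθ]
          have g0 := mul_nonneg γ0 c0
          have g1 := mul_le_one₀ γ1 c0 c1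
          by_cases hz : -ζ < x 2 ∧ x 2 < ζ
          · have y := mul_le_mul_of_nonneg_left (FX2_gd_le pr.gθ (pd eX χ) x g0 g1 (hd x).1
              (hd x).2.1 (q' := 0) (by rw [hd2 x hz.1 hz.2, abs_zero])) (sq_nonneg (s x))
            linarith
          · have y := mul_le_mul_of_nonneg_left (FX2_gd_le pr.gθ (pd eX χ) x g0 g1 (hd x).1
              (hd x).2.1 (hd x).2.2) (sq_nonneg (s x))
            have y2 : s x ^ 2 * √(gs pr.gθ x) ≤
                (cyl x₀ (2 * L) ζ (2 * ζ)).indicator (fun x => s x ^ 2 * √(gs pr.gθ x)) x +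
                  (cyl x₀ (2 * L) (-(2 * ζ)) (-ζ)).indicator
                    (fun x => s x ^ 2 * √(gs pr.gθ x)) x := by
              rcases not_and_or.1 hz with hz | hz
              · rw [indicator_of_mem
                  (show x ∈ cyl x₀ (2 * L) (-(2 * ζ)) (-ζ) from ⟨hxS.1, hxS.2.1, not_lt.1 hz⟩)]
                linarith
              · rw [indicator_of_mem
                  (show x ∈ cyl x₀ (2 * L) ζ (2 * ζ) from ⟨hxS.1, not_lt.1 hz, hxS.2.2⟩)]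
                linarith
            have y3 := mul_le_mul_of_nonneg_left y2 hMζ
            linarith
        · rw [if_neg hθ, max_eq_right (by linarith)]
          simp only [zero_mul, mul_zero, Real.sqrt_zero]
          linarith
      linarith
    · obtain ⟨c0, p0⟩ := FX2_out hsup' hxS
      rw [indicator_of_notMem hxS, indicator_of_notMem hxS, c0]
      linarith
  · simp only [Pi.add_apply]
    rw [← FX2_add3 j1 j2 j3, integral_const_mul, integral_const_mul,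
      integral_add (iG.indicator mT) (iG.indicator mB), integral_indicator hS.measurableSet,
      integral_indicator mT, integral_indicator mB, FX2_sym, FX2_ind_int hS]
    have : volume.real (cyl x₀ (2 * L) (-(2 * ζ)) (2 * ζ)) * (6 * K ^ 2 * pr.lam * ζ * (τ * h)) ≤
        4 * (2 * L) ^ 2 * (2 * ζ - -(2 * ζ)) * (6 * K ^ 2 * pr.lam * ζ * (τ * h)) := by gcongr
    linarith

theorem FX2_meas {pr : Pair1 s} {x₀ : X} {l K τ h : ℝ} (D : FD pr x₀ l K τ h) {r ζ c : ℝ}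
    (hζ : 0 < ζ) (hr0 : 0 ≤ r) (hr : r ≤ l) (hl : 3 * ζ ≤ l) :
    ∫ x in cyl x₀ r (ζ / 2) (3 * ζ), pr.θ x ^ 2 ≤
      volume.real {x | x ∈ cyl x₀ r (ζ / 2) (3 * ζ) ∧ c ≤ pr.θ x} *
        (16 * K ^ 3 * (τ / h) ^ 2 / ζ ^ 2) + 10 * r ^ 2 * ζ * c ^ 2 := by
  have hh := D.h0
  have hK := D.K1
  have hτ0 := D.τ0
  have hS := isCompact_cyl x₀ r (ζ / 2) (3 * ζ)
  have hv := (volume_cyl D.x0 (l := r) (a := ζ / 2) (b := 3 * ζ) hr0 (by linarith)).2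
  have mG : MeasurableSet {x | x ∈ cyl x₀ r (ζ / 2) (3 * ζ) ∧ c ≤ pr.θ x} :=
    hS.measurableSet.inter (measurableSet_le measurable_const pr.hθ.m)
  have fG : volume {x | x ∈ cyl x₀ r (ζ / 2) (3 * ζ) ∧ c ≤ pr.θ x} ≠ ⊤ :=
    ((measure_mono fun x hx => hx.1).trans_lt hS.measure_lt_top).ne
  have j1 : Integrable ({x | x ∈ cyl x₀ r (ζ / 2) (3 * ζ) ∧ c ≤ pr.θ x}.indicator
      fun _ => 16 * K ^ 3 * (τ / h) ^ 2 / ζ ^ 2) :=
    (integrableOn_const fG).integrable_indicator mG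
  have j2 := FX2_ind hS (c ^ 2)
  have key : ∫ x in cyl x₀ r (ζ / 2) (3 * ζ), pr.θ x ^ 2 ≤
      volume.real {x | x ∈ cyl x₀ r (ζ / 2) (3 * ζ) ∧ c ≤ pr.θ x} *
        (16 * K ^ 3 * (τ / h) ^ 2 / ζ ^ 2) + volume.real (cyl x₀ r (ζ / 2) (3 * ζ)) * c ^ 2 := by
    rw [← FX2_ind_int hS, ← smul_eq_mul (volume.real _), ← integral_indicator_const _ mG,
      ← integral_add j1 j2, ← integral_indicator hS.measurableSet]
    refine integral_mono_of_nonneg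
      (ae_of_all _ fun x => indicator_nonneg (fun y _ => by positivity) x) (j1.add j2) ?_
    filter_upwards [FX2_box D (l' := r) (a := ζ / 2) (b := 3 * ζ) (r := 3 * ζ)
      hr (by linarith) le_rfl hl] with x hx
    have θ0 := (pr.θ0 x).1
    by_cases hxS : x ∈ cyl x₀ r (ζ / 2) (3 * ζ)
    · rw [indicator_of_mem hxS, indicator_of_mem hxS]
      by_cases hc : c ≤ pr.θ x
      · rw [indicator_of_mem (show x ∈ {x | x ∈ cyl x₀ r (ζ / 2) (3 * ζ) ∧ c ≤ pr.θ x} from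
          ⟨hxS, hc⟩)]
        have a1 : ζ / 2 * h * pr.θ x ≤ 2 * K * √K * τ := by
          refine le_trans ?_ (hx hxS).2.2.2.1
          gcongr
          exact hxS.2.1.trans (le_abs_self _)
        have a2 : pr.θ x ≤ 4 * K * √K * (τ / h) / ζ := by
          rw [← mul_div_assoc, div_div, le_div_iff₀ (by positivity)]
          linarith
        have a3 : (4 * K * √K * (τ / h) / ζ) ^ 2 = 16 * K ^ 3 * (τ / h) ^ 2 / ζ ^ 2 := by
          rw [div_pow, mul_pow, mul_pow, Real.sq_sqrt (by linarith)]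
          ring
        have a4 := pow_le_pow_left₀ θ0 a2 2
        linarith [sq_nonneg c]
      · rw [indicator_of_notMem (s := {x | x ∈ cyl x₀ r (ζ / 2) (3 * ζ) ∧ c ≤ pr.θ x})
          fun h => hc h.2, zero_add]
        exact pow_le_pow_left₀ θ0 (not_le.1 hc).le 2
    · rw [indicator_of_notMem hxS, indicator_of_notMem hxS,
        indicator_of_notMem (s := {x | x ∈ cyl x₀ r (ζ / 2) (3 * ζ) ∧ c ≤ pr.θ x})
          fun h => hxS h.1, zero_add]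
  have := mul_le_mul_of_nonneg_right hv (sq_nonneg c)
  linarith

theorem FX2_num {w h L ζ c₁ c₂ M₀ C₃ K c₀ I J V : ℝ} (hw : 0 < w) (hh : 0 < h) (hζ : 0 < ζ)
    (hL : ζ ≤ L) (hc₁ : 0 < c₁) (hM : 0 < M₀) (hC : 0 < C₃) (hK : 1 ≤ K) (h0 : 0 < c₀)
    (h1 : c₀ ≤ 1) (hc₂ : c₂ = c₁ ^ 2 / (256 * M₀ ^ 2 * C₃)) (h2 : c₀ ≤ c₂ / 180)
    (h3 : c₀ ≤ c₂ / (32 * K ^ 3)) (a1 : c₁ * (w * h * h * L ^ 2) / 2 ≤ 4 * (M₀ / ζ) * I)
    (a2 : I ^ 2 ≤ C₃ * (h ^ 4 * ζ ^ 3 * (2 * L) ^ 2) * J)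
    (a3 : J ≤ V * (16 * K ^ 3 * w ^ 2 / ζ ^ 2) + 10 * (3 * L) ^ 2 * ζ * (c₀ * w / ζ) ^ 2) :
    c₀ * ζ ^ 3 ≤ V := by
  have hL0 : 0 < L := by linarith
  have b1 : c₁ * (w * h * h * L ^ 2) * ζ / (8 * M₀) ≤ I := by
    rw [div_le_iff₀ (by positivity)]
    have := mul_le_mul_of_nonneg_right a1 (by positivity : 0 ≤ 2 * ζ)
    have e : 4 * (M₀ / ζ) * I * (2 * ζ) = I * (8 * M₀) := by field_simp; ring
    linarith
  have b2 := ((pow_le_pow_left₀ (by positivity) b1 2).trans a2).trans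
    (mul_le_mul_of_nonneg_left a3 (by positivity))
  have b3 : (c₂ * (L ^ 2 * ζ)) * (4 * C₃ * h ^ 4 * w ^ 2 * L ^ 2 * ζ) ≤
      (16 * K ^ 3 * V + 90 * c₀ ^ 2 * (L ^ 2 * ζ)) * (4 * C₃ * h ^ 4 * w ^ 2 * L ^ 2 * ζ) := by
    refine (le_of_eq ?_).trans (b2.trans (le_of_eq ?_))
    · rw [hc₂]; field_simp; ring
    · field_simp; ring
  have b4 := le_of_mul_le_mul_right b3 (by positivity)
  have b5 : 90 * c₀ ^ 2 * (L ^ 2 * ζ) ≤ c₂ / 2 * (L ^ 2 * ζ) := by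
    gcongr
    nlinarith
  have b6 : c₀ * (32 * K ^ 3) ≤ c₂ := (le_div_iff₀ (by positivity)).1 h3
  have b7 : c₀ * (32 * K ^ 3) * (ζ ^ 2 * ζ) ≤ c₂ * (L ^ 2 * ζ) := by
    have : 0 ≤ c₂ := le_trans (by positivity) b6
    gcongr
  have b8 : c₀ * ζ ^ 3 * (16 * K ^ 3) ≤ V * (16 * K ^ 3) := by linarith
  exact le_of_mul_le_mul_right b8 (by positivity)

/-- `FD.ident` with `χ = 1` on `cyl x₀ L (-ζ) ζ`, `L = M ζ`, `l' = L`, `d = ζ`.  Left hand side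
`≥ c₁ τ h L²` (`FD.cap`, `8 K √K w ≤ ζ`).  Right hand side: lateral part `≤ C τ h L² / M`
(`flux_lat` with `l₁ = 2 L`), the term with `lam` is `≤ C lam ζ² τ h L²` (`t ≤ K τ`,
`β ≤ s ≤ √(5 K) ζ h`), top and bottom layers are equal by the symmetry (`θP`, `H1l.grad_P`; `s` is
even almost everywhere since `t`, `β` are) and are bounded by `flux_top`.  Hence
`∫ θ² ≥ c w² L² / ζ` over `cyl x₀ (3 L) (ζ/2) (3 ζ)`, where `θ ≤ 4 K √K w / ζ` (`FD.θ_le`). -/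
theorem flux (K : ℝ) : ∃ M c₀ lam₀ : ℝ, 1 ≤ M ∧ 0 < c₀ ∧ c₀ ≤ 1 ∧ 0 < lam₀ ∧ lam₀ ≤ 1 ∧
    ∀ (s : X → ℝ) (pr : Pair1 s) (x₀ : X) (l τ h ζ : ℝ), FD pr x₀ l K τ h → pr.lam ≤ lam₀ →
      M * (τ / h) ≤ ζ → 8 * M * ζ ≤ l →
      c₀ * ζ ^ 3 ≤ volume.real
        {x | x ∈ cyl x₀ (3 * M * ζ) (ζ / 2) (3 * ζ) ∧ c₀ * (τ / h) / ζ ≤ pr.θ x} := by
  by_cases hK : 1 ≤ K
  swap
  · exact ⟨1, 1, 1, le_rfl, one_pos, le_rfl, one_pos, le_rfl,
      fun s pr x₀ l τ h ζ D => absurd D.K1 hK⟩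
  obtain ⟨M₀, hM₀, hmain⟩ := FX2_main
  obtain ⟨C₂, hC₂, hlat⟩ := flux_lat K
  obtain ⟨C₃, hC₃, htop⟩ := flux_top K
  have hsK : 1 ≤ √K := Real.one_le_sqrt.2 hK
  obtain ⟨c₁, hc₁⟩ : ∃ c₁ : ℝ, c₁ = 1 / (1000 * K ^ 2 * √K) := ⟨_, rfl⟩
  have hc₁0 : 0 < c₁ := by rw [hc₁]; positivity
  obtain ⟨c₂, hc₂⟩ : ∃ c₂ : ℝ, c₂ = c₁ ^ 2 / (256 * M₀ ^ 2 * C₃) := ⟨_, rfl⟩
  have hc₂0 : 0 < c₂ := by rw [hc₂]; positivity
  have hKK : 1 ≤ K * √K := one_le_mul_of_one_le_of_one_le hK hsK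
  obtain ⟨M, hM1, hM2⟩ : ∃ M : ℝ, 8 * K * √K ≤ M ∧ 64 * M₀ * C₂ / c₁ ≤ M :=
    ⟨max _ _, le_max_left _ _, le_max_right _ _⟩
  have hM : 1 ≤ M := by linarith
  obtain ⟨c₀, h0, h1, h2, h3⟩ : ∃ c₀ : ℝ, 0 < c₀ ∧ c₀ ≤ 1 ∧ c₀ ≤ c₂ / 180 ∧
      c₀ ≤ c₂ / (32 * K ^ 3) :=
    ⟨min 1 (min (c₂ / 180) (c₂ / (32 * K ^ 3))), by positivity, min_le_left _ _,
      (min_le_right _ _).trans (min_le_left _ _), (min_le_right _ _).trans (min_le_right _ _)⟩
  refine ⟨M, c₀, min 1 (c₁ / (1536 * K ^ 2)), hM, h0, h1, by positivity, min_le_left _ _,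
    fun s pr x₀ l τ h ζ D hlam hw hl => ?_⟩
  have hh := D.h0
  have hτ0 := D.τ0
  have hw0 : 0 < τ / h := div_pos hτ0 hh
  have hwζ : τ / h ≤ ζ := (le_mul_of_one_le_left hw0.le hM).trans hw
  have hζ0 : 0 < ζ := hw0.trans_le hwζ
  obtain ⟨L, hL⟩ : ∃ L : ℝ, L = M * ζ := ⟨_, rfl⟩
  have hζL : ζ ≤ L := by rw [hL]; exact le_mul_of_one_le_left hζ0.le hM
  have hL0 : 0 < L := by linarith
  have hLl : 8 * L ≤ l := by rw [hL]; linarith
  have hδ : 8 * K * √K * (τ / h) ≤ ζ := (mul_le_mul_of_nonneg_right hM1 hw0.le).trans hw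
  rw [show 3 * M * ζ = 3 * L by rw [hL]; ring, mul_div_assoc, ← mul_div_assoc]
  have a0 := D.cap hL0 (by linarith) (by linarith)
  have a1 : ∫ x in cyl x₀ L 0 (8 * K * √K * (τ / h)),
      s x ^ 2 * (if pr.θ x < 1 then gs pr.gθ x else 0) ≤
      ∫ x in cyl x₀ L (-ζ) ζ, s x ^ 2 * (if pr.θ x < 1 then gs pr.gθ x else 0) :=
    setIntegral_mono_set (FX2_E_int pr).integrableOn
      (ae_of_all _ fun x => mul_nonneg (sq_nonneg _) (FX2_E0 pr x))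
      (LE.le.eventuallyLE fun x hx =>
        ⟨hx.1, by linarith [hx.2.1], hx.2.2.trans hδ⟩)
  have a2 := hmain s pr x₀ l K τ h L ζ D hwζ hζL (by linarith)
  have a3 := hlat s pr x₀ l τ h (2 * L) ζ D (hlam.trans (min_le_left _ _)) hwζ (by linarith)
    (by linarith)
  have a4 := htop s pr x₀ l τ h (2 * L) ζ D hwζ (by linarith) (by linarith)
  have a5 : ∫ x in cyl x₀ (2 * L + ζ) (ζ / 2) (3 * ζ), pr.θ x ^ 2 ≤
      ∫ x in cyl x₀ (3 * L) (ζ / 2) (3 * ζ), pr.θ x ^ 2 :=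
    setIntegral_mono_set (pr.hθ.l2 _ (isCompact_cyl _ _ _ _)).integrable_sq
      (ae_of_all _ fun x => sq_nonneg _)
      (LE.le.eventuallyLE fun x hx => ⟨by linarith [hx.1], hx.2⟩)
  have a6 := FX2_meas D (r := 3 * L) (ζ := ζ) (c := c₀ * (τ / h) / ζ) hζ0 (by linarith)
    (by linarith) (by linarith)
  refine FX2_num hw0 hh hζ0 hζL hc₁0 (by linarith : 0 < M₀) hC₃ hK h0 h1 hc₂ h2 h3 ?_ a4
    (a5.trans a6)
  have hZ : 0 < τ * h * L ^ 2 := by positivity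
  have e0 : τ / h * h * h * L ^ 2 = τ * h * L ^ 2 := by field_simp
  have e1 : τ * h * L ^ 2 / (1000 * K ^ 2 * √K) = c₁ * (τ * h * L ^ 2) := by
    rw [hc₁]; ring
  have b1 : 4 * (M₀ / L) * (∫ x in cyl x₀ (2 * L) (-(2 * ζ)) (2 * ζ),
      s x ^ 2 * √(if pr.θ x < 1 then gs pr.gθ x else 0)) ≤ c₁ / 4 * (τ * h * L ^ 2) := by
    refine (mul_le_mul_of_nonneg_left a3 (by positivity)).trans ?_
    have e2 : 4 * (M₀ / L) * (C₂ * (τ * h * (2 * L) ^ 2 * ζ)) =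
        16 * M₀ * C₂ / M * (τ * h * L ^ 2) := by
      have : ζ = L / M := by rw [hL]; field_simp
      rw [this]; field_simp; ring
    rw [e2]
    refine mul_le_mul_of_nonneg_right ?_ hZ.le
    rw [div_le_iff₀ hc₁0] at hM2
    rw [div_le_iff₀ (by linarith)]
    linarith
  have b2 : 384 * K ^ 2 * pr.lam * ζ ^ 2 * (τ * h * L ^ 2) ≤ c₁ / 4 * (τ * h * L ^ 2) := by
    have hζ1 : ζ ≤ 1 := by linarith [D.l1]
    have hl2 := hlam.trans (min_le_right _ _)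
    calc _ ≤ 384 * K ^ 2 * (c₁ / (1536 * K ^ 2)) * 1 ^ 2 * (τ * h * L ^ 2) := by gcongr
      _ = _ := by field_simp; ring
  rw [e0]
  linarith

end Crest.Agent.R335
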