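import Crest.Agent.R335.GDefs

/-! Row 335. Stage B: the heat semigroup near the plane. -/

set_option autoImplicit false

open MeasureTheory Set Filter Topology
open scoped ENNReal

noncomputable section

namespace Crest.Agent.R335

variable {c : ℝ} {o : One c} {C ε : ℝ}

variable {s : ℝ} {f u : X → ℝ}

theorem GLat_H (hs : 0 < s) (z : X) : (1 + ‖z‖) * G s z ≤ 3 * Real.exp s * G (2 * s) z := by
  have h1 := G_exp_le (κ := 1) hs z
  rw [one_pow, one_mul, one_mul] at h1
  have h2 : 1 + ‖z‖ ≤ Real.exp ‖z‖ := by linarith [Real.add_one_le_exp ‖z‖]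
  have h3 := G_pos hs z
  nlinarith

theorem integrable_tl (hs : 0 < s) (hf : MemLp f 2 volume) (x : X) :
    Integrable fun y => (1 + ‖x - y‖) * G s (x - y) * f y := by
  have h2 : 0 < 2 * s := by linarith
  refine ((integrable_Gc h2 hf x).norm.const_mul (3 * Real.exp s)).mono' ?_
    (Eventually.of_forall fun y => ?_)
  · exact (((by fun_prop : Continuous fun y : X => 1 + ‖x - y‖).mul
      (LGauss2_meas_G s x)).aestronglyMeasurable).mul hf.1
  · have h1 := GLat_H hs (x - y)
    have h3 := G_pos hs (x - y)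
    have h4 := G_pos h2 (x - y)
    rw [norm_mul, norm_mul (G _ _), Real.norm_of_nonneg (by positivity), Real.norm_of_nonneg h4.le,
      ← mul_assoc]
    exact mul_le_mul_of_nonneg_right h1 (norm_nonneg _)

theorem tl_nonneg (hs : 0 < s) (h0 : ∀ᵐ y, 0 ≤ f y) (v x : X) : 0 ≤ tl s f v x := by
  refine integral_nonneg_of_ae (ae_restrict_of_ae ?_)
  filter_upwards [h0] with y hy
  have := G_pos hs (x - y)
  positivity

/-- Comparison of two integrals up to the bad displacements. -/
theorem GLat_cmp (hs : 0 < s) (hf : MemLp f 2 volume) (h0 : ∀ᵐ y, 0 ≤ f y) (v x : X)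
    {a b : X → ℝ} (ha : Integrable fun y => a y * f y) (hb : Integrable fun y => b y * f y)
    (h1 : ∀ y, x - y ∉ bad s v → a y ≤ b y)
    (h2 : ∀ y, x - y ∈ bad s v → a y ≤ b y + (1 + ‖x - y‖) * G s (x - y)) :
    ∫ y, a y * f y ≤ (∫ y, b y * f y) + tl s f v x := by
  have hm : MeasurableSet {y | x - y ∈ bad s v} :=
    (measurableSet_bad s v).preimage (measurable_const.sub measurable_id)
  have hi := (integrable_tl hs hf x).indicator hm
  rw [tl, ← integral_indicator hm, ← integral_add hb hi]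
  refine integral_mono_ae ha (hb.add hi) ?_
  filter_upwards [h0] with y hy
  by_cases h : x - y ∈ bad s v
  · rw [indicator_of_mem (show y ∈ {y | x - y ∈ bad s v} from h), ← add_mul]
    exact mul_le_mul_of_nonneg_right (h2 y h) hy
  · rw [indicator_of_notMem (show y ∉ {y | x - y ∈ bad s v} from h), add_zero]
    exact mul_le_mul_of_nonneg_right (h1 y h) hy

theorem GLat_inner (hs : 1 ≤ s) (z w : X) : |inner ℝ z w / s| ≤ ‖z‖ / s * ‖w‖ := by
  have hs0 : 0 < s := by linarith
  rw [abs_div, abs_of_pos hs0, div_mul_eq_mul_div]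
  exact div_le_div_of_nonneg_right (abs_real_inner_le_norm z w) hs0.le

theorem GLat_div (hs : 1 ≤ s) (z : X) : ‖z‖ / s ≤ ‖z‖ := div_le_self (norm_nonneg z) hs

/-- `fderiv_Gc`; off the bad set `⟪x - y, v⟫ / s ≥ 1/4`. -/
theorem Gc_rad (hs : 1 ≤ s) (hf : MemLp f 2 volume) (h0 : ∀ᵐ y, 0 ≤ f y) {v : X} (hv : ‖v‖ = 1)
    (x : X) : fderiv ℝ (Gc s f) x v ≤ -Gc s f x / 4 + tl s f v x := by
  have hs0 : 0 < s := by linarith
  obtain ⟨h1, h2⟩ := fderiv_Gc hs0 hf x v
  have h3 := GLat_cmp hs0 hf h0 v x (a := fun y => -(inner ℝ (x - y) v / s) * G s (x - y))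
    (b := fun y => -(1 / 4) * G s (x - y)) (h1.neg.congr (Eventually.of_forall fun y => by
      simp only [Pi.neg_apply]; ring))
    (((integrable_Gc hs0 hf x).const_mul (-(1 / 4))).congr (Eventually.of_forall fun y => by
      simp only [mul_assoc])) (fun y hy => ?_) (fun y _ => ?_)
  · rw [h2, ← integral_neg]
    simp only [mul_assoc (-(1 / 4) : ℝ), integral_const_mul] at h3
    simp only [neg_mul] at h3
    unfold Gc
    linarith
  · have h4 : s / 4 < inner ℝ v (x - y) := by
      by_contra hc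
      exact hy (Or.inl (not_lt.1 hc))
    refine mul_le_mul_of_nonneg_right (neg_le_neg ?_) (G_pos hs0 _).le
    rw [real_inner_comm, le_div_iff₀ hs0]
    linarith
  · have h4 := GLat_inner hs (x - y) v
    rw [hv, mul_one] at h4
    have h5 := neg_abs_le (inner ℝ (x - y) v / s)
    have h6 := GLat_div hs (x - y)
    have h7 := G_pos hs0 (x - y)
    nlinarith

/-- Off the bad set `‖x - y‖ / s ≤ 2`. -/
theorem Gc_grad (hs : 1 ≤ s) (hf : MemLp f 2 volume) (h0 : ∀ᵐ y, 0 ≤ f y) (v x w : X) :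
    |fderiv ℝ (Gc s f) x w| ≤ (2 * Gc s f x + tl s f v x) * ‖w‖ := by
  have hs0 : 0 < s := by linarith
  obtain ⟨h1, h2⟩ := fderiv_Gc hs0 hf x w
  have hi : Integrable fun y => ‖x - y‖ / s * G s (x - y) * f y := by
    refine (((integrable_tl hs0 hf x).sub (integrable_Gc hs0 hf x)).const_mul s⁻¹).congr
      (Eventually.of_forall fun y => ?_)
    simp only [Pi.sub_apply]
    ring
  have h3 := GLat_cmp hs0 hf h0 v x (a := fun y => ‖x - y‖ / s * G s (x - y))
    (b := fun y => 2 * G s (x - y)) hi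
    (((integrable_Gc hs0 hf x).const_mul 2).congr (Eventually.of_forall fun y => by
      simp only [mul_assoc])) (fun y hy => ?_) (fun y _ => ?_)
  · simp only [mul_assoc (2 : ℝ), integral_const_mul] at h3
    rw [h2, abs_neg]
    refine le_trans ?_ (mul_le_mul_of_nonneg_right h3 (norm_nonneg w))
    rw [← integral_mul_const, ← Real.norm_eq_abs]
    refine norm_integral_le_of_norm_le (hi.mul_const _) ?_
    filter_upwards [h0] with y hy
    have h7 := G_pos hs0 (x - y)
    rw [Real.norm_eq_abs, abs_mul, abs_mul, abs_of_pos h7, abs_of_nonneg hy]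
    calc |inner ℝ (x - y) w / s| * G s (x - y) * f y
        ≤ ‖x - y‖ / s * ‖w‖ * G s (x - y) * f y := by
          gcongr
          exact GLat_inner hs _ _
      _ = _ := by ring
  · have h4 : ‖x - y‖ < 2 * s := by
      by_contra hc
      exact hy (Or.inr (not_lt.1 hc))
    refine mul_le_mul_of_nonneg_right ?_ (G_pos hs0 _).le
    rw [div_le_iff₀ hs0]
    exact h4.le
  · have h6 := GLat_div hs (x - y)
    have h7 := G_pos hs0 (x - y)
    nlinarith

theorem GLat_G_pl (hs : 0 < s) (x y : X) :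
    G s (x - y) = G s (pl x - y) * Real.exp (x 2 * y 2 / s - x 2 ^ 2 / (2 * s)) := by
  have e : ‖x - y‖ ^ 2 = ‖pl x - y‖ ^ 2 + x 2 ^ 2 - 2 * x 2 * y 2 := by
    simp only [EuclideanSpace.real_norm_sq_eq, Fin.sum_univ_three, pl, PiLp.sub_apply]
    simp
    ring
  unfold G
  rw [e, mul_assoc _ (Real.exp _), ← Real.exp_add]
  congr 2
  field_simp
  ring

theorem GLat_G_add (hs : 0 < s) (x y : X) : G s (x - y) + G s (P x - y) =
    2 * (G s (pl x - y) * Real.exp (-(x 2 ^ 2 / (2 * s)))) * Real.cosh (x 2 * y 2 / s) := by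
  rw [GLat_G_pl hs x y, GLat_G_pl hs (P x) y, pl_P, P_two, Real.cosh_eq,
    sub_eq_add_neg (x 2 * y 2 / s), sub_eq_add_neg (-x 2 * y 2 / s), Real.exp_add, Real.exp_add,
    neg_sq, neg_mul, neg_div]
  ring

theorem GLat_G_sub (hs : 0 < s) (x y : X) : G s (x - y) - G s (P x - y) =
    2 * (G s (pl x - y) * Real.exp (-(x 2 ^ 2 / (2 * s)))) * Real.sinh (x 2 * y 2 / s) := by
  rw [GLat_G_pl hs x y, GLat_G_pl hs (P x) y, pl_P, P_two, Real.sinh_eq,
    sub_eq_add_neg (x 2 * y 2 / s), sub_eq_add_neg (-x 2 * y 2 / s), Real.exp_add, Real.exp_add,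
    neg_sq, neg_mul, neg_div]
  ring

theorem GLat_exp (hs : 1 ≤ s) {a : ℝ} (ha : |a| ≤ 1) : 1 / 2 ≤ Real.exp (-(a ^ 2 / (2 * s))) := by
  have h1 : a ^ 2 ≤ 1 := by rw [← sq_abs]; nlinarith [abs_nonneg a]
  have h2 : a ^ 2 / (2 * s) ≤ 1 / 2 := by
    rw [div_le_iff₀ (by linarith)]
    linarith
  linarith [Real.add_one_le_exp (-(a ^ 2 / (2 * s)))]

theorem GLat_even (hs : 0 < s) (hf : MemLp f 2 volume) (he : ∀ y, f (P y) = f y) (x : X) :
    Integrable (fun y => (G s (x - y) + G s (P x - y)) * f y) ∧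
      ∫ y, (G s (x - y) + G s (P x - y)) * f y = 2 * Gc s f x := by
  have hi := integrable_Gc hs hf x
  obtain ⟨h1, h2⟩ := LGauss2_refl s (s := 1) (f := f)
    (Eventually.of_forall fun y => by rw [he, one_mul]) x hi (by norm_num)
  simp only [add_mul]
  refine ⟨hi.add h1, ?_⟩
  rw [integral_add hi h1, h2]
  unfold Gc
  ring

/-- `G s (x - y) = G s (pl x - y) exp (x₂ y₂ / s - x₂² / (2 s))`, and `|y₂| ≤ 3 s` off the bad set. -/
theorem Gc_le_pl (hs : 1 ≤ s) (hf : MemLp f 2 volume) (h0 : ∀ᵐ y, 0 ≤ f y) (v : X) {x : X}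
    (hx : |x 2| ≤ 1) : Gc s f x ≤ 21 * Gc s f (pl x) + tl s f v x := by
  have hs0 : 0 < s := by linarith
  have h3 := GLat_cmp hs0 hf h0 v x (a := fun y => G s (x - y))
    (b := fun y => 21 * G s (pl x - y)) (integrable_Gc hs0 hf x)
    (((integrable_Gc hs0 hf (pl x)).const_mul 21).congr (Eventually.of_forall fun y => by
      simp only [mul_assoc])) (fun y hy => ?_) (fun y _ => ?_)
  · simp only [mul_assoc (21 : ℝ), integral_const_mul] at h3
    exact h3
  · have h4 : ‖x - y‖ < 2 * s := by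
      by_contra hc
      exact hy (Or.inr (not_lt.1 hc))
    have h5 := abs_two_le (x - y)
    rw [PiLp.sub_apply] at h5
    have h6 : |y 2| ≤ 3 * s := by
      have : y 2 = x 2 - (x 2 - y 2) := by ring
      rw [this]
      linarith [abs_sub (x 2) (x 2 - y 2)]
    have h7 : x 2 * y 2 / s - x 2 ^ 2 / (2 * s) ≤ 3 := by
      have a1 : x 2 * y 2 ≤ 3 * s := by
        have := le_abs_self (x 2 * y 2)
        rw [abs_mul] at this
        nlinarith [abs_nonneg (x 2), abs_nonneg (y 2)]
      have a2 : x 2 * y 2 / s ≤ 3 := by rwa [div_le_iff₀ hs0]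
      have a3 : 0 ≤ x 2 ^ 2 / (2 * s) := by positivity
      linarith
    have h8 : Real.exp 3 ≤ 21 := by
      have e : Real.exp 3 = Real.exp 1 ^ 3 := by rw [← Real.exp_nat_mul]; norm_num
      rw [e]
      calc Real.exp 1 ^ 3 ≤ 2.7182818286 ^ 3 :=
            pow_le_pow_left₀ (Real.exp_pos _).le Real.exp_one_lt_d9.le 3
        _ ≤ 21 := by norm_num
    beta_reduce
    rw [GLat_G_pl hs0 x y, mul_comm]
    exact mul_le_mul_of_nonneg_right ((Real.exp_le_exp.2 h7).trans h8) (G_pos hs0 _).le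
  · have h6 := G_pos hs0 (pl x - y)
    have h7 := G_pos hs0 (x - y)
    have h8 := norm_nonneg (x - y)
    beta_reduce
    nlinarith

/-- Symmetrise: `cosh ≥ 1`, `exp (-1/2) ≥ 1/2`. -/
theorem Gc_ge_pl (hs : 1 ≤ s) (hf : MemLp f 2 volume) (h0 : ∀ᵐ y, 0 ≤ f y)
    (he : ∀ y, f (P y) = f y) {x : X} (hx : |x 2| ≤ 1) : Gc s f (pl x) ≤ 2 * Gc s f x := by
  have hs0 : 0 < s := by linarith
  obtain ⟨h1, h2⟩ := GLat_even hs0 hf he x
  rw [← h2]
  refine integral_mono_ae (integrable_Gc hs0 hf _) h1 ?_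
  filter_upwards [h0] with y hy
  refine mul_le_mul_of_nonneg_right ?_ hy
  rw [GLat_G_add hs0]
  have h3 := GLat_exp hs hx
  have h4 := Real.one_le_cosh (x 2 * y 2 / s)
  have h5 := G_pos hs0 (pl x - y)
  calc G s (pl x - y) = 2 * (G s (pl x - y) * (1 / 2)) * 1 := by ring
    _ ≤ _ := by gcongr

theorem GLat_sinh (a : ℝ) : ∃ q, 1 ≤ q ∧ q ≤ Real.cosh a ∧ Real.sinh a = a * q := by
  have key : ∀ a : ℝ, 0 < a → ∃ q, 1 ≤ q ∧ q ≤ Real.cosh a ∧ Real.sinh a = a * q := by
    intro a ha
    obtain ⟨b, hb, e⟩ := exists_hasDerivAt_eq_slope Real.sinh Real.cosh ha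
      Real.continuous_sinh.continuousOn fun x _ => Real.hasDerivAt_sinh x
    refine ⟨Real.cosh b, Real.one_le_cosh b, ?_, ?_⟩
    · rw [Real.cosh_le_cosh, abs_of_pos hb.1, abs_of_pos ha]
      exact hb.2.le
    · rw [e, Real.sinh_zero, sub_zero, sub_zero]
      field_simp
  rcases lt_trichotomy a 0 with h | h | h
  · obtain ⟨q, q1, q2, q3⟩ := key (-a) (by linarith)
    rw [Real.cosh_neg] at q2
    rw [Real.sinh_neg] at q3
    exact ⟨q, q1, q2, by linarith⟩
  · subst h
    exact ⟨1, le_rfl, Real.one_le_cosh 0, by simp⟩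
  · exact key a h

/-- For odd `u` with `y₂ u ≥ 0`:
`Gc s u x = ∫ G s (pl x - y) exp (-x₂² / (2 s)) sinh (x₂ y₂ / s) u y`, and
`1 ≤ sinh a / a ≤ cosh a`. -/
theorem Gc_odd_two (hs : 1 ≤ s) (hu : MemLp u 2 volume) (hf : MemLp (fun y : X => y 2 * u y) 2 volume)
    (h0 : ∀ᵐ y : X, 0 ≤ y 2 * u y) (ho : ∀ y, u (P y) = -u y) (x : X) :
    0 ≤ x 2 * Gc s u x ∧ |Gc s u x| ≤ |x 2| * (Gc s (fun y => y 2 * u y) x / s) ∧
      (|x 2| ≤ 1 → |x 2| * (Gc s (fun y => y 2 * u y) (pl x) / s) ≤ 2 * |Gc s u x|) := by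
  have hs0 : 0 < s := by linarith
  have he : ∀ y : X, P y 2 * u (P y) = y 2 * u y := fun y => by rw [ho, P_two]; ring
  obtain ⟨h1, h2⟩ := LGauss2_odd_eq s (Eventually.of_forall ho) x (integrable_Gc hs0 hu x)
  obtain ⟨h3, h4⟩ := GLat_even hs0 hf he x
  by_cases hx : x 2 = 0
  · have : Gc s u x = 0 := by
      rw [h2]
      simp only [GLat_G_sub hs0, hx, zero_mul, zero_div, Real.sinh_zero, mul_zero, integral_zero]
    simp [this, hx]
  set J : X → ℝ := fun y => (x 2)⁻¹ * ((G s (x - y) - G s (P x - y)) * u y) with hJ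
  have hJi : Integrable J := h1.const_mul _
  have hJe : Gc s u x = x 2 * ((∫ y, J y) / 2) := by
    rw [h2, hJ, integral_const_mul]
    field_simp
  have hq : ∀ y, ∃ q, 1 ≤ q ∧ q ≤ Real.cosh (x 2 * y 2 / s) ∧
      J y = 2 * (G s (pl x - y) * Real.exp (-(x 2 ^ 2 / (2 * s)))) * q * (y 2 * u y) / s := by
    intro y
    obtain ⟨q, q1, q2, q3⟩ := GLat_sinh (x 2 * y 2 / s)
    refine ⟨q, q1, q2, ?_⟩
    simp only [hJ]
    rw [GLat_G_sub hs0, q3]
    field_simp
  have hJ0 : 0 ≤ ∫ y, J y := by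
    refine integral_nonneg_of_ae ?_
    filter_upwards [h0] with y hy
    obtain ⟨q, q1, -, q3⟩ := hq y
    have := G_pos hs0 (pl x - y)
    rw [q3]
    have : 0 ≤ q := by linarith
    positivity
  have hJ1 : ∫ y, J y ≤ 2 * Gc s (fun y => y 2 * u y) x / s := by
    rw [← h4, ← integral_div]
    refine integral_mono_ae hJi (h3.div_const _) ?_
    filter_upwards [h0] with y hy
    obtain ⟨q, -, q2, q3⟩ := hq y
    have := G_pos hs0 (pl x - y)
    rw [q3, GLat_G_add hs0]
    gcongr
  have habs : |Gc s u x| = |x 2| * ((∫ y, J y) / 2) := by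
    rw [hJe, abs_mul, abs_of_nonneg (div_nonneg hJ0 (by norm_num))]
  refine ⟨?_, ?_, fun hx1 => ?_⟩
  · rw [hJe, ← mul_assoc]
    exact mul_nonneg (mul_self_nonneg _) (div_nonneg hJ0 (by norm_num))
  · rw [habs]
    refine mul_le_mul_of_nonneg_left ?_ (abs_nonneg _)
    rw [mul_div_assoc] at hJ1
    linarith
  · have hJ2 : Gc s (fun y => y 2 * u y) (pl x) / s ≤ ∫ y, J y := by
      unfold Gc
      rw [← integral_div]
      refine integral_mono_ae ((integrable_Gc hs0 hf _).div_const _) hJi ?_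
      filter_upwards [h0] with y hy
      obtain ⟨q, q1, -, q3⟩ := hq y
      have h5 := G_pos hs0 (pl x - y)
      have h6 := GLat_exp hs hx1
      rw [q3]
      calc G s (pl x - y) * (y 2 * u y) / s
          = 2 * (G s (pl x - y) * (1 / 2)) * 1 * (y 2 * u y) / s := by ring
        _ ≤ _ := by gcongr
    rw [habs]
    nlinarith [abs_nonneg (x 2)]

theorem Gc_time {s' : ℝ} (hs : 0 < s) (h1 : s ≤ s') (h2 : s' ≤ 2 * s) (hf : MemLp f 2 volume)
    (h0 : ∀ᵐ y, 0 ≤ f y) (x : X) : Gc s f x ≤ 3 * Gc s' f x := by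
  have hs' : 0 < s' := by linarith
  have e2 : (s' / s) ^ (3 / 2 : ℝ) ≤ 3 := by
    have a1 : (s' / s) ^ (3 / 2 : ℝ) ≤ (2 : ℝ) ^ (3 / 2 : ℝ) :=
      Real.rpow_le_rpow (by positivity) (by rwa [div_le_iff₀ hs]) (by norm_num)
    have : ((2 : ℝ) ^ (3 / 2 : ℝ)) ^ 2 = 8 := by
      rw [← Real.rpow_natCast, ← Real.rpow_mul (by norm_num)]
      norm_num
    nlinarith [Real.rpow_nonneg (show (0 : ℝ) ≤ 2 by norm_num) (3 / 2 : ℝ)]
  unfold Gc
  rw [← integral_const_mul]
  refine integral_mono_ae (integrable_Gc hs hf x) ((integrable_Gc hs' hf x).const_mul _) ?_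
  filter_upwards [h0] with y hy
  rw [← mul_assoc]
  refine mul_le_mul_of_nonneg_right ((G_le hs h1 _).trans ?_) hy
  exact mul_le_mul_of_nonneg_right e2 (G_pos hs' _).le

/-- `y₂ Gc t u y = Gc t (y₂ u) y + ∫ (y₂ - w₂) G t (y - w) u w`, Young's inequality. -/
theorem memLp_z_Gc {t : ℝ} (ht : 0 < t) (hu : MemLp u 2 volume)
    (hf : MemLp (fun y : X => y 2 * u y) 2 volume) :
    MemLp (fun y : X => y 2 * Gc t u y) 2 volume := by
  have h2 : 0 < 2 * t := by linarith
  have hua : MemLp (fun y => |u y|) 2 volume := hu.abs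
  have h1 : MemLp (fun y => |Gc t (fun y => y 2 * u y) y| +
      3 * Real.exp t * Gc (2 * t) (fun y => |u y|) y) 2 volume :=
    (memLp_Gc ht hf).1.abs.add ((memLp_Gc h2 hua).1.const_mul _)
  refine h1.mono' (((by fun_prop : Continuous fun y : X => y 2).mul
    (contDiff_Gc ht hu).continuous).aestronglyMeasurable) (Eventually.of_forall fun y => ?_)
  have h3 : ‖y 2 * Gc t u y - Gc t (fun y => y 2 * u y) y‖ ≤
      3 * Real.exp t * Gc (2 * t) (fun y => |u y|) y := by
    unfold Gc
    rw [← integral_const_mul, ← integral_const_mul,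
      ← integral_sub ((integrable_Gc ht hu y).const_mul _) (integrable_Gc ht hf y)]
    refine norm_integral_le_of_norm_le ((integrable_Gc h2 hua y).const_mul _)
      (Eventually.of_forall fun w => ?_)
    have a1 := GLat_H ht (y - w)
    have a2 := G_pos ht (y - w)
    have a3 := abs_two_le (y - w)
    rw [PiLp.sub_apply] at a3
    have e : y 2 * (G t (y - w) * u w) - G t (y - w) * (w 2 * u w) =
        (y 2 - w 2) * G t (y - w) * u w := by ring
    rw [e, Real.norm_eq_abs, abs_mul, abs_mul, abs_of_pos a2, ← mul_assoc]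
    refine mul_le_mul_of_nonneg_right (le_trans ?_ a1) (abs_nonneg _)
    exact mul_le_mul_of_nonneg_right (by linarith) a2.le
  rw [Real.norm_eq_abs] at h3 ⊢
  linarith [abs_sub_abs_le_abs_sub (y 2 * Gc t u y) (Gc t (fun y => y 2 * u y) y)]

/-- Fubini and `G_bridge`. -/
theorem Gc_bridge {σ t : ℝ} (hσ : 0 < σ) (ht : 0 < t) (hu : MemLp u 2 volume)
    (hf : MemLp (fun y : X => y 2 * u y) 2 volume) (x : X) :
    Gc σ (fun y => y 2 * Gc t u y) x =
      (t * x 2 * Gc (σ + t) u x + σ * Gc (σ + t) (fun y => y 2 * u y) x) / (σ + t) := by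
  have hua : MemLp (fun y => |u y|) 2 volume := hu.abs
  have hc2 : Continuous fun y : X => y 2 := by fun_prop
  have hfa : MemLp (fun y : X => y 2 * |u y|) 2 volume := by
    refine hf.mono (hc2.aestronglyMeasurable.mul hua.1) (Eventually.of_forall fun y => ?_)
    simp only [norm_mul, Real.norm_eq_abs, abs_abs, le_refl]
  have hF : Integrable (fun p : X × X => G σ (x - p.1) * (p.1 2 * G t (p.1 - p.2)) * u p.2)
      (volume.prod volume) := by
    have hm : AEStronglyMeasurable
        (fun p : X × X => G σ (x - p.1) * (p.1 2 * G t (p.1 - p.2)) * u p.2)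
        (volume.prod volume) := by
      refine AEStronglyMeasurable.mul (Continuous.aestronglyMeasurable ?_) hu.1.comp_snd
      exact ((LGauss2_meas_G σ x).comp continuous_fst).mul ((hc2.comp continuous_fst).mul
        ((contDiff_G t 0).continuous.comp (continuous_fst.sub continuous_snd)))
    rw [integrable_prod_iff hm]
    refine ⟨Eventually.of_forall fun y => ?_, ?_⟩
    · refine ((integrable_Gc ht hu y).const_mul (G σ (x - y) * y 2)).congr
        (Eventually.of_forall fun w => ?_)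
      beta_reduce
      ring
    · refine (integrable_Gc hσ (memLp_z_Gc ht hua hfa) x).norm.congr
        (Eventually.of_forall fun y => ?_)
      have a0 : 0 ≤ Gc t (fun y => |u y|) y :=
        integral_nonneg fun w => mul_nonneg (G_pos ht _).le (abs_nonneg _)
      beta_reduce
      rw [norm_mul, norm_mul, Real.norm_of_nonneg a0, ← mul_assoc]
      unfold Gc
      rw [← integral_const_mul]
      refine integral_congr_ae (Eventually.of_forall fun w => ?_)
      beta_reduce
      rw [norm_mul, norm_mul, norm_mul, Real.norm_of_nonneg (G_pos ht _).le, Real.norm_eq_abs (u w)]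
      ring
  have hσt : 0 < σ + t := by positivity
  calc Gc σ (fun y => y 2 * Gc t u y) x
      = ∫ y, ∫ w, G σ (x - y) * (y 2 * G t (y - w)) * u w := by
        unfold Gc
        refine integral_congr_ae (Eventually.of_forall fun y => ?_)
        beta_reduce
        rw [← mul_assoc, ← integral_const_mul]
        refine integral_congr_ae (Eventually.of_forall fun w => ?_)
        beta_reduce
        ring
    _ = ∫ w, ∫ y, G σ (x - y) * (y 2 * G t (y - w)) * u w :=
        integral_integral_swap (f := fun y w => G σ (x - y) * (y 2 * G t (y - w)) * u w) hF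
    _ = ∫ w, (t * x 2 * (G (σ + t) (x - w) * u w) +
          σ * (G (σ + t) (x - w) * (w 2 * u w))) / (σ + t) := by
        refine integral_congr_ae (Eventually.of_forall fun w => ?_)
        beta_reduce
        rw [integral_mul_const, G_bridge hσ ht]
        ring
    _ = _ := by
        rw [integral_div, integral_add ((integrable_Gc hσt hu x).const_mul _)
          ((integrable_Gc hσt hf x).const_mul _), integral_const_mul, integral_const_mul]
        rfl

end Crest.Agent.R335
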