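import Crest.Agent.R335.GLat

/-! Row 335. Stage B: representation of `p`. -/

set_option autoImplicit false

open MeasureTheory Set Filter Topology
open scoped ENNReal

noncomputable section

namespace Crest.Agent.R335

variable {c : ℝ} {o : One c} {C ε : ℝ}

theorem GP_meas (R : ℝ) : MeasurableSet (ext R) :=
  (isOpen_lt continuous_const continuous_norm).measurableSet

theorem GP_split {τ : ℝ} (h : 0 < τ) {f : X → ℝ} (hf : MemLp f 2 volume) (R : ℝ) (y : X) :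
    Gc τ f y = Gc τ ((ext R).indicator f) y + Gc τ ((ext R)ᶜ.indicator f) y := by
  have h1 := Gc_lin h (hf.indicator (GP_meas R)) (hf.indicator (GP_meas R).compl) 1 1 y
  simp only [one_mul, indicator_self_add_compl_apply] at h1
  exact h1

theorem GP_intJ (t : ℝ) : IntegrableOn (fun τ : ℝ => 2 + τ ^ (-(1 / 2 : ℝ))) (Ioc 0 t) :=
  (integrableOn_const (by simp)).add
    (intervalIntegral.intervalIntegrable_rpow' (a := 0) (b := t) (by norm_num)).1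

theorem GP_core {m t R B : ℝ} (hm : 0 ≤ m) (ht : 0 < t) {u S : X → ℝ} (hu : MemLp u 2 volume)
    (hS : MemLp S 2 volume) (y : X) (h1 : |Gc t ((ext R)ᶜ.indicator u) y| ≤ B)
    (h2 : ∀ τ ∈ Ioc 0 t, |Gc τ ((ext R)ᶜ.indicator S) y| ≤ B)
    (h3 : ∀ τ ∈ Ioc 0 t, |Gc τ ((ext R).indicator S) y| ≤ B * (1 + τ ^ (-(1 / 2 : ℝ)))) :
    |duh m t u S y - Real.exp (-m * t) * Gc t ((ext R).indicator u) y| ≤
      (1 + ∫ τ in Ioc 0 t, (2 + τ ^ (-(1 / 2 : ℝ)))) * B := by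
  have he : ∀ τ : ℝ, 0 < τ → Real.exp (-m * τ) ≤ 1 := fun τ hτ =>
    Real.exp_le_one_iff.2 (by nlinarith)
  have e : duh m t u S y - Real.exp (-m * t) * Gc t ((ext R).indicator u) y =
      Real.exp (-m * t) * Gc t ((ext R)ᶜ.indicator u) y +
        ∫ τ in Ioc 0 t, Real.exp (-m * τ) * Gc τ S y := by
    unfold duh
    rw [GP_split ht hu R y]
    ring
  have k1 : |Real.exp (-m * t) * Gc t ((ext R)ᶜ.indicator u) y| ≤ B := by
    rw [abs_mul, abs_of_pos (Real.exp_pos _)]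
    exact (mul_le_of_le_one_left (abs_nonneg _) (he t ht)).trans h1
  have k2 : ‖∫ τ in Ioc 0 t, Real.exp (-m * τ) * Gc τ S y‖ ≤
      ∫ τ in Ioc 0 t, (2 + τ ^ (-(1 / 2 : ℝ))) * B := by
    refine norm_integral_le_of_norm_le ((GP_intJ t).mul_const B) ?_
    refine (ae_restrict_iff' measurableSet_Ioc).2 (Eventually.of_forall fun τ hτ => ?_)
    rw [Real.norm_eq_abs, abs_mul, abs_of_pos (Real.exp_pos _), GP_split hτ.1 hS R y]
    refine (mul_le_of_le_one_left (abs_nonneg _) (he τ hτ.1)).trans ((abs_add_le _ _).trans ?_)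
    linarith [h2 τ hτ, h3 τ hτ]
  rw [integral_mul_const, Real.norm_eq_abs] at k2
  rw [e]
  refine (abs_add_le _ _).trans ?_
  linarith

theorem GP_odd {f : X → ℝ} (hf : ∀ᵐ y, f (P y) = -f y) {A : Set X} (hA : ∀ y, P y ∈ A ↔ y ∈ A) :
    ∀ᵐ y, A.indicator f (P y) = -A.indicator f y := by
  filter_upwards [hf] with y hy
  by_cases h : y ∈ A
  · rw [indicator_of_mem h, indicator_of_mem ((hA y).2 h), hy]
  · rw [indicator_of_notMem h, indicator_of_notMem (fun h' => h ((hA y).1 h')), neg_zero]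

theorem GP_P_ext (R : ℝ) (y : X) : P y ∈ ext R ↔ y ∈ ext R := by
  simp only [ext, mem_ofPred_eq, norm_P]

theorem GP_van (f : X → ℝ) (R : ℝ) : ∀ᵐ y : X, R < ‖y‖ → (ext R)ᶜ.indicator f y = 0 :=
  Eventually.of_forall fun _ hy => indicator_of_notMem (s := (ext R)ᶜ) (fun h => h hy) f

theorem GP_cube {d : ℝ} (hd : 0 ≤ d) : (1 + d) ^ 3 ≤ 4 * Real.exp (2 * d) := by
  have h1 : 1 + d ≤ 3 / 2 * Real.exp (2 * d / 3) := by
    linarith [Real.add_one_le_exp (2 * d / 3)]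
  have h2 : (1 + d) ^ 3 ≤ (3 / 2 * Real.exp (2 * d / 3)) ^ 3 := pow_le_pow_left₀ (by linarith) h1 3
  have h3 : Real.exp (2 * d / 3) ^ 3 = Real.exp (2 * d) := by
    rw [← Real.exp_nat_mul]
    congr 1
    push_cast
    ring
  rw [mul_pow, h3] at h2
  linarith [Real.exp_pos (2 * d)]

theorem GP_weight (ch : Chan o C ε) {y w : X} (hy : 1 ≤ ‖y‖) (hw : 1 ≤ ‖w‖) :
    (1 + |w 2|) * ch.h w / ‖w‖ ≤ 4 * ((1 + |y 2|) * ch.h y / ‖y‖) * Real.exp (4 * ‖w - y‖) := by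
  set d := ‖w - y‖ with hd
  have hd0 : 0 ≤ d := norm_nonneg _
  have hd' : ‖y - w‖ = d := norm_sub_rev _ _
  have hhy := ch.h_pos (x := y) (by linarith)
  have hhw := ch.h_pos (x := w) (by linarith)
  have k1 : 1 + |w 2| ≤ (1 + |y 2|) * (1 + d) := by
    have h1 : |(w - y) 2| ≤ d := abs_two_le _
    have h2 : |w 2| ≤ |y 2| + |(w - y) 2| := by
      have : w 2 = y 2 + (w - y) 2 := by simp
      rw [this]
      exact abs_add_le _ _
    nlinarith [abs_nonneg (y 2)]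
  have k2 : ch.h w ≤ ch.h y * ((1 + d) * Real.exp (2 * d)) := by
    refine (ch.h_ratio hy hw).trans (mul_le_mul_of_nonneg_left ?_ hhy.le)
    rw [hd']
    refine mul_le_mul_of_nonneg_left (Real.exp_le_exp.2 ?_) (by linarith)
    have h1 : ‖y‖ - ‖w‖ ≤ d := hd' ▸ norm_sub_norm_le y w
    have h2 := ch.k_bd
    nlinarith
  have k3 : ‖w‖⁻¹ ≤ (1 + d) / ‖y‖ := by
    have h1 := Chan.norm_ratio (x := y) hw
    rw [hd'] at h1
    rw [inv_eq_one_div, div_le_div_iff₀ (by linarith) (by linarith)]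
    linarith
  have k4 : Real.exp (4 * d) = Real.exp (2 * d) * Real.exp (2 * d) := by
    rw [← Real.exp_add]
    congr 1
    ring
  calc (1 + |w 2|) * ch.h w / ‖w‖ = (1 + |w 2|) * ch.h w * ‖w‖⁻¹ := div_eq_mul_inv _ _
    _ ≤ ((1 + |y 2|) * (1 + d)) * (ch.h y * ((1 + d) * Real.exp (2 * d))) * ((1 + d) / ‖y‖) := by
        gcongr
    _ = ((1 + |y 2|) * ch.h y / ‖y‖) * Real.exp (2 * d) * (1 + d) ^ 3 := by ring
    _ ≤ ((1 + |y 2|) * ch.h y / ‖y‖) * Real.exp (2 * d) * (4 * Real.exp (2 * d)) :=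
        mul_le_mul_of_nonneg_left (GP_cube hd0) (by positivity)
    _ = _ := by rw [k4]; ring

theorem GP_S_ext {ch : Chan o C ε} {R₀ A : ℝ} (hF : ch.FA R₀ A) : ∀ᵐ w : X, R₀ < ‖w‖ →
    |ch.Sp w - V o.D w * ch.p w| ≤ (6 + 2 * C) * A * ((1 + |w 2|) * ch.h w / ‖w‖) := by
  filter_upwards [ch.Sp_ext, hF.p_hi, hF.L_hi] with w h1 h2 h3 hw
  have hR := hF.R1
  have hRs := o.Rs_ge
  have hA := hF.A1
  have hC := ch.C1
  have hε := ch.ε0
  have hε1 : ε ≤ 1 := ch.ε_le.trans (by norm_num)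
  have hw1 : 1 ≤ ‖w‖ := by linarith
  have hw0 : 0 < ‖w‖ := by linarith
  have hh := ch.h_pos hw0
  have hV : |V o.D w| ≤ 4 / ‖w‖ := V_ext' o.D1 (by unfold One.Rs at hR; linarith [o.D1])
  replace h1 := h1 (by linarith)
  replace h2 := h2 hw
  replace h3 := h3 hw
  set Z := A * ((1 + |w 2|) * ch.h w) with hZ
  have hZ0 : 0 ≤ Z := by positivity
  have hp : |ch.p w| ≤ Z := by
    refine h2.trans ?_
    rw [hZ, mul_assoc]
    gcongr
    linarith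
  have hL : ch.nL w ≤ Z := by
    refine h3.trans ?_
    have : A * (1 + |w 2|) / ‖w‖ ^ 2 ≤ A * (1 + |w 2|) :=
      div_le_self (by positivity) (one_le_pow₀ hw1)
    calc A * (1 + |w 2|) / ‖w‖ ^ 2 * ch.h w ≤ A * (1 + |w 2|) * ch.h w :=
          mul_le_mul_of_nonneg_right this hh.le
      _ = Z := by rw [hZ]; ring
  have k1 : ε * C / ‖w‖ ^ 2 ≤ C / ‖w‖ := by
    refine div_le_div₀ (by linarith) (by nlinarith) hw0 (by nlinarith)
  have k2 : |ch.Sp w + 2 * ε / ‖w‖ * ch.p w| ≤ C / ‖w‖ * (2 * Z) :=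
    h1.trans (mul_le_mul k1 (by linarith) (add_nonneg (abs_nonneg _) (ch.L0 w)) (by positivity))
  have k3 : |2 * ε / ‖w‖ * ch.p w| ≤ 2 / ‖w‖ * Z := by
    rw [abs_mul, abs_of_pos (by positivity : 0 < 2 * ε / ‖w‖)]
    gcongr
    linarith
  have k4 : |V o.D w * ch.p w| ≤ 4 / ‖w‖ * Z := by
    rw [abs_mul]
    gcongr
  have e : ch.Sp w - V o.D w * ch.p w =
      (ch.Sp w + 2 * ε / ‖w‖ * ch.p w) - 2 * ε / ‖w‖ * ch.p w - V o.D w * ch.p w := by ring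
  have e2 : (6 + 2 * C) * A * ((1 + |w 2|) * ch.h w / ‖w‖) =
      C / ‖w‖ * (2 * Z) + 2 / ‖w‖ * Z + 4 / ‖w‖ * Z := by rw [hZ]; ring
  rw [e, e2]
  refine (abs_sub _ _).trans (add_le_add ((abs_sub _ _).trans (add_le_add k2 k3)) k4)

/-- `duh_eq` with `m = I`, `S = Sp - V p` (`memLp_V_mul`).  Split `p` and `S` into the parts inside
and outside the ball of radius `R₀`.  Inside: `Gc_far`, `Gc_far_odd`, `gauss_small`, `h_ge`.
Outside `|S w| ≤ C' (1 + |w₂|) h w / ‖w‖ ≤ C'' (1 + |y₂|) h y / ‖y‖ · exp (4 ‖w - y‖)`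
(`V_ext'`, `Sp_ext`, `h_ratio`, `norm_ratio`): `Gc_temp`, `Gc_temp_odd`. -/
theorem rep_p (o : One c) (C R₀ A : ℝ) {t : ℝ} (ht : 1 ≤ t) : ∃ R C₂ : ℝ, R₀ ≤ R ∧ 0 < C₂ ∧
    ∀ (ε : ℝ) (ch : Chan o C ε), ch.FA R₀ A → ∀ᵐ y : X, R ≤ ‖y‖ →
      |ch.p y - Real.exp (-ch.I * t) * Gc t (ch.pt R₀) y| ≤ C₂ / ‖y‖ * (1 + |y 2|) * ch.h y ∧
      (|y 2| ≤ 1 →
        |ch.p y - Real.exp (-ch.I * t) * Gc t (ch.pt R₀) y| ≤ C₂ / ‖y‖ * |y 2| * ch.h y) := by
  by_cases hyp : 1 ≤ A ∧ 1 ≤ C ∧ 1 ≤ R₀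
  swap
  · exact ⟨R₀, 1, le_rfl, one_pos, fun ε ch hF => absurd
      ⟨hF.A1, ch.C1, by linarith [hF.R1, o.Rs_ge]⟩ hyp⟩
  obtain ⟨hA, hC, hR₀⟩ := hyp
  have ht0 : 0 < t := by linarith
  obtain ⟨Cf, hCf, far⟩ := Gc_far
  obtain ⟨Cg, hCg, faro⟩ := Gc_far_odd
  obtain ⟨Co, hCo, tempo⟩ := Gc_temp_odd
  obtain ⟨Rg, hRg, gs⟩ := gauss_small ht0 one_pos
  set J : ℝ := ∫ τ in Ioc 0 t, (2 + τ ^ (-(1 / 2 : ℝ))) with hJ
  have hJ0 : 0 ≤ J := setIntegral_nonneg measurableSet_Ioc fun τ hτ =>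
    add_nonneg (by norm_num) (Real.rpow_nonneg hτ.1.le _)
  set M : ℝ := √(34 * C) with hM
  have hM0 : 0 ≤ M := Real.sqrt_nonneg _
  set a0 : ℝ := (6 + 2 * C) * A * 4 with ha0
  have ha00 : 0 < a0 := by positivity
  set K : ℝ := (Cf + Cg) * M + (3 * Real.exp (16 * t) + 2 * Co * Real.exp (Co * t)) * a0 with hK
  have hK1 : Cf * M ≤ K := by
    have : 0 ≤ Cg * M + (3 * Real.exp (16 * t) + 2 * Co * Real.exp (Co * t)) * a0 := by positivity
    linarith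
  have hK2 : Cg * M ≤ K := by
    have : 0 ≤ Cf * M + (3 * Real.exp (16 * t) + 2 * Co * Real.exp (Co * t)) * a0 := by positivity
    linarith
  have hK3 : 3 * Real.exp (16 * t) * a0 ≤ K := by
    have : 0 ≤ (Cf + Cg) * M + 2 * Co * Real.exp (Co * t) * a0 := by positivity
    linarith
  have hK4 : 2 * Co * Real.exp (Co * t) * a0 ≤ K := by
    have : 0 ≤ (Cf + Cg) * M + 3 * Real.exp (16 * t) * a0 := by positivity
    linarith
  have hK0 : 0 < K := lt_of_lt_of_le (by positivity) hK3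
  refine ⟨max (2 * R₀ + 10) Rg, (1 + J) * K, (by linarith : R₀ ≤ 2 * R₀ + 10).trans (le_max_left _ _),
    by positivity, fun ε ch hF => ?_⟩
  set S : X → ℝ := fun w => ch.Sp w - V o.D w * ch.p w with hS
  have hp2 : MemLp ch.p 2 volume := ch.solp.h1.l2
  obtain ⟨hV2, hVn⟩ := memLp_V_mul o.D ch.solp.h1
  have hS2 : MemLp S 2 volume := ch.Sp2.sub hV2
  have hSn : nsq S ≤ 34 * C := by
    have h1 := LDuh_nsq_add ch.Sp2 hV2.neg
    have h2 : nsq (-fun x => V o.D x * ch.p x) = nsq fun x => V o.D x * ch.p x := by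
      simp [nsq]
    have h3 : (fun x => ch.Sp x + (-fun x => V o.D x * ch.p x) x) = S := by
      funext x
      simp [hS, sub_eq_add_neg]
    rw [h2, h3] at h1
    linarith [ch.Spn, ch.dp]
  have hSo : ∀ᵐ w, S (P w) = -S w := by
    filter_upwards [ch.SpP] with w hw
    simp only [hS, hw, V_P, ch.pP]
    ring
  have hpo : ∀ᵐ w, ch.p (P w) = -ch.p w := Eventually.of_forall ch.pP
  have hsol : Sol univ ch.p ch.gp fun x => S x - ch.I * ch.p x := by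
    have e : (fun x => S x - ch.I * ch.p x) = fun x => ch.Sp x - (V o.D x + ch.I) * ch.p x := by
      funext x
      simp only [hS]
      ring
    rw [e]
    exact ch.solp
  have hI : 0 ≤ ch.I := by linarith [ch.I_bd.1]
  have hcm := (GP_meas R₀).compl
  have hPc : ∀ y, P y ∈ (ext R₀)ᶜ ↔ y ∈ (ext R₀)ᶜ := fun y => not_congr (GP_P_ext R₀ y)
  have n1 : √(nsq ((ext R₀)ᶜ.indicator ch.p)) ≤ M :=
    Real.sqrt_le_sqrt ((LDuh_nsq_ind hp2 _ hcm).trans (by linarith [ch.nsq_p.1]))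
  have n2 : √(nsq ((ext R₀)ᶜ.indicator S)) ≤ M :=
    Real.sqrt_le_sqrt ((LDuh_nsq_ind hS2 _ hcm).trans hSn)
  have hpt : ch.pt R₀ = (ext R₀).indicator ch.p := by
    funext w
    by_cases h : R₀ < ‖w‖
    · rw [indicator_of_mem (show w ∈ ext R₀ from h), Chan.pt, if_pos h]
    · rw [indicator_of_notMem (show w ∉ ext R₀ from h), Chan.pt, if_neg h]
  filter_upwards [duh_eq ht0 hS2 hsol] with y hy hyR
  have hy1 : 2 * R₀ + 10 ≤ ‖y‖ := (le_max_left _ _).trans hyR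
  have hy2 : Rg ≤ ‖y‖ := (le_max_right _ _).trans hyR
  have hy3 : 1 ≤ ‖y‖ := by linarith
  have hy0 : 0 < ‖y‖ := by linarith
  have hh := ch.h_pos hy0
  set Z : ℝ := ch.h y / ‖y‖ with hZ
  have hZ0 : 0 < Z := by positivity
  have hg : Real.exp (-‖y‖ ^ 2 / (64 * t)) ≤ Z := by
    rw [hZ, le_div_iff₀ hy0]
    linarith [gs _ hy2, ch.h_ge hy3]
  have hout : ∀ᵐ w, |(ext R₀).indicator S w| ≤
      a0 * ((1 + |y 2|) * Z) * Real.exp (4 * ‖w - y‖) := by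
    filter_upwards [GP_S_ext hF] with w hw
    by_cases h : w ∈ ext R₀
    · rw [indicator_of_mem h]
      have h' : R₀ < ‖w‖ := h
      refine (hw h').trans ((mul_le_mul_of_nonneg_left (GP_weight ch hy3 (by linarith))
        (by positivity)).trans (le_of_eq ?_))
      rw [ha0, hZ]
      ring
    · rw [indicator_of_notMem h, abs_zero]
      positivity
  have hom : AEStronglyMeasurable ((ext R₀).indicator S) volume := (hS2.indicator (GP_meas R₀)).1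
  have f1 : ∀ (f : X → ℝ), MemLp f 2 volume → √(nsq ((ext R₀)ᶜ.indicator f)) ≤ M →
      ∀ τ ∈ Ioc 0 t, |Gc τ ((ext R₀)ᶜ.indicator f) y| ≤ K * ((1 + |y 2|) * Z) := by
    intro f hf hn τ hτ
    refine (far τ t R₀ _ y hτ.1 hτ.2 (by linarith) (hf.indicator hcm) (GP_van f R₀) hy1).trans ?_
    calc Cf * √(nsq ((ext R₀)ᶜ.indicator f)) * Real.exp (-‖y‖ ^ 2 / (64 * t)) ≤ Cf * M * Z := by
          gcongr
      _ ≤ K * ((1 + |y 2|) * Z) :=
          mul_le_mul hK1 (le_mul_of_one_le_left hZ0.le (by linarith [abs_nonneg (y 2)])) hZ0.le hK0.le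
  have f2 : |y 2| ≤ 1 → ∀ (f : X → ℝ), MemLp f 2 volume → √(nsq ((ext R₀)ᶜ.indicator f)) ≤ M →
      (∀ᵐ w, f (P w) = -f w) →
      ∀ τ ∈ Ioc 0 t, |Gc τ ((ext R₀)ᶜ.indicator f) y| ≤ K * (|y 2| * Z) := by
    intro hz f hf hn ho τ hτ
    refine (faro τ t R₀ _ y hτ.1 hτ.2 (by linarith) (hf.indicator hcm) (GP_odd ho hPc)
      (GP_van f R₀) hy1 (by linarith)).trans ?_
    calc Cg * √(nsq ((ext R₀)ᶜ.indicator f)) * Real.exp (-‖y‖ ^ 2 / (64 * t)) * |y 2|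
        ≤ Cg * M * Z * |y 2| := by gcongr
      _ = Cg * M * (|y 2| * Z) := by ring
      _ ≤ K * (|y 2| * Z) := mul_le_mul_of_nonneg_right hK2 (by positivity)
  rw [hpt]
  refine ⟨?_, fun hz => ?_⟩
  · have := GP_core (R := R₀) (B := K * ((1 + |y 2|) * Z)) hI ht0 hp2 hS2 y
      (f1 _ hp2 n1 t ⟨ht0, le_rfl⟩) (f1 _ hS2 n2) fun τ hτ => by
        refine (Gc_temp hτ.1 hom hout).2.trans ?_
        have h1 : Real.exp (16 * τ) ≤ Real.exp (16 * t) := Real.exp_le_exp.2 (by linarith [hτ.2])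
        have h2 := Real.rpow_nonneg hτ.1.le (-(1 / 2 : ℝ))
        calc 3 * Real.exp (16 * τ) * (a0 * ((1 + |y 2|) * Z))
            ≤ 3 * Real.exp (16 * t) * (a0 * ((1 + |y 2|) * Z)) := by gcongr
          _ = 3 * Real.exp (16 * t) * a0 * ((1 + |y 2|) * Z) := by ring
          _ ≤ K * ((1 + |y 2|) * Z) := mul_le_mul_of_nonneg_right hK3 (by positivity)
          _ ≤ _ := le_mul_of_one_le_right (by positivity) (by linarith)
    rw [← hy] at this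
    refine this.trans (le_of_eq ?_)
    rw [hZ]
    ring
  · have := GP_core (R := R₀) (B := K * (|y 2| * Z)) hI ht0 hp2 hS2 y
      (f2 hz _ hp2 n1 hpo t ⟨ht0, le_rfl⟩) (f2 hz _ hS2 n2 hSo) fun τ hτ => by
        refine (tempo τ _ _ y hτ.1 hom (GP_odd hSo (GP_P_ext R₀)) (by linarith) hout).trans ?_
        have h1 : Real.exp (Co * τ) ≤ Real.exp (Co * t) :=
          Real.exp_le_exp.2 (mul_le_mul_of_nonneg_left hτ.2 hCo.le)
        have h2 := Real.rpow_nonneg hτ.1.le (-(1 / 2 : ℝ))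
        calc Co * Real.exp (Co * τ) * τ ^ (-(1 / 2 : ℝ)) * (a0 * ((1 + |y 2|) * Z)) * |y 2|
            ≤ Co * Real.exp (Co * t) * τ ^ (-(1 / 2 : ℝ)) * (a0 * (2 * Z)) * |y 2| := by
              gcongr
              linarith
          _ = 2 * Co * Real.exp (Co * t) * a0 * (|y 2| * Z) * τ ^ (-(1 / 2 : ℝ)) := by ring
          _ ≤ K * (|y 2| * Z) * (1 + τ ^ (-(1 / 2 : ℝ))) := by
              gcongr
              linarith
    rw [← hy] at this
    refine this.trans (le_of_eq ?_)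
    rw [hZ]
    ring

/-- For large `‖y‖` the error is at most `|p| / 2` (`FA.zp`); `Gc_odd_two`, `Gc_le_pl`; the tail is at
most `η h (pl x) ≤ 6 η h x` (`h_ratio`), take `η = 1 / (100 A)`. -/
theorem cmp_p (o : One c) (C R₀ A : ℝ) {N : ℕ} (hN : 1 ≤ N) : ∃ R : ℝ, R₀ + 1 ≤ R ∧
    ∀ (ε : ℝ) (ch : Chan o C ε), ch.FA R₀ A →
      (∀ x : X, 1 ≤ ‖pl x‖ → |x 2| ≤ 1 → Real.exp (-ch.I * N) * (tl N (ch.zp R₀) (lat x) x / N) ≤
        1 / (100 * A) * ch.h (pl x)) →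
      ∀ᵐ x : X, R < ‖pl x‖ → |x 2| ≤ 1 →
        |x 2| * ch.h0 R₀ N x ≤ 3 * |ch.p x| ∧ |ch.p x| ≤ 100 * |x 2| * ch.h0 R₀ N x := by
  have hN1 : (1 : ℝ) ≤ N := by exact_mod_cast hN
  have hN0 : (0 : ℝ) < N := by linarith
  obtain ⟨R, C₂, hR, hC₂, rep⟩ := rep_p o C R₀ A hN1
  refine ⟨max (max R (R₀ + 1)) (2 * C₂ * A), (le_max_right _ _).trans (le_max_left _ _),
    fun ε ch hF htl => ?_⟩
  obtain ⟨m1, -, m3, o1, -, -, -, z0, -, zn⟩ := hF.tr
  have hA := hF.A1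
  have hR₀ : 1 ≤ R₀ := by linarith [hF.R1, o.Rs_ge]
  filter_upwards [rep ε ch hF, hF.zp] with x h1 h2 hx hz
  have hx1 : R < ‖pl x‖ := lt_of_le_of_lt ((le_max_left _ _).trans (le_max_left _ _)) hx
  have hx2 : R₀ + 1 < ‖pl x‖ := lt_of_le_of_lt ((le_max_right _ _).trans (le_max_left _ _)) hx
  have hx3 : 2 * C₂ * A < ‖pl x‖ := lt_of_le_of_lt (le_max_right _ _) hx
  have hle := norm_pl_le x
  have hx0 : 0 < ‖x‖ := by linarith
  have hh := ch.h_pos hx0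
  have k1 := (h1 (by linarith)).2 hz
  have k2 := (h2 (by linarith)).2.1
  set E := Real.exp (-ch.I * N) with hE
  have hE0 : 0 < E := Real.exp_pos _
  have k3 : |ch.p x - E * Gc N (ch.pt R₀) x| ≤ |ch.p x| / 2 := by
    refine k1.trans ?_
    have h3 : C₂ / ‖x‖ * A ≤ 1 / 2 := by
      rw [div_mul_eq_mul_div, div_le_div_iff₀ hx0 (by norm_num)]
      linarith
    calc C₂ / ‖x‖ * |x 2| * ch.h x = C₂ / ‖x‖ * (|x 2| * ch.h x) := by ring
      _ ≤ C₂ / ‖x‖ * (A * |ch.p x|) := mul_le_mul_of_nonneg_left k2 (by positivity)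
      _ = C₂ / ‖x‖ * A * |ch.p x| := by ring
      _ ≤ 1 / 2 * |ch.p x| := mul_le_mul_of_nonneg_right h3 (abs_nonneg _)
      _ = _ := by ring
  have k4 : |E * Gc N (ch.pt R₀) x| = E * |Gc N (ch.pt R₀) x| := by rw [abs_mul, abs_of_pos hE0]
  have k5 := abs_sub_abs_le_abs_sub (ch.p x) (E * Gc N (ch.pt R₀) x)
  have k6 := abs_sub_abs_le_abs_sub (E * Gc N (ch.pt R₀) x) (ch.p x)
  rw [abs_sub_comm] at k6
  rw [k4] at k5 k6
  obtain ⟨-, l1, l2⟩ := Gc_odd_two (u := ch.pt R₀) hN1 m1 m3 z0 o1 x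
  replace l2 := l2 hz
  change |Gc N (ch.pt R₀) x| ≤ |x 2| * (Gc N (ch.zp R₀) x / N) at l1
  change |x 2| * (Gc N (ch.zp R₀) (pl x) / N) ≤ 2 * |Gc N (ch.pt R₀) x| at l2
  have l3 := Gc_le_pl hN1 m3 z0 (lat x) hz
  have l4 := htl x (by linarith) hz
  have l5 : ch.h (pl x) ≤ 15 * ch.h x := by
    have h3 := ch.h_ratio (x := x) (y := pl x) (by linarith) (by linarith)
    rw [norm_sub_pl] at h3
    have h4 : ‖x‖ - ‖pl x‖ ≤ 1 := by
      have := norm_sub_norm_le x (pl x)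
      rw [norm_sub_pl] at this
      linarith
    have h5 : Real.exp (ch.k * (‖x‖ - ‖pl x‖)) ≤ 15 / 2 := by
      have h6 : ch.k * (‖x‖ - ‖pl x‖) ≤ 1 + 1 := by nlinarith [ch.k_bd.1, ch.k_bd.2]
      refine (Real.exp_le_exp.2 h6).trans ?_
      rw [Real.exp_add]
      nlinarith [Real.exp_one_lt_d9, Real.exp_pos 1]
    have h7 : (1 + |x 2|) * Real.exp (ch.k * (‖x‖ - ‖pl x‖)) ≤ 2 * (15 / 2) :=
      mul_le_mul (by linarith) h5 (Real.exp_pos _).le (by norm_num)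
    nlinarith
  have h00 : 0 ≤ ch.h0 R₀ N x :=
    mul_nonneg hE0.le (div_nonneg (Gc_pos hN0 m3 z0 zn _).le hN0.le)
  have e0 : ch.h0 R₀ N x = E * (Gc N (ch.zp R₀) (pl x) / N) := rfl
  constructor
  · have : E * (|x 2| * (Gc N (ch.zp R₀) (pl x) / N)) ≤ E * (2 * |Gc N (ch.pt R₀) x|) :=
      mul_le_mul_of_nonneg_left l2 hE0.le
    rw [e0]
    linarith
  · have q1 : E * (Gc N (ch.zp R₀) x / N) ≤ 21 * ch.h0 R₀ N x + 1 / (100 * A) * (15 * ch.h x) := by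
      have q2 : E * (Gc N (ch.zp R₀) x / N) ≤
          E * ((21 * Gc N (ch.zp R₀) (pl x) + tl N (ch.zp R₀) (lat x) x) / N) := by gcongr
      have q3 : 1 / (100 * A) * ch.h (pl x) ≤ 1 / (100 * A) * (15 * ch.h x) :=
        mul_le_mul_of_nonneg_left l5 (by positivity)
      have q4 : E * ((21 * Gc N (ch.zp R₀) (pl x) + tl N (ch.zp R₀) (lat x) x) / N) =
          21 * ch.h0 R₀ N x + E * (tl N (ch.zp R₀) (lat x) x / N) := by rw [e0]; ring
      linarith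
    have q5 : E * |Gc N (ch.pt R₀) x| ≤ |x 2| * (E * (Gc N (ch.zp R₀) x / N)) := by
      have := mul_le_mul_of_nonneg_left l1 hE0.le
      linarith
    have q6 : |x 2| * (E * (Gc N (ch.zp R₀) x / N)) ≤
        |x 2| * (21 * ch.h0 R₀ N x + 1 / (100 * A) * (15 * ch.h x)) :=
      mul_le_mul_of_nonneg_left q1 (abs_nonneg _)
    have q7 : |x 2| * (1 / (100 * A) * (15 * ch.h x)) ≤ 15 / 100 * |ch.p x| := by
      calc |x 2| * (1 / (100 * A) * (15 * ch.h x)) = 15 / (100 * A) * (|x 2| * ch.h x) := by ring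
        _ ≤ 15 / (100 * A) * (A * |ch.p x|) := mul_le_mul_of_nonneg_left k2 (by positivity)
        _ = 15 / 100 * |ch.p x| := by field_simp
    have q8 : 0 ≤ |x 2| * ch.h0 R₀ N x := mul_nonneg (abs_nonneg _) h00
    nlinarith

end Crest.Agent.R335
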