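import Crest.Agent.R335.GLat

/-! Row 335. Stage B: the tails are small. -/

set_option autoImplicit false

open MeasureTheory Set Filter Topology
open scoped ENNReal

noncomputable section

namespace Crest.Agent.R335

variable {c : ℝ} {o : One c} {C ε : ℝ}

theorem GTail_core {s : ℝ} (hs : 0 < s) {f F : X → ℝ} (v x : X) (h0 : ∀ᵐ y, 0 ≤ f y)
    (hF : Integrable F) (hle : ∀ᵐ y, (1 + ‖x - y‖) * G s (x - y) * f y ≤ F (x - y)) :
    tl s f v x ≤ ∫ z in bad s v, F z := by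
  have hm : MeasurableSet {y : X | x - y ∈ bad s v} :=
    (measurableSet_bad s v).preimage (measurable_const.sub measurable_id)
  have e : ∫ y in {y : X | x - y ∈ bad s v}, F (x - y) = ∫ z in bad s v, F z := by
    rw [← integral_indicator hm, ← integral_indicator (measurableSet_bad s v),
      ← integral_sub_left_eq_self (fun z => (bad s v).indicator F z) volume x]
    rfl
  rw [← e]
  unfold tl
  refine integral_mono_of_nonneg (ae_restrict_of_ae ?_)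
    (hF.comp_sub_left x).integrableOn (ae_restrict_of_ae hle)
  filter_upwards [h0] with y hy
  have := G_pos hs (x - y)
  simp only [Pi.zero_apply]
  positivity

/-- The geometry of a point of the slab. -/
theorem GTail_geo {x : X} (hx : 1 ≤ ‖pl x‖) (h2 : |x 2| ≤ 1) (y : X) :
    1 + ‖pl x - y‖ ≤ 2 * (1 + ‖x - y‖) ∧ |y 2| ≤ 1 + ‖x - y‖ ∧
      ‖pl x‖ - ‖y‖ ≤ inner ℝ (lat x) (x - y) := by
  have hp : 0 < ‖pl x‖ := by linarith
  refine ⟨?_, ?_, ?_⟩
  · have h1 : ‖pl x - y‖ ≤ ‖x - pl x‖ + ‖x - y‖ := by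
      have e : pl x - y = (x - y) - (x - pl x) := by abel
      rw [e, add_comm]
      exact norm_sub_le _ _
    rw [norm_sub_pl] at h1
    linarith [norm_nonneg (x - y)]
  · have h1 := abs_two_le (x - y)
    have e : y 2 = x 2 - (x - y) 2 := by simp
    rw [e]
    linarith [abs_sub (x 2) ((x - y) 2)]
  · rw [inner_sub_right, inner_lat hp]
    have h1 := real_inner_le_norm (lat x) y
    rw [norm_lat hp, one_mul] at h1
    linarith

theorem GTail_h (ch : Chan o C ε) {x : X} (hx : 1 ≤ ‖pl x‖) (h2 : |x 2| ≤ 1) {y : X}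
    (hy : 1 ≤ ‖y‖) :
    ch.h y ≤ 2 * ch.h (pl x) * ((1 + ‖x - y‖) * Real.exp (ch.k * inner ℝ (lat x) (x - y))) := by
  obtain ⟨g1, -, g3⟩ := GTail_geo hx h2 y
  have hk := ch.k_bd.1
  have hh := (ch.h_pos (x := pl x) (by linarith)).le
  calc ch.h y ≤ ch.h (pl x) * ((1 + ‖pl x - y‖) * Real.exp (ch.k * (‖pl x‖ - ‖y‖))) :=
        ch.h_ratio hx hy
    _ ≤ ch.h (pl x) * ((2 * (1 + ‖x - y‖)) * Real.exp (ch.k * inner ℝ (lat x) (x - y))) := by
        have : 0 ≤ ch.k := by linarith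
        gcongr
    _ = _ := by ring

theorem GTail_H (ch : Chan o C ε) {x : X} (hx : 1 ≤ ‖pl x‖) (h2 : |x 2| ≤ 1) {y : X}
    (hy : 1 ≤ ‖y‖) :
    ch.H y ≤
      4 * ch.H (pl x) * ((1 + ‖x - y‖) ^ 2 * Real.exp (ch.k' * inner ℝ (lat x) (x - y))) := by
  obtain ⟨g1, -, g3⟩ := GTail_geo hx h2 y
  have hk := ch.k'_bd.1
  have hh := (ch.H_pos (x := pl x) (by linarith)).le
  calc ch.H y ≤ ch.H (pl x) * ((1 + ‖pl x - y‖) ^ 2 * Real.exp (ch.k' * (‖pl x‖ - ‖y‖))) :=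
        ch.H_ratio hx hy
    _ ≤ ch.H (pl x) *
          ((2 * (1 + ‖x - y‖)) ^ 2 * Real.exp (ch.k' * inner ℝ (lat x) (x - y))) := by
        have : 0 ≤ ch.k' := by linarith
        gcongr
    _ = _ := by ring

theorem GTail_w {x : X} (hx : 1 ≤ ‖pl x‖) (h2 : |x 2| ≤ 1) {y : X} (hy : 1 ≤ ‖y‖) :
    (1 + y 2 ^ 2) / ‖y‖ ^ 3 ≤ 16 * (1 + ‖x - y‖) ^ 5 / ‖pl x‖ ^ 3 := by
  obtain ⟨g1, g2, -⟩ := GTail_geo hx h2 y
  have hr := norm_nonneg (x - y)
  have h1 : ‖pl x‖ ≤ 2 * (1 + ‖x - y‖) * ‖y‖ := by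
    have h3 : ‖pl x‖ ≤ ‖pl x - y‖ + ‖y‖ := by
      simpa using norm_add_le (pl x - y) y
    have h4 := norm_nonneg (pl x - y)
    nlinarith
  have h3 : 1 + y 2 ^ 2 ≤ 2 * (1 + ‖x - y‖) ^ 2 := by
    have := sq_abs (y 2)
    have := abs_nonneg (y 2)
    nlinarith
  rw [div_le_div_iff₀ (by positivity) (by positivity)]
  calc (1 + y 2 ^ 2) * ‖pl x‖ ^ 3
      ≤ (2 * (1 + ‖x - y‖) ^ 2) * (2 * (1 + ‖x - y‖) * ‖y‖) ^ 3 := by gcongr
    _ = 16 * (1 + ‖x - y‖) ^ 5 * ‖y‖ ^ 3 := by ring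

theorem GTail_R {ch : Chan o C ε} {R A : ℝ} (h : ch.FA R A) : 1 ≤ R := by
  have := h.R1
  have := o.Rs_ge
  linarith

theorem GTail_Q0 (ch : Chan o C ε) (x : X) :
    ch.Q0 (pl x) = ch.H (pl x) + ε / ‖pl x‖ ^ 3 * ch.h (pl x) := by
  rw [Chan.Q0, pl_two]
  ring

theorem GTail_m1 (ch : Chan o C ε) : ch.I ≤ ch.m1 := by
  have := ch.gS_bd.1
  have := o.g_pos
  unfold Chan.m1
  linarith

theorem GTail_num (a : ℝ) {η : ℝ} (hη : 0 < η) : ∃ N₀ : ℕ, 1 ≤ N₀ ∧ ∀ N : ℕ, N₀ ≤ N →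
    a * N * Real.exp (-(N : ℝ) / 32) ≤ η := by
  refine ⟨⌈2048 * a / η⌉₊ + 1, by omega, fun N hN => ?_⟩
  have hN1 : (0 : ℝ) < N := by exact_mod_cast (by omega : 0 < N)
  have h1 : 2048 * a / η ≤ N := by
    refine (Nat.le_ceil _).trans ?_
    exact_mod_cast (by omega : ⌈2048 * a / η⌉₊ ≤ N)
  rw [div_le_iff₀ hη] at h1
  have h2 : ((N : ℝ) / 32) ^ 2 / 2 ≤ Real.exp ((N : ℝ) / 32) := by
    have := Real.quadratic_le_exp_of_nonneg (x := (N : ℝ) / 32) (by positivity)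
    have : (0 : ℝ) ≤ (N : ℝ) / 32 := by positivity
    linarith
  have e : Real.exp (-(N : ℝ) / 32) = (Real.exp ((N : ℝ) / 32))⁻¹ := by
    rw [← Real.exp_neg, neg_div]
  rw [e, ← div_eq_mul_inv, div_le_iff₀ (Real.exp_pos _)]
  calc a * N ≤ η * (((N : ℝ) / 32) ^ 2 / 2) := by nlinarith
    _ ≤ η * Real.exp ((N : ℝ) / 32) := by gcongr

/-- `h_ratio` between `pl x` and `y`, `‖y‖ ≥ ⟪lat x, y⟫ = ‖pl x‖ - ⟪lat x, x - y⟫`,
`|y₂| ≤ 1 + ‖x - y‖`, `‖pl x - y‖ ≤ 1 + ‖x - y‖`, and `G_tail` with `κ = k` (`k² / 2 = I`). -/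
theorem tl_zp (A : ℝ) : ∃ C₁ : ℝ, 0 < C₁ ∧ ∀ (c : ℝ) (o : One c) (C ε : ℝ) (ch : Chan o C ε)
    (R s : ℝ) (x : X), ch.FA R A → 1 ≤ s → 1 ≤ ‖pl x‖ → |x 2| ≤ 1 →
    tl s (ch.zp R) (lat x) x ≤ C₁ * Real.exp (ch.I * s) * Real.exp (-s / 32) * ch.h (pl x) := by
  obtain ⟨C₀, hC₀, hG⟩ := G_tail 4
  refine ⟨2 * (|A| + 1) * C₀, by positivity, fun c o C ε ch R s x hA hs hx h2 => ?_⟩
  have hp : 0 < ‖pl x‖ := by linarith
  have hs0 : 0 < s := by linarith
  have hk := ch.k_bd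
  obtain ⟨hi, hb⟩ := hG s ch.k (lat x) hs (by linarith) (by linarith) (norm_lat hp)
  have hh := (ch.h_pos hp).le
  have hA1 := hA.A1
  have hR := GTail_R hA
  have hcore := GTail_core hs0 (lat x) x hA.tr.2.2.2.2.2.2.2.1
    (hi.const_mul (2 * A * ch.h (pl x))) ?_
  · refine hcore.trans ?_
    rw [integral_const_mul]
    have e : ch.k ^ 2 * s / 2 = ch.I * s := by rw [ch.k_sq]; ring
    rw [e] at hb
    have hAA : A ≤ |A| + 1 := by linarith [le_abs_self A]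
    calc _ ≤ 2 * A * ch.h (pl x) * (C₀ * Real.exp (ch.I * s) * Real.exp (-s / 32)) := by
          gcongr
      _ ≤ 2 * (|A| + 1) * ch.h (pl x) * (C₀ * Real.exp (ch.I * s) * Real.exp (-s / 32)) := by
          gcongr
      _ = _ := by ring
  · filter_upwards [hA.p_hi] with y hy
    have hGp := (G_pos hs0 (x - y)).le
    have hr := norm_nonneg (x - y)
    have hz : ch.zp R y ≤ 2 * A * ch.h (pl x) *
        ((1 + ‖x - y‖) ^ 3 * Real.exp (ch.k * inner ℝ (lat x) (x - y))) := by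
      unfold Chan.zp Chan.pt
      split_ifs with hyR
      · have hy1 : 1 ≤ ‖y‖ := by linarith
        have b1 := hy hyR
        have b2 := GTail_h ch hx h2 hy1
        have b3 := (GTail_geo hx h2 y).2.1
        have b4 := (ch.h_pos (x := y) (by linarith)).le
        calc y 2 * ch.p y ≤ |y 2| * |ch.p y| := by rw [← abs_mul]; exact le_abs_self _
          _ ≤ |y 2| * (A * |y 2| * ch.h y) := by gcongr
          _ ≤ (1 + ‖x - y‖) * (A * (1 + ‖x - y‖) * (2 * ch.h (pl x) *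
              ((1 + ‖x - y‖) * Real.exp (ch.k * inner ℝ (lat x) (x - y))))) := by
              gcongr
          _ = _ := by ring
      · rw [mul_zero]
        positivity
    calc (1 + ‖x - y‖) * G s (x - y) * ch.zp R y
        ≤ (1 + ‖x - y‖) * G s (x - y) * (2 * A * ch.h (pl x) *
          ((1 + ‖x - y‖) ^ 3 * Real.exp (ch.k * inner ℝ (lat x) (x - y)))) := by gcongr
      _ = _ := by ring

/-- The same with `H_ratio` (`κ = k'`) and `h_ratio`, `norm_ratio` (`κ = k`). -/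
theorem tl_qt (A : ℝ) : ∃ C₁ : ℝ, 0 < C₁ ∧ ∀ (c : ℝ) (o : One c) (C ε : ℝ) (ch : Chan o C ε)
    (R s : ℝ) (x : X), ch.FA R A → 1 ≤ s → 1 ≤ ‖pl x‖ → |x 2| ≤ 1 →
    tl s (ch.qt R) (lat x) x ≤ C₁ * Real.exp (ch.m1 * s) * Real.exp (-s / 32) * ch.Q0 (pl x) := by
  obtain ⟨C₀, hC₀, hG⟩ := G_tail 7
  refine ⟨32 * (|A| + 1) * C₀, by positivity, fun c o C ε ch R s x hA hs hx h2 => ?_⟩
  have hp : 0 < ‖pl x‖ := by linarith
  have hs0 : 0 < s := by linarith
  have hk := ch.k_bd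
  have hk' := ch.k'_bd
  obtain ⟨hi, hb⟩ := hG s ch.k (lat x) hs (by linarith) (by linarith) (norm_lat hp)
  obtain ⟨hi', hb'⟩ := hG s ch.k' (lat x) hs (by linarith) (by linarith) (norm_lat hp)
  have hh := (ch.h_pos hp).le
  have hH := (ch.H_pos hp).le
  have hA1 := hA.A1
  have hR := GTail_R hA
  have hε := ch.ε0
  have hcore := GTail_core hs0 (lat x) x hA.tr.2.2.2.2.2.2.1
    ((hi'.const_mul (32 * A * ch.H (pl x))).add
      (hi.const_mul (32 * A * (ε / ‖pl x‖ ^ 3 * ch.h (pl x))))) ?_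
  · refine hcore.trans ?_
    simp only [Pi.add_apply]
    rw [integral_add (hi'.const_mul _).integrableOn (hi.const_mul _).integrableOn,
      integral_const_mul, integral_const_mul]
    have e : ch.k ^ 2 * s / 2 = ch.I * s := by rw [ch.k_sq]; ring
    have e' : ch.k' ^ 2 * s / 2 = ch.m1 * s := by rw [ch.k'_sq, Chan.m1]; ring
    rw [e] at hb
    rw [e'] at hb'
    have hm := GTail_m1 ch
    have hb2 := hb.trans (show C₀ * Real.exp (ch.I * s) * Real.exp (-s / 32) ≤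
      C₀ * Real.exp (ch.m1 * s) * Real.exp (-s / 32) by gcongr)
    have hAA : A ≤ |A| + 1 := by linarith [le_abs_self A]
    have hQ := (ch.Q0_pos hp).le
    calc _ ≤ 32 * A * ch.H (pl x) * (C₀ * Real.exp (ch.m1 * s) * Real.exp (-s / 32)) +
          32 * A * (ε / ‖pl x‖ ^ 3 * ch.h (pl x)) *
            (C₀ * Real.exp (ch.m1 * s) * Real.exp (-s / 32)) := by
          gcongr
      _ = 32 * A * ch.Q0 (pl x) * (C₀ * Real.exp (ch.m1 * s) * Real.exp (-s / 32)) := by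
          rw [GTail_Q0]; ring
      _ ≤ 32 * (|A| + 1) * ch.Q0 (pl x) * (C₀ * Real.exp (ch.m1 * s) * Real.exp (-s / 32)) := by
          gcongr
      _ = _ := by ring
  · filter_upwards [hA.q_hi] with y hy
    have hGp := (G_pos hs0 (x - y)).le
    have hr := norm_nonneg (x - y)
    have hz : ch.qt R y ≤ 32 * A * ch.H (pl x) *
        ((1 + ‖x - y‖) ^ 6 * Real.exp (ch.k' * inner ℝ (lat x) (x - y))) +
        32 * A * (ε / ‖pl x‖ ^ 3 * ch.h (pl x)) *
          ((1 + ‖x - y‖) ^ 6 * Real.exp (ch.k * inner ℝ (lat x) (x - y))) := by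
      unfold Chan.qt
      split_ifs with hyR
      · have hy1 : 1 ≤ ‖y‖ := by linarith
        have b1 := hy hyR
        have b2 := GTail_h ch hx h2 hy1
        have b3 := GTail_H ch hx h2 hy1
        have b4 := (ch.h_pos (x := y) (by linarith)).le
        have b5 := GTail_w hx h2 hy1
        have b6 : (1 + ‖x - y‖) ^ 2 ≤ (1 + ‖x - y‖) ^ 6 :=
          pow_le_pow_right₀ (by linarith) (by norm_num)
        calc ch.q y ≤ A * ch.Q0 y := b1
          _ = A * (ch.H y + ε * ((1 + y 2 ^ 2) / ‖y‖ ^ 3) * ch.h y) := by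
              rw [Chan.Q0]; ring
          _ ≤ A * (32 * ch.H (pl x) *
                ((1 + ‖x - y‖) ^ 6 * Real.exp (ch.k' * inner ℝ (lat x) (x - y))) +
              ε * (16 * (1 + ‖x - y‖) ^ 5 / ‖pl x‖ ^ 3) * (2 * ch.h (pl x) *
                ((1 + ‖x - y‖) * Real.exp (ch.k * inner ℝ (lat x) (x - y))))) := by
              gcongr
              refine b3.trans ?_
              gcongr
              norm_num
          _ = _ := by ring
      · positivity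
    calc (1 + ‖x - y‖) * G s (x - y) * ch.qt R y
        ≤ (1 + ‖x - y‖) * G s (x - y) * (32 * A * ch.H (pl x) *
          ((1 + ‖x - y‖) ^ 6 * Real.exp (ch.k' * inner ℝ (lat x) (x - y))) +
          32 * A * (ε / ‖pl x‖ ^ 3 * ch.h (pl x)) *
            ((1 + ‖x - y‖) ^ 6 * Real.exp (ch.k * inner ℝ (lat x) (x - y)))) := by gcongr
      _ = _ := by simp only [Pi.add_apply]; ring

/-- `ttau ≤ C₁ (1 + C N) exp (-N / 32) Q0 (pl x)`. -/
theorem ttau_small (A C : ℝ) {η : ℝ} (hη : 0 < η) : ∃ N₀ : ℕ, 1 ≤ N₀ ∧ ∀ N : ℕ, N₀ ≤ N →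
    ∀ (c : ℝ) (o : One c) (ε : ℝ) (ch : Chan o C ε) (R : ℝ) (x : X), ch.FA R A → 1 ≤ ‖pl x‖ →
      |x 2| ≤ 1 → ch.ttau R N x ≤ η * ch.Q0 (pl x) ∧
        Real.exp (-ch.I * N) * (tl N (ch.zp R) (lat x) x / N) ≤ η * ch.h (pl x) := by
  obtain ⟨C₁, hC₁, hz⟩ := tl_zp A
  obtain ⟨C₂, hC₂, hq⟩ := tl_qt A
  obtain ⟨N₀, hN₀, hN⟩ := GTail_num (C₂ + |C| * C₁ + C₁) hη
  refine ⟨N₀, hN₀, fun N hNN c o ε ch R x hA hx h2 => ?_⟩
  have hp : 0 < ‖pl x‖ := by linarith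
  have hN1 : (1 : ℝ) ≤ N := by exact_mod_cast hN₀.trans hNN
  have hnum := hN N hNN
  set E := Real.exp (-(N : ℝ) / 32) with hE
  have hE0 : 0 < E := Real.exp_pos _
  have hh := (ch.h_pos hp).le
  have hH := (ch.H_pos hp).le
  have hQ := (ch.Q0_pos hp).le
  have hε := ch.ε0
  have hCa := abs_nonneg C
  constructor
  · have t1 : Real.exp (-ch.m1 * N) * tl N (ch.qt R) (lat x) x ≤ C₂ * E * ch.Q0 (pl x) := by
      calc _ ≤ Real.exp (-ch.m1 * N) * (C₂ * Real.exp (ch.m1 * N) * E * ch.Q0 (pl x)) := by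
            gcongr
            exact hq c o C ε ch R N x hA hN1 hx h2
        _ = (Real.exp (-ch.m1 * N) * Real.exp (ch.m1 * N)) * (C₂ * E * ch.Q0 (pl x)) := by ring
        _ = _ := by rw [← Real.exp_add]; simp
    have t2 : ∀ j ∈ Finset.range N, Real.exp (-ch.I * N) * (((j : ℝ) + 1) *
        Real.exp (-ch.m1 * (j + 1)) * (tl (N + (j + 1)) (ch.zp R) (lat x) x / (N + (j + 1)))) ≤
        C₁ * E * ch.h (pl x) := by
      intro j _
      have hj : (0 : ℝ) ≤ j := Nat.cast_nonneg j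
      have b1 := hz c o C ε ch R (N + (j + 1)) x hA (by linarith) hx h2
      have hm := GTail_m1 ch
      have b2 : Real.exp (-ch.I * N) * Real.exp (-ch.m1 * (j + 1)) *
          Real.exp (ch.I * (N + (j + 1))) ≤ 1 := by
        rw [← Real.exp_add, ← Real.exp_add, Real.exp_le_one_iff]
        nlinarith
      have b3 : Real.exp (-((N : ℝ) + (j + 1)) / 32) ≤ E := by
        rw [hE]; gcongr; linarith
      have b4 : ((j : ℝ) + 1) / (N + (j + 1)) ≤ 1 := by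
        rw [div_le_one (by linarith)]; linarith
      calc _ ≤ Real.exp (-ch.I * N) * (((j : ℝ) + 1) * Real.exp (-ch.m1 * (j + 1)) *
            (C₁ * Real.exp (ch.I * (N + (j + 1))) * Real.exp (-((N : ℝ) + (j + 1)) / 32) *
              ch.h (pl x) / (N + (j + 1)))) := by gcongr
        _ = (Real.exp (-ch.I * N) * Real.exp (-ch.m1 * (j + 1)) *
              Real.exp (ch.I * (N + (j + 1)))) * (((j : ℝ) + 1) / (N + (j + 1))) *
              (C₁ * Real.exp (-((N : ℝ) + (j + 1)) / 32) * ch.h (pl x)) := by ring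
        _ ≤ 1 * 1 * (C₁ * E * ch.h (pl x)) := by gcongr
        _ = _ := by ring
    have t3 : Real.exp (-ch.I * N) * ∑ j ∈ Finset.range N, ((j : ℝ) + 1) *
        Real.exp (-ch.m1 * (j + 1)) * (tl (N + (j + 1)) (ch.zp R) (lat x) x / (N + (j + 1))) ≤
        N * (C₁ * E * ch.h (pl x)) := by
      rw [Finset.mul_sum]
      refine (Finset.sum_le_sum t2).trans ?_
      rw [Finset.sum_const, Finset.card_range, nsmul_eq_mul]
    have hd1 := ch.d1
    have hd : ch.d ≤ |C| := ch.dC.trans (le_abs_self C)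
    have t4 : ε / ‖pl x‖ ^ 3 * ch.h (pl x) ≤ ch.Q0 (pl x) := by
      rw [GTail_Q0]; linarith
    unfold Chan.ttau
    rw [mul_assoc (ε * ch.d / ‖pl x‖ ^ 3)]
    calc _ ≤ C₂ * E * ch.Q0 (pl x) + ε * ch.d / ‖pl x‖ ^ 3 * (N * (C₁ * E * ch.h (pl x))) := by
          gcongr
      _ = C₂ * E * ch.Q0 (pl x) + ch.d * C₁ * N * E * (ε / ‖pl x‖ ^ 3 * ch.h (pl x)) := by ring
      _ ≤ C₂ * (N * E) * ch.Q0 (pl x) + |C| * C₁ * N * E * ch.Q0 (pl x) := by
          gcongr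
          exact le_mul_of_one_le_left hE0.le hN1
      _ = (C₂ + |C| * C₁) * N * E * ch.Q0 (pl x) := by ring
      _ ≤ (C₂ + |C| * C₁ + C₁) * N * E * ch.Q0 (pl x) := by
          have h5 : C₂ + |C| * C₁ ≤ C₂ + |C| * C₁ + C₁ := by linarith
          exact mul_le_mul_of_nonneg_right (mul_le_mul_of_nonneg_right
            (mul_le_mul_of_nonneg_right h5 (by linarith)) hE0.le) hQ
      _ ≤ η * ch.Q0 (pl x) := by gcongr
  · have b1 := hz c o C ε ch R N x hA hN1 hx h2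
    calc _ ≤ Real.exp (-ch.I * N) * (C₁ * Real.exp (ch.I * N) * E * ch.h (pl x) / N) := by gcongr
      _ = (Real.exp (-ch.I * N) * Real.exp (ch.I * N)) * (C₁ * (1 / N) * E * ch.h (pl x)) := by
          ring
      _ = C₁ * (1 / N) * E * ch.h (pl x) := by rw [← Real.exp_add]; simp
      _ ≤ (C₂ + |C| * C₁ + C₁) * N * E * ch.h (pl x) := by
          have : 0 ≤ |C| * C₁ := by positivity
          have h3 : (1 : ℝ) / N ≤ N := by
            rw [div_le_iff₀ (by linarith)]; nlinarith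
          gcongr
          linarith
      _ ≤ η * ch.h (pl x) := by gcongr

end Crest.Agent.R335
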