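import Crest.Agent.R335.LChain0

/-! Row 335. Product and chain rules, truncations. -/

set_option autoImplicit false

open MeasureTheory Set Filter Topology
open scoped ENNReal

noncomputable section

namespace Crest.Agent.R335

variable {E : Type} [NormedAddCommGroup E] [NormedSpace ℝ E] [FiniteDimensional ℝ E]
  [MeasureSpace E] [BorelSpace E] [(volume : Measure E).IsAddHaarMeasure]
  {ι : Type} [Fintype ι] {e : ι → E}

private theorem LChain_sq_deriv (s : ℝ) :
    HasDerivAt (fun t : ℝ => Max.max t 0 ^ 2) (2 * Max.max s 0) s := by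
  rcases lt_trichotomy s 0 with hs | rfl | hs
  · have e : (fun t : ℝ => Max.max t 0 ^ 2) =ᶠ[𝓝 s] fun _ => 0 := by
      filter_upwards [Iio_mem_nhds hs] with t ht
      rw [max_eq_right (le_of_lt ht)]; simp
    rw [max_eq_right hs.le, mul_zero]
    exact (hasDerivAt_const s (0 : ℝ)).congr_of_eventuallyEq e
  · rw [max_self, mul_zero, hasDerivAt_iff_isLittleO_nhds_zero]
    simp only [zero_add, max_self, smul_zero, sub_zero, ne_eq, OfNat.ofNat_ne_zero,
      not_false_eq_true, zero_pow]
    refine Asymptotics.IsBigO.trans_isLittleO (g := fun t : ℝ => t ^ 2)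
      (Asymptotics.IsBigO.of_bound 1 (Eventually.of_forall fun t => ?_))
      (Asymptotics.isLittleO_pow_id (by norm_num))
    rw [one_mul, norm_pow, norm_pow]
    gcongr
    rcases le_total t 0 with h | h
    · rw [max_eq_right h]; simp
    · rw [max_eq_left h]
  · have e : (fun t : ℝ => Max.max t 0 ^ 2) =ᶠ[𝓝 s] fun t => t ^ 2 := by
      filter_upwards [Ioi_mem_nhds hs] with t ht
      rw [max_eq_left (le_of_lt ht)]
    rw [max_eq_left hs.le]
    have := (hasDerivAt_pow 2 s).congr_of_eventuallyEq e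
    simpa using this

private theorem LChain_phi_deriv {δ : ℝ} (hδ : 0 < δ) (s : ℝ) :
    HasDerivAt (fun t : ℝ => √(Max.max t 0 ^ 2 + δ ^ 2) - δ)
      (Max.max s 0 / √(Max.max s 0 ^ 2 + δ ^ 2)) s := by
  have h0 : 0 < Max.max s 0 ^ 2 + δ ^ 2 := by positivity
  have := (((LChain_sq_deriv s).add_const (δ ^ 2)).sqrt h0.ne').sub_const δ
  refine this.congr_deriv ?_
  have : 0 < √(Max.max s 0 ^ 2 + δ ^ 2) := Real.sqrt_pos.2 h0
  field_simp

private theorem LChain_phi'_le {δ : ℝ} (hδ : 0 < δ) (s : ℝ) :
    |Max.max s 0 / √(Max.max s 0 ^ 2 + δ ^ 2)| ≤ 1 := by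
  have h0 : 0 < Max.max s 0 ^ 2 + δ ^ 2 := by positivity
  have h1 : 0 < √(Max.max s 0 ^ 2 + δ ^ 2) := Real.sqrt_pos.2 h0
  rw [abs_of_nonneg (by positivity), div_le_one h1]
  exact Real.le_sqrt_of_sq_le (by nlinarith [sq_nonneg δ])

private theorem LChain_phi_le {δ : ℝ} (hδ : 0 < δ) (s : ℝ) :
    |√(Max.max s 0 ^ 2 + δ ^ 2) - δ| ≤ |s| := by
  have h1 : δ ≤ √(Max.max s 0 ^ 2 + δ ^ 2) :=
    Real.le_sqrt_of_sq_le (by nlinarith [sq_nonneg (Max.max s 0)])
  have h2 : Max.max s 0 ≤ |s| := max_le (le_abs_self s) (abs_nonneg s)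
  have h3 : 0 ≤ Max.max s 0 := le_max_right _ _
  have h4 : √(Max.max s 0 ^ 2 + δ ^ 2) ≤ Max.max s 0 + δ :=
    Real.sqrt_le_iff.2 ⟨by positivity, by nlinarith [mul_nonneg h3 hδ.le]⟩
  rw [abs_of_nonneg (by linarith)]
  linarith

private theorem LChain_ite_meas {u w a b : E → ℝ} (hu : Measurable u) (hw : Measurable w)
    (ha : Measurable a) (hb : Measurable b) : Measurable fun x => if u x < w x then a x else b x :=
  Measurable.ite (measurableSet_lt hu hw) ha hb

private theorem LChain_memLp_of_le {u a b : E → ℝ} {μ : Measure E} (hu : Measurable u)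
    (ha : MemLp a 2 μ) (hb : MemLp b 2 μ) (h : ∀ x, |u x| ≤ |a x| + |b x|) : MemLp u 2 μ := by
  refine (ha.abs.add hb.abs).of_le hu.aestronglyMeasurable (Eventually.of_forall fun x => ?_)
  rw [Real.norm_eq_abs, Real.norm_eq_abs]
  exact (h x).trans (le_abs_self _)

private theorem LChain_ite_le (p : Prop) [Decidable p] (a b : ℝ) :
    |if p then a else b| ≤ |a| + |b| := by
  split_ifs <;> linarith [abs_nonneg a, abs_nonneg b]

theorem H1l.const (c : ℝ) : H1l e (fun _ => c) fun _ _ => 0 := by
  have := H1l.of_contDiff (e := e) (u := fun _ => c) contDiff_const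
  convert this using 3
  simp [pd]

/-- `Φ_δ s = √(s² + δ²) - δ` for `s > 0` and `0` otherwise; `WD.of_dominated`. -/
theorem H1l.posPart {u : E → ℝ} {g : ι → E → ℝ} (h : H1l e u g) :
    H1l e (fun x => max (u x) 0) fun i x => if 0 < u x then g i x else 0 := by
  have hm : Measurable fun x => Max.max (u x) 0 := h.m.max measurable_const
  have hgm : ∀ i, Measurable fun x => if 0 < u x then g i x else 0 := fun i =>
    LChain_ite_meas measurable_const h.m (h.gm i) measurable_const
  refine ⟨hm, hgm, h.l2.of_le (C := 1) hm.aestronglyMeasurable (Eventually.of_forall fun x => ?_),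
    fun i => (h.gl2 i).of_le (C := 1) (hgm i).aestronglyMeasurable
      (Eventually.of_forall fun x => ?_), fun i => ?_⟩
  · rw [one_mul, abs_of_nonneg (le_max_right _ _)]
    exact max_le (le_abs_self _) (abs_nonneg _)
  · split_ifs <;> simp
  · let δ : ℕ → ℝ := fun n => 1 / ((n : ℝ) + 1)
    have hδ : ∀ n, 0 < δ n := fun n => Nat.one_div_pos_of_nat
    have hδ0 : Tendsto δ atTop (𝓝 0) := tendsto_one_div_add_atTop_nhds_zero_nat
    have hc : ∀ n, Continuous fun s : ℝ => Max.max s 0 / √(Max.max s 0 ^ 2 + δ n ^ 2) := by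
      intro n
      refine Continuous.div (by fun_prop) (by fun_prop) fun s => ?_
      have := hδ n
      positivity
    have hn := fun n => (h.comp (LChain_phi_deriv (hδ n)) (hc n) (LChain_phi'_le (hδ n))).wd i
    refine WD.of_dominated (b := fun x => |u x| + |g i x|) hn ?_
      (fun n => Eventually.of_forall fun x => ?_) (fun n => Eventually.of_forall fun x => ?_)
      (Eventually.of_forall fun x => ?_) (Eventually.of_forall fun x => ?_)
    · exact fun x => (IntegrableAtFilter.norm ((h.wd i).lu x)).add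
        (IntegrableAtFilter.norm ((h.wd i).lg x))
    · linarith [LChain_phi_le (hδ n) (u x), abs_nonneg (g i x)]
    · rw [abs_mul]
      have := mul_le_mul_of_nonneg_right (LChain_phi'_le (hδ n) (u x)) (abs_nonneg (g i x))
      linarith [abs_nonneg (u x)]
    · have hc : Continuous fun d : ℝ => √(Max.max (u x) 0 ^ 2 + d ^ 2) - d := by fun_prop
      have := (hc.tendsto 0).comp hδ0
      simpa [Function.comp_def, Real.sqrt_sq (le_max_right (u x) 0)] using this
    · split_ifs with hx
      · have hc : ContinuousAt (fun d : ℝ => Max.max (u x) 0 / √(Max.max (u x) 0 ^ 2 + d ^ 2) * g i x)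
            0 := by
          refine (ContinuousAt.div (by fun_prop) (by fun_prop) ?_).mul continuousAt_const
          rw [max_eq_left hx.le]
          positivity
        have := hc.tendsto.comp hδ0
        simpa [Function.comp_def, max_eq_left hx.le, Real.sqrt_sq hx.le, hx.ne'] using this
      · rw [max_eq_right (not_lt.1 hx)]
        simp

theorem H1.posPart {u : E → ℝ} {g : ι → E → ℝ} (h : H1 e u g) :
    H1 e (fun x => max (u x) 0) fun i x => if 0 < u x then g i x else 0 := by
  have h1 := h.h1l.posPart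
  refine h1.h1 (LChain_memLp_of_le h1.m h.l2 h.l2 fun x => ?_)
    fun i => LChain_memLp_of_le (h1.gm i) (h.gl2 i) (h.gl2 i) fun x => ?_
  · rw [abs_of_nonneg (le_max_right _ _)]
    exact max_le (by linarith [le_abs_self (u x), abs_nonneg (u x)]) (by positivity)
  · split_ifs <;> simp [abs_nonneg]

/-- `u = u₊ - (-u)₊`. -/
theorem H1l.grad_zero {u : E → ℝ} {g : ι → E → ℝ} (h : H1l e u g) :
    ∀ᵐ x, u x = 0 → ∀ i, g i x = 0 := by
  have h1 := h.posPart.lin (h.lin h (-1) 0).posPart 1 (-1)
  have := h.grad_ae h1 (Eventually.of_forall fun x => by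
    rcases le_total (u x) 0 with hx | hx
    · simp [max_eq_right hx, max_eq_left (neg_nonneg.2 hx)]
    · simp [max_eq_left hx, max_eq_right (neg_nonpos.2 hx)])
  filter_upwards [this] with x hx h0 i
  simpa [h0] using hx i

theorem H1l.grad_eq {u w : E → ℝ} {g k : ι → E → ℝ} (h : H1l e u g) (h' : H1l e w k) :
    ∀ᵐ x, u x = w x → ∀ i, g i x = k i x := by
  filter_upwards [(h.lin h' 1 (-1)).grad_zero] with x hx h0 i
  have := hx (by rw [h0]; ring) i
  linarith

/-- If `u = c` almost everywhere on a set, the gradient vanishes almost everywhere on it. -/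
theorem H1l.grad_const {u : E → ℝ} {g : ι → E → ℝ} (h : H1l e u g) (c : ℝ) :
    ∀ᵐ x, u x = c → ∀ i, g i x = 0 := by
  exact h.grad_eq (H1l.const c)

theorem H1l.max {u w : E → ℝ} {g k : ι → E → ℝ} (h : H1l e u g) (h' : H1l e w k) :
    H1l e (fun x => max (u x) (w x)) fun i x => if w x < u x then g i x else k i x := by
  have h1 := (h.lin h' 1 (-1)).posPart.lin h' 1 1
  convert h1 using 2 with x i x
  · rcases le_total (u x) (w x) with hx | hx
    · rw [max_eq_right hx, max_eq_right (by linarith)]; ring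
    · rw [max_eq_left hx, max_eq_left (by linarith)]; ring
  · ext x
    by_cases hx : w x < u x
    · rw [if_pos hx, if_pos (by linarith)]; ring
    · rw [if_neg hx, if_neg (by linarith)]; ring

theorem H1l.min {u w : E → ℝ} {g k : ι → E → ℝ} (h : H1l e u g) (h' : H1l e w k) :
    H1l e (fun x => min (u x) (w x)) fun i x => if u x < w x then g i x else k i x := by
  have h1 := (h'.lin h 1 (-1)).posPart.lin h' (-1) 1
  convert h1 using 2 with x i x
  · rcases le_total (u x) (w x) with hx | hx
    · rw [min_eq_left hx, max_eq_left (by linarith)]; ring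
    · rw [min_eq_right hx, max_eq_right (by linarith)]; ring
  · ext x
    by_cases hx : u x < w x
    · rw [if_pos hx, if_pos (by linarith)]; ring
    · rw [if_neg hx, if_neg (by linarith)]; ring

theorem H1.max {u w : E → ℝ} {g k : ι → E → ℝ} (h : H1 e u g) (h' : H1 e w k) :
    H1 e (fun x => max (u x) (w x)) fun i x => if w x < u x then g i x else k i x := by
  have h1 := h.h1l.max h'.h1l
  refine h1.h1 (LChain_memLp_of_le h1.m h.l2 h'.l2 fun x => ?_)
    fun i => LChain_memLp_of_le (h1.gm i) (h.gl2 i) (h'.gl2 i) fun x => LChain_ite_le _ _ _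
  rw [max_def]
  linarith [LChain_ite_le (u x ≤ w x) (w x) (u x)]

theorem H1.min {u w : E → ℝ} {g k : ι → E → ℝ} (h : H1 e u g) (h' : H1 e w k) :
    H1 e (fun x => min (u x) (w x)) fun i x => if u x < w x then g i x else k i x := by
  have h1 := h.h1l.min h'.h1l
  refine h1.h1 (LChain_memLp_of_le h1.m h.l2 h'.l2 fun x => ?_)
    fun i => LChain_memLp_of_le (h1.gm i) (h.gl2 i) (h'.gl2 i) fun x => LChain_ite_le _ _ _
  rw [min_def]
  exact LChain_ite_le _ _ _

theorem H1l.abs {u : E → ℝ} {g : ι → E → ℝ} (h : H1l e u g) :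
    H1l e (fun x => |u x|) fun i x => if 0 ≤ u x then g i x else -g i x := by
  have h1 := (h.lin h (-1) 0).max h
  convert h1 using 2 with x i x
  · rw [abs_eq_max_neg, max_comm]; congr 1; ring
  · ext x
    by_cases hx : 0 ≤ u x
    · rw [if_pos hx, if_neg (by linarith)]
    · rw [if_neg hx, if_pos (by linarith)]; ring

theorem H1.abs {u : E → ℝ} {g : ι → E → ℝ} (h : H1 e u g) :
    H1 e (fun x => |u x|) fun i x => if 0 ≤ u x then g i x else -g i x := by
  have h1 := h.h1l.abs
  refine h1.h1 h.l2.abs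
    fun i => LChain_memLp_of_le (h1.gm i) (h.gl2 i) (h.gl2 i) fun x => ?_
  simpa using LChain_ite_le (0 ≤ u x) (g i x) (-g i x)

/-- Truncation at a level: `(u - c)₊`. -/
theorem H1l.posPart_sub {u : E → ℝ} {g : ι → E → ℝ} (h : H1l e u g) (c : ℝ) :
    H1l e (fun x => Max.max (u x - c) 0) fun i x => if c < u x then g i x else 0 := by
  have h1 := (h.lin (H1l.const c) 1 (-1)).posPart
  convert h1 using 2 with x i x
  · congr 1; ring
  · ext x
    by_cases hx : c < u x
    · rw [if_pos hx, if_pos (by linarith)]; ring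
    · rw [if_neg hx, if_neg (by linarith)]

/-- Truncation from above of an `H¹` function. -/
theorem H1.min_const {u : E → ℝ} {g : ι → E → ℝ} (h : H1 e u g) {c : ℝ} (hc : 0 ≤ c) :
    H1 e (fun x => Min.min (u x) c) fun i x => if u x < c then g i x else 0 := by
  have h1 := h.h1l.min (H1l.const c)
  refine h1.h1 (LChain_memLp_of_le h1.m h.l2 h.l2 fun x => ?_)
    fun i => LChain_memLp_of_le (h1.gm i) (h.gl2 i) (h.gl2 i) fun x => ?_
  · rcases le_total (u x) c with hx | hx
    · rw [min_eq_left hx]; linarith [abs_nonneg (u x)]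
    · rw [min_eq_right hx, abs_of_nonneg hc]; linarith [abs_nonneg (u x), le_abs_self (u x)]
  · split_ifs <;> simp [abs_nonneg]

end Crest.Agent.R335
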