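import Crest.Agent.R335.LMoll

/-! Row 335. Product and chain rules, truncations. -/

set_option autoImplicit false

open MeasureTheory Set Filter Topology
open scoped ENNReal

noncomputable section

namespace Crest.Agent.R335

variable {E : Type} [NormedAddCommGroup E] [NormedSpace ℝ E] [FiniteDimensional ℝ E]
  [MeasureSpace E] [BorelSpace E] [(volume : Measure E).IsAddHaarMeasure]
  {ι : Type} [Fintype ι] {e : ι → E}

theorem LChain0_loc {u : E → ℝ} {g : ι → E → ℝ} (h : H1l e u g) {K : Set E} (hK : IsCompact K) :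
    ∃ u' g', H1 e u' g' ∧ ∀ x ∈ K, u x = u' x ∧ ∀ i, g i x = g' i x := by
  obtain ⟨ζ, M, h1, h2, -, h4, -⟩ := exists_cut e
  obtain ⟨R, hR⟩ := hK.isBounded.exists_norm_le
  obtain ⟨n, hn⟩ := exists_nat_gt R
  refine ⟨_, _, h.mul_c1c (h1 n) (h2 n), fun x hx => ?_⟩
  have hx' : ‖x‖ < n := (hR x hx).trans_lt hn
  have h5 : ζ n =ᶠ[𝓝 x] fun _ => 1 := by
    filter_upwards [(isOpen_lt continuous_norm continuous_const).mem_nhds hx'] with y hy
    exact h4 n y (le_of_lt hy)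
  refine ⟨by rw [h5.eq_of_nhds, one_mul], fun i => ?_⟩
  rw [h5.eq_of_nhds, pd, h5.fderiv_eq]
  simp

theorem LChain0_cont {Φ : ℝ × ℝ → ℝ} (hΦ : ContDiff ℝ 1 Φ) :
    Continuous fun z : (ℝ × ℝ) × ℝ × ℝ => fderiv ℝ Φ z.1 z.2 :=
  ((hΦ.continuous_fderiv one_ne_zero).comp continuous_fst).clm_apply continuous_snd

theorem LChain0_wd1 {u w : E → ℝ} {g k : ι → E → ℝ} (h : H1 e u g) (h' : H1 e w k)
    {Φ : ℝ × ℝ → ℝ} (hΦ : ContDiff ℝ 1 Φ) {C : ℝ}
    (hb : ∀ (p q : ℝ × ℝ) (t : ℝ), ‖p‖ ≤ t → ‖q‖ ≤ t →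
      |Φ p| ≤ C * (1 + t ^ 2) ∧ |fderiv ℝ Φ p q| ≤ C * (1 + t ^ 2)) (i : ι) :
    WD (e i) (fun x => Φ (u x, w x)) fun x => fderiv ℝ Φ (u x, w x) (g i x, k i x) := by
  obtain ⟨φ, b, a1, -, -, -, a2, a3⟩ := h.approx_seq
  obtain ⟨ψ, c, c1, -, -, -, c2, c3⟩ := h'.approx_seq
  have d1 : ∀ n, ContDiff ℝ 1 (φ n) := fun n => (a1 n).of_le one_le_two
  have d2 : ∀ n, ContDiff ℝ 1 (ψ n) := fun n => (c1 n).of_le one_le_two
  have hn : ∀ {s t s' t' : ℝ}, |s| ≤ s' → |t| ≤ t' → ‖(s, t)‖ ≤ |s'| + |t'| := fun h1 h2 => by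
    rw [Prod.norm_def, Real.norm_eq_abs, Real.norm_eq_abs]
    exact max_le ((h1.trans (le_abs_self _)).trans (le_add_of_nonneg_right (abs_nonneg _)))
      ((h2.trans (le_abs_self _)).trans (le_add_of_nonneg_left (abs_nonneg _)))
  have hI : Integrable fun x => (|b x| + |c x|) ^ 2 := (a2.abs.add c2.abs).integrable_sq
  refine WD.of_dominated (u := fun n x => Φ (φ n x, ψ n x))
    (g := fun n x => fderiv ℝ Φ (φ n x, ψ n x) (pd e (φ n) i x, pd e (ψ n) i x))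
    (b := fun x => C * (1 + (|b x| + |c x|) ^ 2)) (fun n => ?_) ?_ (fun n => ?_) (fun n => ?_) ?_ ?_
  · have e1 : (fun x => fderiv ℝ Φ (φ n x, ψ n x) (pd e (φ n) i x, pd e (ψ n) i x)) =
        fun x => fderiv ℝ (fun x => Φ (φ n x, ψ n x)) x (e i) := funext fun x => by
      have := ((hΦ.differentiable one_ne_zero (φ n x, ψ n x)).hasFDerivAt.comp x
        (((d1 n).differentiable one_ne_zero x).hasFDerivAt.prodMk
          ((d2 n).differentiable one_ne_zero x).hasFDerivAt)).fderiv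
      rw [show (fun x => Φ (φ n x, ψ n x)) = Φ ∘ fun x => (φ n x, ψ n x) from rfl, this]
      rfl
    rw [e1]
    exact WD.of_contDiff (hΦ.comp ((d1 n).prodMk (d2 n))) _
  · exact ((locallyIntegrable_const (1 : ℝ)).add hI.locallyIntegrable).smul C
  · filter_upwards [a3, c3] with x hx hx'
    exact (hb _ _ _ (hn (hx.1 n) (hx'.1 n)) (hn (hx.2.1 n i) (hx'.2.1 n i))).1
  · filter_upwards [a3, c3] with x hx hx'
    exact (hb _ _ _ (hn (hx.1 n) (hx'.1 n)) (hn (hx.2.1 n i) (hx'.2.1 n i))).2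
  · filter_upwards [a3, c3] with x hx hx'
    exact (hΦ.continuous.tendsto _).comp (hx.2.2.1.prodMk_nhds hx'.2.2.1)
  · filter_upwards [a3, c3] with x hx hx'
    exact ((LChain0_cont hΦ).tendsto ((u x, w x), (g i x, k i x))).comp
      ((hx.2.2.1.prodMk_nhds hx'.2.2.1).prodMk_nhds ((hx.2.2.2 i).prodMk_nhds (hx'.2.2.2 i)))

theorem LChain0_wd {u w : E → ℝ} {g k : ι → E → ℝ} (h : H1l e u g) (h' : H1l e w k)
    {Φ : ℝ × ℝ → ℝ} (hΦ : ContDiff ℝ 1 Φ) {C : ℝ}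
    (hb : ∀ (p q : ℝ × ℝ) (t : ℝ), ‖p‖ ≤ t → ‖q‖ ≤ t →
      |Φ p| ≤ C * (1 + t ^ 2) ∧ |fderiv ℝ Φ p q| ≤ C * (1 + t ^ 2)) (i : ι) :
    WD (e i) (fun x => Φ (u x, w x)) fun x => fderiv ℝ Φ (u x, w x) (g i x, k i x) := by
  refine WD.of_local fun K hK => ?_
  obtain ⟨u', g', a1, a2⟩ := LChain0_loc h hK
  obtain ⟨w', k', c1, c2⟩ := LChain0_loc h' hK
  refine ⟨_, _, LChain0_wd1 a1 c1 hΦ hb i, .of_forall fun x hx => ?_, .of_forall fun x hx => ?_⟩
  · rw [(a2 x hx).1, (c2 x hx).1]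
  · rw [(a2 x hx).1, (c2 x hx).1, (a2 x hx).2, (c2 x hx).2]

theorem LChain0_contDiff {Φ Φ' : ℝ → ℝ} (hΦ : ∀ s, HasDerivAt Φ (Φ' s) s) (hc : Continuous Φ') :
    ContDiff ℝ 1 Φ :=
  contDiff_one_iff_deriv.2 ⟨fun s => (hΦ s).differentiableAt, by
    rwa [show deriv Φ = Φ' from funext fun s => (hΦ s).deriv]⟩

theorem LChain0_comp2 {u w : E → ℝ} {g k : ι → E → ℝ} (h : H1l e u g) (h' : H1l e w k)
    {Φ : ℝ × ℝ → ℝ} (hΦ : ContDiff ℝ 1 Φ) {M : ℝ} (hM : ∀ p, ‖fderiv ℝ Φ p‖ ≤ M) :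
    H1l e (fun x => Φ (u x, w x)) fun i x => fderiv ℝ Φ (u x, w x) (g i x, k i x) := by
  have hM0 : 0 ≤ M := (norm_nonneg _).trans (hM 0)
  have hL : ∀ p, |Φ p| ≤ |Φ 0| + M * ‖p‖ := fun p => by
    have := convex_univ.norm_image_sub_le_of_norm_fderiv_le
      (fun p _ => hΦ.differentiable one_ne_zero p) (fun p _ => hM p) (mem_univ 0) (mem_univ p)
    rw [sub_zero, Real.norm_eq_abs] at this
    linarith [abs_sub_abs_le_abs_sub (Φ p) (Φ 0)]
  have hD : ∀ p q, |fderiv ℝ Φ p q| ≤ M * ‖q‖ := fun p q =>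
    ((fderiv ℝ Φ p).le_opNorm q).trans (mul_le_mul_of_nonneg_right (hM p) (norm_nonneg _))
  have hn : ∀ s t : ℝ, ‖(s, t)‖ ≤ |s| + |t| := fun s t => by
    rw [Prod.norm_def, Real.norm_eq_abs, Real.norm_eq_abs]
    exact max_le (le_add_of_nonneg_right (abs_nonneg _)) (le_add_of_nonneg_left (abs_nonneg _))
  have m1 : Measurable fun x => Φ (u x, w x) := hΦ.continuous.measurable.comp (h.m.prodMk h'.m)
  have m2 : ∀ i, Measurable fun x => fderiv ℝ Φ (u x, w x) (g i x, k i x) := fun i =>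
    (LChain0_cont hΦ).measurable.comp ((h.m.prodMk h'.m).prodMk ((h.gm i).prodMk (h'.gm i)))
  refine ⟨m1, m2, fun K hK => ?_, fun i K hK => ?_, LChain0_wd h h' hΦ (C := |Φ 0| + M)
    fun p q t hp hq => ?_⟩
  · refine MemLp.mono' ((L2l.of_continuous (u := fun _ : E => |Φ 0|) continuous_const K hK).add
      (((h.l2 K hK).abs.add (h'.l2 K hK).abs).const_mul M)) m1.aestronglyMeasurable
      (.of_forall fun x => ?_)
    exact (hL _).trans (add_le_add le_rfl (mul_le_mul_of_nonneg_left (hn _ _) hM0))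
  · refine MemLp.mono' (((h.gl2 i K hK).abs.add (h'.gl2 i K hK).abs).const_mul M)
      (m2 i).aestronglyMeasurable (.of_forall fun x => ?_)
    exact (hD _ _).trans (mul_le_mul_of_nonneg_left (hn _ _) hM0)
  · have ht : t ≤ 1 + t ^ 2 := by nlinarith [sq_nonneg (t - 1), sq_nonneg t]
    have h1 : M * ‖p‖ ≤ M * (1 + t ^ 2) := mul_le_mul_of_nonneg_left (hp.trans ht) hM0
    have h2 : M * ‖q‖ ≤ M * (1 + t ^ 2) := mul_le_mul_of_nonneg_left (hq.trans ht) hM0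
    have h3 : 0 ≤ |Φ 0| * t ^ 2 := by positivity
    have h4 := abs_nonneg (Φ 0)
    exact ⟨(hL p).trans (by linarith), (hD p q).trans (by linarith)⟩

/-- Localise with `WD.of_local` and `H1l.mul_c1c`, approximate with `H1.approx_seq`, and use
`WD.of_dominated`. -/
theorem H1l.wd_mul {u w : E → ℝ} {g k : ι → E → ℝ} (h : H1l e u g) (h' : H1l e w k) (i : ι) :
    WD (e i) (fun x => u x * w x) fun x => g i x * w x + u x * k i x := by
  have hd : ∀ p q : ℝ × ℝ, fderiv ℝ (fun p : ℝ × ℝ => p.1 * p.2) p q = q.1 * p.2 + p.1 * q.2 :=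
    fun p q => by
      rw [(hasFDerivAt_fst.fun_mul hasFDerivAt_snd).fderiv]
      simp only [add_apply, smul_apply,
        ContinuousLinearMap.coe_fst', ContinuousLinearMap.coe_snd', smul_eq_mul]
      ring
  have := LChain0_wd h h' (Φ := fun p => p.1 * p.2) (by fun_prop) (C := 2) (fun p q t hp hq => by
    have p1 : |p.1| ≤ t := (norm_fst_le p).trans hp
    have p2 : |p.2| ≤ t := (norm_snd_le p).trans hp
    have q1 : |q.1| ≤ t := (norm_fst_le q).trans hq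
    have q2 : |q.2| ≤ t := (norm_snd_le q).trans hq
    have ht : 0 ≤ t := (abs_nonneg _).trans p1
    have a1 : |p.1 * p.2| ≤ t * t := by rw [abs_mul]; gcongr
    have a2 : |q.1 * p.2| ≤ t * t := by rw [abs_mul]; gcongr
    have a3 : |p.1 * q.2| ≤ t * t := by rw [abs_mul]; gcongr
    rw [hd]
    exact ⟨by nlinarith, (abs_add_le _ _).trans (by nlinarith)⟩) i
  simpa only [hd] using this

theorem H1l.mul {u w : E → ℝ} {g k : ι → E → ℝ} (h : H1l e u g) (h' : H1l e w k)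
    (h1 : L2l fun x => u x * w x) (h2 : ∀ i, L2l fun x => g i x * w x + u x * k i x) :
    H1l e (fun x => u x * w x) fun i x => g i x * w x + u x * k i x := by
  exact ⟨h.m.mul h'.m, fun i => ((h.gm i).mul h'.m).add (h.m.mul (h'.gm i)), h1, h2,
    h.wd_mul h'⟩

/-- A locally bounded `H¹_loc` functions form an algebra. -/
theorem H1l.mul_locbdd {u w : E → ℝ} {g k : ι → E → ℝ} (h : H1l e u g) (h' : H1l e w k)
    (hu : ∀ K : Set E, IsCompact K → ∃ M : ℝ, ∀ᵐ x, x ∈ K → |u x| ≤ M)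
    (hw : ∀ K : Set E, IsCompact K → ∃ M : ℝ, ∀ᵐ x, x ∈ K → |w x| ≤ M) :
    H1l e (fun x => u x * w x) fun i x => g i x * w x + u x * k i x := by
  have key : ∀ {a b : E → ℝ}, Measurable a → Measurable b → L2l b →
      (∀ K : Set E, IsCompact K → ∃ M : ℝ, ∀ᵐ x, x ∈ K → |a x| ≤ M) → L2l fun x => a x * b x := by
    intro a b ha hb hl hM K hK
    obtain ⟨M, hM⟩ := hM K hK
    refine (hl K hK).of_le_mul (c := M) (ha.mul hb).aestronglyMeasurable ?_
    filter_upwards [(ae_restrict_iff' hK.measurableSet).2 hM] with x hx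
    rw [norm_mul]
    exact mul_le_mul_of_nonneg_right hx (norm_nonneg _)
  refine h.mul h' (key h.m h'.m h'.l2 hu) fun i K hK => ?_
  have a1 := key h'.m (h.gm i) (h.gl2 i) hw K hK
  simp only [mul_comm (w _)] at a1
  exact a1.add (key h.m (h'.gm i) (h'.gl2 i) hu K hK)

/-- `u ∈ H¹`, `ξ ∈ H¹_loc` bounded with `u ∇ξ ∈ L²`. -/
theorem H1.mul_h1l {u ξ : E → ℝ} {g k : ι → E → ℝ} (h : H1 e u g) (h' : H1l e ξ k) {M : ℝ}
    (hM : ∀ᵐ x, |ξ x| ≤ M) (h2 : ∀ i, MemLp (fun x => u x * k i x) 2 volume) :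
    H1 e (fun x => u x * ξ x) fun i x => g i x * ξ x + u x * k i x := by
  have key : ∀ {a : E → ℝ}, Measurable a → MemLp a 2 volume →
      MemLp (fun x => a x * ξ x) 2 volume := by
    intro a ha hl
    refine hl.of_le_mul (c := M) (ha.mul h'.m).aestronglyMeasurable ?_
    filter_upwards [hM] with x hx
    rw [norm_mul, mul_comm]
    exact mul_le_mul_of_nonneg_right hx (norm_nonneg _)
  have a1 := key h.m h.l2
  have a2 : ∀ i, MemLp (fun x => g i x * ξ x + u x * k i x) 2 volume := fun i =>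
    (key (h.gm i) (h.gl2 i)).add (h2 i)
  exact (h.h1l.mul h' (L2l.of_memLp a1) fun i => L2l.of_memLp (a2 i)).h1 a1 a2

theorem H1l.comp {u : E → ℝ} {g : ι → E → ℝ} (h : H1l e u g) {Φ Φ' : ℝ → ℝ}
    (hΦ : ∀ s, HasDerivAt Φ (Φ' s) s) (hc : Continuous Φ') {M : ℝ} (hM : ∀ s, |Φ' s| ≤ M) :
    H1l e (fun x => Φ (u x)) fun i x => Φ' (u x) * g i x := by
  have hd : ∀ p : ℝ × ℝ, fderiv ℝ (fun p : ℝ × ℝ => Φ p.1) p =
      Φ' p.1 • ContinuousLinearMap.fst ℝ ℝ ℝ := fun p =>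
    ((hΦ p.1).comp_hasFDerivAt p hasFDerivAt_fst).fderiv
  have := LChain0_comp2 h h (Φ := fun p => Φ p.1) ((LChain0_contDiff hΦ hc).comp contDiff_fst)
    (M := M) fun p => by
      rw [hd, norm_smul, Real.norm_eq_abs]
      exact (mul_le_of_le_one_right (abs_nonneg _) (ContinuousLinearMap.norm_fst_le ℝ ℝ ℝ)).trans (hM _)
  simpa only [hd, smul_apply, ContinuousLinearMap.coe_fst', smul_eq_mul]
    using this

/-- The same for a bounded function `u`, without a bound on `Φ'` (modify `Φ'` outside the range). -/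
theorem H1l.comp_bdd {u : E → ℝ} {g : ι → E → ℝ} (h : H1l e u g) {Φ Φ' : ℝ → ℝ}
    (hΦ : ∀ s, HasDerivAt Φ (Φ' s) s) (hc : Continuous Φ') {M : ℝ} (hM : ∀ᵐ x, |u x| ≤ M) :
    H1l e (fun x => Φ (u x)) fun i x => Φ' (u x) * g i x := by
  let χ : ContDiffBump (0 : ℝ) := ⟨|M| + 1, |M| + 2, by positivity, by linarith⟩
  have c1 : ContDiff ℝ 1 fun s => χ s * Φ s := χ.contDiff.mul (LChain0_contDiff hΦ hc)
  have c2 : HasCompactSupport fun s => χ s * Φ s := χ.hasCompactSupport.mul_right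
  obtain ⟨N, hN⟩ := c2.deriv.exists_bound_of_continuous (c1.continuous_deriv le_rfl)
  have a1 := h.comp (fun s => (c1.differentiable one_ne_zero s).hasDerivAt)
    (c1.continuous_deriv le_rfl) hN
  have loc : ∀ s : ℝ, |s| ≤ M → (fun s => χ s * Φ s) =ᶠ[𝓝 s] Φ := fun s hs => by
    have : s ∈ Metric.ball (0 : ℝ) χ.rIn := by
      rw [mem_ball_zero_iff, Real.norm_eq_abs]
      exact (hs.trans (le_abs_self M)).trans_lt (lt_add_one _)
    filter_upwards [χ.eventuallyEq_one_of_mem_ball this] with y hy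
    rw [hy, Pi.one_apply, one_mul]
  refine a1.congr ((LChain0_contDiff hΦ hc).continuous.measurable.comp h.m)
    (fun i => (hc.measurable.comp h.m).mul (h.gm i)) ?_ fun i => ?_
  · filter_upwards [hM] with x hx
    exact (loc _ hx).eq_of_nhds
  · filter_upwards [hM] with x hx
    rw [(loc _ hx).deriv_eq, (hΦ _).deriv]

theorem H1.comp {u : E → ℝ} {g : ι → E → ℝ} (h : H1 e u g) {Φ Φ' : ℝ → ℝ}
    (hΦ : ∀ s, HasDerivAt Φ (Φ' s) s) (hc : Continuous Φ') {M : ℝ} (hM : ∀ s, |Φ' s| ≤ M)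
    (h0 : Φ 0 = 0) : H1 e (fun x => Φ (u x)) fun i x => Φ' (u x) * g i x := by
  have a := h.h1l.comp hΦ hc hM
  refine a.h1 (h.l2.of_le_mul (c := M) a.m.aestronglyMeasurable (.of_forall fun x => ?_)) fun i =>
    (h.gl2 i).of_le_mul (c := M) (a.gm i).aestronglyMeasurable (.of_forall fun x => ?_)
  · have := convex_univ.norm_image_sub_le_of_norm_hasDerivWithin_le
      (fun s _ => (hΦ s).hasDerivWithinAt) (fun s _ => hM s) (mem_univ 0) (mem_univ (u x))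
    rwa [h0, sub_zero, sub_zero] at this
  · rw [norm_mul]
    exact mul_le_mul_of_nonneg_right (hM _) (norm_nonneg _)

/-- Two variables. -/
theorem H1l.comp2 {u w : E → ℝ} {g k : ι → E → ℝ} (h : H1l e u g) (h' : H1l e w k)
    {Φ : ℝ × ℝ → ℝ} (hΦ : ContDiff ℝ 1 Φ) {M : ℝ} (hM : ∀ p, ‖fderiv ℝ Φ p‖ ≤ M) :
    H1l e (fun x => Φ (u x, w x)) fun i x => fderiv ℝ Φ (u x, w x) (g i x, k i x) := by
  exact LChain0_comp2 h h' hΦ hM

end Crest.Agent.R335
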