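import Crest.Agent.R335.LSob
import Crest.Agent.R335.LPoinc

/-! Row 335. De Giorgi: local boundedness. -/

set_option autoImplicit false

open MeasureTheory Set Filter Topology
open scoped ENNReal

noncomputable section

namespace Crest.Agent.R335

/-- The fast geometric convergence lemma. -/
theorem dg_iter {C b α : ℝ} (hC : 0 < C) (hb : 1 < b) (hα : 0 < α) {y : ℕ → ℝ}
    (h0 : ∀ j, 0 ≤ y j) (hrec : ∀ j, y (j + 1) ≤ C * b ^ j * y j ^ (1 + α))
    (hs : y 0 ≤ C ^ (-1 / α) * b ^ (-1 / α ^ 2)) : Tendsto y atTop (𝓝 0) := by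
  have hb0 : 0 < b := by linarith
  set A := C ^ (-1 / α) * b ^ (-1 / α ^ 2) with hA
  have hA0 : 0 < A := by positivity
  have hAα : A ^ α = C⁻¹ * b ^ (-1 / α) := by
    rw [hA, Real.mul_rpow (by positivity) (by positivity), ← Real.rpow_mul hC.le,
      ← Real.rpow_mul hb0.le, show -1 / α * α = -1 by field_simp,
      show -1 / α ^ 2 * α = -1 / α by field_simp, Real.rpow_neg_one]
  set q := b ^ (-1 / α) with hq
  have hq0 : 0 < q := by positivity
  have hq1 : q < 1 := Real.rpow_lt_one_of_one_lt_of_neg hb (by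
    rw [neg_div]
    exact neg_neg_of_pos (by positivity))
  have hqα : q ^ α = b⁻¹ := by
    rw [hq, ← Real.rpow_mul hb0.le, show -1 / α * α = -1 by field_simp, Real.rpow_neg_one]
  have key : ∀ j, y j ≤ A * q ^ j := by
    intro j
    induction j with
    | zero => simpa using hs
    | succ j ih =>
      refine (hrec j).trans ?_
      have h1 : y j ^ (1 + α) ≤ (A * q ^ j) ^ (1 + α) :=
        Real.rpow_le_rpow (h0 j) ih (by linarith)
      have h2 : (A * q ^ j) ^ (1 + α) = A * q ^ j * (C⁻¹ * q * b⁻¹ ^ j) := by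
        rw [Real.rpow_add (by positivity), Real.rpow_one, Real.mul_rpow hA0.le (by positivity), hAα,
          ← Real.rpow_natCast q j, ← Real.rpow_mul hq0.le, mul_comm (j : ℝ) α,
          Real.rpow_mul hq0.le, hqα, Real.rpow_natCast, Real.rpow_natCast]
      calc C * b ^ j * y j ^ (1 + α) ≤ C * b ^ j * (A * q ^ j * (C⁻¹ * q * b⁻¹ ^ j)) :=
            mul_le_mul_of_nonneg_left (h1.trans h2.le) (by positivity)
        _ = A * q ^ (j + 1) := by
            rw [inv_pow]
            field_simp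
            ring
  refine squeeze_zero h0 key ?_
  simpa using (tendsto_pow_atTop_nhds_zero_of_lt_one hq0.le hq1).const_mul A

theorem LDG_int {v : X → ℝ} {g : Fin 3 → X → ℝ} (h : H1l eX v g) (c : ℝ) (x₀ : X) (R : ℝ) :
    IntegrableOn (fun x => max (v x - c) 0 ^ 2) (Metric.ball x₀ R) :=
  IntegrableOn.mono_set (((h.posPart_sub c).l2 _ (isCompact_closedBall x₀ R)).integrable_sq)
    Metric.ball_subset_closedBall

theorem LDG_pt {u s : ℝ} (hs : 0 < s) : u ^ 2 ≤ u ^ 6 / s ^ 2 + s := by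
  rcases le_total (u ^ 2) s with h | h
  · have : 0 ≤ u ^ 6 / s ^ 2 := by positivity
    linarith
  · have h1 : u ^ 2 ≤ u ^ 6 / s ^ 2 := by
      rw [le_div_iff₀ (by positivity)]
      have h2 : s ^ 2 ≤ (u ^ 2) ^ 2 := pow_le_pow_left₀ hs.le h 2
      calc u ^ 2 * s ^ 2 ≤ u ^ 2 * (u ^ 2) ^ 2 := mul_le_mul_of_nonneg_left h2 (sq_nonneg u)
        _ = u ^ 6 := by ring
    linarith

theorem LDG_step {Λ Cs M b k k' ρ L s : ℝ} {v η : X → ℝ} {g : Fin 3 → X → ℝ} {x₀ : X}
    (hΛ : 0 ≤ Λ) (hCs : 0 ≤ Cs) (hb : 0 ≤ b) (hk : k < k') (hs : 0 < s)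
    (hS : ∀ (u : X → ℝ) (g : Fin 3 → X → ℝ), H1 eX u g →
      Integrable (fun x => u x ^ 6) ∧ ∫ x, u x ^ 6 ≤ Cs * dir g ^ 3)
    (h : H1l eX v g) (h1 : ContDiff ℝ 1 η) (h2 : HasCompactSupport η)
    (h3 : ∀ x, 0 ≤ η x ∧ η x ≤ 1) (h4 : ∀ x ∈ Metric.ball x₀ ρ, η x = 1)
    (h5 : tsupport η ⊆ Metric.ball x₀ L) (h6 : ∀ x, gs (pd eX η) x ≤ M)
    (hE : ∫ x, η x ^ 2 * (if k' < v x then gs g x else 0) ≤
      Λ * (∫ x, max (v x - k') 0 ^ 2 * gs (pd eX η) x) + b * ∫ x, max (v x - k') 0 * η x ^ 2) :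
    ∫ x in Metric.ball x₀ ρ, max (v x - k') 0 ^ 2 ≤
      Cs * (((2 * Λ + 2) * M + 2 * b / (k' - k)) *
          ∫ x in Metric.ball x₀ L, max (v x - k) 0 ^ 2) ^ 3 / s ^ 2 +
        s / (k' - k) ^ 2 * ∫ x in Metric.ball x₀ L, max (v x - k) 0 ^ 2 := by
  set y := ∫ x in Metric.ball x₀ L, max (v x - k) 0 ^ 2 with hy
  have hd : 0 < k' - k := by linarith
  have hM : 0 ≤ M := (gs_nonneg _ x₀).trans (h6 x₀)
  set F : X → ℝ := (Metric.ball x₀ L).indicator fun x => max (v x - k) 0 ^ 2 with hF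
  have hFi : Integrable F := (LDG_int h k x₀ L).integrable_indicator measurableSet_ball
  have hFy : ∫ x, F x = y := integral_indicator measurableSet_ball
  have hF0 : ∀ x, 0 ≤ F x := fun x => indicator_nonneg (fun _ _ => sq_nonneg _) x
  have hη0 : ∀ x, x ∉ Metric.ball x₀ L → η x = 0 := fun x hx =>
    image_eq_zero_of_notMem_tsupport fun h => hx (h5 h)
  have hg0 : ∀ x, x ∉ Metric.ball x₀ L → gs (pd eX η) x = 0 := fun x hx => by
    have : fderiv ℝ η x = 0 :=
      image_eq_zero_of_notMem_tsupport fun h => hx (h5 (tsupport_fderiv_subset ℝ h))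
    simp [gs, pd, this]
  have hw : ∀ x, max (v x - k') 0 ≤ max (v x - k) 0 := fun x => max_le_max (by linarith) le_rfl
  have hw2 : ∀ x, max (v x - k') 0 ≠ 0 → (k' - k) ^ 2 ≤ max (v x - k) 0 ^ 2 := fun x hx => by
    have h7 : 0 < v x - k' := by
      by_contra h7
      exact hx (max_eq_right (by linarith))
    exact pow_le_pow_left₀ hd.le (le_max_of_le_left (by linarith)) 2
  have hu := (h.posPart_sub k').mul_c1c h1 h2
  obtain ⟨i6, hsob⟩ := hS _ _ hu
  have e1 : ∫ x, max (v x - k') 0 ^ 2 * gs (pd eX η) x ≤ M * y := by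
    rw [← hFy, ← integral_const_mul]
    refine integral_mono_of_nonneg (ae_of_all _ fun x => mul_nonneg (sq_nonneg _) (gs_nonneg _ x))
      (hFi.const_mul M) (ae_of_all _ fun x => ?_)
    by_cases hx : x ∈ Metric.ball x₀ L
    · simp only [hF, indicator_of_mem hx]
      rw [mul_comm M]
      exact mul_le_mul (pow_le_pow_left₀ (le_max_right _ _) (hw x) 2) (h6 x) (gs_nonneg _ x)
        (sq_nonneg _)
    · simp only [hg0 x hx, mul_zero]
      exact mul_nonneg hM (hF0 x)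
  have e2 : ∫ x, max (v x - k') 0 * η x ^ 2 ≤ 1 / (k' - k) * y := by
    rw [← hFy, ← integral_const_mul]
    refine integral_mono_of_nonneg
      (ae_of_all _ fun x => mul_nonneg (le_max_right _ _) (sq_nonneg _))
      (hFi.const_mul _) (ae_of_all _ fun x => ?_)
    by_cases hx : x ∈ Metric.ball x₀ L
    · simp only [hF, indicator_of_mem hx]
      have h7 : η x ^ 2 ≤ 1 := pow_le_one₀ (h3 x).1 (h3 x).2
      refine (mul_le_of_le_one_right (le_max_right _ _) h7).trans ?_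
      by_cases h8 : max (v x - k') 0 = 0
      · rw [h8]
        positivity
      · have h9 : k' - k ≤ max (v x - k) 0 :=
          (pow_le_pow_iff_left₀ hd.le (le_max_right _ _) two_ne_zero).1 (hw2 x h8)
        rw [one_div_mul_eq_div, le_div_iff₀ hd, sq]
        exact mul_le_mul (hw x) h9 hd.le (le_max_right _ _)
    · simp only [hη0 x hx, ne_eq, OfNat.ofNat_ne_zero, not_false_eq_true, zero_pow, mul_zero]
      exact mul_nonneg (by positivity) (hF0 x)
  have iA : Integrable fun x => η x ^ 2 * (if k' < v x then gs g x else 0) := by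
    have h7 : ∀ i, MemLp (fun x => η x * if k' < v x then g i x else 0) 2 volume := fun i => by
      have h8 := ((h.posPart_sub k').gl2 i _ h2.isCompact)
      rw [← memLp_indicator_iff_restrict (isClosed_tsupport η).measurableSet] at h8
      refine h8.of_le (h1.continuous.measurable.mul ((h.posPart_sub k').gm i)).aestronglyMeasurable
        (ae_of_all _ fun x => ?_)
      by_cases hx : x ∈ tsupport η
      · rw [indicator_of_mem hx, norm_mul, Real.norm_of_nonneg (h3 x).1]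
        exact mul_le_of_le_one_left (norm_nonneg _) (h3 x).2
      · simp [image_eq_zero_of_notMem_tsupport hx]
    refine (integrable_finsetSum Finset.univ fun i _ => (h7 i).integrable_sq).congr
      (ae_of_all _ fun x => ?_)
    by_cases hx : k' < v x <;> simp [hx, gs, mul_pow, Finset.mul_sum]
  have iB : Integrable fun x => max (v x - k') 0 ^ 2 * gs (pd eX η) x := by
    refine (hFi.const_mul M).mono' ?_ (ae_of_all _ fun x => ?_)
    · refine (((h.posPart_sub k').m.pow_const 2).mul ?_).aestronglyMeasurable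
      exact Finset.measurable_sum _ fun i _ => ((H1l.of_contDiff (e := eX) h1).gm i).pow_const 2
    · rw [Real.norm_of_nonneg (mul_nonneg (sq_nonneg _) (gs_nonneg _ x))]
      by_cases hx : x ∈ Metric.ball x₀ L
      · simp only [hF, indicator_of_mem hx]
        rw [mul_comm M]
        exact mul_le_mul (pow_le_pow_left₀ (le_max_right _ _) (hw x) 2) (h6 x) (gs_nonneg _ x)
          (sq_nonneg _)
      · simp only [hg0 x hx, mul_zero]
        exact mul_nonneg hM (hF0 x)
  have e3 : dir (fun i x => η x * (if k' < v x then g i x else 0) + pd eX η i x * max (v x - k') 0) ≤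
      ((2 * Λ + 2) * M + 2 * b / (k' - k)) * y := by
    have h7 : dir (fun i x => η x * (if k' < v x then g i x else 0) +
        pd eX η i x * max (v x - k') 0) ≤
        ∫ x, (2 * (η x ^ 2 * (if k' < v x then gs g x else 0)) +
          2 * (max (v x - k') 0 ^ 2 * gs (pd eX η) x)) := by
      refine integral_mono_of_nonneg (ae_of_all _ fun x => gs_nonneg _ x)
        ((iA.const_mul 2).add (iB.const_mul 2)) (ae_of_all _ fun x => ?_)
      have h8 : (if k' < v x then gs g x else 0) =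
          ∑ i, (if k' < v x then g i x else 0) ^ 2 := by
        by_cases hx : k' < v x <;> simp [hx, gs]
      beta_reduce
      rw [h8]
      simp only [gs, Finset.mul_sum, ← Finset.sum_add_distrib]
      refine Finset.sum_le_sum fun i _ => ?_
      nlinarith [sq_nonneg (η x * (if k' < v x then g i x else 0) - pd eX η i x * max (v x - k') 0)]
    rw [integral_add (iA.const_mul 2) (iB.const_mul 2), integral_const_mul, integral_const_mul] at h7
    have h8 := mul_le_mul_of_nonneg_left e1 hΛ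
    have h9 := mul_le_mul_of_nonneg_left e2 hb
    have h10 : 2 * b / (k' - k) * y = 2 * (b * (1 / (k' - k) * y)) := by ring
    rw [add_mul, h10]
    linarith
  have e4 : ∫ x, (η x * max (v x - k') 0) ^ 6 ≤
      Cs * (((2 * Λ + 2) * M + 2 * b / (k' - k)) * y) ^ 3 :=
    hsob.trans (mul_le_mul_of_nonneg_left (pow_le_pow_left₀ (dir_nonneg _) e3 3) hCs)
  have e5 : ∫ x in Metric.ball x₀ ρ, max (v x - k') 0 ^ 2 ≤
      ∫ x, ((η x * max (v x - k') 0) ^ 6 / s ^ 2 + s / (k' - k) ^ 2 * F x) := by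
    rw [← integral_indicator measurableSet_ball]
    refine integral_mono_of_nonneg (ae_of_all _ fun x => indicator_nonneg (fun _ _ => sq_nonneg _) x)
      ((i6.div_const _).add (hFi.const_mul _)) (ae_of_all _ fun x => ?_)
    have h7 : 0 ≤ (η x * max (v x - k') 0) ^ 6 / s ^ 2 := by positivity
    have h8 : 0 ≤ s / (k' - k) ^ 2 * F x := mul_nonneg (by positivity) (hF0 x)
    by_cases hx : x ∈ Metric.ball x₀ ρ
    · simp only [indicator_of_mem hx]
      by_cases h9 : max (v x - k') 0 = 0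
      · rw [h9] at h7 ⊢
        simpa using h8
      · have hxL : x ∈ Metric.ball x₀ L := by
          by_contra h10
          have := hη0 x h10
          rw [h4 x hx] at this
          exact one_ne_zero this
        rw [h4 x hx, one_mul]
        refine (LDG_pt hs).trans (add_le_add le_rfl ?_)
        simp only [hF, indicator_of_mem hxL]
        rw [div_mul_eq_mul_div, le_div_iff₀ (by positivity)]
        exact mul_le_mul_of_nonneg_left (hw2 x h9) hs.le
    · simp only [indicator_of_notMem hx]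
      exact add_nonneg h7 h8
  rw [integral_add (i6.div_const _) (hFi.const_mul _), integral_div, integral_const_mul, hFy] at e5
  exact e5.trans (add_le_add (div_le_div_of_nonneg_right e4 (by positivity)) le_rfl)

theorem LDG_num {Cs D ε κ r t y E : ℝ} (hCs : 0 < Cs) (hD : 0 < D) (hκ : 0 < κ) (hr : 0 < r)
    (ht : 0 < t) (hε : 0 < ε) (hε2 : Cs * D ^ 3 * ε ^ 2 ≤ 1 / 2 ^ 22) (hy0 : 0 ≤ y) (hE0 : 0 ≤ E)
    (hE : E ≤ D / (r * t) ^ 2) (hy : y ≤ ε * κ ^ 2 * r ^ 3 * t ^ 5) :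
    Cs * (E * y) ^ 3 / (κ ^ 2 * t ^ 2 / 256) ^ 2 + κ ^ 2 * t ^ 2 / 256 / (κ * t / 2) ^ 2 * y ≤
      ε * κ ^ 2 * r ^ 3 * (t / 2) ^ 5 := by
  have h1 : (E * y) ^ 3 ≤ (D / (r * t) ^ 2 * (ε * κ ^ 2 * r ^ 3 * t ^ 5)) ^ 3 :=
    pow_le_pow_left₀ (mul_nonneg hE0 hy0) (mul_le_mul hE hy hy0 (by positivity)) 3
  have h2 : Cs * (E * y) ^ 3 / (κ ^ 2 * t ^ 2 / 256) ^ 2 ≤
      Cs * D ^ 3 * ε ^ 2 * (2 ^ 16 * (ε * κ ^ 2 * r ^ 3 * t ^ 5)) := by
    refine (div_le_div_of_nonneg_right (mul_le_mul_of_nonneg_left h1 hCs.le) (by positivity)).trans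
      (le_of_eq ?_)
    field_simp
    ring
  have h3 : κ ^ 2 * t ^ 2 / 256 / (κ * t / 2) ^ 2 = 1 / 64 := by
    field_simp
    ring
  have h4 := mul_le_mul_of_nonneg_right hε2
    (show 0 ≤ 2 ^ 16 * (ε * κ ^ 2 * r ^ 3 * t ^ 5) by positivity)
  rw [h3]
  have h5 : ε * κ ^ 2 * r ^ 3 * (t / 2) ^ 5 = ε * κ ^ 2 * r ^ 3 * t ^ 5 / 32 := by ring
  rw [h5]
  linarith

/-- Levels `κ_j = κ (1 - 2^{-j})`, radii `r_j = r (1 + 2^{-j-1})`... (all below `2 r`),
`y_j = ∫_{B_j} (v - κ_j)₊²`; `sobolev` for `η_j (v - κ_{j+1})₊`, Hölder and Chebyshev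
(`|{v > κ_{j+1}} ∩ B_j| ≤ 4^{j+1} y_j / κ²`); take `κ ≥ b r²`. -/
theorem dg (Λ : ℝ) (hΛ : 1 ≤ Λ) : ∃ C : ℝ, 0 < C ∧ ∀ (v : X → ℝ) (g : Fin 3 → X → ℝ) (x₀ : X)
    (r b : ℝ), 0 < r → 0 ≤ b → H1l eX v g →
    (∀ (κ : ℝ) (η : X → ℝ), 0 ≤ κ → ContDiff ℝ 1 η → HasCompactSupport η →
      tsupport η ⊆ Metric.ball x₀ (2 * r) → (∀ x, 0 ≤ η x ∧ η x ≤ 1) →
      ∫ x, η x ^ 2 * (if κ < v x then gs g x else 0) ≤
        Λ * (∫ x, max (v x - κ) 0 ^ 2 * gs (pd eX η) x) + b * ∫ x, max (v x - κ) 0 * η x ^ 2) →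
    ∀ᵐ x, x ∈ Metric.ball x₀ r →
      v x ≤ C * (√((∫ y in Metric.ball x₀ (2 * r), max (v y) 0 ^ 2) / r ^ 3) + b * r ^ 2) := by
  obtain ⟨Cs, hCs, hS⟩ := sobolev
  obtain ⟨M, hM, hcut⟩ := exists_cut_ball
  obtain ⟨D, hD⟩ : ∃ D : ℝ, D = (2 * Λ + 2) * (16 * M) + 4 := ⟨_, rfl⟩
  have hD0 : 0 < D := by rw [hD]; positivity
  obtain ⟨e, he0, he⟩ : ∃ e : ℝ, 0 < e ∧ Cs * D ^ 3 * (e ^ 2) ^ 2 ≤ 1 / 2 ^ 22 := by
    have h1 : ContinuousAt (fun e : ℝ => Cs * D ^ 3 * (e ^ 2) ^ 2) 0 := by fun_prop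
    have h2 := h1.eventually (gt_mem_nhds (a := (1 : ℝ) / 2 ^ 22) (by simp))
    obtain ⟨e, h3, h4⟩ := ((h2.filter_mono nhdsWithin_le_nhds).and
      (self_mem_nhdsWithin (s := Ioi (0 : ℝ)))).exists
    exact ⟨e, h4, h3.le⟩
  refine ⟨1 / e + 1, by positivity, fun v g x₀ r b hr hb h hE => ?_⟩
  have main : ∀ κ : ℝ, 0 < κ → b * r ^ 2 ≤ κ →
      ∫ y in Metric.ball x₀ (2 * r), max (v y) 0 ^ 2 ≤ e ^ 2 * κ ^ 2 * r ^ 3 →
      ∀ᵐ x, x ∈ Metric.ball x₀ r → v x ≤ κ := by
    intro κ hκ hκb h0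
    have key : ∀ j : ℕ, ∫ x in Metric.ball x₀ (r * (1 + (1 / 2) ^ j)),
        max (v x - κ * (1 - (1 / 2) ^ j)) 0 ^ 2 ≤ e ^ 2 * κ ^ 2 * r ^ 3 * ((1 / 2) ^ j) ^ 5 := by
      intro j
      induction j with
      | zero => simpa [one_add_one_eq_two, mul_comm r] using h0
      | succ j ih =>
        obtain ⟨t, ht⟩ : ∃ t : ℝ, t = (1 / 2) ^ j := ⟨_, rfl⟩
        have ht0 : 0 < t := by rw [ht]; positivity
        have ht1 : t ≤ 1 := by rw [ht]; exact pow_le_one₀ (by norm_num) (by norm_num)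
        rw [pow_succ, ← ht, show t * (1 / 2) = t / 2 by ring]
        rw [← ht] at ih
        have hrt := mul_pos hr ht0
        have hrt1 := mul_le_mul_of_nonneg_left ht1 hr.le
        have hκt := mul_pos hκ ht0
        have hκt1 := mul_le_mul_of_nonneg_left ht1 hκ.le
        obtain ⟨η, h1, h2, h3, h4, -, h5, h6, -⟩ := hcut x₀ (r * (1 + t / 2)) (r * t / 4)
          (by positivity) (by positivity)
        have h7 : tsupport η ⊆ Metric.ball x₀ (r * (1 + t)) :=
          h5.trans (Metric.closedBall_subset_ball (by linarith))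
        have h8 := LDG_step (k := κ * (1 - t)) (k' := κ * (1 - t / 2)) (ρ := r * (1 + t / 2))
          (s := κ ^ 2 * t ^ 2 / 256) (by linarith) hCs.le hb (by linarith) (by positivity) hS h h1 h2 h3
          (fun x hx => h4 x (by rw [← dist_eq_norm]; exact (Metric.mem_ball.1 hx).le)) h7 h6
          (hE _ η (by linarith) h1 h2 (h7.trans (Metric.ball_subset_ball (by linarith))) h3)
        rw [show κ * (1 - t / 2) - κ * (1 - t) = κ * t / 2 by ring] at h8
        refine h8.trans (LDG_num hCs hD0 hκ hr ht0 (by positivity) he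
          (integral_nonneg fun x => sq_nonneg _) (by positivity) ?_ ih)
        have h9 : 2 * b / (κ * t / 2) ≤ 4 / (r * t) ^ 2 := by
          rw [div_le_div_iff₀ (by positivity) (by positivity)]
          have h10 := mul_le_mul hκb (show t ^ 2 ≤ t by nlinarith) (by positivity) hκ.le
          nlinarith
        have h10 : D / (r * t) ^ 2 = (2 * Λ + 2) * (M / (r * t / 4) ^ 2) + 4 / (r * t) ^ 2 := by
          rw [hD]
          field_simp
          ring
        rw [h10]
        linarith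
    have h1 : ∫ x in Metric.ball x₀ r, max (v x - κ) 0 ^ 2 ≤ 0 := by
      have h2 : Tendsto (fun j : ℕ => e ^ 2 * κ ^ 2 * r ^ 3 * (((1 : ℝ) / 2) ^ j) ^ 5) atTop
          (𝓝 (e ^ 2 * κ ^ 2 * r ^ 3 * 0 ^ 5)) :=
        ((tendsto_pow_atTop_nhds_zero_of_lt_one (by norm_num) (by norm_num)).pow 5).const_mul _
      rw [zero_pow (by norm_num), mul_zero] at h2
      refine ge_of_tendsto' h2 fun j => le_trans ?_ (key j)
      have h3 : (0 : ℝ) < (1 / 2) ^ j := by positivity
      have h4 := mul_pos hr h3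
      have h5 := mul_pos hκ h3
      refine (setIntegral_mono_set (LDG_int h κ x₀ (r * (1 + (1 / 2) ^ j)))
        (ae_of_all _ fun x => sq_nonneg _)
        (Metric.ball_subset_ball (by linarith)).eventuallyLE).trans ?_
      exact integral_mono (LDG_int h _ _ _) (LDG_int h _ _ _) fun x =>
        pow_le_pow_left₀ (le_max_right _ _) (max_le_max (by linarith) le_rfl) 2
    have h2 := (setIntegral_eq_zero_iff_of_nonneg_ae (ae_of_all _ fun x => sq_nonneg _)
      (LDG_int h κ x₀ r)).1 (le_antisymm h1 (integral_nonneg fun x => sq_nonneg _))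
    rw [EventuallyEq, ae_restrict_iff' measurableSet_ball] at h2
    filter_upwards [h2] with x hx hx'
    have h3 : max (v x - κ) 0 = 0 := by simpa using hx hx'
    linarith [le_max_left (v x - κ) 0]
  set I := ∫ y in Metric.ball x₀ (2 * r), max (v y) 0 ^ 2 with hI
  have hI0 : 0 ≤ I := integral_nonneg fun x => sq_nonneg _
  have hq := Real.sqrt_nonneg (I / r ^ 3)
  have hbr : 0 ≤ b * r ^ 2 := by positivity
  have hqe : 0 ≤ √(I / r ^ 3) / e := by positivity
  have h1 : ∀ n : ℕ, ∀ᵐ x, x ∈ Metric.ball x₀ r →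
      v x ≤ √(I / r ^ 3) / e + b * r ^ 2 + 1 / ((n : ℝ) + 1) := fun n => by
    have h2 : (0 : ℝ) < 1 / ((n : ℝ) + 1) := by positivity
    refine main _ (by linarith) (by linarith) ?_
    have h3 : (√(I / r ^ 3) / e) ^ 2 ≤ (√(I / r ^ 3) / e + b * r ^ 2 + 1 / ((n : ℝ) + 1)) ^ 2 :=
      pow_le_pow_left₀ hqe (by linarith) 2
    calc I = e ^ 2 * (√(I / r ^ 3) / e) ^ 2 * r ^ 3 := by
          rw [div_pow, Real.sq_sqrt (by positivity)]
          field_simp
      _ ≤ _ := by gcongr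
  filter_upwards [ae_all_iff.2 h1] with x hx hx'
  have h2 : v x ≤ √(I / r ^ 3) / e + b * r ^ 2 + 0 :=
    ge_of_tendsto' (tendsto_one_div_add_atTop_nhds_zero_nat.const_add _) fun n => hx n hx'
  have h3 : 0 ≤ 1 / e * (b * r ^ 2) := by positivity
  have h4 : (1 / e + 1) * (√(I / r ^ 3) + b * r ^ 2) =
      √(I / r ^ 3) / e + 1 / e * (b * r ^ 2) + √(I / r ^ 3) + b * r ^ 2 := by ring
  rw [h4]
  linarith

end Crest.Agent.R335
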