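import Crest.Agent.R335.LVan

/-! Row 335. The heat kernel (see also `Crest.Agent.R215.Heat`). -/

set_option autoImplicit false

open MeasureTheory Set Filter Topology
open scoped ENNReal

noncomputable section

namespace Crest.Agent.R335

theorem G_pos {τ : ℝ} (h : 0 < τ) (x : X) : 0 < G τ x := by
  unfold G
  have := Real.pi_pos
  positivity

theorem G_neg (τ : ℝ) (x : X) : G τ (-x) = G τ x := by
  simp [G]

theorem G_P (τ : ℝ) (x : X) : G τ (P x) = G τ x := by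
  have : ‖P x‖ ^ 2 = ‖x‖ ^ 2 := by
    simp [EuclideanSpace.real_norm_sq_eq, Fin.sum_univ_three, P]
  simp only [G, this]

theorem contDiff_G (τ : ℝ) (n : ℕ) : ContDiff ℝ n (G τ) := by
  unfold G
  refine contDiff_const.mul (Real.contDiff_exp.comp ?_)
  exact (contDiff_norm_sq ℝ).neg.div_const _

theorem measurable_G : Measurable fun p : ℝ × X => G p.1 p.2 := by
  unfold G
  fun_prop

theorem fderiv_G {τ : ℝ} (h : 0 < τ) (x v : X) :
    fderiv ℝ (G τ) x v = -(inner ℝ x v) / τ * G τ x := by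
  have h1 : HasFDerivAt (fun y : X => ‖y‖ ^ 2) (2 • innerSL ℝ x) x :=
    (hasStrictFDerivAt_norm_sq x).hasFDerivAt
  have h2 := (((h1.neg.mul_const (2 * τ)⁻¹).exp).const_mul ((2 * Real.pi * τ) ^ (-(3 / 2 : ℝ))))
  have e : G τ = fun y : X => (2 * Real.pi * τ) ^ (-(3 / 2 : ℝ)) *
      Real.exp ((-fun y : X => ‖y‖ ^ 2) y * (2 * τ)⁻¹) := by
    funext y
    simp [G, div_eq_mul_inv]
  rw [e, h2.fderiv]
  simp
  field_simp

theorem hasDerivAt_G {τ : ℝ} (h : 0 < τ) (x : X) :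
    HasDerivAt (fun s => G s x) ((‖x‖ ^ 2 / (2 * τ ^ 2) - 3 / (2 * τ)) * G τ x) τ := by
  have hp : 0 < 2 * Real.pi * τ := by have := Real.pi_pos; positivity
  have h1 : HasDerivAt (fun s : ℝ => 2 * Real.pi * s) (2 * Real.pi) τ := by
    simpa using (hasDerivAt_id τ).const_mul (2 * Real.pi)
  have h2 := h1.rpow_const (p := -(3 / 2 : ℝ)) (Or.inl hp.ne')
  have h3 : HasDerivAt (fun s : ℝ => -‖x‖ ^ 2 / (2 * s)) (‖x‖ ^ 2 / (2 * τ ^ 2)) τ := by
    have := ((hasDerivAt_inv h.ne').const_mul (-‖x‖ ^ 2 / 2))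
    have e : (fun s : ℝ => -‖x‖ ^ 2 / (2 * s)) = fun y : ℝ => -‖x‖ ^ 2 / 2 * y⁻¹ := by
      funext s
      rw [div_mul_eq_mul_div, div_eq_mul_inv, div_eq_mul_inv, mul_inv]
      ring
    rw [e]
    refine this.congr_deriv ?_
    field_simp
  have h4 := h2.mul h3.exp
  unfold G
  refine h4.congr_deriv ?_
  rw [Real.rpow_sub_one hp.ne']
  have := Real.pi_pos
  field_simp
  ring

theorem LG0_integrable_exp {b : ℝ} (hb : 0 < b) :
    Integrable fun x : X => Real.exp (-b * ‖x‖ ^ 2) := by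
  have h := (GaussianFourier.integrable_cexp_neg_mul_sq_norm_add (V := X) (b := (b : ℂ))
    (by simpa using hb) 0 0).norm
  refine h.congr (Eventually.of_forall fun x => ?_)
  simp [Complex.norm_exp, ← Complex.ofReal_pow]

theorem LG0_G_eq {τ : ℝ} : G τ = fun x : X =>
    (2 * Real.pi * τ) ^ (-(3 / 2 : ℝ)) * Real.exp (-(2 * τ)⁻¹ * ‖x‖ ^ 2) := by
  funext x
  unfold G
  congr 2
  ring

theorem integrable_G {τ : ℝ} (h : 0 < τ) : Integrable (G τ) := by
  rw [LG0_G_eq]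
  exact (LG0_integrable_exp (by positivity)).const_mul _

/-- `GaussianFourier.integral_rexp_neg_mul_sq_norm`. -/
theorem integral_G {τ : ℝ} (h : 0 < τ) : ∫ x, G τ x = 1 := by
  have hp : 0 < 2 * Real.pi * τ := by have := Real.pi_pos; positivity
  rw [LG0_G_eq, integral_const_mul,
    GaussianFourier.integral_rexp_neg_mul_sq_norm (V := X) (by positivity)]
  have e : Real.pi / (2 * τ)⁻¹ = 2 * Real.pi * τ := by field_simp
  rw [e, ← Real.rpow_add hp]
  simp

theorem G_le {σ τ : ℝ} (h : 0 < σ) (h' : σ ≤ τ) (x : X) :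
    G σ x ≤ (τ / σ) ^ (3 / 2 : ℝ) * G τ x := by
  have hτ : 0 < τ := h.trans_le h'
  have hp := Real.pi_pos
  unfold G
  rw [← mul_assoc]
  have e : (τ / σ) ^ (3 / 2 : ℝ) * (2 * Real.pi * τ) ^ (-(3 / 2 : ℝ)) =
      (2 * Real.pi * σ) ^ (-(3 / 2 : ℝ)) := by
    have : 2 * Real.pi * σ = (τ / σ)⁻¹ * (2 * Real.pi * τ) := by field_simp
    rw [this, Real.mul_rpow (x := (τ / σ)⁻¹) (by positivity) (by positivity),
      Real.inv_rpow (by positivity), Real.rpow_neg (x := τ / σ) (by positivity), inv_inv]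
  rw [e]
  refine mul_le_mul_of_nonneg_left (Real.exp_le_exp.2 ?_) (by positivity)
  rw [neg_div, neg_div, neg_le_neg_iff]
  exact div_le_div_of_nonneg_left (by positivity) (by positivity) (by linarith)

/-- Completion of the square. -/
theorem G_mul_G {σ τ : ℝ} (h : 0 < σ) (h' : 0 < τ) (x y w : X) :
    G σ (x - y) * G τ (y - w) =
      G (σ + τ) (x - w) * G (σ * τ / (σ + τ)) (y - ((τ / (σ + τ)) • x + (σ / (σ + τ)) • w)) := by
  have hp := Real.pi_pos
  have hs : 0 < σ + τ := by positivity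
  unfold G
  rw [mul_mul_mul_comm, mul_mul_mul_comm ((2 * Real.pi * (σ + τ)) ^ (-(3 / 2 : ℝ))),
    ← Real.mul_rpow (by positivity) (by positivity),
    ← Real.mul_rpow (by positivity) (by positivity), ← Real.exp_add, ← Real.exp_add]
  congr 2
  · field_simp
  · simp only [EuclideanSpace.real_norm_sq_eq, Fin.sum_univ_three, PiLp.sub_apply,
      PiLp.add_apply, PiLp.smul_apply, smul_eq_mul]
    field_simp
    ring

theorem G_conv {σ τ : ℝ} (h : 0 < σ) (h' : 0 < τ) (x w : X) :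
    ∫ y, G σ (x - y) * G τ (y - w) = G (σ + τ) (x - w) := by
  have hs : 0 < σ * τ / (σ + τ) := by positivity
  simp_rw [G_mul_G h h']
  rw [integral_const_mul, integral_sub_right_eq_self (G (σ * τ / (σ + τ))), integral_G hs,
    mul_one]

theorem LG0_exp_le {τ κ : ℝ} (h : 0 < τ) (y : X) :
    G τ y * Real.exp (κ * ‖y‖) ≤ 3 * Real.exp (κ ^ 2 * τ) * G (2 * τ) y := by
  have hp := Real.pi_pos
  unfold G
  have e : (2 * Real.pi * τ) ^ (-(3 / 2 : ℝ)) =
      (2 : ℝ) ^ (3 / 2 : ℝ) * (2 * Real.pi * (2 * τ)) ^ (-(3 / 2 : ℝ)) := by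
    have : 2 * Real.pi * τ = (2 : ℝ)⁻¹ * (2 * Real.pi * (2 * τ)) := by ring
    rw [this, Real.mul_rpow (by positivity) (by positivity), Real.inv_rpow (by positivity),
      Real.rpow_neg (x := 2) (by positivity), inv_inv]
  have e2 : (2 : ℝ) ^ (3 / 2 : ℝ) ≤ 3 := by
    apply le_of_sq_le_sq _ (by norm_num)
    rw [← Real.rpow_natCast, ← Real.rpow_mul (by norm_num)]
    norm_num
  have e3 : Real.exp (-‖y‖ ^ 2 / (2 * τ)) * Real.exp (κ * ‖y‖) ≤
      Real.exp (κ ^ 2 * τ) * Real.exp (-‖y‖ ^ 2 / (2 * (2 * τ))) := by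
    rw [← Real.exp_add, ← Real.exp_add, Real.exp_le_exp]
    have : κ ^ 2 * τ + -‖y‖ ^ 2 / (2 * (2 * τ)) - (-‖y‖ ^ 2 / (2 * τ) + κ * ‖y‖) =
        (‖y‖ - 2 * κ * τ) ^ 2 / (4 * τ) := by
      field_simp
      ring
    have h2 : 0 ≤ (‖y‖ - 2 * κ * τ) ^ 2 / (4 * τ) := by positivity
    linarith
  rw [e]
  set c := (2 * Real.pi * (2 * τ)) ^ (-(3 / 2 : ℝ)) with hc
  have hc0 : 0 < c := by positivity
  calc (2 : ℝ) ^ (3 / 2 : ℝ) * c * Real.exp (-‖y‖ ^ 2 / (2 * τ)) * Real.exp (κ * ‖y‖)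
      = (2 : ℝ) ^ (3 / 2 : ℝ) * c * (Real.exp (-‖y‖ ^ 2 / (2 * τ)) * Real.exp (κ * ‖y‖)) := by
        ring
    _ ≤ 3 * c * (Real.exp (κ ^ 2 * τ) * Real.exp (-‖y‖ ^ 2 / (2 * (2 * τ)))) := by gcongr
    _ = _ := by ring

theorem LG0_integrable_coord {τ : ℝ} (h : 0 < τ) : Integrable fun y : X => y 2 * G τ y := by
  refine ((integrable_G (τ := 2 * τ) (by positivity)).const_mul
    (3 * Real.exp (1 ^ 2 * τ))).mono' ?_ (Eventually.of_forall fun y => ?_)
  · exact ((by fun_prop : Continuous fun y : X => y 2).mul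
      (contDiff_G τ 0).continuous).aestronglyMeasurable
  · refine le_trans ?_ (LG0_exp_le (κ := 1) h y)
    rw [norm_mul, Real.norm_of_nonneg (G_pos h y).le, mul_comm, one_mul]
    refine mul_le_mul_of_nonneg_left ?_ (G_pos h y).le
    have h1 := PiLp.norm_apply_le y 2
    have h2 := Real.add_one_le_exp ‖y‖
    linarith

theorem LG0_integral_coord (τ : ℝ) : ∫ y : X, y 2 * G τ y = 0 := by
  have h := integral_neg_eq_self (fun y : X => y 2 * G τ y) volume
  simp only [G_neg, PiLp.neg_apply, neg_mul, integral_neg] at h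
  linarith

theorem LG0_integral_coord_sub {τ : ℝ} (h : 0 < τ) (m : X) :
    ∫ y : X, y 2 * G τ (y - m) = m 2 := by
  rw [← integral_add_right_eq_self (fun y : X => y 2 * G τ (y - m)) m]
  simp only [PiLp.add_apply, add_sub_cancel_right, add_mul]
  rw [integral_add (LG0_integrable_coord h) ((integrable_G h).const_mul _), LG0_integral_coord,
    integral_const_mul, integral_G h]
  simp

/-- The mean of the Brownian bridge. -/
theorem G_bridge {σ τ : ℝ} (h : 0 < σ) (h' : 0 < τ) (x w : X) :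
    ∫ y, G σ (x - y) * (y 2 * G τ (y - w)) =
      G (σ + τ) (x - w) * ((τ * x 2 + σ * w 2) / (σ + τ)) := by
  have hs : 0 < σ * τ / (σ + τ) := by positivity
  have e : ∀ y : X, G σ (x - y) * (y 2 * G τ (y - w)) = G (σ + τ) (x - w) *
      (y 2 * G (σ * τ / (σ + τ)) (y - ((τ / (σ + τ)) • x + (σ / (σ + τ)) • w))) := fun y => by
    rw [mul_left_comm, G_mul_G h h', mul_left_comm]
  simp_rw [e]
  rw [integral_const_mul, LG0_integral_coord_sub hs]
  simp only [PiLp.add_apply, PiLp.smul_apply, smul_eq_mul]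
  ring

theorem G_mul_exp {τ : ℝ} (h : 0 < τ) (v y : X) :
    G τ y * Real.exp (inner ℝ v y) = Real.exp (‖v‖ ^ 2 * τ / 2) * G τ (y - τ • v) := by
  unfold G
  rw [mul_assoc, mul_left_comm (Real.exp (‖v‖ ^ 2 * τ / 2)), ← Real.exp_add, ← Real.exp_add]
  congr 2
  rw [norm_sub_sq_real, inner_smul_right, norm_smul, Real.norm_of_nonneg h.le, real_inner_comm]
  field_simp
  ring

theorem G_exp_le {τ κ : ℝ} (h : 0 < τ) (y : X) :
    G τ y * Real.exp (κ * ‖y‖) ≤ 3 * Real.exp (κ ^ 2 * τ) * G (2 * τ) y := by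
  exact LG0_exp_le h y

theorem LG0_sq (τ : ℝ) (x y : X) :
    G τ (x - y) ^ 2 = G τ (x - y) * G τ (y - x) := by
  rw [← G_neg τ (y - x), neg_sub, sq]

theorem memLp_G {τ : ℝ} (h : 0 < τ) (x : X) : MemLp (fun y => G τ (x - y)) 2 volume := by
  have hm : AEStronglyMeasurable (fun y => G τ (x - y)) volume :=
    ((contDiff_G τ 0).continuous.comp (by fun_prop)).aestronglyMeasurable
  rw [memLp_two_iff_integrable_sq hm]
  simp_rw [LG0_sq τ, G_mul_G h h]
  exact ((integrable_G (by positivity)).comp_sub_right _).const_mul _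

theorem nsq_G {τ : ℝ} (h : 0 < τ) (x : X) :
    nsq (fun y => G τ (x - y)) = (4 * Real.pi * τ) ^ (-(3 / 2 : ℝ)) := by
  unfold nsq
  simp_rw [LG0_sq τ]
  rw [G_conv h h]
  simp only [G, sub_self, norm_zero]
  have : 2 * Real.pi * (τ + τ) = 4 * Real.pi * τ := by ring
  simp [this]

end Crest.Agent.R335
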