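import Crest.Agent.R335.LLim

/-! Row 335. Existence of ground states from a gap; exponential decay from a gap. -/

set_option autoImplicit false
set_option linter.unusedSectionVars false

open MeasureTheory Set Filter Topology
open scoped ENNReal

noncomputable section

namespace Crest.Agent.R335

variable {E : Type} [NormedAddCommGroup E] [NormedSpace ℝ E] [FiniteDimensional ℝ E]
  [MeasureSpace E] [BorelSpace E] [(volume : Measure E).IsAddHaarMeasure]
  {ι : Type} [Fintype ι] {e : ι → E}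

theorem LGap0_ip_lin {u w v : E → ℝ} (hu : MemLp u 2 volume) (hw : MemLp w 2 volume)
    (hv : MemLp v 2 volume) (a b : ℝ) :
    ip v (fun x => a * u x + b * w x) = a * ip v u + b * ip v w := by
  unfold ip
  have h1 : Integrable fun x => v x * u x := hv.integrable_mul hu
  have h2 : Integrable fun x => v x * w x := hv.integrable_mul hw
  rw [← integral_const_mul, ← integral_const_mul,
    ← integral_add (h1.const_mul a) (h2.const_mul b)]
  congr 1
  ext x
  ring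

theorem LGap0_ip_comm (u w : E → ℝ) : ip u w = ip w u := by
  simp only [ip, mul_comm]

theorem LGap0_ip_self (u : E → ℝ) : ip u u = nsq u := by
  simp only [ip, nsq, sq]

theorem LGap0_dir {u : E → ℝ} {g : ι → E → ℝ} (h : H1 e u g) : dir g = ∑ i, nsq (g i) :=
  integral_finsetSum _ fun i _ => (h.gl2 i).integrable_sq

theorem LGap0_qf_le {U : E → ℝ} {C : ℝ} (hU : FB e U C) {u : E → ℝ} {g : ι → E → ℝ}
    (h : H1 e u g) : qf U u g ≤ dir g + C * nsq u := by
  have h1 := hU.bd u g h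
  have h2 : ∫ x, U x * u x ^ 2 ≤ ∫ x, |U x| * u x ^ 2 := by
    refine integral_mono (hU.int u g h) ?_ fun x =>
      mul_le_mul_of_nonneg_right (le_abs_self _) (sq_nonneg _)
    simpa only [abs_mul, abs_pow, sq_abs] using (hU.int u g h).abs
  have h3 := dir_nonneg g
  unfold qf
  linarith

theorem LGap0_sub (u w : E → ℝ) : (fun x => u x - w x) = fun x => 1 * u x + (-1) * w x := by
  ext x
  ring

theorem LGap0_sub' (g k : ι → E → ℝ) :
    (fun i x => g i x - k i x) = fun i x => 1 * g i x + (-1) * k i x := by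
  ext i x
  ring

/-- Parallelogram inequality for the nonnegative form `qf - b nsq`. -/
theorem LGap0_par {S : (E → ℝ) → Prop} (hS : Sector S) {U : E → ℝ} {C : ℝ} (hU : FB e U C) {b : ℝ}
    (hb : ∀ u g, H1 e u g → S u → b * nsq u ≤ qf U u g) {u w : E → ℝ} {g k : ι → E → ℝ}
    (h : H1 e u g) (h' : H1 e w k) (hu : S u) (hw : S w) :
    qf U (fun x => u x - w x) (fun i x => g i x - k i x) - b * nsq (fun x => u x - w x) ≤
      2 * (qf U u g - b * nsq u) + 2 * (qf U w k - b * nsq w) := by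
  have h1 := hb _ _ (h.lin h' 1 1) (hS.lin _ _ 1 1 hu hw)
  rw [hU.qf_lin h h', nsq_lin h.l2 h'.l2] at h1
  rw [LGap0_sub, LGap0_sub', hU.qf_lin h h', nsq_lin h.l2 h'.l2]
  linarith

/-- The Cauchy argument. -/
theorem LGap0_lim {S : (E → ℝ) → Prop} (hS : Sector S) {U : E → ℝ} {C : ℝ} (hU : FB e U C)
    {u₀ : E → ℝ} (h0 : MemLp u₀ 2 volume) (hn : nsq u₀ = 1) {b κ : ℝ} (hκ : 0 < κ)
    (hb : ∀ u g, H1 e u g → S u → b * nsq u ≤ qf U u g)
    (hg : ∀ u g, H1 e u g → S u → ip u₀ u = 0 → (b + κ) * nsq u ≤ qf U u g)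
    (hv : ∀ δ : ℝ, 0 < δ → ∃ v g, H1 e v g ∧ S v ∧ ip u₀ v = 1 ∧ qf U v g - b * nsq v ≤ δ) :
    ∃ v g, H1 e v g ∧ S v ∧ ip u₀ v = 1 ∧ qf U v g = b * nsq v := by
  choose v g hH hSv hip hQ using fun n : ℕ => hv (1 / (n + 1 : ℝ)) Nat.one_div_pos_of_nat
  have hs : ∀ {u w : E → ℝ}, S u → S w → S fun x => u x - w x := fun hu hw => by
    rw [LGap0_sub]
    exact hS.lin _ _ _ _ hu hw
  have hc : ∀ δ : ℝ, 0 < δ → ∃ N, ∀ n m, N ≤ n → N ≤ m → nsq (fun x => v n x - v m x) ≤ δ ∧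
      dir (fun i x => g n i x - g m i x) ≤ δ := by
    intro δ hδ
    have hM : 0 < 4 / κ + 16 * (1 + |b + C| / κ) := by positivity
    obtain ⟨N, hN⟩ := exists_nat_one_div_lt (div_pos hδ hM)
    refine ⟨N, fun n m h1 h2 => ?_⟩
    have e1 : 1 / (n + 1 : ℝ) ≤ 1 / (N + 1 : ℝ) := Nat.one_div_le_one_div h1
    have e2 : 1 / (m + 1 : ℝ) ≤ 1 / (N + 1 : ℝ) := Nat.one_div_le_one_div h2
    have e0 : 0 < 1 / (N + 1 : ℝ) := Nat.one_div_pos_of_nat
    have e3 := LGap0_par hS hU hb (hH n) (hH m) (hSv n) (hSv m)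
    have e4 := hg _ _ ((hH n).sub (hH m)) (hs (hSv n) (hSv m)) (by
      rw [LGap0_sub, LGap0_ip_lin (hH n).l2 (hH m).l2 h0, hip, hip]
      ring)
    have e5 := hU.dir_le ((hH n).sub (hH m))
    have e6 := nsq_nonneg fun x => v n x - v m x
    have e7 := hQ n
    have e8 := hQ m
    rw [lt_div_iff₀ hM] at hN
    generalize 1 / (N + 1 : ℝ) = t at *
    generalize nsq (fun x => v n x - v m x) = s at *
    have e9 : s ≤ 4 / κ * t := by
      rw [div_mul_eq_mul_div, le_div_iff₀ hκ]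
      linarith
    have e10 : (b + C) * s ≤ |b + C| * (4 / κ * t) :=
      mul_le_mul (le_abs_self _) e9 e6 (abs_nonneg _)
    have e11 : 0 ≤ 4 / κ * t := by positivity
    have e12 : 0 ≤ 16 * (1 + |b + C| / κ) * t := by positivity
    have e13 : |b + C| * (4 / κ * t) = 4 * (|b + C| / κ) * t := by ring
    constructor <;> nlinarith
  obtain ⟨w₀, m₀, l₀, t₀⟩ := exists_l2_lim (fun n => (hH n).l2) fun δ hδ =>
    (hc δ hδ).imp fun N hN n m h1 h2 => (hN n m h1 h2).1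
  obtain ⟨w, mw, ew, sw⟩ := hS.lim v w₀ hSv (fun n => (hH n).l2) m₀ l₀ t₀
  have tw : Tendsto (fun n => nsq fun x => v n x - w x) atTop (𝓝 0) := by
    refine t₀.congr fun n => integral_congr_ae ?_
    filter_upwards [ew] with x hx
    rw [hx]
  have lw : MemLp w 2 volume := l₀.ae_eq ew.symm
  choose k mk lk tk using fun i => exists_l2_lim (fun n => (hH n).gl2 i) fun δ hδ =>
    (hc δ hδ).imp fun N hN n m h1 h2 => le_trans (by
      rw [LGap0_dir ((hH n).sub (hH m))]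
      exact Finset.single_le_sum (f := fun i => nsq fun x => g n i x - g m i x)
        (fun i _ => nsq_nonneg _) (Finset.mem_univ i)) (hN n m h1 h2).2
  have hw := H1.of_tendsto hH mw mk lw lk tw tk
  refine ⟨w, k, hw, sw, ?_, le_antisymm ?_ (hb _ _ hw sw)⟩
  · have : (1 - ip u₀ w) ^ 2 ≤ 0 := ge_of_tendsto' tw fun n => by
      have h1 := ip_sq_le h0 ((hH n).sub hw).l2
      rw [hn, one_mul] at h1
      refine le_trans (le_of_eq ?_) h1
      rw [LGap0_sub, LGap0_ip_lin (hH n).l2 lw h0, hip]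
      ring
    nlinarith
  · have t1 : Tendsto (fun n : ℕ => 2 * (1 / (n + 1 : ℝ)) + 2 * ((∑ i, nsq fun x => g n i x - k i x) +
        (C - b) * nsq fun x => v n x - w x)) atTop (𝓝 (2 * 0 + 2 * ((∑ _i : ι, 0) + (C - b) * 0))) :=
      (tendsto_one_div_add_atTop_nhds_zero_nat.const_mul _).add
        (((tendsto_finsetSum _ fun i _ => tk i).add (tw.const_mul _)).const_mul _)
    simp only [Finset.sum_const_zero, mul_zero, add_zero] at t1
    refine sub_nonpos.1 (ge_of_tendsto' t1 fun n => ?_)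
    have h1 := LGap0_par hS hU hb (hH n) ((hH n).sub hw) (hSv n) (hs (hSv n) sw)
    have h2 := LGap0_qf_le hU ((hH n).sub hw)
    rw [LGap0_dir ((hH n).sub hw)] at h2
    simp only [sub_sub_cancel] at h1
    have h3 := hQ n
    linarith

/-- Let `b` be the infimum and `Q = qf - b nsq ≥ 0` on the sector (a seminorm).  For a minimising
sequence with `c_k = ⟨u₀, u_k⟩ ≥ 0`: `γ (1 - c_k²) ≤ qf u_k - a`, so `c_k` is bounded below; along a
subsequence `c_k → c > 0`, and `v = c_j u_k - c_k u_j ⊥ u₀` satisfies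
`(a + γ - b) ‖v‖² ≤ Q v ≤ 2 Q u_k + 2 Q u_j`: Cauchy in `L²` and (`FB.dir_le`) in `H¹`.
Gap: for `u ⊥ w` some combination `α w + β u` with `β ≠ 0` is orthogonal to `u₀`. -/
theorem gapmin {S : (E → ℝ) → Prop} (hS : Sector S) {U : E → ℝ} {C : ℝ} (hU : FB e U C)
    {u₀ : E → ℝ} {g₀ : ι → E → ℝ} (h0 : H1 e u₀ g₀) (hS0 : S u₀) (hn : nsq u₀ = 1) {a γ μ : ℝ}
    (hμ : 0 ≤ μ) (hγ : μ < γ) (hq : qf U u₀ g₀ ≤ a + μ)
    (hgap : ∀ u g, H1 e u g → S u → a * nsq u + γ * (nsq u - ip u₀ u ^ 2) ≤ qf U u g) :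
    ∃ (w : E → ℝ) (k : ι → E → ℝ) (b : ℝ), H1 e w k ∧ S w ∧ nsq w = 1 ∧ qf U w k = b ∧ a ≤ b ∧
      b ≤ a + μ ∧ (∀ u g, H1 e u g → S u → bf U w k u g = b * ip w u) ∧
      (∀ u g, H1 e u g → S u →
        b * ip w u ^ 2 + (a + γ) * (nsq u - ip w u ^ 2) ≤ qf U u g) ∧
      nsq (fun x => w x - u₀ x) ≤ 2 * μ / γ ∧
      dir (fun i x => k i x - g₀ i x) ≤ 4 * (μ + (|a| + μ + |C|) * (2 * μ / γ)) := by
  have hγ0 : 0 < γ := hμ.trans_lt hγ
  have hip : ∀ {u g}, H1 e u g → ip u₀ u ^ 2 ≤ nsq u := fun h => by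
    simpa only [hn, one_mul] using ip_sq_le h0.l2 h.l2
  obtain ⟨b, hab, hba, hb, hb'⟩ : ∃ b, a ≤ b ∧ b ≤ a + μ ∧
      (∀ u g, H1 e u g → S u → b * nsq u ≤ qf U u g) ∧
      ∀ ε, 0 < ε → ∃ u g, H1 e u g ∧ S u ∧ qf U u g < (b + ε) * nsq u := by
    let B : Set ℝ := {β | ∀ u g, H1 e u g → S u → β * nsq u ≤ qf U u g}
    have ha : a ∈ B := fun u g h hs => by
      have h1 := hgap u g h hs
      have h2 := mul_nonneg hγ0.le (sub_nonneg.2 (hip h))
      linarith
    have hu : ∀ β ∈ B, β ≤ a + μ := fun β hβ => by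
      have := hβ u₀ g₀ h0 hS0
      rw [hn] at this
      linarith
    refine ⟨sSup B, le_csSup ⟨_, hu⟩ ha, csSup_le ⟨a, ha⟩ hu, fun u g h hs => ?_, fun ε hε => ?_⟩
    · rcases (nsq_nonneg u).eq_or_lt with h1 | h1
      · simpa only [← h1, mul_zero] using ha u g h hs
      · exact (le_div_iff₀ h1).1 (csSup_le ⟨a, ha⟩ fun β hβ => (le_div_iff₀ h1).2 (hβ u g h hs))
    · by_contra hc
      push Not at hc
      have := le_csSup ⟨_, hu⟩ (show sSup B + ε ∈ B from hc)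
      linarith
  have hsm : ∀ {u g} (t : ℝ), H1 e u g → S u → ∃ v l, H1 e v l ∧ S v ∧ ip u₀ v = t * ip u₀ u ∧
      nsq v = t ^ 2 * nsq u ∧ qf U v l = t ^ 2 * qf U u g := fun t h hs =>
    ⟨_, _, h.lin h t 0, hS.lin _ _ t 0 hs hs, by rw [LGap0_ip_lin h.l2 h.l2 h0.l2]; ring,
      by rw [nsq_lin h.l2 h.l2]; ring, by rw [hU.qf_lin h h]; ring⟩
  obtain ⟨v, l, hv, sv, iv, qv⟩ := LGap0_lim hS hU h0.l2 hn (sub_pos.2 hγ) hb
    (fun u g h hs h1 => by
      have h2 := hgap u g h hs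
      have h3 := mul_le_mul_of_nonneg_right hba (nsq_nonneg u)
      rw [h1] at h2
      linarith) fun δ hδ => by
      have hκ : 0 < (γ - μ) / 2 := half_pos (sub_pos.2 hγ)
      obtain ⟨u, g, h, hs, h1⟩ := hb' (min ((γ - μ) / 2) (δ * ((γ - μ) / 2) / γ)) (by positivity)
      have h2 := hgap u g h hs
      have h3 := mul_le_mul_of_nonneg_right hba (nsq_nonneg u)
      have h4 := mul_le_mul_of_nonneg_right (min_le_left ((γ - μ) / 2) (δ * ((γ - μ) / 2) / γ))
        (nsq_nonneg u)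
      have h5 := mul_le_mul_of_nonneg_right (min_le_right ((γ - μ) / 2) (δ * ((γ - μ) / 2) / γ))
        (nsq_nonneg u)
      have h6 : (γ - μ) / 2 * nsq u < γ * ip u₀ u ^ 2 := by linarith
      have h7 : ip u₀ u ≠ 0 := fun h7 => by
        have := mul_nonneg hκ.le (nsq_nonneg u)
        rw [h7] at h6
        linarith
      obtain ⟨v, l, hv, sv, e1, e2, e3⟩ := hsm (ip u₀ u)⁻¹ h hs
      refine ⟨v, l, hv, sv, by rw [e1, inv_mul_cancel₀ h7], ?_⟩
      have h8 : qf U u g - b * nsq u ≤ δ * ip u₀ u ^ 2 := by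
        have h9 : δ * ((γ - μ) / 2) / γ * nsq u ≤ δ * ip u₀ u ^ 2 := by
          rw [div_mul_eq_mul_div, div_le_iff₀ hγ0]
          nlinarith
        linarith
      rw [e2, e3, ← mul_left_comm, ← mul_sub, inv_pow, inv_mul_le_iff₀ (by positivity)]
      linarith
  have hv1 : 1 ≤ nsq v := by simpa only [iv, one_pow] using hip hv
  obtain ⟨w, k, hw, sw, e1, e2, e3⟩ := hsm (√(nsq v))⁻¹ hv sv
  rw [inv_pow, Real.sq_sqrt (nsq_nonneg v)] at e2 e3
  rw [inv_mul_cancel₀ (by positivity)] at e2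
  rw [qv, mul_left_comm, inv_mul_cancel₀ (by positivity), mul_one] at e3
  have hc : 0 < ip u₀ w := by
    rw [e1, iv, mul_one]
    exact inv_pos.2 (Real.sqrt_pos.2 (by positivity))
  have hE : ∀ u g, H1 e u g → S u → bf U w k u g = b * ip w u := fun u g h hs => by
    have h1 : ∀ t : ℝ, 0 ≤ (qf U u g - b * nsq u) * (t * t) + 2 * (bf U w k u g - b * ip w u) * t
        + 0 := fun t => by
      have h2 := hb _ _ (hw.lin h 1 t) (hS.lin _ _ 1 t sw hs)
      rw [hU.qf_lin hw h, nsq_lin hw.l2 h.l2, e2, e3] at h2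
      linarith
    have h2 := discrim_le_zero h1
    unfold discrim at h2
    nlinarith
  have hd : nsq (fun x => w x - u₀ x) ≤ 2 * μ / γ := by
    have h1 := hgap w k hw sw
    have h2 := hip hw
    rw [e2] at h1 h2
    rw [LGap0_sub, nsq_lin hw.l2 h0.l2, e2, hn, LGap0_ip_comm, le_div_iff₀ hγ0]
    have h3 : ip u₀ w ≤ 1 := by nlinarith
    have h4 : ip u₀ w ^ 2 ≤ ip u₀ w := by nlinarith
    nlinarith
  refine ⟨w, k, b, hw, sw, e2, e3, hab, hba, hE, fun u g h hs => ?_, hd, ?_⟩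
  · have h1 := hgap _ _ (hw.lin h (-(ip u₀ u / ip u₀ w)) 1) (hS.lin _ _ _ _ sw hs)
    rw [LGap0_ip_lin hw.l2 h.l2 h0.l2, neg_mul, div_mul_cancel₀ _ hc.ne', hU.qf_lin hw h,
      nsq_lin hw.l2 h.l2, e2, e3, hE u g h hs] at h1
    have h2 := mul_nonneg (show 0 ≤ a + γ - b by linarith)
      (sq_nonneg (ip u₀ u / ip u₀ w - ip w u))
    linarith
  · have h1 := hU.dir_le (hw.sub h0)
    have h2 := nsq_nonneg fun x => w x - u₀ x
    have h3 : (b + C) * nsq (fun x => w x - u₀ x) ≤ (|a| + μ + |C|) * (2 * μ / γ) :=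
      mul_le_mul (by linarith [le_abs_self a, le_abs_self C]) hd h2 (by positivity)
    have h4 : qf U (fun x => w x - u₀ x) (fun i x => k i x - g₀ i x) -
        b * nsq (fun x => w x - u₀ x) ≤ μ := by
      rw [LGap0_sub, LGap0_sub', hU.qf_lin hw h0, nsq_lin hw.l2 h0.l2, e2, e3, hn, hE _ _ h0 hS0]
      linarith
    linarith

theorem eq_of_ip_sq {u w : E → ℝ} (hu : MemLp u 2 volume) (hw : MemLp w 2 volume)
    (hu1 : nsq u = 1) (hw1 : nsq w = 1) (h : 1 ≤ ip w u ^ 2) :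
    (u =ᵐ[volume] w) ∨ u =ᵐ[volume] fun x => -w x := by
  have key : ∀ s : ℝ, s ^ 2 = 1 → 1 ≤ s * ip w u → u =ᵐ[volume] fun x => s * w x := by
    intro s hs h1
    have h2 := nsq_lin hw hu (-s) 1
    have h3 := nsq_nonneg fun x => -s * w x + 1 * u x
    have h4 : nsq (fun x => -s * w x + 1 * u x) = 0 := by
      rw [hu1, hw1] at h2
      nlinarith
    have h5 := (integral_eq_zero_iff_of_nonneg (fun x => sq_nonneg _)
      ((hw.const_mul (-s)).add (hu.const_mul 1)).integrable_sq).1 h4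
    filter_upwards [h5] with x hx
    have h6 := pow_eq_zero_iff (two_ne_zero) |>.1 hx
    simp only [Pi.add_apply] at h6
    linarith
  rcases le_total 0 (ip w u) with h1 | h1
  · exact Or.inl (by simpa using key 1 (by norm_num) (by nlinarith))
  · exact Or.inr (by simpa using key (-1) (by norm_num) (by nlinarith))

end Crest.Agent.R335
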