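import Crest.Agent.R335.LG0

/-! Row 335. The heat kernel (see also `Crest.Agent.R215.Heat`). -/

set_option autoImplicit false

open MeasureTheory Set Filter Topology
open scoped ENNReal

noncomputable section

namespace Crest.Agent.R335

theorem integrable_Gc {τ : ℝ} (h : 0 < τ) {f : X → ℝ} (hf : MemLp f 2 volume) (x : X) :
    Integrable fun y => G τ (x - y) * f y := by
  exact (memLp_G h x).integrable_mul hf

theorem abs_Gc_le {τ : ℝ} (h : 0 < τ) {f : X → ℝ} (hf : MemLp f 2 volume) (x : X) :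
    |Gc τ f x| ≤ τ ^ (-(3 / 4 : ℝ)) * √(nsq f) := by
  have h1 := ip_sq_le (memLp_G h x) hf
  rw [nsq_G h] at h1
  have h2 : (4 * Real.pi * τ) ^ (-(3 / 2 : ℝ)) ≤ (τ ^ (-(3 / 4 : ℝ))) ^ 2 := by
    rw [← Real.rpow_natCast, ← Real.rpow_mul h.le]
    norm_num only
    refine Real.rpow_le_rpow_of_nonpos h ?_ (by norm_num)
    nlinarith [Real.pi_gt_three]
  refine abs_le_of_sq_le_sq' ?_ (by positivity) |> abs_le.2
  rw [mul_pow, Real.sq_sqrt (nsq_nonneg f)]
  exact h1.trans (mul_le_mul_of_nonneg_right h2 (nsq_nonneg f))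

theorem LGauss_shift {σ : ℝ} (h : 0 < σ) (z w : X) (hw : ‖w‖ ≤ 1) :
    G σ (z + w) ≤ 3 * Real.exp (σ⁻¹ ^ 2 * σ) * G (2 * σ) z := by
  refine le_trans ?_ (G_exp_le (κ := σ⁻¹) h z)
  unfold G
  rw [mul_assoc _ (Real.exp _), ← Real.exp_add]
  refine mul_le_mul_of_nonneg_left (Real.exp_le_exp.2 ?_) (by positivity)
  have h1 : ‖z‖ ^ 2 - 2 * ‖z‖ ≤ ‖z + w‖ ^ 2 := by
    rw [norm_add_sq_real]
    have h2 := abs_real_inner_le_norm z w
    have h3 : ‖z‖ * ‖w‖ ≤ ‖z‖ * 1 := by gcongr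
    nlinarith [(abs_le.1 h2).1, sq_nonneg ‖w‖]
  have h4 : -‖z‖ ^ 2 / (2 * σ) + σ⁻¹ * ‖z‖ = -(‖z‖ ^ 2 - 2 * ‖z‖) / (2 * σ) := by
    field_simp
    ring
  rw [h4]
  gcongr

theorem LGauss_fderiv_le {τ : ℝ} (h : 0 < τ) (z : X) :
    ‖fderiv ℝ (G τ) z‖ ≤ 3 * Real.exp τ / τ * G (2 * τ) z := by
  have h2 := G_pos (by positivity : 0 < 2 * τ) z
  refine ContinuousLinearMap.opNorm_le_bound _ (by positivity) fun v => ?_
  have h1 := G_exp_le (κ := 1) h z
  have h3 := G_pos h z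
  rw [one_pow, one_mul, one_mul] at h1
  rw [fderiv_G h, Real.norm_eq_abs, abs_mul, abs_div, abs_neg, abs_of_pos h, abs_of_pos h3]
  have h4 : ‖z‖ ≤ Real.exp ‖z‖ := by linarith [Real.add_one_le_exp ‖z‖]
  calc |inner ℝ z v| / τ * G τ z ≤ (Real.exp ‖z‖ * ‖v‖) / τ * G τ z := by
        gcongr
        exact (abs_real_inner_le_norm z v).trans (by gcongr)
    _ = (G τ z * Real.exp ‖z‖) / τ * ‖v‖ := by ring
    _ ≤ (3 * Real.exp τ * G (2 * τ) z) / τ * ‖v‖ := by gcongr
    _ = _ := by ring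

theorem LGauss_dom {τ : ℝ} (h : 0 < τ) {f : X → ℝ} (hf : MemLp f 2 volume) (x₀ : X) :
    ∃ b : X → ℝ, Integrable b ∧ ∀ y, ∀ x ∈ Metric.ball x₀ 1,
      ‖f y • fderiv ℝ (G τ) (x - y)‖ ≤ b y := by
  have h2 : 0 < 2 * τ := by positivity
  refine ⟨fun y => (3 * Real.exp τ / τ * (3 * Real.exp ((2 * τ)⁻¹ ^ 2 * (2 * τ)))) *
    ‖G (2 * (2 * τ)) (x₀ - y) * f y‖,
    (integrable_Gc (by positivity) hf x₀).norm.const_mul _, fun y x hx => ?_⟩
  have h1 := LGauss_shift h2 (x₀ - y) (x - x₀) (mem_ball_iff_norm.1 hx).le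
  have h3 : x₀ - y + (x - x₀) = x - y := by abel
  rw [h3] at h1
  have h4 := G_pos (by positivity : 0 < 2 * (2 * τ)) (x₀ - y)
  beta_reduce
  rw [norm_smul, norm_mul, Real.norm_of_nonneg h4.le]
  calc ‖f y‖ * ‖fderiv ℝ (G τ) (x - y)‖ ≤ ‖f y‖ * (3 * Real.exp τ / τ *
        (3 * Real.exp ((2 * τ)⁻¹ ^ 2 * (2 * τ)) * G (2 * (2 * τ)) (x₀ - y))) := by
        gcongr
        exact (LGauss_fderiv_le h _).trans (by gcongr)
    _ = _ := by ring

theorem LGauss_cont (τ : ℝ) : Continuous (fderiv ℝ (G τ)) :=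
  (contDiff_G τ 1).continuous_fderiv (by simp)

theorem LGauss_meas (τ : ℝ) {f : X → ℝ} (hf : MemLp f 2 volume) (x : X) :
    AEStronglyMeasurable (fun y => f y • fderiv ℝ (G τ) (x - y)) volume :=
  hf.1.smul ((LGauss_cont τ).comp (continuous_const.sub continuous_id)).aestronglyMeasurable

theorem LGauss_int {τ : ℝ} (h : 0 < τ) {f : X → ℝ} (hf : MemLp f 2 volume) (x : X) :
    Integrable fun y => f y • fderiv ℝ (G τ) (x - y) := by
  obtain ⟨b, hb, hb'⟩ := LGauss_dom h hf x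
  exact hb.mono' (LGauss_meas τ hf x)
    (Eventually.of_forall fun y => hb' y x (Metric.mem_ball_self one_pos))

theorem LGauss_hasFDerivAt {τ : ℝ} (h : 0 < τ) {f : X → ℝ} (hf : MemLp f 2 volume) (x : X) :
    HasFDerivAt (Gc τ f) (∫ y, f y • fderiv ℝ (G τ) (x - y)) x := by
  obtain ⟨b, hb, hb'⟩ := LGauss_dom h hf x
  refine hasFDerivAt_integral_of_dominated_of_fderiv_le (F := fun x y => G τ (x - y) * f y)
    (F' := fun x y => f y • fderiv ℝ (G τ) (x - y)) (Metric.ball_mem_nhds x one_pos)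
    (Eventually.of_forall fun x => (integrable_Gc h hf x).1) (integrable_Gc h hf x)
    (LGauss_meas τ hf x) (Eventually.of_forall hb') hb (Eventually.of_forall fun y x _ => ?_)
  have h1 : HasFDerivAt (G τ) (fderiv ℝ (G τ) (x - y)) (x - y) :=
    ((contDiff_G τ 1).differentiable (by simp) _).hasFDerivAt
  have h2 := (h1.comp x ((hasFDerivAt_id x).sub_const y)).mul_const (f y)
  rwa [ContinuousLinearMap.comp_id] at h2

theorem contDiff_Gc {τ : ℝ} (h : 0 < τ) {f : X → ℝ} (hf : MemLp f 2 volume) :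
    ContDiff ℝ 1 (Gc τ f) := by
  refine contDiff_one_iff_fderiv.2 ⟨fun x => (LGauss_hasFDerivAt h hf x).differentiableAt, ?_⟩
  have : fderiv ℝ (Gc τ f) = fun x => ∫ y, f y • fderiv ℝ (G τ) (x - y) :=
    funext fun x => (LGauss_hasFDerivAt h hf x).fderiv
  rw [this, continuous_iff_continuousAt]
  intro x
  obtain ⟨b, hb, hb'⟩ := LGauss_dom h hf x
  refine continuousAt_of_dominated (Eventually.of_forall (LGauss_meas τ hf)) ?_ hb
    (Eventually.of_forall fun y => ?_)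
  · filter_upwards [Metric.ball_mem_nhds x one_pos] with z hz
    exact Eventually.of_forall fun y => hb' y z hz
  · exact (((LGauss_cont τ).comp (continuous_id.sub continuous_const)).const_smul
      (f y)).continuousAt

theorem fderiv_Gc {τ : ℝ} (h : 0 < τ) {f : X → ℝ} (hf : MemLp f 2 volume) (x v : X) :
    Integrable (fun y => inner ℝ (x - y) v / τ * G τ (x - y) * f y) ∧
      fderiv ℝ (Gc τ f) x v = -∫ y, inner ℝ (x - y) v / τ * G τ (x - y) * f y := by
  have h1 := LGauss_int h hf x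
  have h2 : ∀ y, (f y • fderiv ℝ (G τ) (x - y)) v =
      -(inner ℝ (x - y) v / τ * G τ (x - y) * f y) := fun y => by
    rw [ContinuousLinearMap.smul_apply, fderiv_G h, smul_eq_mul]
    ring
  refine ⟨?_, ?_⟩
  · have h3 := (h1.apply_continuousLinearMap v).neg
    refine h3.congr (Eventually.of_forall fun y => ?_)
    simp only [Pi.neg_apply, h2, neg_neg]
  · rw [(LGauss_hasFDerivAt h hf x).fderiv, ContinuousLinearMap.integral_apply h1, ← integral_neg]
    simp only [h2]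

theorem LGauss_congr (τ : ℝ) {f f' : X → ℝ} (h : f =ᵐ[volume] f') : Gc τ f = Gc τ f' :=
  funext fun x => integral_congr_ae (h.mono fun y hy => by simp only [hy])

theorem measurable_Gc {f : X → ℝ} (hf : AEStronglyMeasurable f volume) :
    Measurable fun p : ℝ × X => Gc p.1 f p.2 := by
  have h1 : (fun p : ℝ × X => Gc p.1 f p.2) = fun p : ℝ × X => Gc p.1 (hf.mk f) p.2 :=
    funext fun p => by rw [LGauss_congr p.1 hf.ae_eq_mk]
  rw [h1]
  have h2 : Measurable fun q : (ℝ × X) × X => G q.1.1 (q.1.2 - q.2) * hf.mk f q.2 :=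
    (measurable_G.comp (measurable_fst.fst.prodMk (measurable_fst.snd.sub measurable_snd))).mul
      (hf.stronglyMeasurable_mk.measurable.comp measurable_snd)
  exact h2.stronglyMeasurable.integral_prod_right'.measurable

theorem Gc_congr (τ : ℝ) {f f' : X → ℝ} (h : f =ᵐ[volume] f') : Gc τ f = Gc τ f' := by
  exact LGauss_congr τ h

theorem Gc_lin {τ : ℝ} (h : 0 < τ) {f f' : X → ℝ} (hf : MemLp f 2 volume)
    (hf' : MemLp f' 2 volume) (a b : ℝ) (x : X) :
    Gc τ (fun y => a * f y + b * f' y) x = a * Gc τ f x + b * Gc τ f' x := by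
  unfold Gc
  rw [← integral_const_mul, ← integral_const_mul,
    ← integral_add ((integrable_Gc h hf x).const_mul a) ((integrable_Gc h hf' x).const_mul b)]
  exact integral_congr_ae (Eventually.of_forall fun y => by ring)

theorem Gc_mono {τ : ℝ} (h : 0 < τ) {f f' : X → ℝ} (hf : MemLp f 2 volume)
    (hf' : MemLp f' 2 volume) (hle : ∀ᵐ y, f y ≤ f' y) (x : X) : Gc τ f x ≤ Gc τ f' x := by
  exact integral_mono_ae (integrable_Gc h hf x) (integrable_Gc h hf' x)
    (hle.mono fun y hy => mul_le_mul_of_nonneg_left hy (G_pos h _).le)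

theorem Gc_P (τ : ℝ) (f : X → ℝ) (x : X) : Gc τ (fun y => f (P y)) x = Gc τ f (P x) := by
  unfold Gc
  rw [← integral_P (fun y => G τ (P x - y) * f y)]
  simp only [← P_sub, G_P]

theorem LGauss_jensen {τ : ℝ} (h : 0 < τ) {f : X → ℝ} (hf : MemLp f 2 volume) {x : X}
    (hx : Integrable fun y => f y ^ 2 * G τ (x - y)) :
    Gc τ f x ^ 2 ≤ ∫ y, f y ^ 2 * G τ (x - y) := by
  have h0 : Integrable fun y => G τ (x - y) := (integrable_G h).comp_sub_left x
  have h1 : ∫ y, G τ (x - y) = 1 := by rw [integral_sub_left_eq_self (G τ) volume x, integral_G h]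
  have h2 := integrable_Gc h hf x
  set m := Gc τ f x with hm
  have h3 : 0 ≤ ∫ y, (f y ^ 2 * G τ (x - y) - 2 * m * (G τ (x - y) * f y) +
      m ^ 2 * G τ (x - y)) := by
    refine integral_nonneg fun y => ?_
    have : f y ^ 2 * G τ (x - y) - 2 * m * (G τ (x - y) * f y) + m ^ 2 * G τ (x - y) =
        (f y - m) ^ 2 * G τ (x - y) := by ring
    simp only [this]
    exact mul_nonneg (sq_nonneg _) (G_pos h _).le
  have h4 : Integrable fun y => f y ^ 2 * G τ (x - y) - 2 * m * (G τ (x - y) * f y) :=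
    hx.sub (h2.const_mul _)
  rw [integral_add h4 (h0.const_mul _), integral_sub hx (h2.const_mul _),
    integral_const_mul, integral_const_mul, h1] at h3
  change 0 ≤ _ - 2 * m * m + _ at h3
  linarith

theorem memLp_Gc {τ : ℝ} (h : 0 < τ) {f : X → ℝ} (hf : MemLp f 2 volume) :
    MemLp (Gc τ f) 2 volume ∧ nsq (Gc τ f) ≤ nsq f := by
  have h0 : Integrable fun y => f y ^ 2 := hf.integrable_sq
  have h1 : Integrable (fun p : X × X => f p.2 ^ 2 * G τ (p.1 - p.2)) (volume.prod volume) :=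
    h0.convolution_integrand (ContinuousLinearMap.mul ℝ ℝ) (integrable_G h)
  have h2 : ∀ᵐ x, Gc τ f x ^ 2 ≤ ∫ y, f y ^ 2 * G τ (x - y) :=
    h1.prod_right_ae.mono fun x hx => LGauss_jensen h hf hx
  have h3 : Integrable fun x => ∫ y, f y ^ 2 * G τ (x - y) := h1.integral_prod_left
  have h4 : AEStronglyMeasurable (Gc τ f) volume :=
    (contDiff_Gc h hf).continuous.aestronglyMeasurable
  have h5 : Integrable fun x => Gc τ f x ^ 2 :=
    h3.mono' (h4.pow 2) (h2.mono fun x hx => by rwa [Real.norm_of_nonneg (sq_nonneg _)])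
  refine ⟨(memLp_two_iff_integrable_sq h4).2 h5, (integral_mono_ae h5 h3 h2).trans_eq ?_⟩
  rw [integral_integral_swap (f := fun x y => f y ^ 2 * G τ (x - y)) h1]
  refine integral_congr_ae (Eventually.of_forall fun y => ?_)
  beta_reduce
  rw [integral_const_mul, integral_sub_right_eq_self (G τ) y, integral_G h, mul_one]

theorem LGauss_bd (m : ℝ) {t : ℝ} {f : X → ℝ} (hf : MemLp f 2 volume) (x : X) {τ : ℝ}
    (hτ : τ ∈ Ioc 0 t) : ‖Real.exp (-m * τ) * Gc τ f x‖ ≤
      Real.exp (|m| * t) * √(nsq f) * τ ^ (-(3 / 4 : ℝ)) := by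
  rw [norm_mul, Real.norm_of_nonneg (Real.exp_pos _).le, Real.norm_eq_abs, mul_assoc,
    mul_comm (√(nsq f))]
  refine mul_le_mul (Real.exp_le_exp.2 ?_) (abs_Gc_le hτ.1 hf x) (abs_nonneg _)
    (Real.exp_pos _).le
  calc -m * τ ≤ |m| * τ := mul_le_mul_of_nonneg_right (neg_le_abs m) hτ.1.le
    _ ≤ |m| * t := mul_le_mul_of_nonneg_left hτ.2 (abs_nonneg m)

theorem LGauss_rpow (t : ℝ) : IntegrableOn (fun τ : ℝ => τ ^ (-(3 / 4 : ℝ))) (Ioc 0 t) :=
  (intervalIntegral.intervalIntegrable_rpow' (a := 0) (b := t) (by norm_num)).1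

theorem LGauss_meas2 (m : ℝ) {f : X → ℝ} (hf : MemLp f 2 volume) (x : X) :
    Measurable fun τ => Real.exp (-m * τ) * Gc τ f x :=
  (by fun_prop : Measurable fun τ : ℝ => Real.exp (-m * τ)).mul
    ((measurable_Gc hf.1).comp (measurable_id.prodMk measurable_const))

theorem integrableOn_Gc (m : ℝ) {t : ℝ} {f : X → ℝ} (hf : MemLp f 2 volume) (x : X) :
    IntegrableOn (fun τ => Real.exp (-m * τ) * Gc τ f x) (Ioc 0 t) := by
  exact ((LGauss_rpow t).const_mul _).mono' (LGauss_meas2 m hf x).aestronglyMeasurable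
    ((ae_restrict_mem measurableSet_Ioc).mono fun τ hτ => LGauss_bd m hf x hτ)

theorem continuous_duh (m : ℝ) {t : ℝ} (ht : 0 < t) {u S : X → ℝ} (hu : MemLp u 2 volume)
    (hS : MemLp S 2 volume) : Continuous (duh m t u S) := by
  refine (continuous_const.mul (contDiff_Gc ht hu).continuous).add ?_
  exact continuous_of_dominated (fun x => (LGauss_meas2 m hS x).aestronglyMeasurable)
    (fun x => (ae_restrict_mem measurableSet_Ioc).mono fun τ hτ => LGauss_bd m hS x hτ)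
    ((LGauss_rpow t).const_mul _)
    ((ae_restrict_mem measurableSet_Ioc).mono fun τ hτ =>
      continuous_const.mul (contDiff_Gc hτ.1 hS).continuous)

theorem abs_duh_le {u S : X → ℝ} (hu : MemLp u 2 volume) (hS : MemLp S 2 volume) (x : X) :
    |duh 0 1 u S x| ≤ √(nsq u) + 4 * √(nsq S) := by
  have h1 := abs_Gc_le one_pos hu x
  have h2 : ‖∫ τ in Ioc (0 : ℝ) 1, Real.exp (-0 * τ) * Gc τ S x‖ ≤ _ :=
    norm_integral_le_of_norm_le ((LGauss_rpow 1).const_mul _)
      ((ae_restrict_mem measurableSet_Ioc).mono fun τ hτ => LGauss_bd 0 hS x hτ)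
  rw [integral_const_mul, ← intervalIntegral.integral_of_le zero_le_one (f := fun τ : ℝ => τ ^ _),
    integral_rpow (Or.inl (by norm_num)), Real.one_rpow, Real.zero_rpow (by norm_num),
    Real.norm_eq_abs] at h2
  rw [Real.one_rpow, one_mul] at h1
  unfold duh
  refine (abs_add_le _ _).trans (add_le_add ?_ (h2.trans_eq ?_))
  · simpa using h1
  · simp only [abs_zero, zero_mul, Real.exp_zero]
    ring

end Crest.Agent.R335
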