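import Crest.Agent.R335.LGauss

/-! Row 335. Auxiliary estimates for the heat kernel (used in `LGauss2`). -/

set_option autoImplicit false

open MeasureTheory Set Filter Topology
open scoped ENNReal

noncomputable section

namespace Crest.Agent.R335

theorem LGauss2_meas_G (τ : ℝ) (x : X) : Continuous fun y => G τ (x - y) :=
  (contDiff_G τ 0).continuous.comp (continuous_const.sub continuous_id)

theorem LGauss2_int_G {τ : ℝ} (h : 0 < τ) (x : X) : Integrable fun y => G τ (x - y) :=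
  (integrable_G h).comp_sub_left x

theorem LGauss2_integral_G {τ : ℝ} (h : 0 < τ) (x : X) : ∫ y, G τ (x - y) = 1 := by
  rw [integral_sub_left_eq_self (G τ) volume x, integral_G h]

theorem LGauss2_half {σ : ℝ} (h : 0 < σ) (z : X) :
    G σ z ≤ 3 * Real.exp (-‖z‖ ^ 2 / (4 * σ)) * G (2 * σ) z := by
  unfold G
  have hp := Real.pi_pos
  have e1 : (2 * Real.pi * σ) ^ (-(3 / 2 : ℝ)) =
      (2 : ℝ) ^ (3 / 2 : ℝ) * (2 * Real.pi * (2 * σ)) ^ (-(3 / 2 : ℝ)) := by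
    rw [show 2 * Real.pi * (2 * σ) = 2 * (2 * Real.pi * σ) by ring,
      Real.mul_rpow (x := 2) (y := 2 * Real.pi * σ) (by norm_num) (by positivity),
      ← mul_assoc ((2 : ℝ) ^ (3 / 2 : ℝ)), ← Real.rpow_add (by norm_num)]
    norm_num
  have e2 : (2 : ℝ) ^ (3 / 2 : ℝ) ≤ 3 := by
    have : ((2 : ℝ) ^ (3 / 2 : ℝ)) ^ 2 = 8 := by
      rw [← Real.rpow_natCast, ← Real.rpow_mul (by norm_num)]
      norm_num
    nlinarith [Real.rpow_nonneg (show (0 : ℝ) ≤ 2 by norm_num) (3 / 2 : ℝ)]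
  have e3 : Real.exp (-‖z‖ ^ 2 / (2 * σ)) =
      Real.exp (-‖z‖ ^ 2 / (4 * σ)) * Real.exp (-‖z‖ ^ 2 / (2 * (2 * σ))) := by
    rw [← Real.exp_add]
    congr 1
    field_simp
    ring
  rw [e1, e3]
  have h1 : 0 ≤ (2 * Real.pi * (2 * σ)) ^ (-(3 / 2 : ℝ)) := by positivity
  have h2 : 0 ≤ (2 * Real.pi * (2 * σ)) ^ (-(3 / 2 : ℝ)) * (Real.exp (-‖z‖ ^ 2 / (4 * σ)) *
      Real.exp (-‖z‖ ^ 2 / (2 * (2 * σ)))) := by positivity
  nlinarith

theorem LGauss2_norm_P (x y : X) : ‖P x - y‖ ^ 2 = ‖x - y‖ ^ 2 + 4 * x 2 * y 2 := by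
  simp only [EuclideanSpace.real_norm_sq_eq, Fin.sum_univ_three, P, PiLp.sub_apply]
  simp
  ring

theorem LGauss2_G_P {τ : ℝ} (h : 0 < τ) (x y : X) :
    G τ (P x - y) = G τ (x - y) * Real.exp (-(2 * x 2 * y 2 / τ)) := by
  unfold G
  rw [LGauss2_norm_P, mul_assoc _ (Real.exp _), ← Real.exp_add]
  congr 2
  field_simp
  ring

theorem LGauss2_rpow {τ : ℝ} (h : 0 < τ) : τ ^ (-(1 / 2 : ℝ)) = (√τ)⁻¹ := by
  rw [Real.rpow_neg h.le, Real.sqrt_eq_rpow]

/-- `(1 + |z| / √τ) G τ z ≤ 9 G (2τ) z`. -/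
theorem LGauss2_H {τ : ℝ} (h : 0 < τ) (z : X) :
    (1 + ‖z‖ / √τ) * G τ z ≤ 9 * G (2 * τ) z := by
  have hs : 0 < √τ := Real.sqrt_pos.2 h
  have h1 := G_exp_le (κ := (√τ)⁻¹) h z
  have e : ((√τ)⁻¹) ^ 2 * τ = 1 := by
    rw [inv_pow, Real.sq_sqrt h.le, inv_mul_cancel₀ h.ne']
  rw [e] at h1
  have h2 : 1 + ‖z‖ / √τ ≤ Real.exp ((√τ)⁻¹ * ‖z‖) := by
    have := Real.add_one_le_exp ((√τ)⁻¹ * ‖z‖)
    rw [div_eq_inv_mul]
    linarith
  have h3 := Real.exp_one_lt_d9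
  have h4 := G_pos h z
  have h5 := G_pos (show 0 < 2 * τ by linarith) z
  nlinarith

theorem LGauss2_K_aux {τ : ℝ} (h : 0 < τ) {x y : X} (hxy : 0 ≤ x 2 * y 2) :
    |G τ (x - y) - G τ (P x - y)| ≤ 18 * (√τ)⁻¹ * |x 2| * G (2 * τ) (x - y) := by
  have hs : 0 < √τ := Real.sqrt_pos.2 h
  have hG := G_pos h (x - y)
  have hu : 0 ≤ 2 * x 2 * y 2 / τ := by
    apply div_nonneg _ h.le
    linarith [mul_assoc 2 (x 2) (y 2)]
  set u := 2 * x 2 * y 2 / τ with hu'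
  have he1 : Real.exp (-u) ≤ 1 := Real.exp_le_one_iff.2 (by linarith)
  have he2 : 1 - Real.exp (-u) ≤ u := by linarith [Real.add_one_le_exp (-u)]
  have he3 : 0 < Real.exp (-u) := Real.exp_pos _
  set a := |x 2| / √τ with ha
  set d := ‖x - y‖ / √τ with hd
  have ha0 : 0 ≤ a := by positivity
  have hd0 : 0 ≤ d := by positivity
  have hb : |y 2| ≤ ‖x - y‖ + |x 2| := by
    have h1 := abs_two_le (x - y)
    have h2 : y 2 = x 2 - (x - y) 2 := by simp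
    rw [h2]
    linarith [abs_sub (x 2) ((x - y) 2)]
  have hu2 : u ≤ 2 * a * d + 2 * a ^ 2 := by
    have e : 2 * a * d + 2 * a ^ 2 = 2 * |x 2| * (‖x - y‖ + |x 2|) / τ := by
      rw [ha, hd]
      field_simp
      rw [Real.sq_sqrt h.le]
      ring
    rw [e, hu']
    refine div_le_div_of_nonneg_right ?_ h.le
    have h1 : x 2 * y 2 ≤ |x 2| * |y 2| := by rw [← abs_mul]; exact le_abs_self _
    nlinarith [abs_nonneg (x 2)]
  have key : 1 - Real.exp (-u) ≤ 2 * a * (1 + d) := by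
    rcases le_total a 1 with h1 | h1
    · nlinarith
    · nlinarith
  rw [LGauss2_G_P h, abs_of_nonneg (by nlinarith)]
  have h9 := LGauss2_H h (x - y)
  rw [← hd] at h9
  calc G τ (x - y) - G τ (x - y) * Real.exp (-u) = (1 - Real.exp (-u)) * G τ (x - y) := by ring
    _ ≤ 2 * a * (1 + d) * G τ (x - y) := by gcongr
    _ = 2 * a * ((1 + d) * G τ (x - y)) := by ring
    _ ≤ 2 * a * (9 * G (2 * τ) (x - y)) := by gcongr
    _ = _ := by rw [ha]; field_simp; ring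

theorem LGauss2_K {τ : ℝ} (h : 0 < τ) (x y : X) :
    |G τ (x - y) - G τ (P x - y)| ≤
      18 * (√τ)⁻¹ * |x 2| * (G (2 * τ) (x - y) + G (2 * τ) (P x - y)) := by
  have h2 : 0 < 2 * τ := by linarith
  have g1 := G_pos h2 (x - y)
  have g2 := G_pos h2 (P x - y)
  have hc : 0 ≤ 18 * (√τ)⁻¹ * |x 2| := by positivity
  rcases le_total 0 (x 2 * y 2) with h1 | h1
  · refine (LGauss2_K_aux h h1).trans ?_
    gcongr
    linarith
  · have := LGauss2_K_aux h (x := P x) (y := y) (by rw [P_two]; linarith)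
    rw [P_P, P_two, abs_neg, abs_sub_comm] at this
    refine this.trans ?_
    gcongr
    linarith

/-- Reflection of an integrand. -/
theorem LGauss2_refl (τ : ℝ) {f : X → ℝ} {s : ℝ} (ho : ∀ᵐ y, f (P y) = s * f y) (x : X)
    (hi : Integrable fun y => G τ (x - y) * f y) (hs : s * s = 1) :
    Integrable (fun y => G τ (P x - y) * f y) ∧
      ∫ y, G τ (P x - y) * f y = s * ∫ y, G τ (x - y) * f y := by
  have e : (fun y => G τ (P x - y) * f y) =ᵐ[volume]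
      fun y => s * (G τ (x - P y) * f (P y)) := by
    filter_upwards [ho] with y hy
    have : G τ (x - P y) = G τ (P x - y) := by rw [← G_P, P_sub, P_P]
    rw [hy, this]
    linear_combination (-(G τ (P x - y) * f y)) * hs
  refine ⟨Integrable.congr ?_ e.symm, ?_⟩
  · exact (mp_P.integrable_comp_of_integrable hi).const_mul s
  · rw [integral_congr_ae e, integral_const_mul,
      integral_P (fun y => G τ (x - y) * f y)]

theorem LGauss2_odd_eq (τ : ℝ) {f : X → ℝ} (ho : ∀ᵐ y, f (P y) = -f y) (x : X)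
    (hi : Integrable fun y => G τ (x - y) * f y) :
    Integrable (fun y => (G τ (x - y) - G τ (P x - y)) * f y) ∧
      Gc τ f x = (∫ y, (G τ (x - y) - G τ (P x - y)) * f y) / 2 := by
  obtain ⟨h1, h2⟩ := LGauss2_refl τ (s := -1) (f := f) (by simpa using ho) x hi (by norm_num)
  simp only [sub_mul]
  refine ⟨hi.sub h1, ?_⟩
  rw [integral_sub hi h1, h2]
  unfold Gc
  ring

theorem LGauss2_odd_bound {τ : ℝ} (h : 0 < τ) {f : X → ℝ} (hf : AEStronglyMeasurable f volume)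
    (ho : ∀ᵐ y, f (P y) = -f y) (x : X) (hi : Integrable fun y => G (2 * τ) (x - y) * |f y|) :
    |Gc τ f x| ≤ 18 * (√τ)⁻¹ * |x 2| * Gc (2 * τ) (fun y => |f y|) x := by
  have hs : 0 < √τ := Real.sqrt_pos.2 h
  have hi0 : Integrable fun y => G τ (x - y) * f y := by
    refine (hi.const_mul 9).mono' ((LGauss2_meas_G τ x).aestronglyMeasurable.mul hf)
      (Eventually.of_forall fun y => ?_)
    have h1 := LGauss2_H h (x - y)
    have h2 := G_pos h (x - y)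
    have h3 : 0 ≤ ‖x - y‖ / √τ := by positivity
    rw [Real.norm_eq_abs, abs_mul, abs_of_pos h2, ← mul_assoc]
    gcongr
    nlinarith
  obtain ⟨h1, h2⟩ := LGauss2_odd_eq τ ho x hi0
  obtain ⟨h3, h4⟩ := LGauss2_refl (2 * τ) (s := 1) (f := fun y => |f y|)
    (by filter_upwards [ho] with y hy; rw [hy, abs_neg, one_mul]) x hi (by norm_num)
  have h5 : |∫ y, (G τ (x - y) - G τ (P x - y)) * f y| ≤
      ∫ y, 18 * (√τ)⁻¹ * |x 2| * (G (2 * τ) (x - y) * |f y| + G (2 * τ) (P x - y) * |f y|) := by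
    rw [← Real.norm_eq_abs]
    refine norm_integral_le_of_norm_le ((hi.add h3).const_mul _) (Eventually.of_forall fun y => ?_)
    rw [Real.norm_eq_abs, abs_mul, ← add_mul, ← mul_assoc]
    exact mul_le_mul_of_nonneg_right (LGauss2_K h x y) (abs_nonneg _)
  rw [integral_const_mul, integral_add hi h3, h4] at h5
  rw [h2, abs_div, abs_two]
  unfold Gc
  linarith

theorem LGauss2_nsq_abs (f : X → ℝ) : nsq (fun y => |f y|) = nsq f := by
  simp only [nsq, sq_abs]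

theorem LGauss2_abs_le {τ : ℝ} (h : 0 < τ) (f : X → ℝ) (x : X) :
    |Gc τ f x| ≤ Gc τ (fun y => |f y|) x := by
  unfold Gc
  refine abs_integral_le_integral_abs.trans (le_of_eq ?_)
  congr 1
  ext y
  rw [abs_mul, abs_of_pos (G_pos h _)]

theorem LGauss2_pow_exp {σ p : ℝ} (h : 0 < σ) (h0 : 0 ≤ p) (h2 : p ≤ 2) :
    σ ^ (-p) * Real.exp (-(1 / σ)) ≤ 2 := by
  have hu : 0 < σ⁻¹ := inv_pos.2 h
  rw [Real.rpow_neg h.le, ← Real.inv_rpow h.le, one_div]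
  set u := σ⁻¹
  have h1 : u ^ p ≤ 1 + u ^ 2 := by
    rcases le_total u 1 with h1 | h1
    · linarith [Real.rpow_le_one hu.le h1 h0, sq_nonneg u]
    · have := Real.rpow_le_rpow_of_exponent_le h1 h2
      rw [Real.rpow_two] at this
      linarith
  have h3 := Real.quadratic_le_exp_of_nonneg hu.le
  rw [Real.exp_neg, ← div_eq_mul_inv, div_le_iff₀ (Real.exp_pos _)]
  linarith

/-- The basic far field estimate. -/
theorem LGauss2_far {σ R p : ℝ} {f : X → ℝ} {x : X} (h : 0 < σ) (hR : 0 ≤ R)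
    (hf : MemLp f 2 volume) (hs : ∀ᵐ y, R < ‖y‖ → f y = 0) (hx : 2 * R + 10 ≤ ‖x‖)
    (h0 : 0 ≤ p) (h1 : p ≤ 1) :
    σ ^ (-p) * Gc σ (fun y => |f y|) x ≤ 6 * √(nsq f) * Real.exp (-‖x‖ ^ 2 / (32 * σ)) := by
  have h2 : 0 < 2 * σ := by linarith
  have hfa : MemLp (fun y => |f y|) 2 volume := hf.abs
  set E := Real.exp (-(1 / σ)) * Real.exp (-‖x‖ ^ 2 / (32 * σ)) with hE
  have hE0 : 0 < E := by positivity
  have a1 : Gc σ (fun y => |f y|) x ≤ 3 * E * Gc (2 * σ) (fun y => |f y|) x := by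
    unfold Gc
    rw [← integral_const_mul]
    refine integral_mono_ae (integrable_Gc h hfa x) ((integrable_Gc h2 hfa x).const_mul _) ?_
    filter_upwards [hs] with y hy
    rcases lt_or_ge R ‖y‖ with hy' | hy'
    · simp [hy hy']
    · rw [← mul_assoc]
      refine mul_le_mul_of_nonneg_right ((LGauss2_half h _).trans ?_) (abs_nonneg _)
      refine mul_le_mul_of_nonneg_right ?_ (G_pos h2 _).le
      refine mul_le_mul_of_nonneg_left ?_ (by norm_num)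
      rw [hE, ← Real.exp_add]
      refine Real.exp_le_exp.2 ?_
      have b1 : ‖x‖ / 2 + 5 ≤ ‖x - y‖ := by linarith [norm_sub_norm_le x y]
      have b2 : (‖x‖ / 2 + 5) ^ 2 ≤ ‖x - y‖ ^ 2 := by gcongr
      have e : -(1 / σ) + -‖x‖ ^ 2 / (32 * σ) = -(4 + ‖x‖ ^ 2 / 8) / (4 * σ) := by
        field_simp
        ring
      rw [e]
      refine div_le_div_of_nonneg_right ?_ (by positivity)
      nlinarith [norm_nonneg x]
  have a2 : Gc (2 * σ) (fun y => |f y|) x ≤ σ ^ (-(3 / 4 : ℝ)) * √(nsq f) := by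
    have := (le_abs_self _).trans (abs_Gc_le h2 hfa x)
    rw [LGauss2_nsq_abs] at this
    refine this.trans (mul_le_mul_of_nonneg_right ?_ (Real.sqrt_nonneg _))
    exact Real.rpow_le_rpow_of_nonpos h (by linarith) (by norm_num)
  have a3 := LGauss2_pow_exp (p := p + 3 / 4) h (by linarith) (by linarith)
  have hp : 0 ≤ σ ^ (-p) := by positivity
  calc σ ^ (-p) * Gc σ (fun y => |f y|) x
      ≤ σ ^ (-p) * (3 * E * (σ ^ (-(3 / 4 : ℝ)) * √(nsq f))) := by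
        refine mul_le_mul_of_nonneg_left (a1.trans ?_) hp
        exact mul_le_mul_of_nonneg_left a2 (by positivity)
    _ = 3 * (σ ^ (-(p + 3 / 4)) * Real.exp (-(1 / σ))) *
          (√(nsq f) * Real.exp (-‖x‖ ^ 2 / (32 * σ))) := by
        rw [neg_add, Real.rpow_add h, hE]
        ring
    _ ≤ 3 * 2 * (√(nsq f) * Real.exp (-‖x‖ ^ 2 / (32 * σ))) := by gcongr
    _ = _ := by ring

theorem LGauss2_far2 {τ t R : ℝ} {f : X → ℝ} {x : X} (h : 0 < τ) (ht : τ ≤ t) (hR : 0 ≤ R)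
    (hf : MemLp f 2 volume) (hs : ∀ᵐ y, R < ‖y‖ → f y = 0) (hx : 2 * R + 10 ≤ ‖x‖) :
    (√τ)⁻¹ * Gc (2 * τ) (fun y => |f y|) x ≤
      12 * √(nsq f) * Real.exp (-‖x‖ ^ 2 / (64 * t)) := by
  have h2 : 0 < 2 * τ := by linarith
  have a1 := LGauss2_far (p := 1 / 2) h2 hR hf hs hx (by norm_num) (by norm_num)
  rw [LGauss2_rpow h2] at a1
  have a0 : 0 ≤ Gc (2 * τ) (fun y => |f y|) x := (abs_nonneg _).trans (LGauss2_abs_le h2 f x)
  have hs1 : 0 < √τ := Real.sqrt_pos.2 h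
  have hs2 : 0 < √(2 * τ) := Real.sqrt_pos.2 h2
  have a2 : (√τ)⁻¹ ≤ 2 * (√(2 * τ))⁻¹ := by
    rw [← div_eq_mul_inv, inv_eq_one_div, div_le_div_iff₀ hs1 hs2, one_mul]
    refine Real.sqrt_le_iff.2 ⟨by positivity, ?_⟩
    rw [mul_pow, Real.sq_sqrt h.le]
    linarith
  have a3 : Real.exp (-‖x‖ ^ 2 / (32 * (2 * τ))) ≤ Real.exp (-‖x‖ ^ 2 / (64 * t)) := by
    refine Real.exp_le_exp.2 ?_
    rw [neg_div, neg_div, neg_le_neg_iff]
    exact div_le_div_of_nonneg_left (sq_nonneg _) (by positivity) (by linarith)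
  calc (√τ)⁻¹ * Gc (2 * τ) (fun y => |f y|) x
      ≤ 2 * (√(2 * τ))⁻¹ * Gc (2 * τ) (fun y => |f y|) x := by gcongr
    _ ≤ 2 * (6 * √(nsq f) * Real.exp (-‖x‖ ^ 2 / (32 * (2 * τ)))) := by linarith
    _ ≤ 2 * (6 * √(nsq f) * Real.exp (-‖x‖ ^ 2 / (64 * t))) := by gcongr
    _ = _ := by ring

theorem LGauss2_nsq_zero {f : X → ℝ} (h : ∀ᵐ y, f y = 0) : nsq f = 0 := by
  unfold nsq
  refine integral_eq_zero_of_ae ?_
  filter_upwards [h] with y hy
  simp [hy]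

theorem LGauss2_sign {f : X → ℝ} (ho : ∀ᵐ y, f (P y) = -f y)
    (h0 : ∀ᵐ y : X, 0 < y 2 → 0 ≤ f y) :
    ∀ᵐ y : X, (0 < y 2 ∧ 0 ≤ f y) ∨ (y 2 < 0 ∧ f y ≤ 0) := by
  filter_upwards [ho, h0, ae_P h0, ae_two_ne] with y h1 h2 h3 h4
  rcases lt_or_gt_of_ne h4 with h5 | h5
  · refine Or.inr ⟨h5, ?_⟩
    have := h3 (by rw [P_two]; linarith)
    linarith
  · exact Or.inl ⟨h5, h2 h5⟩

/-- Lower bound of the reflected kernel. -/
theorem LGauss2_K_lower {τ : ℝ} (h : 0 < τ) {x y : X} {s m : ℝ} (hx : 0 ≤ x 2)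
    (hy : (0 < y 2 ∧ 0 ≤ s) ∨ (y 2 < 0 ∧ s ≤ 0)) (h1 : m ≤ G τ (x - y))
    (h2 : m ≤ G τ (P x - y)) :
    2 * x 2 * |y 2| / τ * m * |s| ≤ (G τ (x - y) - G τ (P x - y)) * s := by
  rcases hy with ⟨hy, hs⟩ | ⟨hy, hs⟩
  · rw [abs_of_pos hy, abs_of_nonneg hs]
    refine mul_le_mul_of_nonneg_right ?_ hs
    have e := LGauss2_G_P h (P x) y
    rw [P_P, P_two] at e
    have hu : 0 ≤ 2 * x 2 * y 2 / τ := by positivity
    have e2 : -(2 * -x 2 * y 2 / τ) = 2 * x 2 * y 2 / τ := by ring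
    rw [e2] at e
    have h3 := Real.add_one_le_exp (2 * x 2 * y 2 / τ)
    have h4 := G_pos h (P x - y)
    rw [e]
    nlinarith [mul_le_mul_of_nonneg_left h2 hu, mul_le_mul_of_nonneg_left h3 h4.le]
  · rw [abs_of_neg hy, abs_of_nonpos hs]
    have e := LGauss2_G_P h x y
    have hy' : 0 ≤ -y 2 := by linarith
    have hu : 0 ≤ 2 * x 2 * -y 2 / τ := by positivity
    have e2 : -(2 * x 2 * y 2 / τ) = 2 * x 2 * -y 2 / τ := by ring
    rw [e2] at e
    have h3 := Real.add_one_le_exp (2 * x 2 * -y 2 / τ)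
    have h4 := G_pos h (x - y)
    have h5 : 2 * x 2 * -y 2 / τ * m ≤ G τ (P x - y) - G τ (x - y) := by
      rw [e]
      nlinarith [mul_le_mul_of_nonneg_left h1 hu, mul_le_mul_of_nonneg_left h3 h4.le]
    nlinarith [mul_le_mul_of_nonneg_right h5 (show 0 ≤ -s by linarith)]

theorem LGauss2_G_lower {R : ℝ} {x : X} (hx : ‖x‖ ≤ R) (y : X) :
    Real.exp (-R ^ 2) * ((2 * Real.pi * 1) ^ (-(3 / 2 : ℝ)) * Real.exp (-‖y‖ ^ 2)) ≤
      G 1 (x - y) := by
  unfold G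
  have hp := Real.pi_pos
  rw [mul_left_comm, ← Real.exp_add]
  refine mul_le_mul_of_nonneg_left (Real.exp_le_exp.2 ?_) (by positivity)
  have h1 := norm_sub_le x y
  have h2 : ‖x - y‖ ^ 2 ≤ (‖x‖ + ‖y‖) ^ 2 := by gcongr
  have h3 : ‖x‖ ^ 2 ≤ R ^ 2 := by gcongr
  nlinarith [sq_nonneg (‖x‖ - ‖y‖)]

theorem LGauss2_poly (N : ℕ) : ∃ C : ℝ, 0 < C ∧ ∀ r : ℝ, 0 ≤ r →
    (1 + r) ^ N ≤ C * Real.exp (r / 100) := by
  refine ⟨100 ^ N * N.factorial * Real.exp (1 / 100), by positivity, fun r hr => ?_⟩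
  have h1 := Real.pow_div_factorial_le_exp ((1 + r) / 100) (by positivity) N
  rw [div_le_iff₀ (by positivity), div_pow, div_le_iff₀ (by positivity), add_div,
    Real.exp_add] at h1
  linarith

end Crest.Agent.R335
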