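import Crest.Agent.R335.LGauss
import Crest.Agent.R335.LGauss2A

/-! Row 335. Estimates for the heat semigroup. -/

set_option autoImplicit false

open MeasureTheory Set Filter Topology
open scoped ENNReal

noncomputable section

namespace Crest.Agent.R335

theorem Gc_temp {τ a : ℝ} (h : 0 < τ) {f : X → ℝ} (hf : AEStronglyMeasurable f volume) {x : X}
    (hle : ∀ᵐ y, |f y| ≤ a * Real.exp (4 * ‖y - x‖)) :
    Integrable (fun y => G τ (x - y) * f y) ∧ |Gc τ f x| ≤ 3 * Real.exp (16 * τ) * a := by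
  have h2 : 0 < 2 * τ := by linarith
  have hb : ∀ᵐ y, ‖G τ (x - y) * f y‖ ≤ 3 * Real.exp (16 * τ) * a * G (2 * τ) (x - y) := by
    filter_upwards [hle] with y hy
    have ha : 0 ≤ a := by
      by_contra hc
      have := mul_neg_of_neg_of_pos (not_le.1 hc) (Real.exp_pos (4 * ‖y - x‖))
      linarith [abs_nonneg (f y)]
    have h1 := G_exp_le (κ := 4) h (x - y)
    have h3 := G_pos h (x - y)
    rw [norm_sub_rev] at hy
    rw [Real.norm_eq_abs, abs_mul, abs_of_pos h3]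
    norm_num at h1
    calc G τ (x - y) * |f y| ≤ G τ (x - y) * (a * Real.exp (4 * ‖x - y‖)) := by gcongr
      _ = a * (G τ (x - y) * Real.exp (4 * ‖x - y‖)) := by ring
      _ ≤ a * (3 * Real.exp (16 * τ) * G (2 * τ) (x - y)) := by gcongr
      _ = _ := by ring
  have hi := (LGauss2_int_G h2 x).const_mul (3 * Real.exp (16 * τ) * a)
  refine ⟨hi.mono' ((LGauss2_meas_G τ x).aestronglyMeasurable.mul hf) hb, ?_⟩
  have := norm_integral_le_of_norm_le hi hb
  rwa [integral_const_mul, LGauss2_integral_G h2, mul_one, Real.norm_eq_abs] at this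

/-- `Gc τ f` vanishes on the plane; mean value theorem along the segment from `pl x` to `x`, or the
formula `Gc τ f x = (1/2) ∫ (G τ (x - y) - G τ (P x - y)) f y` and the mean value theorem for the
kernel. -/
theorem Gc_temp_odd : ∃ C : ℝ, 0 < C ∧ ∀ (τ a : ℝ) (f : X → ℝ) (x : X), 0 < τ →
    AEStronglyMeasurable f volume → (∀ᵐ y, f (P y) = -f y) → |x 2| ≤ 4 →
    (∀ᵐ y, |f y| ≤ a * Real.exp (4 * ‖y - x‖)) →
    |Gc τ f x| ≤ C * Real.exp (C * τ) * τ ^ (-(1 / 2 : ℝ)) * a * |x 2| := by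
  refine ⟨54, by norm_num, fun τ a f x h hf ho _ hle => ?_⟩
  have h2 : 0 < 2 * τ := by linarith
  obtain ⟨h3, h4⟩ := Gc_temp (a := a) h2 (f := fun y => |f y|) (x := x)
    (continuous_abs.comp_aestronglyMeasurable hf) (by simpa using hle)
  have ha : 0 ≤ a := by
    have := (abs_nonneg _).trans h4
    exact nonneg_of_mul_nonneg_right this (by positivity)
  have h5 := LGauss2_odd_bound h hf ho x h3
  have h6 : Real.exp (16 * (2 * τ)) ≤ Real.exp (54 * τ) := Real.exp_le_exp.2 (by linarith)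
  rw [LGauss2_rpow h]
  calc |Gc τ f x| ≤ 18 * (√τ)⁻¹ * |x 2| * Gc (2 * τ) (fun y => |f y|) x := h5
    _ ≤ 18 * (√τ)⁻¹ * |x 2| * (3 * Real.exp (16 * (2 * τ)) * a) := by
        gcongr
        exact (le_abs_self _).trans h4
    _ ≤ 18 * (√τ)⁻¹ * |x 2| * (3 * Real.exp (54 * τ) * a) := by gcongr
    _ = _ := by ring

theorem Gc_far : ∃ C : ℝ, 0 < C ∧ ∀ (τ t R : ℝ) (f : X → ℝ) (x : X), 0 < τ → τ ≤ t → 0 ≤ R →
    MemLp f 2 volume → (∀ᵐ y, R < ‖y‖ → f y = 0) → 2 * R + 10 ≤ ‖x‖ →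
    |Gc τ f x| ≤ C * √(nsq f) * Real.exp (-‖x‖ ^ 2 / (64 * t)) := by
  refine ⟨6, by norm_num, fun τ t R f x h ht hR hf hs hx => ?_⟩
  have h1 := LGauss2_far (p := 0) h hR hf hs hx le_rfl (by norm_num)
  rw [neg_zero, Real.rpow_zero, one_mul] at h1
  refine ((LGauss2_abs_le h f x).trans h1).trans ?_
  refine mul_le_mul_of_nonneg_left (Real.exp_le_exp.2 ?_) (by positivity)
  rw [neg_div, neg_div, neg_le_neg_iff]
  exact div_le_div_of_nonneg_left (sq_nonneg _) (by positivity) (by linarith)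

theorem Gc_far_odd : ∃ C : ℝ, 0 < C ∧ ∀ (τ t R : ℝ) (f : X → ℝ) (x : X), 0 < τ → τ ≤ t →
    0 ≤ R → MemLp f 2 volume → (∀ᵐ y, f (P y) = -f y) → (∀ᵐ y, R < ‖y‖ → f y = 0) →
    2 * R + 10 ≤ ‖x‖ → |x 2| ≤ 4 →
    |Gc τ f x| ≤ C * √(nsq f) * Real.exp (-‖x‖ ^ 2 / (64 * t)) * |x 2| := by
  refine ⟨216, by norm_num, fun τ t R f x h ht hR hf ho hs hx _ => ?_⟩
  have h2 : 0 < 2 * τ := by linarith
  have h1 := LGauss2_far2 h ht hR hf hs hx
  have h5 := LGauss2_odd_bound h hf.aestronglyMeasurable ho x (integrable_Gc h2 hf.abs x)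
  calc |Gc τ f x| ≤ 18 * |x 2| * ((√τ)⁻¹ * Gc (2 * τ) (fun y => |f y|) x) := by linarith
    _ ≤ 18 * |x 2| * (12 * √(nsq f) * Real.exp (-‖x‖ ^ 2 / (64 * t))) := by gcongr
    _ = _ := by ring

theorem Gc_l2_odd : ∃ C : ℝ, 0 < C ∧ ∀ (f : X → ℝ) (x : X), MemLp f 2 volume →
    (∀ᵐ y, f (P y) = -f y) → |Gc 1 f x| ≤ C * √(nsq f) * |x 2| := by
  refine ⟨18, by norm_num, fun f x hf ho => ?_⟩
  have h2 : (0 : ℝ) < 2 * 1 := by norm_num
  have h5 := LGauss2_odd_bound one_pos hf.aestronglyMeasurable ho x (integrable_Gc h2 hf.abs x)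
  have hfa : MemLp (fun y => |f y|) 2 volume := hf.abs
  have h6 := (le_abs_self _).trans (abs_Gc_le h2 hfa x)
  rw [LGauss2_nsq_abs] at h6
  have h7 : (2 * 1 : ℝ) ^ (-(3 / 4 : ℝ)) ≤ 1 :=
    Real.rpow_le_one_of_one_le_of_nonpos (by norm_num) (by norm_num)
  have h8 : Gc (2 * 1) (fun y => |f y|) x ≤ √(nsq f) :=
    h6.trans (mul_le_of_le_one_left (Real.sqrt_nonneg _) h7)
  rw [Real.sqrt_one, inv_one, mul_one (18 : ℝ)] at h5
  calc |Gc 1 f x| ≤ 18 * |x 2| * Gc (2 * 1) (fun y => |f y|) x := h5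
    _ ≤ 18 * |x 2| * √(nsq f) := by gcongr
    _ = _ := by ring

/-- The derivative of the semigroup on functions supported far away. -/
theorem Gc_far_grad : ∃ C : ℝ, 0 < C ∧ ∀ (τ t R : ℝ) (f : X → ℝ) (x : X), 0 < τ → τ ≤ t →
    0 ≤ R → MemLp f 2 volume → (∀ᵐ y, R < ‖y‖ → f y = 0) → 2 * R + 10 ≤ ‖x‖ →
    ∫ y, ‖x - y‖ / τ * G τ (x - y) * |f y| ≤
      C * √(nsq f) * Real.exp (-‖x‖ ^ 2 / (64 * t)) := by
  refine ⟨108, by norm_num, fun τ t R f x h ht hR hf hs hx => ?_⟩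
  have h2 : 0 < 2 * τ := by linarith
  have h1 := LGauss2_far2 h ht hR hf hs hx
  have hs1 : 0 < √τ := Real.sqrt_pos.2 h
  have h3 : ∫ y, ‖x - y‖ / τ * G τ (x - y) * |f y| ≤
      ∫ y, 9 * (√τ)⁻¹ * (G (2 * τ) (x - y) * |f y|) := by
    refine integral_mono_of_nonneg (Eventually.of_forall fun y => ?_)
      ((integrable_Gc h2 hf.abs x).const_mul _) (Eventually.of_forall fun y => ?_)
    · have := G_pos h (x - y)
      positivity
    · have a1 := LGauss2_H h (x - y)
      have a2 := G_pos h (x - y)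
      have e : ‖x - y‖ / τ = (√τ)⁻¹ * (‖x - y‖ / √τ) := by
        field_simp
        rw [Real.sq_sqrt h.le]
      beta_reduce
      rw [e, ← mul_assoc]
      refine mul_le_mul_of_nonneg_right ?_ (abs_nonneg _)
      calc (√τ)⁻¹ * (‖x - y‖ / √τ) * G τ (x - y) = (√τ)⁻¹ * (‖x - y‖ / √τ * G τ (x - y)) := by ring
        _ ≤ (√τ)⁻¹ * (9 * G (2 * τ) (x - y)) := by
            refine mul_le_mul_of_nonneg_left ?_ (by positivity)
            linarith
        _ = _ := by ring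
  rw [integral_const_mul] at h3
  unfold Gc at h1
  linarith

/-- The reflected kernel is nonnegative in the upper half space. -/
theorem Gc_odd_nonneg {τ : ℝ} (h : 0 < τ) {f : X → ℝ} (hf : MemLp f 2 volume)
    (ho : ∀ᵐ y, f (P y) = -f y) (h0 : ∀ᵐ y : X, 0 < y 2 → 0 ≤ f y) {x : X} (hx : 0 ≤ x 2) :
    0 ≤ Gc τ f x := by
  rw [(LGauss2_odd_eq τ ho x (integrable_Gc h hf x)).2]
  refine div_nonneg (integral_nonneg_of_ae ?_) (by norm_num)
  filter_upwards [LGauss2_sign ho h0] with y hy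
  have := LGauss2_K_lower h (m := 0) hx hy (G_pos h _).le (G_pos h _).le
  simpa using this

/-- `G 1 (x - y) - G 1 (P x - y) = 2 G 1 (x - pl y)·exp (-y₂² / 2) sinh (x₂ y₂)`, `sinh s ≥ s`. -/
theorem Gc_odd_lower {f : X → ℝ} (hf : MemLp f 2 volume) (ho : ∀ᵐ y, f (P y) = -f y)
    (h0 : ∀ᵐ y : X, 0 < y 2 → 0 ≤ f y) (hne : nsq f ≠ 0) (R : ℝ) :
    ∃ c : ℝ, 0 < c ∧ ∀ x : X, ‖x‖ ≤ R → 0 ≤ x 2 → c * x 2 ≤ Gc 1 f x := by
  have hp := Real.pi_pos
  set c0 : ℝ := (2 * Real.pi * 1) ^ (-(3 / 2 : ℝ)) with hc0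
  have hc : 0 < c0 := by positivity
  set W : X → ℝ := fun y => |y 2| * (c0 * Real.exp (-‖y‖ ^ 2)) * |f y| with hW
  have hW0 : ∀ y, 0 ≤ W y := fun y => by positivity
  have hWi : Integrable W := by
    refine (integrable_Gc one_pos hf.abs 0).mono' ?_ (Eventually.of_forall fun y => ?_)
    · refine AEStronglyMeasurable.mul (Continuous.aestronglyMeasurable (by fun_prop))
        (continuous_abs.comp_aestronglyMeasurable hf.aestronglyMeasurable)
    · rw [Real.norm_eq_abs, abs_of_nonneg (hW0 y)]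
      refine mul_le_mul_of_nonneg_right ?_ (abs_nonneg _)
      unfold G
      rw [zero_sub, norm_neg, mul_left_comm]
      refine mul_le_mul_of_nonneg_left ?_ hc.le
      have e : Real.exp (-‖y‖ ^ 2 / (2 * 1)) = Real.exp (‖y‖ ^ 2 / 2) * Real.exp (-‖y‖ ^ 2) := by
        rw [← Real.exp_add]
        congr 1
        ring
      rw [e]
      refine mul_le_mul_of_nonneg_right ?_ (Real.exp_pos _).le
      nlinarith [abs_two_le y, Real.add_one_le_exp (‖y‖ ^ 2 / 2), sq_nonneg (‖y‖ - 1)]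
  have hWp : 0 < ∫ y, W y := by
    refine lt_of_le_of_ne (integral_nonneg hW0) fun h => hne (LGauss2_nsq_zero ?_)
    have := (integral_eq_zero_iff_of_nonneg hW0 hWi).1 h.symm
    filter_upwards [this, ae_two_ne] with y h1 h2
    have h3 : 0 < |y 2| * (c0 * Real.exp (-‖y‖ ^ 2)) := by
      have := abs_pos.2 h2
      positivity
    have h4 : |y 2| * (c0 * Real.exp (-‖y‖ ^ 2)) * |f y| = 0 := h1
    exact abs_eq_zero.1 ((mul_eq_zero.1 h4).resolve_left h3.ne')
  refine ⟨Real.exp (-R ^ 2) * ∫ y, W y, by positivity, fun x hx hx2 => ?_⟩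
  obtain ⟨h1, h2⟩ := LGauss2_odd_eq 1 ho x (integrable_Gc one_pos hf x)
  have h3 : ∫ y, 2 * x 2 * Real.exp (-R ^ 2) * W y ≤
      ∫ y, (G 1 (x - y) - G 1 (P x - y)) * f y := by
    refine integral_mono_ae (hWi.const_mul _) h1 ?_
    filter_upwards [LGauss2_sign ho h0] with y hy
    have := LGauss2_K_lower one_pos hx2 hy (LGauss2_G_lower hx y)
      (LGauss2_G_lower (x := P x) (by rwa [norm_P]) y)
    refine le_trans (le_of_eq ?_) this
    simp only [hW, hc0]
    ring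
  rw [integral_const_mul] at h3
  rw [h2]
  linarith

theorem Gc_pos {τ : ℝ} (h : 0 < τ) {f : X → ℝ} (hf : MemLp f 2 volume) (h0 : ∀ᵐ y, 0 ≤ f y)
    (hne : nsq f ≠ 0) (x : X) : 0 < Gc τ f x := by
  have hi := integrable_Gc h hf x
  have h1 : 0 ≤ᵐ[volume] fun y => G τ (x - y) * f y := by
    filter_upwards [h0] with y hy using mul_nonneg (G_pos h _).le hy
  refine lt_of_le_of_ne (integral_nonneg_of_ae h1) fun h2 => hne (LGauss2_nsq_zero ?_)
  have := (integral_eq_zero_iff_of_nonneg_ae h1 hi).1 h2.symm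
  filter_upwards [this] with y hy
  exact (mul_eq_zero.1 hy).resolve_left (G_pos h _).ne'

/-- The bad set of displacements for the time `s` and the direction `v`. -/
def bad (s : ℝ) (v : X) : Set X := {y | inner ℝ v y ≤ s / 4 ∨ 2 * s ≤ ‖y‖}

theorem measurableSet_bad (s : ℝ) (v : X) : MeasurableSet (bad s v) := by
  have h1 : IsClosed {y : X | inner ℝ v y ≤ s / 4} := isClosed_le (by fun_prop) continuous_const
  have h2 : IsClosed {y : X | 2 * s ≤ ‖y‖} := isClosed_le continuous_const continuous_norm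
  exact (h1.union h2).measurableSet

/-- `G_mul_exp`; on the bad set `‖y - κ s v‖ ≥ s / 2`. -/
theorem G_tail (N : ℕ) : ∃ C : ℝ, 0 < C ∧ ∀ (s κ : ℝ) (v : X), 1 ≤ s → 4 / 5 ≤ κ → κ ≤ 6 / 5 →
    ‖v‖ = 1 → Integrable (fun y => G s y * ((1 + ‖y‖) ^ N * Real.exp (κ * inner ℝ v y))) ∧
      ∫ y in bad s v, G s y * ((1 + ‖y‖) ^ N * Real.exp (κ * inner ℝ v y)) ≤
        C * Real.exp (κ ^ 2 * s / 2) * Real.exp (-s / 32) := by
  obtain ⟨C, hC, hN⟩ := LGauss2_poly N
  refine ⟨9 * C, by positivity, fun s κ v hs hκ hκ' hv => ?_⟩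
  have h0 : 0 < s := by linarith
  have h2 : 0 < 2 * s := by linarith
  have h4 : 0 < 2 * (2 * s) := by linarith
  have hκ0 : 0 < κ := by linarith
  set w : X := s • κ • v with hw
  have hwn : ‖w‖ = s * κ := by
    rw [hw, norm_smul, norm_smul, hv, Real.norm_of_nonneg h0.le, Real.norm_of_nonneg hκ0.le,
      mul_one]
  set D := 9 * C * Real.exp (κ ^ 2 * s / 2) * Real.exp (s / 32) with hD
  have hD0 : 0 < D := by positivity
  have hb : ∀ y, G s y * ((1 + ‖y‖) ^ N * Real.exp (κ * inner ℝ v y)) ≤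
      D * Real.exp (-‖y - w‖ ^ 2 / (4 * s)) * G (2 * (2 * s)) (y - w) := by
    intro y
    have a1 := G_mul_exp h0 (κ • v) y
    rw [real_inner_smul_left, norm_smul, hv, Real.norm_of_nonneg hκ0.le, mul_one, ← hw] at a1
    have a2 := LGauss2_half h0 (y - w)
    have a3 := G_exp_le (κ := 1 / 100) h2 (y - w)
    have a4 : ‖y‖ ≤ ‖y - w‖ + s * κ := by
      have := norm_add_le (y - w) w
      rwa [sub_add_cancel, hwn] at this
    have a5 : (1 + ‖y‖) ^ N ≤ C * (Real.exp (1 / 100 * ‖y - w‖) * Real.exp (s * κ / 100)) := by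
      refine (hN _ (norm_nonneg y)).trans (mul_le_mul_of_nonneg_left ?_ hC.le)
      rw [← Real.exp_add]
      exact Real.exp_le_exp.2 (by linarith)
    have a6 : Real.exp ((1 / 100) ^ 2 * (2 * s)) * Real.exp (s * κ / 100) ≤ Real.exp (s / 32) := by
      rw [← Real.exp_add]
      exact Real.exp_le_exp.2 (by nlinarith)
    have g1 := G_pos h0 (y - w)
    have g2 := G_pos h2 (y - w)
    have g3 := G_pos h4 (y - w)
    calc G s y * ((1 + ‖y‖) ^ N * Real.exp (κ * inner ℝ v y))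
        = (1 + ‖y‖) ^ N * (G s y * Real.exp (κ * inner ℝ v y)) := by ring
      _ = Real.exp (κ ^ 2 * s / 2) * ((1 + ‖y‖) ^ N * G s (y - w)) := by rw [a1]; ring
      _ ≤ Real.exp (κ ^ 2 * s / 2) *
            (C * (Real.exp (1 / 100 * ‖y - w‖) * Real.exp (s * κ / 100)) *
              (3 * Real.exp (-‖y - w‖ ^ 2 / (4 * s)) * G (2 * s) (y - w))) := by gcongr
      _ = 3 * C * Real.exp (κ ^ 2 * s / 2) * Real.exp (-‖y - w‖ ^ 2 / (4 * s)) *
            Real.exp (s * κ / 100) * (G (2 * s) (y - w) * Real.exp (1 / 100 * ‖y - w‖)) := by ring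
      _ ≤ 3 * C * Real.exp (κ ^ 2 * s / 2) * Real.exp (-‖y - w‖ ^ 2 / (4 * s)) *
            Real.exp (s * κ / 100) *
              (3 * Real.exp ((1 / 100) ^ 2 * (2 * s)) * G (2 * (2 * s)) (y - w)) := by gcongr
      _ = 9 * C * Real.exp (κ ^ 2 * s / 2) *
            (Real.exp ((1 / 100) ^ 2 * (2 * s)) * Real.exp (s * κ / 100)) *
              Real.exp (-‖y - w‖ ^ 2 / (4 * s)) * G (2 * (2 * s)) (y - w) := by ring
      _ ≤ _ := by rw [hD]; gcongr
  have hn : ∀ y, 0 ≤ G s y * ((1 + ‖y‖) ^ N * Real.exp (κ * inner ℝ v y)) := fun y => by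
    have := G_pos h0 y
    positivity
  have hGi : Integrable fun y => G (2 * (2 * s)) (y - w) := (integrable_G h4).comp_sub_right w
  have hG1 : ∫ y, G (2 * (2 * s)) (y - w) = 1 := by
    rw [integral_sub_right_eq_self (G (2 * (2 * s))) w, integral_G h4]
  have hi : Integrable fun y => G s y * ((1 + ‖y‖) ^ N * Real.exp (κ * inner ℝ v y)) := by
    refine (hGi.const_mul D).mono' (Continuous.aestronglyMeasurable ?_)
      (Eventually.of_forall fun y => ?_)
    · exact (contDiff_G s 0).continuous.mul (by fun_prop)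
    · rw [Real.norm_of_nonneg (hn y)]
      refine (hb y).trans (mul_le_mul_of_nonneg_right ?_ (G_pos h4 _).le)
      refine mul_le_of_le_one_right hD0.le (Real.exp_le_one_iff.2 ?_)
      rw [neg_div, neg_nonpos]
      positivity
  refine ⟨hi, ?_⟩
  have hb2 : ∀ y ∈ bad s v, G s y * ((1 + ‖y‖) ^ N * Real.exp (κ * inner ℝ v y)) ≤
      D * Real.exp (-s / 16) * G (2 * (2 * s)) (y - w) := by
    intro y hy
    refine (hb y).trans (mul_le_mul_of_nonneg_right ?_ (G_pos h4 _).le)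
    refine mul_le_mul_of_nonneg_left (Real.exp_le_exp.2 ?_) hD0.le
    have b1 : s / 2 ≤ ‖y - w‖ := by
      rcases hy with hy | hy
      · have b2 := abs_real_inner_le_norm v (y - w)
        rw [hv, one_mul, inner_sub_right, hw, real_inner_smul_right, real_inner_smul_right,
          real_inner_self_eq_norm_sq, hv, ← hw] at b2
        have := neg_abs_le (inner ℝ v y - s * (κ * 1 ^ 2))
        nlinarith
      · have := norm_sub_norm_le y w
        rw [hwn] at this
        nlinarith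
    have b3 : (s / 2) ^ 2 ≤ ‖y - w‖ ^ 2 := by gcongr
    rw [div_le_iff₀ (by positivity)]
    nlinarith
  calc ∫ y in bad s v, G s y * ((1 + ‖y‖) ^ N * Real.exp (κ * inner ℝ v y))
      ≤ ∫ y in bad s v, D * Real.exp (-s / 16) * G (2 * (2 * s)) (y - w) :=
        setIntegral_mono_on hi.integrableOn (hGi.const_mul _).integrableOn
          (measurableSet_bad s v) hb2
    _ ≤ ∫ y, D * Real.exp (-s / 16) * G (2 * (2 * s)) (y - w) := by
        refine setIntegral_le_integral (hGi.const_mul _) (Eventually.of_forall fun y => ?_)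
        have := G_pos h4 (y - w)
        positivity
    _ = _ := by
        rw [integral_const_mul, hG1, mul_one, hD, mul_assoc, ← Real.exp_add]
        congr 2
        ring

end Crest.Agent.R335
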