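import Crest.Agent.R335.LHardy
import Crest.Agent.R335.LVan
import Crest.Agent.R335.LPoinc

/-! Row 335. Weak inequalities: algebra, maximum principle, Kato inequality. -/

set_option autoImplicit false

open MeasureTheory Set Filter Topology
open scoped ENNReal

noncomputable section

namespace Crest.Agent.R335

variable {Ω Ω' : Set X} {u w n : X → ℝ} {g k : Fin 3 → X → ℝ} {f f' S : X → ℝ}

theorem measurableSet_ext (R : ℝ) : MeasurableSet (ext R) := by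
  exact measurableSet_lt measurable_const measurable_norm

theorem measurableSet_up (R : ℝ) : MeasurableSet (up R) := by
  exact (measurableSet_lt measurable_const measurable_norm).inter
    (measurableSet_lt (g := fun x : X => x 2) measurable_const (by fun_prop))

theorem integrable_test (hΩ : MeasurableSet Ω) (hf : MemLp f 2 (volume.restrict Ω)) {φ : X → ℝ}
    (hφ : MemLp φ 2 volume) (h0 : ∀ᵐ x, x ∉ Ω → φ x = 0) : Integrable fun x => f x * φ x := by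
  have h1 : Integrable (Ω.indicator f * φ) := ((memLp_indicator_iff_restrict hΩ).2 hf).integrable_mul hφ
  refine h1.congr ?_
  filter_upwards [h0] with x hx
  by_cases h : x ∈ Ω
  · simp [h]
  · simp [h, hx h]

theorem LMax0_van (hs : Ω' ⊆ Ω) {φ : X → ℝ} (h0 : ∀ᵐ x, x ∉ Ω' → φ x = 0) :
    ∀ᵐ x, x ∉ Ω → φ x = 0 := h0.mono fun _ hx h => hx fun h' => h (hs h')

theorem LMax0_le (hΩ' : MeasurableSet Ω') (hf : MemLp f 2 (volume.restrict Ω'))
    (hf' : MemLp f' 2 (volume.restrict Ω')) (hle : ∀ᵐ x, x ∈ Ω' → f x ≤ f' x) {φ : X → ℝ}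
    (hφ : MemLp φ 2 volume) (h1 : ∀ᵐ x, 0 ≤ φ x) (h0 : ∀ᵐ x, x ∉ Ω' → φ x = 0) :
    ∫ x, f x * φ x ≤ ∫ x, f' x * φ x := by
  refine integral_mono_ae (integrable_test hΩ' hf hφ h0) (integrable_test hΩ' hf' hφ h0) ?_
  filter_upwards [hle, h1, h0] with x a b c
  by_cases h : x ∈ Ω'
  · exact mul_le_mul_of_nonneg_right (a h) b
  · simp [c h]

theorem LMax0_gd (h : H1 eX u g) (h' : H1 eX w k) {φ : X → ℝ} {l : Fin 3 → X → ℝ}
    (hφ : H1 eX φ l) (a b : ℝ) :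
    ∫ x, gd (fun i x => a * g i x + b * k i x) l x = a * (∫ x, gd g l x) + b * ∫ x, gd k l x := by
  rw [← integral_const_mul, ← integral_const_mul,
    ← integral_add ((h.integrable_gd hφ).const_mul a) ((h'.integrable_gd hφ).const_mul b)]
  refine integral_congr_ae (Eventually.of_forall fun x => ?_)
  simp only [gd, Finset.mul_sum, ← Finset.sum_add_distrib]
  exact Finset.sum_congr rfl fun i _ => by ring

theorem LMax0_f (hΩ : MeasurableSet Ω) (hf : MemLp f 2 (volume.restrict Ω))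
    (hf' : MemLp f' 2 (volume.restrict Ω)) {φ : X → ℝ} (hφ : MemLp φ 2 volume)
    (h0 : ∀ᵐ x, x ∉ Ω → φ x = 0) (a b : ℝ) :
    ∫ x, (a * f x + b * f' x) * φ x = a * (∫ x, f x * φ x) + b * ∫ x, f' x * φ x := by
  rw [← integral_const_mul, ← integral_const_mul,
    ← integral_add ((integrable_test hΩ hf hφ h0).const_mul a)
      ((integrable_test hΩ hf' hφ h0).const_mul b)]
  exact integral_congr_ae (Eventually.of_forall fun x => by ring)

theorem LMax0_gd_smul (l : Fin 3 → X → ℝ) (a : ℝ) :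
    ∫ x, gd (fun i x => a * g i x) l x = a * ∫ x, gd g l x := by
  rw [← integral_const_mul]
  refine integral_congr_ae (Eventually.of_forall fun x => ?_)
  simp only [gd, Finset.mul_sum, mul_assoc]

theorem LMax0_gd_neg (l : Fin 3 → X → ℝ) :
    ∫ x, gd (fun i x => -g i x) l x = -∫ x, gd g l x := by
  rw [← integral_neg]
  refine integral_congr_ae (Eventually.of_forall fun x => ?_)
  simp only [gd, neg_mul, Finset.sum_neg_distrib]

theorem Sol.sub (h : Sol Ω u g f) : Sub Ω u g f := by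
  exact ⟨h.h1, h.fl2, fun φ l h1 _ h0 => (h.eq φ l h1 h0).le⟩

theorem Sol.sup (h : Sol Ω u g f) : Sup Ω u g f := by
  exact ⟨h.h1, h.fl2, fun φ l h1 _ h0 => (h.eq φ l h1 h0).ge⟩

theorem Sub.mono (h : Sub Ω u g f) (hΩ' : MeasurableSet Ω') (hs : Ω' ⊆ Ω)
    (hf : MemLp f' 2 (volume.restrict Ω')) (hle : ∀ᵐ x, x ∈ Ω' → f x ≤ f' x) : Sub Ω' u g f' := by
  exact ⟨h.h1, hf, fun φ l h1 h2 h0 => (h.le φ l h1 h2 (LMax0_van hs h0)).trans
    (LMax0_le hΩ' (h.fl2.mono_measure (Measure.restrict_mono hs le_rfl)) hf hle h1.l2 h2 h0)⟩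

theorem Sup.mono (h : Sup Ω u g f) (hΩ' : MeasurableSet Ω') (hs : Ω' ⊆ Ω)
    (hf : MemLp f' 2 (volume.restrict Ω')) (hle : ∀ᵐ x, x ∈ Ω' → f' x ≤ f x) : Sup Ω' u g f' := by
  exact ⟨h.h1, hf, fun φ l h1 h2 h0 =>
    (LMax0_le hΩ' hf (h.fl2.mono_measure (Measure.restrict_mono hs le_rfl)) hle h1.l2 h2 h0).trans
      (h.ge φ l h1 h2 (LMax0_van hs h0))⟩

theorem Sub.subset (h : Sub Ω u g f) (hs : Ω' ⊆ Ω) : Sub Ω' u g f := by
  exact ⟨h.h1, h.fl2.mono_measure (Measure.restrict_mono hs le_rfl),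
    fun φ l h1 h2 h0 => h.le φ l h1 h2 (LMax0_van hs h0)⟩

theorem Sup.subset (h : Sup Ω u g f) (hs : Ω' ⊆ Ω) : Sup Ω' u g f := by
  exact ⟨h.h1, h.fl2.mono_measure (Measure.restrict_mono hs le_rfl),
    fun φ l h1 h2 h0 => h.ge φ l h1 h2 (LMax0_van hs h0)⟩

theorem Sol.subset (h : Sol Ω u g f) (hs : Ω' ⊆ Ω) : Sol Ω' u g f := by
  exact ⟨h.h1, h.fl2.mono_measure (Measure.restrict_mono hs le_rfl),
    fun φ l h1 h0 => h.eq φ l h1 (LMax0_van hs h0)⟩

theorem Sub2.subset (h : Sub2 Ω n g f S) (hs : Ω' ⊆ Ω) : Sub2 Ω' n g f S := by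
  exact ⟨h.h1, h.nn, h.fl2.mono_measure (Measure.restrict_mono hs le_rfl), h.Sint.mono_set hs,
    h.Snn, fun φ l h1 h2 h0 => h.le φ l h1 h2 (LMax0_van hs h0)⟩

theorem Sol.lin (hΩ : MeasurableSet Ω) (h : Sol Ω u g f) (h' : Sol Ω w k f') (a b : ℝ) :
    Sol Ω (fun x => a * u x + b * w x) (fun i x => a * g i x + b * k i x)
      fun x => a * f x + b * f' x := by
  refine ⟨h.h1.lin h'.h1 a b, (h.fl2.const_mul a).add (h'.fl2.const_mul b), fun φ l h1 h0 => ?_⟩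
  rw [LMax0_gd h.h1 h'.h1 h1, LMax0_f hΩ h.fl2 h'.fl2 h1.l2 h0, ← h.eq φ l h1 h0,
    ← h'.eq φ l h1 h0]
  ring

theorem Sol.smul (h : Sol Ω u g f) (a : ℝ) :
    Sol Ω (fun x => a * u x) (fun i x => a * g i x) fun x => a * f x := by
  refine ⟨h.h1.smul a, h.fl2.const_mul a, fun φ l h1 h0 => ?_⟩
  simp only [mul_assoc a]
  rw [LMax0_gd_smul, integral_const_mul, ← h.eq φ l h1 h0]
  ring

theorem Sub.lin (hΩ : MeasurableSet Ω) (h : Sub Ω u g f) (h' : Sub Ω w k f') {a b : ℝ}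
    (ha : 0 ≤ a) (hb : 0 ≤ b) :
    Sub Ω (fun x => a * u x + b * w x) (fun i x => a * g i x + b * k i x)
      fun x => a * f x + b * f' x := by
  refine ⟨h.h1.lin h'.h1 a b, (h.fl2.const_mul a).add (h'.fl2.const_mul b), fun φ l h1 h2 h0 => ?_⟩
  rw [LMax0_gd h.h1 h'.h1 h1, LMax0_f hΩ h.fl2 h'.fl2 h1.l2 h0]
  have e1 := mul_le_mul_of_nonneg_left (h.le φ l h1 h2 h0) ha
  have e2 := mul_le_mul_of_nonneg_left (h'.le φ l h1 h2 h0) hb
  linarith

theorem Sup.lin (hΩ : MeasurableSet Ω) (h : Sup Ω u g f) (h' : Sup Ω w k f') {a b : ℝ}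
    (ha : 0 ≤ a) (hb : 0 ≤ b) :
    Sup Ω (fun x => a * u x + b * w x) (fun i x => a * g i x + b * k i x)
      fun x => a * f x + b * f' x := by
  refine ⟨h.h1.lin h'.h1 a b, (h.fl2.const_mul a).add (h'.fl2.const_mul b), fun φ l h1 h2 h0 => ?_⟩
  rw [LMax0_gd h.h1 h'.h1 h1, LMax0_f hΩ h.fl2 h'.fl2 h1.l2 h0]
  have e1 := mul_le_mul_of_nonneg_left (h.ge φ l h1 h2 h0) ha
  have e2 := mul_le_mul_of_nonneg_left (h'.ge φ l h1 h2 h0) hb
  linarith

theorem Sub.neg (h : Sub Ω u g f) :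
    Sup Ω (fun x => -u x) (fun i x => -g i x) fun x => -f x := by
  refine ⟨h.h1.neg, h.fl2.neg, fun φ l h1 h2 h0 => ?_⟩
  simp only [neg_mul]
  rw [LMax0_gd_neg, integral_neg]
  have := h.le φ l h1 h2 h0
  linarith

theorem Sup.neg (h : Sup Ω u g f) :
    Sub Ω (fun x => -u x) (fun i x => -g i x) fun x => -f x := by
  refine ⟨h.h1.neg, h.fl2.neg, fun φ l h1 h2 h0 => ?_⟩
  simp only [neg_mul]
  rw [LMax0_gd_neg, integral_neg]
  have := h.ge φ l h1 h2 h0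
  linarith

end Crest.Agent.R335
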