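import Crest.Agent.R335.LNorm0

/-! Row 335. The norm of a family of `H¹` functions; the tensor Bessel inequalities. -/

set_option autoImplicit false

open MeasureTheory Set Filter Topology
open scoped ENNReal

noncomputable section

namespace Crest.Agent.R335

variable {E : Type} [NormedAddCommGroup E] [NormedSpace ℝ E] [FiniteDimensional ℝ E]
  [MeasureSpace E] [BorelSpace E] [(volume : Measure E).IsAddHaarMeasure]
  {ι : Type} [Fintype ι] {e : ι → E}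

section aux

variable {A B : Type} [MeasurableSpace A] [MeasurableSpace B] {μ : Measure A} {ν : Measure B}

theorem LNorm_int {f g : A → ℝ} (hf : MemLp f 2 μ) (hg : MemLp g 2 μ) :
    Integrable (fun x => f x * g x) μ := hf.integrable_mul hg

/-- `∫ (f - c a)² ≥ 0`. -/
theorem LNorm_cs {a f : A → ℝ} (ha : MemLp a 2 μ) (hf : MemLp f 2 μ)
    (ha1 : ∫ x, a x ^ 2 ∂μ = 1) : (∫ x, a x * f x ∂μ) ^ 2 ≤ ∫ x, f x ^ 2 ∂μ := by
  set c := ∫ x, a x * f x ∂μ with hc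
  have h1 : ∫ x, 2 * c * (a x * f x) ∂μ ≤ ∫ x, (f x ^ 2 + c ^ 2 * a x ^ 2) ∂μ := by
    refine integral_mono ((LNorm_int ha hf).const_mul _)
      (hf.integrable_sq.add (ha.integrable_sq.const_mul _)) fun x => ?_
    simp only
    nlinarith [sq_nonneg (f x - c * a x)]
  rw [integral_const_mul, integral_add hf.integrable_sq (ha.integrable_sq.const_mul _),
    integral_const_mul, ha1, ← hc] at h1
  nlinarith

theorem LNorm_three {Φ f g k : A → ℝ} (hΦ : MemLp Φ 2 μ) (hf : MemLp f 2 μ) (hg : MemLp g 2 μ)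
    (hk : MemLp k 2 μ) :
    2 * ((∫ x, f x * Φ x ∂μ) + (∫ x, g x * Φ x ∂μ) + ∫ x, k x * Φ x ∂μ) ≤
      (∫ x, Φ x ^ 2 ∂μ) + ((∫ x, f x * f x ∂μ) + (∫ x, g x * g x ∂μ) + ∫ x, k x * k x ∂μ) +
        2 * ((∫ x, f x * g x ∂μ) + (∫ x, f x * k x ∂μ) + ∫ x, g x * k x ∂μ) := by
  have e3 : ∀ {u v w : A → ℝ}, Integrable u μ → Integrable v μ → Integrable w μ →
      (∫ x, u x ∂μ) + (∫ x, v x ∂μ) + ∫ x, w x ∂μ = ∫ x, (u x + v x + w x) ∂μ := by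
    intro u v w hu hv hw
    have huv : Integrable (fun x => u x + v x) μ := hu.add hv
    rw [integral_add huv hw, integral_add hu hv]
  have i3 : ∀ {u v w : A → ℝ}, Integrable u μ → Integrable v μ → Integrable w μ →
      Integrable (fun x => u x + v x + w x) μ := fun hu hv hw => (hu.add hv).add hw
  have j1 := i3 (LNorm_int hf hΦ) (LNorm_int hg hΦ) (LNorm_int hk hΦ)
  have j2 := i3 (LNorm_int hf hf) (LNorm_int hg hg) (LNorm_int hk hk)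
  have j3 := i3 (LNorm_int hf hg) (LNorm_int hf hk) (LNorm_int hg hk)
  rw [e3 (LNorm_int hf hΦ) (LNorm_int hg hΦ) (LNorm_int hk hΦ),
    e3 (LNorm_int hf hf) (LNorm_int hg hg) (LNorm_int hk hk),
    e3 (LNorm_int hf hg) (LNorm_int hf hk) (LNorm_int hg hk), ← integral_const_mul,
    ← integral_const_mul, e3 hΦ.integrable_sq j2 (j3.const_mul 2)]
  refine integral_mono (j1.const_mul 2) (i3 hΦ.integrable_sq j2 (j3.const_mul 2)) fun x => ?_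
  simp only
  nlinarith [sq_nonneg (Φ x - f x - g x - k x)]

variable [SigmaFinite μ] [SigmaFinite ν]

theorem LNorm_tensor {u : A → ℝ} {v : B → ℝ} (hu : MemLp u 2 μ) (hv : MemLp v 2 ν) :
    MemLp (fun p : A × B => u p.1 * v p.2) 2 (μ.prod ν) := by
  have hm : AEStronglyMeasurable (fun p : A × B => u p.1 * v p.2) (μ.prod ν) :=
    hu.1.comp_fst.mul hv.1.comp_snd
  rw [memLp_two_iff_integrable_sq hm]
  simpa only [mul_pow] using hu.integrable_sq.mul_prod hv.integrable_sq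

theorem LNorm_swap {Φ : A × B → ℝ} (hΦ : MemLp Φ 2 (μ.prod ν)) :
    MemLp (fun p : B × A => Φ p.swap) 2 (ν.prod μ) := by
  have hm : AEStronglyMeasurable (fun p : B × A => Φ p.swap) (ν.prod μ) := hΦ.1.prod_swap
  rw [memLp_two_iff_integrable_sq hm]
  exact hΦ.integrable_sq.swap

theorem LNorm_contr {Φ : A × B → ℝ} (hΦ : MemLp Φ 2 (μ.prod ν)) {b : B → ℝ} (hb : MemLp b 2 ν)
    (hb1 : ∫ y, b y ^ 2 ∂ν = 1) : MemLp (fun x => ∫ y, b y * Φ (x, y) ∂ν) 2 μ := by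
  have hm0 : AEStronglyMeasurable (fun p : A × B => b p.2 * Φ p) (μ.prod ν) :=
    hb.1.comp_snd.mul hΦ.1
  have hm : AEStronglyMeasurable (fun x => ∫ y, b y * Φ (x, y) ∂ν) μ :=
    hm0.integral_prod_right'
  rw [memLp_two_iff_integrable_sq hm]
  refine (hΦ.integrable_sq.integral_prod_left).mono' (hm.pow 2) ?_
  filter_upwards [hΦ.integrable_sq.prod_right_ae, hΦ.1.prodMk_left] with x h1 h2
  rw [Real.norm_eq_abs, abs_of_nonneg (sq_nonneg _)]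
  exact LNorm_cs hb ((memLp_two_iff_integrable_sq h2).2 h1) hb1

theorem LNorm_contl {Φ : A × B → ℝ} (hΦ : MemLp Φ 2 (μ.prod ν)) {a : A → ℝ} (ha : MemLp a 2 μ)
    (ha1 : ∫ x, a x ^ 2 ∂μ = 1) : MemLp (fun y => ∫ x, a x * Φ (x, y) ∂μ) 2 ν :=
  LNorm_contr (LNorm_swap hΦ) ha ha1

theorem LNorm_pr {Φ : A × B → ℝ} (hΦ : MemLp Φ 2 (μ.prod ν)) {u : A → ℝ} {v : B → ℝ}
    (hu : MemLp u 2 μ) (hv : MemLp v 2 ν) :
    ∫ p, u p.1 * v p.2 * Φ p ∂μ.prod ν = ∫ x, u x * ∫ y, v y * Φ (x, y) ∂ν ∂μ := by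
  rw [integral_prod _ (LNorm_int (LNorm_tensor hu hv) hΦ)]
  simp only [mul_assoc, integral_const_mul]

theorem LNorm_pl {Φ : A × B → ℝ} (hΦ : MemLp Φ 2 (μ.prod ν)) {u : A → ℝ} {v : B → ℝ}
    (hu : MemLp u 2 μ) (hv : MemLp v 2 ν) :
    ∫ p, u p.1 * v p.2 * Φ p ∂μ.prod ν = ∫ y, v y * ∫ x, u x * Φ (x, y) ∂μ ∂ν := by
  rw [integral_prod_symm _ (LNorm_int (LNorm_tensor hu hv) hΦ)]
  simp only [← integral_const_mul]
  congr 1; funext y; congr 1; funext x; ring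

theorem LNorm_gram (u u' : A → ℝ) (v v' : B → ℝ) :
    ∫ p : A × B, u p.1 * v p.2 * (u' p.1 * v' p.2) ∂μ.prod ν =
      (∫ x, u x * u' x ∂μ) * ∫ y, v y * v' y ∂ν := by
  rw [← integral_prod_mul]
  congr 1; funext p; ring

theorem LNorm_ten3 {Φ : A × B → ℝ} (hΦ : MemLp Φ 2 (μ.prod ν)) {u₁ u₂ u₃ : A → ℝ}
    {v₁ v₂ v₃ : B → ℝ} (h₁ : MemLp u₁ 2 μ) (h₂ : MemLp u₂ 2 μ) (h₃ : MemLp u₃ 2 μ)
    (k₁ : MemLp v₁ 2 ν) (k₂ : MemLp v₂ 2 ν) (k₃ : MemLp v₃ 2 ν) :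
    2 * ((∫ y, v₁ y * ∫ x, u₁ x * Φ (x, y) ∂μ ∂ν) + (∫ p, u₂ p.1 * v₂ p.2 * Φ p ∂μ.prod ν) +
        ∫ x, u₃ x * ∫ y, v₃ y * Φ (x, y) ∂ν ∂μ) ≤
      (∫ p, Φ p ^ 2 ∂μ.prod ν) + ((∫ x, u₁ x * u₁ x ∂μ) * (∫ y, v₁ y * v₁ y ∂ν) +
        (∫ x, u₂ x * u₂ x ∂μ) * (∫ y, v₂ y * v₂ y ∂ν) +
        (∫ x, u₃ x * u₃ x ∂μ) * (∫ y, v₃ y * v₃ y ∂ν)) +
        2 * ((∫ x, u₁ x * u₂ x ∂μ) * (∫ y, v₁ y * v₂ y ∂ν) +
          (∫ x, u₁ x * u₃ x ∂μ) * (∫ y, v₁ y * v₃ y ∂ν) +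
          (∫ x, u₂ x * u₃ x ∂μ) * (∫ y, v₂ y * v₃ y ∂ν)) := by
  have h := LNorm_three hΦ (LNorm_tensor h₁ k₁) (LNorm_tensor h₂ k₂) (LNorm_tensor h₃ k₃)
  simp only [LNorm_gram] at h
  rwa [LNorm_pl hΦ h₁ k₁, LNorm_pr hΦ h₃ k₃] at h

end aux

/-- Commuting projections: `P + Q ≤ 1 + P Q`.  Expand `∫ (Φ - a ⊗ c - c' ⊗ b + κ a ⊗ b)² ≥ 0`. -/
theorem tb {A B : Type} [MeasurableSpace A] [MeasurableSpace B] {μ : Measure A} {ν : Measure B}
    [SigmaFinite μ] [SigmaFinite ν] {Φ : A × B → ℝ} (hΦ : MemLp Φ 2 (μ.prod ν)) {a : A → ℝ}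
    {b : B → ℝ} (ha : MemLp a 2 μ) (hb : MemLp b 2 ν) (ha1 : ∫ x, a x ^ 2 ∂μ = 1)
    (hb1 : ∫ y, b y ^ 2 ∂ν = 1) :
    (∫ y, (∫ x, a x * Φ (x, y) ∂μ) ^ 2 ∂ν) + ∫ x, (∫ y, b y * Φ (x, y) ∂ν) ^ 2 ∂μ ≤
      (∫ p, Φ p ^ 2 ∂μ.prod ν) + (∫ p, a p.1 * b p.2 * Φ p ∂μ.prod ν) ^ 2 := by
  have hc := LNorm_contl hΦ ha ha1
  have hc' := LNorm_contr hΦ hb hb1
  have k1 := LNorm_pl hΦ ha hb
  have k2 := LNorm_pr hΦ ha hb
  set κ := ∫ p, a p.1 * b p.2 * Φ p ∂μ.prod ν with hκ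
  have ha' : MemLp (fun x => -κ * a x) 2 μ := ha.const_mul _
  have h := LNorm_ten3 hΦ ha hc' ha' hc hb hb
  rw [LNorm_pr hΦ hc' hb] at h
  set c : B → ℝ := fun y => ∫ x, a x * Φ (x, y) ∂μ with hcd
  set c' : A → ℝ := fun x => ∫ y, b y * Φ (x, y) ∂ν with hcd'
  have e1 : ∫ x, a x * a x ∂μ = 1 := by simpa only [sq] using ha1
  have e2 : ∫ y, b y * b y ∂ν = 1 := by simpa only [sq] using hb1
  have e3 : ∫ y, c y * b y ∂ν = κ := by rw [k1]; simp only [mul_comm]; rfl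
  have e4 : ∫ x, a x * c' x ∂μ = κ := k2.symm
  have e5 : ∫ x, -κ * a x * c' x ∂μ = -κ * κ := by
    simp only [mul_assoc]; rw [integral_const_mul, e4]
  have e6 : ∫ x, -κ * a x * (-κ * a x) ∂μ = κ * κ := by
    have : (fun x => -κ * a x * (-κ * a x)) = fun x => κ * κ * (a x * a x) := by
      funext x; ring
    rw [this, integral_const_mul, e1, mul_one]
  have e7 : ∫ x, a x * (-κ * a x) ∂μ = -κ := by
    have : (fun x => a x * (-κ * a x)) = fun x => -κ * (a x * a x) := by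
      funext x; ring
    rw [this, integral_const_mul, e1, mul_one]
  have e8 : ∫ x, c' x * (-κ * a x) ∂μ = -κ * κ := by
    rw [← e5]; congr 1; funext x; ring
  change 2 * ((∫ y, c y * c y ∂ν) + (∫ x, c' x * c' x ∂μ) + ∫ x, -κ * a x * c' x ∂μ) ≤
    _ + ((∫ x, a x * a x ∂μ) * (∫ y, c y * c y ∂ν) + (∫ x, c' x * c' x ∂μ) * (∫ y, b y * b y ∂ν)
      + _) + 2 * ((∫ x, a x * c' x ∂μ) * (∫ y, c y * b y ∂ν) + _ * (∫ y, c y * b y ∂ν) +
        (∫ x, c' x * (-κ * a x) ∂μ) * _) at h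
  rw [e1, e2, e3, e4, e5, e6, e7, e8] at h
  simp only [sq] at h ⊢
  change (∫ y, c y * c y ∂ν) + (∫ x, c' x * c' x ∂μ) ≤ _
  nlinarith

/-- Symmetric or antisymmetric `φ` with `⟨a ⊗ a, φ⟩ = 0`.  With `c_a y = ∫ a x φ (x, y)` and
`r = c_a - ⟨a ⊗ b, φ⟩ b` (orthogonal to `a` and `b`), the functions `a ⊗ c_a`, `b ⊗ c_b`, `s r ⊗ a`
are orthogonal and their sum `φ₀` satisfies `⟨φ, φ₀⟩ = ‖φ₀‖²`. -/
theorem tb2 {A : Type} [MeasurableSpace A] {μ : Measure A} [SigmaFinite μ] {φ : A × A → ℝ}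
    (hφ : MemLp φ 2 (μ.prod μ)) {s : ℝ} (hs : s = 1 ∨ s = -1)
    (hsym : ∀ x y, φ (y, x) = s * φ (x, y)) {a b : A → ℝ} (ha : MemLp a 2 μ) (hb : MemLp b 2 μ)
    (ha1 : ∫ x, a x ^ 2 ∂μ = 1) (hb1 : ∫ x, b x ^ 2 ∂μ = 1) (hab : ∫ x, a x * b x ∂μ = 0)
    (h0 : ∫ p, a p.1 * a p.2 * φ p ∂μ.prod μ = 0) :
    2 * (∫ y, (∫ x, a x * φ (x, y) ∂μ) ^ 2 ∂μ) + ∫ y, (∫ x, b x * φ (x, y) ∂μ) ^ 2 ∂μ ≤
      (∫ p, φ p ^ 2 ∂μ.prod μ) + (∫ p, a p.1 * b p.2 * φ p ∂μ.prod μ) ^ 2 := by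
  have hss : s * s = 1 := by rcases hs with rfl | rfl <;> norm_num
  have hca := LNorm_contl hφ ha ha1
  have hcb := LNorm_contl hφ hb hb1
  have k1 := LNorm_pl hφ ha hb
  have k0 := LNorm_pl hφ ha ha
  rw [h0] at k0
  set κ := ∫ p, a p.1 * b p.2 * φ p ∂μ.prod μ with hκ
  set ca : A → ℝ := fun y => ∫ x, a x * φ (x, y) ∂μ with hcad
  set cb : A → ℝ := fun y => ∫ x, b x * φ (x, y) ∂μ with hcbd
  have hr : MemLp (fun x => s * (ca x - κ * b x)) 2 μ := (hca.sub (hb.const_mul κ)).const_mul s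
  have hsw : ∀ x, ∫ y, a y * φ (x, y) ∂μ = s * ca x := by
    intro x
    simp only [hcad]
    rw [← integral_const_mul]
    congr 1; funext y
    rw [hsym y x]; ring
  have h := LNorm_ten3 hφ ha hb hr hca hcb ha
  rw [LNorm_pl hφ hb hcb] at h
  simp only [hsw] at h
  have e1 : ∫ x, a x * a x ∂μ = 1 := by simpa only [sq] using ha1
  have e2 : ∫ y, b y * b y ∂μ = 1 := by simpa only [sq] using hb1
  have e3 : ∫ y, b y * ca y ∂μ = κ := k1.symm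
  have e4 : ∫ y, ca y * a y ∂μ = 0 := by rw [k0]; simp only [mul_comm]; rfl
  have e5 : ∫ x, s * (ca x - κ * b x) * (s * ca x) ∂μ = (∫ x, ca x * ca x ∂μ) - κ * κ := by
    have : (fun x => s * (ca x - κ * b x) * (s * ca x)) =
        fun x => ca x * ca x - κ * (b x * ca x) := by
      funext x; linear_combination ((ca x - κ * b x) * ca x) * hss
    rw [this, integral_sub (LNorm_int hca hca) ((LNorm_int hb hca).const_mul _),
      integral_const_mul, e3]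
  have e6 : ∫ x, s * (ca x - κ * b x) * (s * (ca x - κ * b x)) ∂μ =
      (∫ x, ca x * ca x ∂μ) - κ * κ := by
    have : (fun x => s * (ca x - κ * b x) * (s * (ca x - κ * b x))) =
        fun x => ca x * ca x - 2 * κ * (b x * ca x) + κ * κ * (b x * b x) := by
      funext x; linear_combination ((ca x - κ * b x) * (ca x - κ * b x)) * hss
    have hi : Integrable (fun x => ca x * ca x - 2 * κ * (b x * ca x)) μ :=
      (LNorm_int hca hca).sub ((LNorm_int hb hca).const_mul _)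
    rw [this, integral_add hi
      ((LNorm_int hb hb).const_mul _), integral_sub (LNorm_int hca hca)
      ((LNorm_int hb hca).const_mul _), integral_const_mul, integral_const_mul, e3, e2]
    ring
  have e7 : ∫ x, b x * (s * (ca x - κ * b x)) ∂μ = 0 := by
    have : (fun x => b x * (s * (ca x - κ * b x))) =
        fun x => s * (b x * ca x) - s * κ * (b x * b x) := by
      funext x; ring
    rw [this, integral_sub ((LNorm_int hb hca).const_mul _) ((LNorm_int hb hb).const_mul _),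
      integral_const_mul, integral_const_mul, e3, e2]
    ring
  change 2 * ((∫ y, ca y * ca y ∂μ) + (∫ x, cb x * cb x ∂μ) + _) ≤ _ at h
  rw [e1, e2, e4, e5, e6, e7, hab] at h
  simp only [sq] at h ⊢
  change 2 * (∫ y, ca y * ca y ∂μ) + (∫ x, cb x * cb x ∂μ) ≤ _
  nlinarith

end Crest.Agent.R335
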