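import Crest.Agent.R335.LLim

/-! Row 335. The norm of a family of `H¹` functions; the tensor Bessel inequalities. -/

set_option autoImplicit false

open MeasureTheory Set Filter Topology
open scoped ENNReal

noncomputable section

namespace Crest.Agent.R335

variable {E : Type} [NormedAddCommGroup E] [NormedSpace ℝ E] [FiniteDimensional ℝ E]
  [MeasureSpace E] [BorelSpace E] [(volume : Measure E).IsAddHaarMeasure]
  {ι : Type} [Fintype ι] {e : ι → E}

open scoped Convolution

/-- Scheffe's lemma. -/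
theorem LNorm0_scheffe {F : ℕ → E → ℝ} {f : E → ℝ} (hF : ∀ n, Integrable (F n))
    (hf : Integrable f) (hle : ∀ n, ∫ y, |F n y| ≤ ∫ y, |f y|)
    (hlim : ∀ᵐ y, Tendsto (fun n => F n y) atTop (𝓝 (f y))) :
    Tendsto (fun n => ∫ y, |F n y - f y|) atTop (𝓝 0) := by
  have hk : Tendsto (fun n => ∫ y, (|F n y - f y| - |F n y| + |f y|)) atTop
      (𝓝 (∫ _ : E, (0 : ℝ))) := by
    refine tendsto_integral_of_dominated_convergence (fun y => 2 * |f y|)
      (fun n => ((((hF n).sub hf).abs.sub (hF n).abs).add hf.abs).1) (hf.abs.const_mul 2)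
      (fun n => Eventually.of_forall fun y => ?_) ?_
    · rw [Real.norm_eq_abs, abs_le]
      have h1 := abs_sub (F n y) (f y)
      have h2 := abs_sub_abs_le_abs_sub (F n y) (f y)
      have h3 := abs_nonneg (f y)
      constructor <;> linarith
    · filter_upwards [hlim] with y hy
      have := ((hy.sub_const (f y)).abs.sub hy.abs).add_const |f y|
      simpa using this
  rw [integral_zero] at hk
  refine squeeze_zero (fun n => integral_nonneg fun y => abs_nonneg _) (fun n => ?_) hk
  have hi : Integrable fun y => |F n y - f y| := ((hF n).sub hf).abs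
  have hi2 : Integrable fun y => |F n y - f y| - |F n y| := hi.sub (hF n).abs
  rw [integral_add hi2 hf.abs, integral_sub hi (hF n).abs]
  linarith [hle n]

/-- Young's inequality in `L¹`. -/
theorem LNorm0_young (φ : ContDiffBump (0 : E)) {h : E → ℝ} (hh : Integrable h) :
    ∫ y, |(φ.normed volume ⋆[ContinuousLinearMap.lsmul ℝ ℝ, volume] h) y| ≤ ∫ y, |h y| := by
  have h1 := integral_convolution (ContinuousLinearMap.lsmul ℝ ℝ)
    (φ.integrable_normed (μ := volume)) hh.abs
  rw [φ.integral_normed] at h1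
  simp only [ContinuousLinearMap.lsmul_apply, smul_eq_mul, one_mul] at h1
  rw [← h1]
  refine integral_mono (φ.integrable_normed.integrable_convolution _ hh).abs
    (φ.integrable_normed.integrable_convolution _ hh.abs) fun y => ?_
  simp only [convolution_lsmul]
  refine abs_integral_le_integral_abs.trans (le_of_eq ?_)
  refine integral_congr_ae (Eventually.of_forall fun t => ?_)
  simp only [smul_eq_mul, abs_mul, abs_of_nonneg (φ.nonneg_normed t)]

theorem LNorm0_fderiv_conv {v : E} {u g : E → ℝ} (h : WD v u g) {φ : E → ℝ}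
    (hφ : ContDiff ℝ 1 φ) (hφc : HasCompactSupport φ) (x : E) :
    fderiv ℝ (φ ⋆[ContinuousLinearMap.lsmul ℝ ℝ, volume] u) x v =
      (φ ⋆[ContinuousLinearMap.lsmul ℝ ℝ, volume] g) x := by
  rw [← convolution_flip, (hφc.hasFDerivAt_convolution_right _ h.lu hφ x).fderiv,
    convolution_precompR_apply _ h.lu (hφc.fderiv ℝ) (hφ.continuous_fderiv one_ne_zero),
    convolution_def, convolution_lsmul_swap]
  have hψ : ContDiff ℝ 1 fun t => φ (x - t) := hφ.comp (contDiff_const.sub contDiff_id)
  have hψc : HasCompactSupport fun t => φ (x - t) := hφc.comp_homeomorph (Homeomorph.subLeft x)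
  have h3 := h.eq _ hψ hψc
  have h4 : ∀ t, fderiv ℝ (fun t => φ (x - t)) t v = -fderiv ℝ φ (x - t) v := by
    intro t
    have := (((hφ.differentiable one_ne_zero) (x - t)).hasFDerivAt.comp t
      ((hasFDerivAt_id t).const_sub x)).fderiv
    rw [show (fun t => φ (x - t)) = φ ∘ HSub.hSub x from rfl, this]
    simp
  simp only [h4, mul_neg, integral_neg, neg_inj] at h3
  simp only [ContinuousLinearMap.flip_apply, ContinuousLinearMap.lsmul_apply, smul_eq_mul]
  simp only [mul_comm _ (u _), mul_comm (φ _) (g _), h3]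

/-- The chain rule in `W^{1,1}`. -/
theorem LNorm0_chain {v : E} {u g : E → ℝ} (h : WD v u g) (hu : Integrable u) (hg : Integrable g)
    {F F' : ℝ → ℝ} (hF : ∀ s, HasDerivAt F (F' s) s) (hc : Continuous F') {M : ℝ}
    (hM : ∀ s, |F' s| ≤ M) : WD v (fun x => F (u x)) fun x => F' (u x) * g x := by
  have hM0 : 0 ≤ M := (abs_nonneg _).trans (hM 0)
  have hd : deriv F = F' := funext fun s => (hF s).deriv
  have hF1 : ContDiff ℝ 1 F :=
    contDiff_one_iff_deriv.2 ⟨fun s => (hF s).differentiableAt, hd ▸ hc⟩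
  have hlip : ∀ a b, |F a - F b| ≤ M * |a - b| := fun a b =>
    Convex.norm_image_sub_le_of_norm_hasDerivWithin_le (s := univ)
      (fun s _ => (hF s).hasDerivWithinAt) (fun s _ => hM s) convex_univ (mem_univ b) (mem_univ a)
  let φ : ℕ → ContDiffBump (0 : E) := fun n =>
    ⟨1 / ((n : ℝ) + 1), 2 * (1 / ((n : ℝ) + 1)), by positivity, by
      have : 0 < 1 / ((n : ℝ) + 1) := by positivity
      linarith⟩
  have h1 : Tendsto (fun i => (φ i).rOut) atTop (𝓝 0) := by
    have := (tendsto_one_div_add_atTop_nhds_zero_nat (𝕜 := ℝ)).const_mul (2 : ℝ)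
    rwa [mul_zero] at this
  have h2 : ∀ᶠ i in atTop, (φ i).rOut ≤ 2 * (φ i).rIn := Eventually.of_forall fun i => le_rfl
  obtain ⟨U, hU⟩ : ∃ U : ℕ → E → ℝ, U = fun n =>
    (φ n).normed volume ⋆[ContinuousLinearMap.lsmul ℝ ℝ, volume] u := ⟨_, rfl⟩
  obtain ⟨G, hG⟩ : ∃ G : ℕ → E → ℝ, G = fun n =>
    (φ n).normed volume ⋆[ContinuousLinearMap.lsmul ℝ ℝ, volume] g := ⟨_, rfl⟩
  have iU : ∀ n, Integrable (U n) := fun n => by
    rw [hU]; exact (φ n).integrable_normed.integrable_convolution _ hu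
  have iG : ∀ n, Integrable (G n) := fun n => by
    rw [hG]; exact (φ n).integrable_normed.integrable_convolution _ hg
  have aU : ∀ᵐ x, Tendsto (fun n => U n x) atTop (𝓝 (u x)) := by
    rw [hU]; exact ContDiffBump.ae_convolution_tendsto_right_of_locallyIntegrable h1 h2 h.lu
  have aG : ∀ᵐ x, Tendsto (fun n => G n x) atTop (𝓝 (g x)) := by
    rw [hG]; exact ContDiffBump.ae_convolution_tendsto_right_of_locallyIntegrable h1 h2 h.lg
  have lU := LNorm0_scheffe iU hu (fun n => by rw [hU]; exact LNorm0_young (φ n) hu) aU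
  have lG := LNorm0_scheffe iG hg (fun n => by rw [hG]; exact LNorm0_young (φ n) hg) aG
  have cU : ∀ n, ContDiff ℝ 1 (U n) := fun n => by
    rw [hU]
    exact (φ n).hasCompactSupport_normed.contDiff_convolution_left _ (φ n).contDiff_normed h.lu
  have dU : ∀ n x, fderiv ℝ (U n) x v = G n x := fun n x => by
    rw [hU, hG]
    exact LNorm0_fderiv_conv h (φ n).contDiff_normed (φ n).hasCompactSupport_normed x
  have hw : ∀ n, WD v (fun x => F (U n x)) fun x => F' (U n x) * G n x := fun n => by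
    refine (WD.of_contDiff (hF1.comp (cU n)) v).congr (Eventually.of_forall fun _ => rfl)
      (Eventually.of_forall fun x => ?_)
    have := ((hF (U n x)).comp_hasFDerivAt x
      ((cU n).differentiable one_ne_zero x).hasFDerivAt).fderiv
    simp only [this, ContinuousLinearMap.smul_apply, smul_eq_mul, dU]
  have key : ∀ {a b : E → ℝ}, Integrable a → Integrable b → Integrable fun x => F' (a x) * b x :=
    fun ha hb => hb.bdd_mul (hc.comp_aestronglyMeasurable ha.1)
      (Eventually.of_forall fun x => hM _)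
  have key2 : ∀ {a b : E → ℝ}, Integrable a → Integrable b →
      Integrable fun x => F (a x) - F (b x) := fun ha hb =>
    ((ha.sub hb).abs.const_mul M).mono'
      ((hF1.continuous.comp_aestronglyMeasurable ha.1).sub
        (hF1.continuous.comp_aestronglyMeasurable hb.1))
      (Eventually.of_forall fun x => hlip _ _)
  refine WD.of_tendsto hw ?_ (key hu hg).locallyIntegrable (fun K _ => ?_) fun K _ => ?_
  · have h3 := (key2 (b := fun _ => 0) hu (integrable_zero _ _ _)).locallyIntegrable.add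
      (locallyIntegrable_const (F 0))
    rwa [show ((fun x => F (u x) - F 0) + fun _ => F 0) = fun x => F (u x) from
      funext fun x => sub_add_cancel _ _] at h3
  · refine squeeze_zero (fun n => integral_nonneg fun y => abs_nonneg _) (fun n => ?_)
      (by simpa using lU.const_mul M)
    refine (setIntegral_le_integral (key2 (iU n) hu).abs
      (Eventually.of_forall fun x => abs_nonneg _)).trans ?_
    rw [← integral_const_mul]
    exact integral_mono (key2 (iU n) hu).abs (((iU n).sub hu).abs.const_mul M) fun x => hlip _ _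
  · have h3 : Tendsto (fun n => ∫ x, |F' (U n x) * g x - F' (u x) * g x|) atTop
        (𝓝 (∫ _ : E, (0 : ℝ))) := by
      refine tendsto_integral_of_dominated_convergence (fun y => 2 * M * |g y|)
        (fun n => ((key (iU n) hg).sub (key hu hg)).abs.1) (hg.abs.const_mul _)
        (fun n => Eventually.of_forall fun y => ?_) ?_
      · rw [Real.norm_eq_abs, abs_abs, ← sub_mul, abs_mul]
        refine mul_le_mul_of_nonneg_right ((abs_sub _ _).trans ?_) (abs_nonneg _)
        linarith [hM (U n y), hM (u y)]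
      · filter_upwards [aU] with y hy
        have := ((((hc.tendsto _).comp hy).mul_const (g y)).sub_const (F' (u y) * g y)).abs
        simpa using this
    rw [integral_zero] at h3
    refine squeeze_zero (fun n => integral_nonneg fun y => abs_nonneg _) (fun n => ?_)
      (by simpa using (lG.const_mul M).add h3)
    have i1 : Integrable fun x => |F' (U n x) * G n x - F' (u x) * g x| :=
      ((key (iU n) (iG n)).sub (key hu hg)).abs
    have i2 : Integrable fun x => M * |G n x - g x| := ((iG n).sub hg).abs.const_mul M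
    have i3 : Integrable fun x => |F' (U n x) * g x - F' (u x) * g x| :=
      ((key (iU n) hg).sub (key hu hg)).abs
    refine (setIntegral_le_integral i1 (Eventually.of_forall fun x => abs_nonneg _)).trans ?_
    rw [← integral_const_mul, ← integral_add i2 i3]
    refine integral_mono i1 (i2.add i3) fun x => ?_
    have e1 : F' (U n x) * G n x - F' (u x) * g x =
        F' (U n x) * (G n x - g x) + (F' (U n x) * g x - F' (u x) * g x) := by ring
    simp only
    rw [e1]
    refine (abs_add_le _ _).trans (add_le_add ?_ le_rfl)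
    rw [abs_mul]
    exact mul_le_mul_of_nonneg_right (hM _) (abs_nonneg _)

theorem LNorm0_cs {Ω : Type} [MeasurableSpace Ω] {μ : Measure Ω} {a b : Ω → ℝ}
    (ha : Integrable (fun ω => a ω ^ 2) μ) (hb : Integrable (fun ω => b ω ^ 2) μ)
    (hab : Integrable (fun ω => a ω * b ω) μ) :
    (∫ ω, a ω * b ω ∂μ) ^ 2 ≤ (∫ ω, a ω ^ 2 ∂μ) * ∫ ω, b ω ^ 2 ∂μ := by
  have h := discrim_le_zero (a := ∫ ω, a ω ^ 2 ∂μ) (b := 2 * ∫ ω, a ω * b ω ∂μ)
    (c := ∫ ω, b ω ^ 2 ∂μ) fun t => by
      have i1 : Integrable (fun ω => a ω ^ 2 * (t * t)) μ := ha.mul_const _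
      have i2 : Integrable (fun ω => 2 * (a ω * b ω) * t) μ := (hab.const_mul 2).mul_const _
      have i3 : Integrable (fun ω => a ω ^ 2 * (t * t) + 2 * (a ω * b ω) * t) μ := i1.add i2
      rw [← integral_const_mul, ← integral_mul_const, ← integral_mul_const, ← integral_add i1 i2,
        ← integral_add i3 hb]
      exact integral_nonneg fun ω => by
        have := sq_nonneg (a ω * t + b ω)
        simp only [Pi.zero_apply]
        linarith
  rw [discrim] at h
  linarith

/-- The weak derivative of `∫ Φ²`. -/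
theorem LNorm0_wd {Ω : Type} [MeasurableSpace Ω] {μ : Measure Ω} [SigmaFinite μ] {Φ : E × Ω → ℝ}
    {g : ι → E × Ω → ℝ} (h2 : MemLp Φ 2 (volume.prod μ))
    (h2' : ∀ i, MemLp (g i) 2 (volume.prod μ))
    (h : ∀ᵐ ω ∂μ, H1 e (fun x => Φ (x, ω)) fun i x => g i (x, ω)) (i : ι) :
    WD (e i) (fun x => ∫ ω, Φ (x, ω) ^ 2 ∂μ) fun x => 2 * ∫ ω, Φ (x, ω) * g i (x, ω) ∂μ := by
  have i1 : Integrable (fun p => Φ p ^ 2) (volume.prod μ) := h2.integrable_sq
  have i2 : Integrable (fun p => Φ p * g i p) (volume.prod μ) := h2.integrable_mul (h2' i)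
  refine ⟨i1.integral_prod_left.locallyIntegrable,
    (i2.integral_prod_left.const_mul 2).locallyIntegrable, fun φ hφ hc => ?_⟩
  have c1 : Continuous fun x => fderiv ℝ φ x (e i) :=
    (hφ.continuous_fderiv one_ne_zero).clm_apply continuous_const
  obtain ⟨C, hC⟩ := c1.bounded_above_of_compact_support
    ((hc.fderiv ℝ).comp_left (g := fun L : E →L[ℝ] ℝ => L (e i)) rfl)
  obtain ⟨C', hC'⟩ := hφ.continuous.bounded_above_of_compact_support hc
  have j1 : Integrable (fun p : E × Ω => Φ p ^ 2 * fderiv ℝ φ p.1 (e i)) (volume.prod μ) :=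
    i1.mul_bdd (c1.measurable.comp measurable_fst).aestronglyMeasurable
      (Eventually.of_forall fun p => hC p.1)
  have j2 : Integrable (fun p : E × Ω => 2 * (Φ p * g i p) * φ p.1) (volume.prod μ) :=
    (i2.const_mul 2).mul_bdd (hφ.continuous.measurable.comp measurable_fst).aestronglyMeasurable
      (Eventually.of_forall fun p => hC' p.1)
  simp only [← integral_const_mul, ← integral_mul_const]
  rw [integral_integral_swap (f := fun x ω => Φ (x, ω) ^ 2 * fderiv ℝ φ x (e i)) j1,
    integral_integral_swap (f := fun x ω => 2 * (Φ (x, ω) * g i (x, ω)) * φ x) j2, ← integral_neg]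
  refine integral_congr_ae ?_
  filter_upwards [h] with ω hω
  have h3 := (hω.h1l.wd_mul hω.h1l i).eq φ hφ hc
  simp only [sq]
  rw [h3]
  congr 1
  refine integral_congr_ae (Eventually.of_forall fun x => ?_)
  simp only
  ring

theorem LNorm0_deriv {c : ℝ} (hc : 0 < c) (s : ℝ) :
    HasDerivAt (fun s : ℝ => √(√(s ^ 2 + c))) (s / √(s ^ 2 + c) / (2 * √(√(s ^ 2 + c)))) s := by
  have h0 : 0 < s ^ 2 + c := by positivity
  have h1 : HasDerivAt (fun s : ℝ => s ^ 2 + c) (2 * s) s := by
    simpa using (hasDerivAt_pow 2 s).add_const c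
  have h2 := (h1.sqrt h0.ne').sqrt (Real.sqrt_pos.2 h0).ne'
  rwa [mul_div_mul_left _ _ two_ne_zero] at h2

theorem LNorm0_bd {c : ℝ} (hc : 0 < c) (s : ℝ) {t : ℝ} (ht : 0 < t) (h : t ^ 2 ≤ s ^ 2 + c) :
    |s / √(s ^ 2 + c) / (2 * √(√(s ^ 2 + c)))| ≤ 1 / (2 * √t) := by
  have h0 : 0 < √(s ^ 2 + c) := Real.sqrt_pos.2 (by positivity)
  have h1 : 0 < √t := Real.sqrt_pos.2 ht
  have h2 : √t ≤ √(√(s ^ 2 + c)) := Real.sqrt_le_sqrt (Real.le_sqrt_of_sq_le h)
  have h3 : |s / √(s ^ 2 + c)| ≤ 1 := by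
    rw [abs_div, abs_of_pos h0]
    exact div_le_one_of_le₀ (Real.abs_le_sqrt (by linarith)) h0.le
  rw [abs_div, abs_of_pos (a := 2 * _) (by linarith)]
  exact div_le_div₀ zero_le_one h3 (by linarith) (by linarith)

/-- The norm lemma.  `m = ∫ Φ²` has the weak derivative `2 ∫ Φ G` (`H1l.wd_mul` on slices and
Fubini), but `m` is only in `W^{1,1}`; so test directly: for `δ > 0` show that `√(m + δ²) - δ` has
the weak derivative `(∫ Φ G) / √(m + δ²)`, e.g. by first truncating or by a `W^{1,1}` chain rule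
(mollify `m` in `L¹`, as in `Crest.Agent.R112.Sob1`); let `δ → 0` (`WD.of_dominated`). -/
theorem H1.norm {Ω : Type} [MeasurableSpace Ω] {μ : Measure Ω} [SigmaFinite μ] {Φ : E × Ω → ℝ}
    {g : ι → E × Ω → ℝ} (hm : Measurable Φ) (hm' : ∀ i, Measurable (g i))
    (h2 : MemLp Φ 2 (volume.prod μ)) (h2' : ∀ i, MemLp (g i) 2 (volume.prod μ))
    (h : ∀ᵐ ω ∂μ, H1 e (fun x => Φ (x, ω)) fun i x => g i (x, ω)) :
    H1 e (fun x => √(∫ ω, Φ (x, ω) ^ 2 ∂μ))
        (fun i x => (∫ ω, Φ (x, ω) * g i (x, ω) ∂μ) / √(∫ ω, Φ (x, ω) ^ 2 ∂μ)) ∧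
      ∀ᵐ x, gs (fun i x => (∫ ω, Φ (x, ω) * g i (x, ω) ∂μ) / √(∫ ω, Φ (x, ω) ^ 2 ∂μ)) x ≤
        ∫ ω, ∑ i, g i (x, ω) ^ 2 ∂μ := by
  have i1 : Integrable (fun p => Φ p ^ 2) (volume.prod μ) := h2.integrable_sq
  have i2 : ∀ i, Integrable (fun p => Φ p * g i p) (volume.prod μ) := fun i =>
    h2.integrable_mul (h2' i)
  have i3 : ∀ i, Integrable (fun p => g i p ^ 2) (volume.prod μ) := fun i => (h2' i).integrable_sq
  have hw := LNorm0_wd h2 h2' h
  obtain ⟨m, hmd⟩ : ∃ m : E → ℝ, m = fun x => ∫ ω, Φ (x, ω) ^ 2 ∂μ := ⟨_, rfl⟩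
  obtain ⟨a, had⟩ : ∃ a : ι → E → ℝ, a = fun i x => ∫ ω, Φ (x, ω) * g i (x, ω) ∂μ := ⟨_, rfl⟩
  obtain ⟨b, hbd⟩ : ∃ b : ι → E → ℝ, b = fun i x => ∫ ω, g i (x, ω) ^ 2 ∂μ := ⟨_, rfl⟩
  have mm : Measurable m := by
    rw [hmd]; exact (hm.pow_const 2).stronglyMeasurable.integral_prod_right'.measurable
  have ma : ∀ i, Measurable (a i) := fun i => by
    rw [had]; exact (hm.mul (hm' i)).stronglyMeasurable.integral_prod_right'.measurable
  have mb : ∀ i, Measurable (b i) := fun i => by
    rw [hbd]; exact ((hm' i).pow_const 2).stronglyMeasurable.integral_prod_right'.measurable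
  have im : Integrable m := by rw [hmd]; exact i1.integral_prod_left
  have ia : ∀ i, Integrable (a i) := fun i => by rw [had]; exact (i2 i).integral_prod_left
  have ib : ∀ i, Integrable (b i) := fun i => by rw [hbd]; exact (i3 i).integral_prod_left
  have m0 : ∀ x, 0 ≤ m x := fun x => by rw [hmd]; exact integral_nonneg fun _ => sq_nonneg _
  have b0 : ∀ i x, 0 ≤ b i x := fun i x => by
    rw [hbd]; exact integral_nonneg fun _ => sq_nonneg _
  have hsl : ∀ᵐ x, ∀ i, Integrable (fun ω => g i (x, ω) ^ 2) μ :=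
    ae_all_iff.2 fun i => (i3 i).prod_right_ae
  have hcs : ∀ᵐ x, ∀ i, (a i x / √(m x)) ^ 2 ≤ b i x := by
    filter_upwards [i1.prod_right_ae, ae_all_iff.2 fun i => (i2 i).prod_right_ae, hsl]
      with x x1 x2 x3 i
    have h3 : a i x ^ 2 ≤ m x * b i x := by
      rw [hmd, had, hbd]; exact LNorm0_cs x1 (x3 i) (x2 i)
    rw [div_pow, Real.sq_sqrt (m0 x)]
    exact div_le_of_le_mul₀ (m0 x) (b0 i x) (by linarith)
  have l2 : ∀ {f : E → ℝ}, Measurable f → Integrable f → (∀ x, 0 ≤ f x) →
      MemLp (fun x => √(f x)) 2 volume := fun mf jf f0 =>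
    (memLp_two_iff_integrable_sq mf.sqrt.aestronglyMeasurable).2
      (by simpa only [Real.sq_sqrt (f0 _)] using jf)
  have hw' : ∀ i, WD (e i) m fun x => 2 * a i x := by rw [hmd, had]; exact hw
  suffices H : H1 e (fun x => √(m x)) (fun i x => a i x / √(m x)) ∧
      ∀ᵐ x, gs (fun i x => a i x / √(m x)) x ≤ ∫ ω, ∑ i, g i (x, ω) ^ 2 ∂μ by
    rw [hmd, had] at H
    exact H
  refine ⟨⟨mm.sqrt, fun i => (ma i).div mm.sqrt, l2 mm im m0, fun i => ?_, fun i => ?_⟩, ?_⟩
  · refine (memLp_two_iff_integrable_sq ((ma i).div mm.sqrt).aestronglyMeasurable).2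
      ((ib i).mono' (((ma i).div mm.sqrt).pow_const 2).aestronglyMeasurable ?_)
    filter_upwards [hcs] with x hx
    rw [Real.norm_of_nonneg (sq_nonneg _)]
    exact hx i
  · let c : ℕ → ℝ := fun n => 1 / ((n : ℝ) + 1)
    have hc0 : ∀ n, 0 < c n := fun n => by positivity
    have hc1 : ∀ n, c n ≤ 1 := fun n => by
      rw [div_le_one (by positivity)]; linarith [Nat.cast_nonneg (α := ℝ) n]
    have hc : Tendsto c atTop (𝓝 0) := tendsto_one_div_add_atTop_nhds_zero_nat
    have hsq : ∀ x, Tendsto (fun n => √(m x ^ 2 + c n)) atTop (𝓝 (m x)) := fun x => by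
      have := (hc.const_add (m x ^ 2)).sqrt
      rwa [add_zero, Real.sqrt_sq (m0 x)] at this
    have hn : ∀ n, WD (e i) (fun x => √(√(m x ^ 2 + c n))) fun x =>
        m x / √(m x ^ 2 + c n) / (2 * √(√(m x ^ 2 + c n))) * (2 * a i x) := fun n => by
      have h0 : ∀ s : ℝ, 0 < √(s ^ 2 + c n) := fun s =>
        Real.sqrt_pos.2 (by have := hc0 n; positivity)
      refine LNorm0_chain (hw' i) im ((ia i).const_mul 2) (LNorm0_deriv (hc0 n))
        (M := 1 / (2 * √(√(c n)))) ?_ fun s =>
          LNorm0_bd (hc0 n) s (Real.sqrt_pos.2 (hc0 n)) ?_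
      · refine Continuous.div (Continuous.div continuous_id (by fun_prop) fun s => (h0 s).ne')
          (by fun_prop) fun s => ?_
        have := Real.sqrt_pos.2 (h0 s)
        positivity
      · rw [Real.sq_sqrt (hc0 n).le]
        nlinarith [sq_nonneg s]
    refine WD.of_dominated hn (b := fun x => √(m x) + 1 + √(b i x)) ?_
      (fun n => Eventually.of_forall fun x => ?_) (fun n => ?_)
      (Eventually.of_forall fun x => (hsq x).sqrt) (Eventually.of_forall fun x => ?_)
    · exact (((l2 mm im m0).locallyIntegrable one_le_two).add (locallyIntegrable_const 1)).add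
        ((l2 (mb i) (ib i) (b0 i)).locallyIntegrable one_le_two)
    · rw [abs_of_nonneg (Real.sqrt_nonneg _)]
      have h3 := Real.sqrt_nonneg (m x)
      have h4 := Real.sqrt_nonneg (b i x)
      have h5 := Real.sq_sqrt (m0 x)
      have h6 : √(m x ^ 2 + c n) ≤ m x + 1 :=
        Real.sqrt_le_iff.2 ⟨by linarith [m0 x], by nlinarith [m0 x, hc1 n]⟩
      have h7 : √(√(m x ^ 2 + c n)) ≤ √(m x) + 1 :=
        Real.sqrt_le_iff.2 ⟨by linarith, by nlinarith⟩
      linarith
    · filter_upwards [hcs] with x hx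
      have h3 := Real.sqrt_nonneg (m x)
      have h4 := Real.sqrt_nonneg (b i x)
      rcases (m0 x).eq_or_lt with h5 | h5
      · rw [← h5, zero_div, zero_div, zero_mul, abs_zero]
        positivity
      have h6 := LNorm0_bd (hc0 n) (m x) h5 (by linarith [hc0 n])
      have h7 : |a i x / √(m x)| ≤ √(b i x) := Real.abs_le_sqrt (hx i)
      have h8 : 0 < √(m x) := Real.sqrt_pos.2 h5
      rw [abs_div, abs_of_pos h8] at h7
      rw [abs_mul, abs_mul, abs_two]
      refine (mul_le_mul_of_nonneg_right h6 (by positivity)).trans ?_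
      have h9 : 1 / (2 * √(m x)) * (2 * |a i x|) = |a i x| / √(m x) := by field_simp
      linarith
    · rcases (m0 x).eq_or_lt with h5 | h5
      · simp [← h5]
      have h8 : 0 < √(m x) := Real.sqrt_pos.2 h5
      have h9 := (((tendsto_const_nhds (x := m x)).div (hsq x) h5.ne').div
        ((hsq x).sqrt.const_mul 2) (by positivity)).mul_const (2 * a i x)
      have e1 : m x / m x / (2 * √(m x)) * (2 * a i x) = a i x / √(m x) := by field_simp
      rw [e1] at h9
      exact h9
  · filter_upwards [hcs, hsl] with x hx hx'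
    rw [integral_finset_sum _ fun i _ => hx' i]
    refine Finset.sum_le_sum fun i _ => (hx i).trans_eq ?_
    rw [hbd]

end Crest.Agent.R335
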