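import Crest.Agent.R335.LLim

/-! Row 335. Slices, tensor products and contractions. -/

set_option autoImplicit false
set_option linter.unusedSectionVars false

open MeasureTheory Set Filter Topology
open scoped ENNReal

noncomputable section

namespace Crest.Agent.R335

variable {E : Type} [NormedAddCommGroup E] [NormedSpace ℝ E] [FiniteDimensional ℝ E]
  [MeasureSpace E] [BorelSpace E] [(volume : Measure E).IsAddHaarMeasure]
  {ι : Type} [Fintype ι] {e : ι → E}
  {F : Type} [NormedAddCommGroup F] [NormedSpace ℝ F] [FiniteDimensional ℝ F]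
  [MeasureSpace F] [BorelSpace F] [(volume : Measure F).IsAddHaarMeasure]
  {κ : Type} [Fintype κ] {f : κ → F}

section aux

omit [FiniteDimensional ℝ E] [MeasureSpace E] [BorelSpace E] [(volume : Measure E).IsAddHaarMeasure]
  [FiniteDimensional ℝ F] [MeasureSpace F] [BorelSpace F] [(volume : Measure F).IsAddHaarMeasure] in
theorem LSlice_fderiv_right {φ : E × F → ℝ} (h : ContDiff ℝ 1 φ) (x : E) (y v : F) :
    fderiv ℝ (fun y => φ (x, y)) y v = fderiv ℝ φ (x, y) (0, v) := by
  have := ((h.differentiable one_ne_zero (x, y)).hasFDerivAt.comp y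
    (hasFDerivAt_prodMk_right (𝕜 := ℝ) x y)).fderiv
  exact congrArg (fun L : F →L[ℝ] ℝ => L v) this

omit [FiniteDimensional ℝ E] [MeasureSpace E] [BorelSpace E] [(volume : Measure E).IsAddHaarMeasure]
  [FiniteDimensional ℝ F] [MeasureSpace F] [BorelSpace F] [(volume : Measure F).IsAddHaarMeasure] in
theorem LSlice_fderiv_left {φ : E × F → ℝ} (h : ContDiff ℝ 1 φ) (x v : E) (y : F) :
    fderiv ℝ (fun x => φ (x, y)) x v = fderiv ℝ φ (x, y) (v, 0) := by
  have := ((h.differentiable one_ne_zero (x, y)).hasFDerivAt.comp x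
    (hasFDerivAt_prodMk_left (𝕜 := ℝ) x y)).fderiv
  exact congrArg (fun L : E →L[ℝ] ℝ => L v) this

theorem LSlice_memLp_right {Φ : E × F → ℝ} (h : MemLp Φ 2 volume) :
    ∀ᵐ x, MemLp (fun y => Φ (x, y)) 2 volume := by
  have h1 : Integrable (fun p => Φ p ^ 2) ((volume : Measure E).prod (volume : Measure F)) :=
    h.integrable_sq
  have h2 : AEStronglyMeasurable Φ ((volume : Measure E).prod (volume : Measure F)) := h.1
  filter_upwards [h1.prod_right_ae, h2.prodMk_left] with x hx hx'
  exact (memLp_two_iff_integrable_sq hx').2 hx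

theorem LSlice_memLp_tensor {a : E → ℝ} {b : F → ℝ} (ha : MemLp a 2 volume)
    (hb : MemLp b 2 volume) : MemLp (fun p : E × F => a p.1 * b p.2) 2 volume := by
  have h1 := ha.integrable_sq.mul_prod hb.integrable_sq
  have h2 : AEStronglyMeasurable (fun p : E × F => a p.1 * b p.2)
      ((volume : Measure E).prod (volume : Measure F)) := ha.1.comp_fst.mul hb.1.comp_snd
  refine (memLp_two_iff_integrable_sq h2).2 ?_
  simpa only [mul_pow] using h1

theorem LSlice_int_test {u φ : E → ℝ} (hu : LocallyIntegrable u volume) (hφ : Continuous φ)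
    (hc : HasCompactSupport φ) : Integrable fun x => u x * φ x :=
  hu.integrable_smul_right_of_hasCompactSupport hφ hc

omit [FiniteDimensional ℝ E] [MeasureSpace E] [BorelSpace E]
  [(volume : Measure E).IsAddHaarMeasure] in
theorem LSlice_cont_fderiv {φ : E → ℝ} (hφ : ContDiff ℝ 1 φ) (v : E) :
    Continuous fun x => fderiv ℝ φ x v :=
  (hφ.continuous_fderiv one_ne_zero).clm_apply continuous_const

/-- weak derivatives of the slices give a weak partial derivative -/
theorem LSlice_wd_right {v : F} {u g : E × F → ℝ} (hu : LocallyIntegrable u volume)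
    (hg : LocallyIntegrable g volume)
    (h : ∀ᵐ x, WD v (fun y => u (x, y)) fun y => g (x, y)) : WD ((0, v) : E × F) u g := by
  refine ⟨hu, hg, fun φ hφ hc => ?_⟩
  have h1 := LSlice_int_test hu (LSlice_cont_fderiv hφ (0, v)) (hc.fderiv_apply ℝ (0, v))
  have h2 := LSlice_int_test hg hφ.continuous hc
  rw [Measure.volume_eq_prod] at h1 h2 ⊢
  rw [integral_prod _ h1, integral_prod _ h2, ← integral_neg]
  refine integral_congr_ae ?_
  filter_upwards [h] with x hx
  have := hx.eq (fun y => φ (x, y)) (hφ.comp (contDiff_prodMk_right x))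
    (hc.comp_isClosedEmbedding (Function.LeftInverse.isClosedEmbedding (f := Prod.snd)
      (fun _ => rfl) continuous_snd (Continuous.prodMk_right x)))
  simpa only [LSlice_fderiv_right hφ] using this

theorem LSlice_wd_left {v : E} {u g : E × F → ℝ} (hu : LocallyIntegrable u volume)
    (hg : LocallyIntegrable g volume)
    (h : ∀ᵐ y, WD v (fun x => u (x, y)) fun x => g (x, y)) : WD ((v, 0) : E × F) u g := by
  refine ⟨hu, hg, fun φ hφ hc => ?_⟩
  have h1 := LSlice_int_test hu (LSlice_cont_fderiv hφ (v, 0)) (hc.fderiv_apply ℝ (v, 0))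
  have h2 := LSlice_int_test hg hφ.continuous hc
  rw [Measure.volume_eq_prod] at h1 h2 ⊢
  rw [integral_prod_symm _ h1, integral_prod_symm _ h2, ← integral_neg]
  refine integral_congr_ae ?_
  filter_upwards [h] with y hy
  have := hy.eq (fun x => φ (x, y)) (hφ.comp (contDiff_prodMk_left y))
    (hc.comp_isClosedEmbedding (Function.LeftInverse.isClosedEmbedding (f := Prod.fst)
      (fun _ => rfl) continuous_fst (Continuous.prodMk_left y)))
  simpa only [LSlice_fderiv_left hφ] using this

theorem LSlice_l2l_fst {u : E → ℝ} (h : L2l u) : L2l fun p : E × F => u p.1 := by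
  intro K hK
  have h1 := hK.image continuous_fst
  have h2 := hK.image continuous_snd
  have : IsFiniteMeasure ((volume : Measure F).restrict (Prod.snd '' K)) :=
    isFiniteMeasure_restrict.2 h2.measure_lt_top.ne
  have h3 := (h _ h1).comp_fst ((volume : Measure F).restrict (Prod.snd '' K))
  rw [Measure.prod_restrict] at h3
  exact h3.mono_measure (Measure.restrict_mono
    (fun p hp => mem_prod.2 ⟨mem_image_of_mem _ hp, mem_image_of_mem _ hp⟩) le_rfl)

theorem LSlice_l2l_snd {u : F → ℝ} (h : L2l u) : L2l fun p : E × F => u p.2 := by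
  intro K hK
  have h1 := hK.image continuous_fst
  have h2 := hK.image continuous_snd
  have : IsFiniteMeasure ((volume : Measure E).restrict (Prod.fst '' K)) :=
    isFiniteMeasure_restrict.2 h1.measure_lt_top.ne
  have h3 := (h _ h2).comp_snd ((volume : Measure E).restrict (Prod.fst '' K))
  rw [Measure.prod_restrict] at h3
  exact h3.mono_measure (Measure.restrict_mono
    (fun p hp => mem_prod.2 ⟨mem_image_of_mem _ hp, mem_image_of_mem _ hp⟩) le_rfl)

theorem LSlice_wd_const (v : E) (c : ℝ) : WD v (fun _ => c) fun _ => 0 := by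
  simpa using WD.of_contDiff (contDiff_const (c := c)) v

theorem LSlice_meas_contract {Φ : E × F → ℝ} (h : Measurable Φ) {χ : F → ℝ} (hm : Measurable χ) :
    Measurable fun x => ∫ y, Φ (x, y) * χ y :=
  ((h.mul (hm.comp measurable_snd)).stronglyMeasurable.integral_prod_right'
    (ν := (volume : Measure F))).measurable

theorem LSlice_memLp_contract {Φ : E × F → ℝ} (hΦ : Measurable Φ) (h : MemLp Φ 2 volume)
    {χ : F → ℝ} (hm : Measurable χ) (hχ : MemLp χ 2 volume) :
    MemLp (fun x => ∫ y, Φ (x, y) * χ y) 2 volume := by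
  have hme := LSlice_meas_contract hΦ hm
  refine (memLp_two_iff_integrable_sq hme.aestronglyMeasurable).2 ?_
  have h1 : Integrable (fun p => Φ p ^ 2) ((volume : Measure E).prod (volume : Measure F)) :=
    h.integrable_sq
  refine (h1.integral_prod_left.mul_const (nsq χ)).mono' (hme.pow_const 2).aestronglyMeasurable ?_
  filter_upwards [LSlice_memLp_right h] with x hx
  rw [Real.norm_of_nonneg (sq_nonneg _)]
  exact ip_sq_le hx hχ

theorem LSlice_contract_swap {Φ : E × F → ℝ} (h : MemLp Φ 2 volume) {χ : F → ℝ}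
    (hχ : MemLp χ 2 volume) {ψ : E → ℝ} (hψ : MemLp ψ 2 volume) :
    ∫ x, (∫ y, Φ (x, y) * χ y) * ψ x = ∫ y, (∫ x, Φ (x, y) * ψ x) * χ y := by
  have h1 : Integrable (fun p => Φ p * (ψ p.1 * χ p.2))
      ((volume : Measure E).prod (volume : Measure F)) :=
    h.integrable_mul (LSlice_memLp_tensor hψ hχ)
  have h2 := (integral_prod _ h1).symm.trans (integral_prod_symm _ h1)
  simp only [← integral_mul_const, mul_assoc, mul_comm (χ _)]
  exact h2

end aux

/-- `H1.approx_seq`: the errors are summable, so for almost every `x` the slices converge in `H¹`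
(`lintegral_tsum`, Tonelli); `H1.of_tendsto`. -/
theorem H1.slice_right {Φ : E × F → ℝ} {g : ι ⊕ κ → E × F → ℝ} (h : H1 (eP e f) Φ g) :
    ∀ᵐ x, H1 f (fun y => Φ (x, y)) fun j y => g (.inr j) (x, y) := by
  obtain ⟨φ, b, hφ, -, -, -, hb, hae⟩ := h.approx_seq
  have hφ1 : ∀ n, ContDiff ℝ 1 (φ n) := fun n => (hφ n).of_le one_le_two
  rw [Measure.volume_eq_prod] at hae
  filter_upwards [Measure.ae_ae_of_ae_prod hae, LSlice_memLp_right hb, LSlice_memLp_right h.l2,
    ae_all_iff.2 fun j => LSlice_memLp_right (h.gl2 (.inr j))] with x h1 h2 h3 h4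
  refine ⟨h.m.comp measurable_prodMk_left, fun j => (h.gm _).comp measurable_prodMk_left, h3, h4,
    fun j => ?_⟩
  refine WD.of_dominated (u := fun n y => φ n (x, y))
    (g := fun n y => pd (eP e f) (φ n) (.inr j) (x, y)) (fun n => ?_)
    (L2l.of_memLp h2).locallyIntegrable (fun n => h1.mono fun y hy => hy.1 n)
    (fun n => h1.mono fun y hy => hy.2.1 n _) (h1.mono fun y hy => hy.2.2.1)
    (h1.mono fun y hy => hy.2.2.2 _)
  have := WD.of_contDiff (u := fun y => φ n (x, y)) ((hφ1 n).comp (contDiff_prodMk_right x)) (f j)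
  simp only [LSlice_fderiv_right (hφ1 n)] at this
  exact this

theorem LSlice_swap {Φ : E × F → ℝ} {g : ι ⊕ κ → E × F → ℝ} (h : H1 (eP e f) Φ g) :
    H1 (eP f e) (fun p => Φ p.swap) fun i p => g i.swap p.swap := by
  have := H1.comp_equiv (e := eP f e) (ContinuousLinearEquiv.prodComm ℝ F E) Sum.swap (fun _ => 1)
    (by rintro (i | j) <;> simp [eP]) h
  simp only [one_mul] at this
  exact this

theorem H1.slice_left {Φ : E × F → ℝ} {g : ι ⊕ κ → E × F → ℝ} (h : H1 (eP e f) Φ g) :
    ∀ᵐ y, H1 e (fun x => Φ (x, y)) fun i x => g (.inl i) (x, y) := by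
  exact (LSlice_swap h).slice_right

theorem H1.swap {Φ : E × F → ℝ} {g : ι ⊕ κ → E × F → ℝ} (h : H1 (eP e f) Φ g) :
    H1 (eP f e) (fun p => Φ p.swap) fun i p => g i.swap p.swap := by
  exact LSlice_swap h

/-- Fubini: slices of a test function are test functions. -/
theorem H1l.fst {ζ : E → ℝ} {g : ι → E → ℝ} (h : H1l e ζ g) (f : κ → F) :
    H1l (eP e f) (fun p => ζ p.1) (Sum.elim (fun i p => g i p.1) fun _ _ => 0) := by
  have h0 : L2l fun _ : E × F => (0 : ℝ) := L2l.of_continuous continuous_const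
  refine ⟨h.m.comp measurable_fst, ?_, LSlice_l2l_fst h.l2, ?_, ?_⟩
  · rintro (i | j)
    exacts [(h.gm i).comp measurable_fst, measurable_const]
  · rintro (i | j)
    exacts [LSlice_l2l_fst (h.gl2 i), h0]
  · rintro (i | j)
    · exact LSlice_wd_left (LSlice_l2l_fst h.l2).locallyIntegrable
        (LSlice_l2l_fst (h.gl2 i)).locallyIntegrable (Eventually.of_forall fun _ => h.wd i)
    · exact LSlice_wd_right (LSlice_l2l_fst h.l2).locallyIntegrable h0.locallyIntegrable
        (Eventually.of_forall fun x => LSlice_wd_const (f j) (ζ x))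

theorem H1l.snd {ζ : F → ℝ} {g : κ → F → ℝ} (h : H1l f ζ g) (e : ι → E) :
    H1l (eP e f) (fun p => ζ p.2) (Sum.elim (fun _ _ => 0) fun j p => g j p.2) := by
  have h0 : L2l fun _ : E × F => (0 : ℝ) := L2l.of_continuous continuous_const
  refine ⟨h.m.comp measurable_snd, ?_, LSlice_l2l_snd h.l2, ?_, ?_⟩
  · rintro (i | j)
    exacts [measurable_const, (h.gm j).comp measurable_snd]
  · rintro (i | j)
    exacts [h0, LSlice_l2l_snd (h.gl2 j)]
  · rintro (i | j)
    · exact LSlice_wd_left (LSlice_l2l_snd h.l2).locallyIntegrable h0.locallyIntegrable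
        (Eventually.of_forall fun y => LSlice_wd_const (e i) (ζ y))
    · exact LSlice_wd_right (LSlice_l2l_snd h.l2).locallyIntegrable
        (LSlice_l2l_snd (h.gl2 j)).locallyIntegrable (Eventually.of_forall fun _ => h.wd j)

theorem H1.tensor {a : E → ℝ} {g : ι → E → ℝ} {b : F → ℝ} {k : κ → F → ℝ} (ha : H1 e a g)
    (hb : H1 f b k) : H1 (eP e f) (fun p => a p.1 * b p.2)
      (Sum.elim (fun i p => g i p.1 * b p.2) fun j p => a p.1 * k j p.2) := by
  have h0 := LSlice_memLp_tensor ha.l2 hb.l2
  refine ⟨(ha.m.comp measurable_fst).mul (hb.m.comp measurable_snd), ?_, h0, ?_, ?_⟩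
  · rintro (i | j)
    exacts [((ha.gm i).comp measurable_fst).mul (hb.m.comp measurable_snd),
      (ha.m.comp measurable_fst).mul ((hb.gm j).comp measurable_snd)]
  · rintro (i | j)
    exacts [LSlice_memLp_tensor (ha.gl2 i) hb.l2, LSlice_memLp_tensor ha.l2 (hb.gl2 j)]
  · rintro (i | j)
    · refine LSlice_wd_left (L2l.of_memLp h0).locallyIntegrable
        (L2l.of_memLp (LSlice_memLp_tensor (ha.gl2 i) hb.l2)).locallyIntegrable
        (Eventually.of_forall fun y => ?_)
      simpa only [mul_comm (b y), Sum.elim_inl] using (ha.smul (b y)).wd i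
    · exact LSlice_wd_right (L2l.of_memLp h0).locallyIntegrable
        (L2l.of_memLp (LSlice_memLp_tensor ha.l2 (hb.gl2 j))).locallyIntegrable
        (Eventually.of_forall fun x => (hb.smul (a x)).wd j)

theorem H1.contract {Φ : E × F → ℝ} {g : ι ⊕ κ → E × F → ℝ} (h : H1 (eP e f) Φ g) {χ : F → ℝ}
    (hm : Measurable χ) (hχ : MemLp χ 2 volume) :
    H1 e (fun x => ∫ y, Φ (x, y) * χ y) fun i x => ∫ y, g (.inl i) (x, y) * χ y := by
  have h0 := LSlice_memLp_contract h.m h.l2 hm hχ
  have h1 := fun i => LSlice_memLp_contract (h.gm (.inl i)) (h.gl2 _) hm hχ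
  refine ⟨LSlice_meas_contract h.m hm, fun i => LSlice_meas_contract (h.gm _) hm, h0, h1,
    fun i => ⟨(L2l.of_memLp h0).locallyIntegrable, (L2l.of_memLp (h1 i)).locallyIntegrable,
      fun φ hφ hc => ?_⟩⟩
  rw [LSlice_contract_swap h.l2 hχ
      ((LSlice_cont_fderiv hφ (e i)).memLp_of_hasCompactSupport (hc.fderiv_apply ℝ (e i))),
    LSlice_contract_swap (h.gl2 _) hχ (hφ.continuous.memLp_of_hasCompactSupport hc),
    ← integral_neg]
  refine integral_congr_ae ?_
  filter_upwards [h.slice_left] with y hy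
  rw [(hy.wd i).eq φ hφ hc, neg_mul]

/-- Multiplication by a bounded function of the first variable. -/
theorem H1.mul_fst {Φ : E × F → ℝ} {g : ι ⊕ κ → E × F → ℝ} (h : H1 (eP e f) Φ g) {ζ : E → ℝ}
    {k : ι → E → ℝ} (hζ : H1l e ζ k) {M : ℝ} (hM : ∀ᵐ x, |ζ x| ≤ M)
    (h2 : ∀ i, Integrable fun x => k i x ^ 2 * ∫ y, Φ (x, y) ^ 2) :
    H1 (eP e f) (fun p => ζ p.1 * Φ p)
      (Sum.elim (fun i p => ζ p.1 * g (.inl i) p + k i p.1 * Φ p)
        fun j p => ζ p.1 * g (.inr j) p) := by
  have hM' : ∀ᵐ p : E × F, |ζ p.1| ≤ M :=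
    (Measure.quasiMeasurePreserving_fst (μ := (volume : Measure E))
      (ν := (volume : Measure F))).ae hM
  have key := h.mul_h1l (hζ.fst f) hM' (by
    rintro (i | j)
    · have hme : Measurable fun p : E × F => Φ p * k i p.1 :=
        h.m.mul ((hζ.gm i).comp measurable_fst)
      refine (memLp_two_iff_integrable_sq hme.aestronglyMeasurable).2 ?_
      rw [Measure.volume_eq_prod, integrable_prod_iff (hme.pow_const 2).aestronglyMeasurable]
      constructor
      · filter_upwards [LSlice_memLp_right h.l2] with x hx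
        simpa only [mul_pow] using hx.integrable_sq.mul_const (k i x ^ 2)
      · simpa only [Real.norm_of_nonneg (sq_nonneg _), mul_pow, integral_mul_const,
          mul_comm (k i _ ^ 2), norm_mul] using h2 i
    · simp)
  convert key using 2 with p i
  · ring
  · funext p
    rcases i with i | j
    · simp only [Sum.elim_inl]
      ring
    · simp only [Sum.elim_inr]
      ring

theorem gs_sum (g : ι ⊕ κ → E × F → ℝ) (p : E × F) :
    gs g p = (∑ i, g (.inl i) p ^ 2) + ∑ j, g (.inr j) p ^ 2 := by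
  exact Fintype.sum_sum_type _

theorem gd_sum (g k : ι ⊕ κ → E × F → ℝ) (p : E × F) :
    gd g k p = (∑ i, g (.inl i) p * k (.inl i) p) + ∑ j, g (.inr j) p * k (.inr j) p := by
  exact Fintype.sum_sum_type _

end Crest.Agent.R335
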