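import Crest.Agent.R335.LNorm
import Crest.Agent.R335.LSlice

/-! Row 335. The reflection `P`; functions which vanish on the plane. -/

set_option autoImplicit false

open MeasureTheory Set Filter Topology
open scoped ENNReal

noncomputable section

namespace Crest.Agent.R335

/-- `P` as a linear isometry. -/
theorem exists_PL : ∃ A : X ≃ₗᵢ[ℝ] X, ∀ x, A x = P x := by
  refine ⟨LinearIsometryEquiv.piLpCongrRight 2 fun i : Fin 3 =>
    if i = 2 then LinearIsometryEquiv.neg ℝ else LinearIsometryEquiv.refl ℝ ℝ, fun x => ?_⟩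
  ext i
  fin_cases i <;> simp [P]

@[simp] theorem P_P (x : X) : P (P x) = x := by
  ext i
  fin_cases i <;> simp [P]

@[simp] theorem norm_P (x : X) : ‖P x‖ = ‖x‖ := by
  obtain ⟨A, hA⟩ := exists_PL
  rw [← hA, A.norm_map]

@[simp] theorem P_two (x : X) : P x 2 = -x 2 := by
  simp [P]

theorem P_sub (x y : X) : P (x - y) = P x - P y := by
  obtain ⟨A, hA⟩ := exists_PL
  simp only [← hA, map_sub]

theorem continuous_P : Continuous P := by
  obtain ⟨A, hA⟩ := exists_PL
  rw [← funext hA]
  exact A.continuous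

theorem mp_P : MeasurePreserving P volume volume := by
  obtain ⟨A, hA⟩ := exists_PL
  rw [← funext hA]
  exact A.measurePreserving

theorem integral_P (u : X → ℝ) : ∫ x, u (P x) = ∫ x, u x := by
  obtain ⟨A, hA⟩ := exists_PL
  simp only [← hA]
  exact A.measurePreserving.integral_comp A.toHomeomorph.measurableEmbedding u

theorem ae_P {q : X → Prop} (h : ∀ᵐ x, q x) : ∀ᵐ x, q (P x) := by
  exact mp_P.quasiMeasurePreserving.ae h

theorem norm_pl_sq (x : X) : ‖x‖ ^ 2 = ‖pl x‖ ^ 2 + x 2 ^ 2 := by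
  simp [EuclideanSpace.real_norm_sq_eq, Fin.sum_univ_three, pl]

theorem abs_two_le (x : X) : |x 2| ≤ ‖x‖ := by
  exact PiLp.norm_apply_le x 2

theorem ae_two_ne : ∀ᵐ x : X, x 2 ≠ 0 := by
  have h := Measure.addHaar_submodule (volume : Measure X)
    (LinearMap.ker (EuclideanSpace.projₗ (𝕜 := ℝ) (2 : Fin 3))) (fun h => by
      have : eX 2 ∈ LinearMap.ker (EuclideanSpace.projₗ (𝕜 := ℝ) (2 : Fin 3)) := by
        rw [h]; trivial
      simp [eX] at this)
  rw [ae_iff]
  convert h using 2
  ext x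
  simp

/-- The signs of the reflection. -/
def sg : Fin 3 → ℝ := ![1, 1, -1]

theorem P_eX (i : Fin 3) : P (eX i) = sg i • eX i := by
  ext j
  fin_cases i <;> fin_cases j <;> simp [P, eX, sg]

theorem H1l.comp_P {u : X → ℝ} {g : Fin 3 → X → ℝ} (h : H1l eX u g) :
    H1l eX (fun x => u (P x)) fun i x => sg i * g i (P x) := by
  obtain ⟨A, hA⟩ := exists_PL
  have := h.comp_equiv (e := eX) A.toContinuousLinearEquiv id sg fun i => (hA _).trans (P_eX i)
  simpa only [LinearIsometryEquiv.coe_toContinuousLinearEquiv, hA, id] using this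

theorem H1.comp_P {u : X → ℝ} {g : Fin 3 → X → ℝ} (h : H1 eX u g) :
    H1 eX (fun x => u (P x)) fun i x => sg i * g i (P x) := by
  obtain ⟨A, hA⟩ := exists_PL
  have := h.comp_equiv (e := eX) A.toContinuousLinearEquiv id sg fun i => (hA _).trans (P_eX i)
  simpa only [LinearIsometryEquiv.coe_toContinuousLinearEquiv, hA, id] using this

theorem gd_P (g k : Fin 3 → X → ℝ) (x : X) :
    gd (fun i x => sg i * g i (P x)) (fun i x => sg i * k i (P x)) x = gd g k (P x) := by
  simp [gd, Fin.sum_univ_three, sg]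

theorem gs_P (g : Fin 3 → X → ℝ) (x : X) :
    gs (fun i x => sg i * g i (P x)) x = gs g (P x) := by
  simp [gs, Fin.sum_univ_three, sg]

/-- The gradient of an even (`s = 1`) or odd (`s = -1`) function. -/
theorem H1l.grad_P {u : X → ℝ} {g : Fin 3 → X → ℝ} (h : H1l eX u g) {s : ℝ}
    (hs : ∀ᵐ x, u (P x) = s * u x) : ∀ᵐ x, ∀ i, sg i * g i (P x) = s * g i x := by
  have h2 := h.lin h s 0
  simp only [zero_mul, add_zero] at h2
  exact h.comp_P.grad_ae h2 hs

end Crest.Agent.R335
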