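import Crest.Agent.R335.LChain

/-! Row 335. Poincare inequalities on convex sets (compare `Crest.Agent.R236.Poinc`). -/

set_option autoImplicit false

open MeasureTheory Set Filter Topology
open scoped ENNReal

noncomputable section

namespace Crest.Agent.R335

theorem LPoinc0_quad {α : Type*} [MeasurableSpace α] {μ : Measure α} [IsFiniteMeasure μ]
    {u : α → ℝ} (hu : MemLp u 2 μ) (a b c : ℝ) :
    ∫ x, (a * u x ^ 2 + b * u x + c) ∂μ =
      a * (∫ x, u x ^ 2 ∂μ) + b * (∫ x, u x ∂μ) + μ.real univ * c := by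
  have h1 : Integrable (fun x => b * u x) μ := (hu.integrable one_le_two).const_mul b
  have h2 : Integrable (fun x => a * u x ^ 2) μ := hu.integrable_sq.const_mul a
  have h3 : Integrable (fun x => a * u x ^ 2 + b * u x) μ := h2.add h1
  rw [integral_add h3 (integrable_const _), integral_add h2 h1, integral_const,
    integral_const_mul, integral_const_mul, smul_eq_mul]

theorem LPoinc0_ident {α : Type*} [MeasurableSpace α] {μ : Measure α} [IsFiniteMeasure μ]
    {u : α → ℝ} (hu : MemLp u 2 μ) :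
    ∫ x, ∫ y, (u x - u y) ^ 2 ∂μ ∂μ =
      2 * μ.real univ * (∫ x, u x ^ 2 ∂μ) - 2 * (∫ x, u x ∂μ) ^ 2 := by
  have e : ∀ c : ℝ, ∫ y, (c - u y) ^ 2 ∂μ =
      μ.real univ * c ^ 2 + (-2 * ∫ y, u y ∂μ) * c + ∫ y, u y ^ 2 ∂μ := by
    intro c
    have : (fun y => (c - u y) ^ 2) = fun y => 1 * u y ^ 2 + (-2 * c) * u y + c ^ 2 := by
      funext y; ring
    rw [this, LPoinc0_quad hu]
    ring
  simp only [e]
  rw [LPoinc0_quad hu]
  ring

theorem LPoinc0_scale {F : X → ℝ≥0∞} (hF : Measurable F) (a : X) {t : ℝ}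
    (ht : 1 / 2 ≤ t) : ∫⁻ y, F (a + t • y) ≤ 2 ^ 3 * ∫⁻ y, F y := by
  have ht0 : 0 < t := by linarith
  have hm : Measurable fun z => F (a + z) := hF.comp (measurable_const_add a)
  have h1 : ∫⁻ y, F (a + t • y) = ∫⁻ z, F (a + z) ∂(Measure.map (t • ·) volume) :=
    (lintegral_map hm (measurable_const_smul t)).symm
  rw [h1, Measure.map_addHaar_smul volume ht0.ne', lintegral_smul_measure,
    lintegral_add_left_eq_self, smul_eq_mul]
  gcongr
  rw [finrank_euclideanSpace_fin, abs_of_pos (by positivity), ← inv_pow,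
    ENNReal.ofReal_pow (by positivity)]
  gcongr
  rw [← ENNReal.ofReal_ofNat]
  refine ENNReal.ofReal_le_ofReal ?_
  rw [inv_le_comm₀ ht0 (by norm_num)]
  linarith

theorem LPoinc0_fderiv_sq (φ : X → ℝ) (z v : X) :
    (fderiv ℝ φ z v) ^ 2 ≤ ‖v‖ ^ 2 * gs (pd eX φ) z := by
  have hv : v = ∑ i, v i • eX i := by
    ext j
    simp [eX, Fin.sum_univ_three]
    fin_cases j <;> simp
  have h1 : fderiv ℝ φ z v = ∑ i, v i * pd eX φ i z := by
    conv_lhs => rw [hv]
    rw [map_sum]
    simp only [map_smul, smul_eq_mul, pd]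
  rw [h1, EuclideanSpace.real_norm_sq_eq, gs]
  exact Finset.sum_mul_sq_le_sq_mul_sq _ _ _

theorem LPoinc0_cont {φ : X → ℝ} (hφ : ContDiff ℝ 1 φ) : Continuous (gs (pd eX φ)) := by
  have h := hφ.continuous_fderiv one_ne_zero
  unfold gs pd
  exact continuous_finsetSum _ fun i _ => (h.clm_apply continuous_const).pow 2

theorem LPoinc0_seg {φ : X → ℝ} (hφ : ContDiff ℝ 1 φ) (x y : X) :
    (φ x - φ y) ^ 2 ≤ ‖y - x‖ ^ 2 *
      ∫ t in Icc (0 : ℝ) 1, gs (pd eX φ) ((1 - t) • x + t • y) := by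
  have hl : Continuous fun t : ℝ => (1 - t) • x + t • y := by fun_prop
  set f : ℝ → ℝ := fun t => fderiv ℝ φ ((1 - t) • x + t • y) (y - x) with hf
  have hfc : Continuous f :=
    ((hφ.continuous_fderiv one_ne_zero).comp hl).clm_apply continuous_const
  have hd : ∀ t : ℝ, HasDerivAt (fun t : ℝ => φ ((1 - t) • x + t • y)) (f t) t := by
    intro t
    have h2 : HasDerivAt (fun t : ℝ => (1 - t) • x + t • y) (y - x) t := by
      have := (((hasDerivAt_id t).const_sub 1).smul_const x).add ((hasDerivAt_id t).smul_const y)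
      rw [one_smul, neg_one_smul, neg_add_eq_sub] at this
      exact this
    exact (hφ.differentiable one_ne_zero _).hasFDerivAt.comp_hasDerivAt t h2
  have h1 := intervalIntegral.integral_eq_sub_of_hasDerivAt (a := 0) (b := 1)
    (fun t _ => hd t) (hfc.intervalIntegrable 0 1)
  rw [intervalIntegral.integral_of_le zero_le_one, ← integral_Icc_eq_integral_Ioc] at h1
  simp only [sub_self, zero_smul, one_smul, zero_add, sub_zero, add_zero] at h1
  have hm : MemLp f 2 (volume.restrict (Icc (0 : ℝ) 1)) :=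
    (memLp_two_iff_integrable_sq hfc.aestronglyMeasurable).2
      ((hfc.pow 2).continuousOn.integrableOn_compact isCompact_Icc)
  have h2 := LPoinc0_ident hm
  have h3 : 0 ≤ ∫ s in Icc (0 : ℝ) 1, ∫ t in Icc (0 : ℝ) 1, (f s - f t) ^ 2 :=
    integral_nonneg fun s => integral_nonneg fun t => sq_nonneg _
  have h4 : (volume.restrict (Icc (0 : ℝ) 1)).real univ = 1 := by simp
  rw [h2, h4, h1] at h3
  have h5 : ∫ t in Icc (0 : ℝ) 1, f t ^ 2 ≤
      ∫ t in Icc (0 : ℝ) 1, ‖y - x‖ ^ 2 * gs (pd eX φ) ((1 - t) • x + t • y) := by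
    refine integral_mono hm.integrable_sq ?_ fun t => LPoinc0_fderiv_sq φ _ _
    exact ((continuous_const.mul ((LPoinc0_cont hφ).comp hl)).continuousOn.integrableOn_compact
      isCompact_Icc)
  rw [integral_const_mul] at h5
  nlinarith

theorem LPoinc0_bdd {S : Set X} {d : ℝ} (hd : ∀ x ∈ S, ∀ y ∈ S, dist x y ≤ d) :
    Bornology.IsBounded S :=
  Metric.isBounded_iff.2 ⟨d, fun x hx y hy => hd x hx y hy⟩

theorem LPoinc0_memLp {S : Set X} (hb : Bornology.IsBounded S) {u : X → ℝ} (hu : L2l u) :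
    MemLp u 2 (volume.restrict S) :=
  (hu (closure S) hb.isCompact_closure).mono_measure
    (Measure.restrict_mono subset_closure le_rfl)

theorem LPoinc0_gs_int {S : Set X} (hb : Bornology.IsBounded S) {g : Fin 3 → X → ℝ}
    (hg : ∀ i, L2l (g i)) : Integrable (gs g) (volume.restrict S) := by
  unfold gs
  exact integrable_finsetSum _ fun i _ => (LPoinc0_memLp hb (hg i)).integrable_sq

theorem LPoinc0_c1 {φ : X → ℝ} (hφ : ContDiff ℝ 1 φ) {S : Set X} (hS : Convex ℝ S)
    (hm : MeasurableSet S) {d : ℝ} (hd : ∀ x ∈ S, ∀ y ∈ S, dist x y ≤ d) :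
    ∫ x in S, ∫ y in S, (φ x - φ y) ^ 2 ≤
      8 * d ^ 2 * volume.real S * ∫ x in S, gs (pd eX φ) x := by
  have hb := LPoinc0_bdd hd
  have hV : volume S ≠ ∞ := hb.measure_lt_top.ne
  have : IsFiniteMeasure (volume.restrict S) := isFiniteMeasure_restrict.2 hV
  have hH := H1l.of_contDiff (e := eX) hφ
  have hφ2 := LPoinc0_memLp hb hH.l2
  have hgi := LPoinc0_gs_int hb hH.gl2
  have hgc := LPoinc0_cont hφ
  have hint : Integrable (fun p : X × X => (φ p.1 - φ p.2) ^ 2)
      ((volume.restrict S).prod (volume.restrict S)) :=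
    ((hφ2.comp_fst _).sub (hφ2.comp_snd _)).integrable_sq
  set F : X → ℝ≥0∞ := S.indicator fun z => ENNReal.ofReal (gs (pd eX φ) z) with hFdef
  have hF : Measurable F := (hgc.measurable.ennreal_ofReal).indicator hm
  have hG : Measurable fun q : (X × X) × ℝ => F ((1 - q.2) • q.1.1 + q.2 • q.1.2) :=
    hF.comp (by fun_prop)
  have h1 : ∀ t : ℝ, ∫⁻ p : X × X, F ((1 - t) • p.1 + t • p.2)
      ∂((volume.restrict S).prod (volume.restrict S)) ≤ 2 ^ 3 * (∫⁻ y, F y) * volume S := by
    intro t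
    have hGt : Measurable fun p : X × X => F ((1 - t) • p.1 + t • p.2) :=
      hF.comp (by fun_prop)
    rcases le_total (1 / 2) t with ht | ht
    · rw [lintegral_prod _ hGt.aemeasurable]
      refine (lintegral_mono fun x => (setLIntegral_le_lintegral _ _).trans
        (LPoinc0_scale hF ((1 - t) • x) ht)).trans ?_
      rw [setLIntegral_const]
    · rw [lintegral_prod_symm _ hGt.aemeasurable]
      simp only [add_comm ((1 - t) • _)]
      refine (lintegral_mono fun y => (setLIntegral_le_lintegral _ _).trans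
        (LPoinc0_scale hF (t • y) (t := 1 - t) (by linarith))).trans ?_
      rw [setLIntegral_const]
  have hFi : ∫⁻ y, F y = ENNReal.ofReal (∫ x in S, gs (pd eX φ) x) := by
    rw [hFdef, lintegral_indicator hm,
      ofReal_integral_eq_lintegral_ofReal hgi (Eventually.of_forall fun x => gs_nonneg _ x)]
  have hseg : ∀ x ∈ S, ∀ y ∈ S, ENNReal.ofReal ((φ x - φ y) ^ 2) ≤
      ENNReal.ofReal (d ^ 2) * ∫⁻ t in Icc (0 : ℝ) 1, F ((1 - t) • x + t • y) := by
    intro x hx y hy
    have hl : Continuous fun t : ℝ => (1 - t) • x + t • y := by fun_prop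
    have hi : Integrable (fun t : ℝ => gs (pd eX φ) ((1 - t) • x + t • y))
        (volume.restrict (Icc (0 : ℝ) 1)) :=
      (hgc.comp hl).continuousOn.integrableOn_compact isCompact_Icc
    have e : ∫⁻ t in Icc (0 : ℝ) 1, F ((1 - t) • x + t • y) =
        ENNReal.ofReal (∫ t in Icc (0 : ℝ) 1, gs (pd eX φ) ((1 - t) • x + t • y)) := by
      rw [ofReal_integral_eq_lintegral_ofReal hi (Eventually.of_forall fun x => gs_nonneg _ _)]
      refine setLIntegral_congr_fun measurableSet_Icc fun t ht => ?_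
      have : (1 - t) • x + t • y ∈ S := hS hx hy (by linarith [ht.2]) ht.1 (by ring)
      simp only [hFdef, indicator_of_mem this]
    rw [e, ← ENNReal.ofReal_mul (sq_nonneg d)]
    refine ENNReal.ofReal_le_ofReal ((LPoinc0_seg hφ x y).trans ?_)
    refine mul_le_mul_of_nonneg_right ?_ (integral_nonneg fun t => gs_nonneg _ _)
    have := hd y hy x hx
    rw [dist_eq_norm] at this
    exact pow_le_pow_left₀ (norm_nonneg _) this 2
  have hI : 0 ≤ ∫ x in S, gs (pd eX φ) x := integral_nonneg fun x => gs_nonneg _ x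
  have key : ∫⁻ p : X × X, ENNReal.ofReal ((φ p.1 - φ p.2) ^ 2)
      ∂((volume.restrict S).prod (volume.restrict S)) ≤
      ENNReal.ofReal (8 * d ^ 2 * volume.real S * ∫ x in S, gs (pd eX φ) x) := by
    calc _ ≤ ∫⁻ p : X × X, ENNReal.ofReal (d ^ 2) *
            ∫⁻ t in Icc (0 : ℝ) 1, F ((1 - t) • p.1 + t • p.2)
            ∂volume ∂((volume.restrict S).prod (volume.restrict S)) := by
          rw [Measure.prod_restrict]
          exact setLIntegral_mono' (hm.prod hm) fun p hp => hseg _ hp.1 _ hp.2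
      _ = ENNReal.ofReal (d ^ 2) * ∫⁻ t in Icc (0 : ℝ) 1, ∫⁻ p : X × X,
            F ((1 - t) • p.1 + t • p.2) ∂((volume.restrict S).prod (volume.restrict S)) := by
          rw [lintegral_const_mul' _ _ ENNReal.ofReal_ne_top,
            lintegral_lintegral_swap hG.aemeasurable]
      _ ≤ ENNReal.ofReal (d ^ 2) * (2 ^ 3 * (∫⁻ y, F y) * volume S) := by
          gcongr
          refine (lintegral_mono h1).trans ?_
          rw [setLIntegral_const, Real.volume_Icc, sub_zero, ENNReal.ofReal_one, mul_one]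
      _ = _ := by
          rw [hFi, ENNReal.ofReal_mul (by positivity), ENNReal.ofReal_mul (by positivity),
            ENNReal.ofReal_mul (by positivity), ofReal_measureReal hV, ENNReal.ofReal_ofNat]
          norm_num
          ring
  rw [← integral_prod _ hint, integral_eq_lintegral_of_nonneg_ae
    (Eventually.of_forall fun p => sq_nonneg _) hint.aestronglyMeasurable]
  exact ENNReal.toReal_le_of_le_ofReal (by positivity) key

theorem LPoinc0_h1 {u : X → ℝ} {g : Fin 3 → X → ℝ} (h : H1 eX u g) {S : Set X} (hS : Convex ℝ S)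
    (hm : MeasurableSet S) {d : ℝ} (hd : ∀ x ∈ S, ∀ y ∈ S, dist x y ≤ d) :
    ∫ x in S, ∫ y in S, (u x - u y) ^ 2 ≤ 8 * d ^ 2 * volume.real S * ∫ x in S, gs g x := by
  have hb := LPoinc0_bdd hd
  have hV : volume S ≠ ∞ := hb.measure_lt_top.ne
  have : IsFiniteMeasure (volume.restrict S) := isFiniteMeasure_restrict.2 hV
  obtain ⟨φ, b, hφ, -, -, -, hb2, hae⟩ := h.approx_seq
  have hφ1 : ∀ n, ContDiff ℝ 1 (φ n) := fun n => (hφ n).of_le (by norm_num)
  have hb2' : MemLp b 2 (volume.restrict S) := hb2.restrict S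
  have hae' := ae_restrict_of_ae (s := S) hae
  have hle : ∀ n, 2 * (volume.restrict S).real univ * (∫ x in S, φ n x ^ 2) -
      2 * (∫ x in S, φ n x) ^ 2 ≤ 8 * d ^ 2 * volume.real S * ∫ x in S, gs (pd eX (φ n)) x := by
    intro n
    rw [← LPoinc0_ident (LPoinc0_memLp hb (H1l.of_contDiff (e := eX) (hφ1 n)).l2)]
    exact LPoinc0_c1 (hφ1 n) hS hm hd
  have t1 : Tendsto (fun n => ∫ x in S, φ n x ^ 2) atTop (𝓝 (∫ x in S, u x ^ 2)) := by
    refine tendsto_integral_of_dominated_convergence (fun x => b x ^ 2)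
      (fun n => ((hφ1 n).continuous.pow 2).aestronglyMeasurable) hb2'.integrable_sq
      (fun n => ?_) ?_
    · filter_upwards [hae'] with x hx
      rw [Real.norm_eq_abs, abs_pow]
      exact pow_le_pow_left₀ (abs_nonneg _) (hx.1 n) 2
    · filter_upwards [hae'] with x hx
      exact hx.2.2.1.pow 2
  have t2 : Tendsto (fun n => ∫ x in S, φ n x) atTop (𝓝 (∫ x in S, u x)) := by
    refine tendsto_integral_of_dominated_convergence b
      (fun n => (hφ1 n).continuous.aestronglyMeasurable) (hb2'.integrable one_le_two)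
      (fun n => ?_) ?_
    · filter_upwards [hae'] with x hx
      exact hx.1 n
    · filter_upwards [hae'] with x hx
      exact hx.2.2.1
  have t3 : Tendsto (fun n => ∫ x in S, gs (pd eX (φ n)) x) atTop (𝓝 (∫ x in S, gs g x)) := by
    refine tendsto_integral_of_dominated_convergence (fun x => 3 * b x ^ 2)
      (fun n => (LPoinc0_cont (hφ1 n)).aestronglyMeasurable) (hb2'.integrable_sq.const_mul 3)
      (fun n => ?_) ?_
    · filter_upwards [hae'] with x hx
      rw [Real.norm_eq_abs, abs_of_nonneg (gs_nonneg _ _), gs, Fin.sum_univ_three]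
      have hh : ∀ i, pd eX (φ n) i x ^ 2 ≤ b x ^ 2 := fun i => by
        rw [← sq_abs]
        exact pow_le_pow_left₀ (abs_nonneg _) (hx.2.1 n i) 2
      linarith [hh 0, hh 1, hh 2]
    · filter_upwards [hae'] with x hx
      unfold gs
      exact tendsto_finsetSum _ fun i _ => (hx.2.2.2 i).pow 2
  rw [LPoinc0_ident (h.l2.restrict S)]
  exact le_of_tendsto_of_tendsto' ((t1.const_mul _).sub ((t2.pow 2).const_mul _))
    (t3.const_mul _) hle

theorem LPoinc0_h1l {u : X → ℝ} {g : Fin 3 → X → ℝ} (h : H1l eX u g) {S : Set X}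
    (hS : Convex ℝ S) (hm : MeasurableSet S) {d : ℝ} (hd : ∀ x ∈ S, ∀ y ∈ S, dist x y ≤ d) :
    ∫ x in S, ∫ y in S, (u x - u y) ^ 2 ≤ 8 * d ^ 2 * volume.real S * ∫ x in S, gs g x := by
  obtain ⟨R, hR⟩ := (LPoinc0_bdd hd).subset_ball (0 : X)
  obtain ⟨ζ, M, hζ, hζc, -, hζ1, -⟩ := exists_cut (E := X) eX
  obtain ⟨n, hn⟩ := exists_nat_ge R
  have h1 : ∀ x ∈ Metric.ball (0 : X) R, ζ n x = 1 := fun x hx =>
    hζ1 n x ((mem_ball_zero_iff.1 hx).le.trans hn)
  have h2 : ∀ x ∈ S, ∀ i, pd eX (ζ n) i x = 0 := by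
    intro x hx i
    have : ζ n =ᶠ[𝓝 x] fun _ => 1 :=
      Filter.eventually_of_mem (Metric.isOpen_ball.mem_nhds (hR hx)) h1
    unfold pd
    rw [this.fderiv_eq]
    simp
  have key := LPoinc0_h1 (h.mul_c1c (hζ n) (hζc n)) hS hm hd
  have e1 : ∫ x in S, ∫ y in S, (ζ n x * u x - ζ n y * u y) ^ 2 =
      ∫ x in S, ∫ y in S, (u x - u y) ^ 2 := by
    refine setIntegral_congr_fun hm fun x hx => ?_
    refine setIntegral_congr_fun hm fun y hy => ?_
    simp only [h1 x (hR hx), h1 y (hR hy), one_mul]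
  have e2 : ∫ x in S, gs (fun i x => ζ n x * g i x + pd eX (ζ n) i x * u x) x =
      ∫ x in S, gs g x := by
    refine setIntegral_congr_fun hm fun x hx => ?_
    simp only [gs, h1 x (hR hx), h2 x hx, one_mul, zero_mul, add_zero]
  rw [e1, e2] at key
  exact key

/-- For `C¹` functions `(u x - u y)² ≤ d² ∫₀¹ |∇u ((1 - t) x + t y)|² dt`; by symmetry only
`t ≥ 1/2` matters, and the substitution has Jacobian at most `8`.  Localise with a cut-off function
equal to `1` near `S` and approximate with `H1.approx_seq`. -/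
theorem poinc {u : X → ℝ} {g : Fin 3 → X → ℝ} (h : H1l eX u g) {S : Set X} (hS : Convex ℝ S)
    (hm : MeasurableSet S) {d : ℝ} (hd : ∀ x ∈ S, ∀ y ∈ S, dist x y ≤ d) :
    ∫ x in S, ∫ y in S, (u x - u y) ^ 2 ≤ 16 * d ^ 2 * volume.real S * ∫ x in S, gs g x := by
  refine (LPoinc0_h1l h hS hm hd).trans ?_
  have hI : 0 ≤ ∫ x in S, gs g x := integral_nonneg fun x => gs_nonneg _ x
  have : 0 ≤ d ^ 2 * volume.real S * ∫ x in S, gs g x := by positivity
  linarith

theorem poinc_zero {u : X → ℝ} {g : Fin 3 → X → ℝ} (h : H1l eX u g) {S : Set X}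
    (hS : Convex ℝ S) (hm : MeasurableSet S) {d : ℝ} (hd : ∀ x ∈ S, ∀ y ∈ S, dist x y ≤ d)
    {A : Set X} (hA : MeasurableSet A) (hAS : A ⊆ S) (h0 : ∀ᵐ x, x ∈ A → u x = 0) :
    volume.real A * ∫ x in S, u x ^ 2 ≤ 16 * d ^ 2 * volume.real S * ∫ x in S, gs g x := by
  refine le_trans ?_ (poinc h hS hm hd)
  have hb := LPoinc0_bdd hd
  have hV : volume S ≠ ∞ := hb.measure_lt_top.ne
  have : IsFiniteMeasure (volume.restrict S) := isFiniteMeasure_restrict.2 hV
  have hu := LPoinc0_memLp hb h.l2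
  have hint : Integrable (fun p : X × X => (u p.1 - u p.2) ^ 2)
      ((volume.restrict S).prod (volume.restrict S)) :=
    ((hu.comp_fst _).sub (hu.comp_snd _)).integrable_sq
  rw [← integral_const_mul]
  refine integral_mono (hu.integrable_sq.const_mul _) hint.integral_prod_left fun x => ?_
  have hi : IntegrableOn (fun y => (u x - u y) ^ 2) S :=
    ((memLp_const (u x)).sub hu).integrable_sq
  have e : ∫ y in A, (u x - u y) ^ 2 = volume.real A * u x ^ 2 := by
    rw [setIntegral_congr_ae (g := fun _ => u x ^ 2) hA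
      (by filter_upwards [h0] with y hy hyA; rw [hy hyA, sub_zero]), setIntegral_const,
      smul_eq_mul]
  show volume.real A * u x ^ 2 ≤ ∫ y in S, (u x - u y) ^ 2
  rw [← e]
  exact setIntegral_mono_set hi (Eventually.of_forall fun y => sq_nonneg _) hAS.eventuallyLE

theorem poinc_mean {u : X → ℝ} {g : Fin 3 → X → ℝ} (h : H1l eX u g) {S : Set X}
    (hS : Convex ℝ S) (hm : MeasurableSet S) {d : ℝ} (hd : ∀ x ∈ S, ∀ y ∈ S, dist x y ≤ d) :
    ∃ m : ℝ, ∫ x in S, (u x - m) ^ 2 ≤ 16 * d ^ 2 * ∫ x in S, gs g x := by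
  have hb := LPoinc0_bdd hd
  have hV : volume S ≠ ∞ := hb.measure_lt_top.ne
  have : IsFiniteMeasure (volume.restrict S) := isFiniteMeasure_restrict.2 hV
  have hu := LPoinc0_memLp hb h.l2
  have hI : 0 ≤ ∫ x in S, gs g x := integral_nonneg fun x => gs_nonneg _ x
  rcases eq_or_lt_of_le (measureReal_nonneg (μ := volume) (s := S)) with h0 | h0
  · have h1 : volume S = 0 := (measureReal_eq_zero_iff hV).1 h0.symm
    refine ⟨0, ?_⟩
    rw [Measure.restrict_eq_zero.2 h1]
    simp
  · have key := poinc h hS hm hd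
    rw [LPoinc0_ident hu, measureReal_restrict_apply_univ] at key
    set V := volume.real S with hVdef
    refine ⟨(∫ x in S, u x) / V, ?_⟩
    have e : ∀ c : ℝ, ∫ y in S, (u y - c) ^ 2 =
        V * c ^ 2 - 2 * (∫ y in S, u y) * c + ∫ y in S, u y ^ 2 := by
      intro c
      have : (fun y => (u y - c) ^ 2) = fun y => 1 * u y ^ 2 + (-2 * c) * u y + c ^ 2 := by
        funext y; ring
      rw [this, LPoinc0_quad hu, measureReal_restrict_apply_univ]
      ring
    rw [e]
    refine le_of_mul_le_mul_left ?_ h0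
    have e2 : V * (V * ((∫ x in S, u x) / V) ^ 2 - 2 * (∫ y in S, u y) * ((∫ x in S, u x) / V) +
        ∫ y in S, u y ^ 2) = V * (∫ y in S, u y ^ 2) - (∫ x in S, u x) ^ 2 := by
      field_simp
      ring
    rw [e2]
    have : 0 ≤ d ^ 2 * V * ∫ x in S, gs g x := by positivity
    nlinarith

end Crest.Agent.R335
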