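import Crest.Agent.R335.LWD0

/-! Row 335. Algebra of weak derivatives. -/

set_option autoImplicit false
set_option linter.unusedSectionVars false

open MeasureTheory Set Filter Topology
open scoped ENNReal

noncomputable section

namespace Crest.Agent.R335

variable {E : Type} [NormedAddCommGroup E] [NormedSpace ℝ E] [FiniteDimensional ℝ E]
  [MeasureSpace E] [BorelSpace E] [(volume : Measure E).IsAddHaarMeasure]
  {ι : Type} [Fintype ι] {e : ι → E}
  {F : Type} [NormedAddCommGroup F] [NormedSpace ℝ F] [FiniteDimensional ℝ F]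
  [MeasureSpace F] [BorelSpace F] [(volume : Measure F).IsAddHaarMeasure]
  {κ : Type} [Fintype κ] {f : κ → F}

theorem LWD_l2l_lin {u w : E → ℝ} (h : L2l u) (h' : L2l w) (a b : ℝ) :
    L2l fun x => a * u x + b * w x :=
  fun K hK => ((h K hK).const_mul a).add ((h' K hK).const_mul b)

theorem LWD_l2l_mul {u ζ : E → ℝ} (h : L2l u) (hζ : Continuous ζ) : L2l fun x => ζ x * u x := by
  intro K hK
  obtain ⟨M, hM⟩ := hK.exists_bound_of_continuousOn hζ.continuousOn
  refine MemLp.of_le_mul (c := M) (h K hK) (hζ.aestronglyMeasurable.mul (h K hK).1) ?_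
  filter_upwards [ae_restrict_mem hK.measurableSet] with x hx
  rw [norm_mul]
  exact mul_le_mul_of_nonneg_right (hM x hx) (norm_nonneg _)

theorem LWD_memLp_of_cs {u : E → ℝ} (h : L2l u) {K : Set E} (hK : IsCompact K)
    (h0 : ∀ x, x ∉ K → u x = 0) : MemLp u 2 volume := by
  have : K.indicator u = u := by
    funext x
    by_cases hx : x ∈ K
    · simp [hx]
    · simp [hx, h0 x hx]
  rw [← this, memLp_indicator_iff_restrict hK.measurableSet]
  exact h K hK

theorem LWD_pd_cont {ζ : E → ℝ} (hζ : ContDiff ℝ 1 ζ) (i : ι) : Continuous (pd e ζ i) :=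
  (hζ.continuous_fderiv one_ne_zero).clm_apply continuous_const

theorem LWD_pd_zero {ζ : E → ℝ} (i : ι) {x : E} (hx : x ∉ tsupport ζ) : pd e ζ i x = 0 := by
  have : fderiv ℝ ζ x = 0 := by
    by_contra h
    exact hx (support_fderiv_subset ℝ h)
  simp [pd, this]

theorem LWD_memLp_mul {u ζ : E → ℝ} (h : MemLp u 2 volume) (hζ : Continuous ζ) {M : ℝ}
    (h0 : ∀ x, |ζ x| ≤ M) : MemLp (fun x => ζ x * u x) 2 volume := by
  refine MemLp.of_le_mul (c := M) h (hζ.aestronglyMeasurable.mul h.1) (.of_forall fun x => ?_)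
  rw [norm_mul]
  exact mul_le_mul_of_nonneg_right (h0 x) (norm_nonneg _)

theorem LWD_map (A : E ≃L[ℝ] F) : ∃ c : ℝ≥0∞, c ≠ ⊤ ∧ Measure.map A volume = c • volume :=
  ⟨_, ENNReal.coe_ne_top, Measure.isAddLeftInvariant_eq_smul (Measure.map A volume) volume⟩

theorem LWD_memLp_comp (A : E ≃L[ℝ] F) {u : F → ℝ} (h : MemLp u 2 volume) :
    MemLp (fun x => u (A x)) 2 volume := by
  obtain ⟨c, hc, hA⟩ := LWD_map A
  refine MemLp.comp_of_map (f := A) ?_ A.continuous.measurable.aemeasurable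
  rw [hA]
  exact h.smul_measure hc

theorem LWD_l2l_comp (A : E ≃L[ℝ] F) {u : F → ℝ} (h : L2l u) : L2l fun x => u (A x) := by
  obtain ⟨c, hc, hA⟩ := LWD_map A
  intro K hK
  have hK' := hK.image A.continuous
  refine MemLp.comp_of_map (f := A) ?_ A.continuous.measurable.aemeasurable
  rw [← A.injective.preimage_image K, ← Measure.restrict_map A.continuous.measurable
    hK'.measurableSet, hA, Measure.restrict_smul]
  exact (h _ hK').smul_measure hc

theorem LWD_int_mul {u w : E → ℝ} (hu : MemLp u 2 volume) (hw : MemLp w 2 volume) :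
    Integrable fun x => u x * w x := hu.integrable_mul hw

theorem LWD_int3 {p q r : E → ℝ} (hp : Integrable p) (hq : Integrable q) (hr : Integrable r)
    (a b c : ℝ) :
    ∫ x, (a * p x + b * q x + c * r x) = (a * ∫ x, p x) + (b * ∫ x, q x) + c * ∫ x, r x := by
  rw [integral_add (f := fun x => a * p x + b * q x) ((hp.const_mul a).add (hq.const_mul b))
    (hr.const_mul c),
    integral_add (hp.const_mul a) (hq.const_mul b), integral_const_mul, integral_const_mul,
    integral_const_mul]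

theorem LWD_int2 {p q : E → ℝ} (hp : Integrable p) (hq : Integrable q) (a b : ℝ) :
    ∫ x, (a * p x + b * q x) = (a * ∫ x, p x) + b * ∫ x, q x := by
  rw [integral_add (hp.const_mul a) (hq.const_mul b), integral_const_mul, integral_const_mul]

theorem LWD_nsq_lin {u w : E → ℝ} (hu : MemLp u 2 volume) (hw : MemLp w 2 volume) (a b : ℝ) :
    nsq (fun x => a * u x + b * w x) = a ^ 2 * nsq u + 2 * a * b * ip u w + b ^ 2 * nsq w := by
  rw [nsq, nsq, nsq, ip, ← LWD_int3 hu.integrable_sq (LWD_int_mul hu hw) hw.integrable_sq]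
  congr 1
  funext x
  ring

theorem H1.h1l {u : E → ℝ} {g : ι → E → ℝ} (h : H1 e u g) : H1l e u g :=
  ⟨h.m, h.gm, .of_memLp h.l2, fun i => .of_memLp (h.gl2 i), h.wd⟩

theorem H1l.h1 {u : E → ℝ} {g : ι → E → ℝ} (h : H1l e u g) (h1 : MemLp u 2 volume)
    (h2 : ∀ i, MemLp (g i) 2 volume) : H1 e u g :=
  ⟨h.m, h.gm, h1, h2, h.wd⟩

theorem H1l.congr {u u' : E → ℝ} {g g' : ι → E → ℝ} (h : H1l e u g) (hm : Measurable u')
    (hm' : ∀ i, Measurable (g' i)) (hu : u =ᵐ[volume] u') (hg : ∀ i, g i =ᵐ[volume] g' i) :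
    H1l e u' g' :=
  ⟨hm, hm', fun K hK => (h.l2 K hK).ae_eq (ae_restrict_of_ae hu),
    fun i K hK => (h.gl2 i K hK).ae_eq (ae_restrict_of_ae (hg i)),
    fun i => (h.wd i).congr hu (hg i)⟩

theorem H1.congr {u u' : E → ℝ} {g g' : ι → E → ℝ} (h : H1 e u g) (hm : Measurable u')
    (hm' : ∀ i, Measurable (g' i)) (hu : u =ᵐ[volume] u') (hg : ∀ i, g i =ᵐ[volume] g' i) :
    H1 e u' g' :=
  ⟨hm, hm', h.l2.ae_eq hu, fun i => (h.gl2 i).ae_eq (hg i), fun i => (h.wd i).congr hu (hg i)⟩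

/-- The gradient is unique. -/
theorem H1l.grad_ae {u u' : E → ℝ} {g g' : ι → E → ℝ} (h : H1l e u g) (h' : H1l e u' g')
    (hu : u =ᵐ[volume] u') : ∀ᵐ x, ∀ i, g i x = g' i x :=
  ae_all_iff.2 fun i => ((h.wd i).congr hu EventuallyEq.rfl).unique (h'.wd i)

theorem H1l.lin {u w : E → ℝ} {g k : ι → E → ℝ} (h : H1l e u g) (h' : H1l e w k) (a b : ℝ) :
    H1l e (fun x => a * u x + b * w x) fun i x => a * g i x + b * k i x :=
  ⟨(h.m.const_mul a).add (h'.m.const_mul b),
    fun i => ((h.gm i).const_mul a).add ((h'.gm i).const_mul b), LWD_l2l_lin h.l2 h'.l2 a b,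
    fun i => LWD_l2l_lin (h.gl2 i) (h'.gl2 i) a b, fun i => (h.wd i).lin (h'.wd i) a b⟩

theorem H1.lin {u w : E → ℝ} {g k : ι → E → ℝ} (h : H1 e u g) (h' : H1 e w k) (a b : ℝ) :
    H1 e (fun x => a * u x + b * w x) fun i x => a * g i x + b * k i x :=
  (h.h1l.lin h'.h1l a b).h1 ((h.l2.const_mul a).add (h'.l2.const_mul b))
    fun i => ((h.gl2 i).const_mul a).add ((h'.gl2 i).const_mul b)

theorem H1.add {u w : E → ℝ} {g k : ι → E → ℝ} (h : H1 e u g) (h' : H1 e w k) :
    H1 e (fun x => u x + w x) fun i x => g i x + k i x := by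
  simpa only [one_mul] using h.lin h' 1 1

theorem H1.sub {u w : E → ℝ} {g k : ι → E → ℝ} (h : H1 e u g) (h' : H1 e w k) :
    H1 e (fun x => u x - w x) fun i x => g i x - k i x := by
  simpa only [one_mul, neg_mul, ← sub_eq_add_neg] using h.lin h' 1 (-1)

theorem H1.smul {u : E → ℝ} {g : ι → E → ℝ} (h : H1 e u g) (a : ℝ) :
    H1 e (fun x => a * u x) fun i x => a * g i x := by
  simpa only [zero_mul, add_zero] using h.lin h a 0

theorem H1.neg {u : E → ℝ} {g : ι → E → ℝ} (h : H1 e u g) :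
    H1 e (fun x => -u x) fun i x => -g i x := by
  simpa only [neg_mul, one_mul] using h.smul (-1)

theorem H1.zero : H1 e (fun _ => (0 : ℝ)) fun _ _ => 0 :=
  ⟨measurable_const, fun _ => measurable_const, MemLp.zero, fun _ => MemLp.zero,
    fun _ => ⟨locallyIntegrable_const 0, locallyIntegrable_const 0, fun _ _ _ => by simp⟩⟩

theorem H1l.of_contDiff {u : E → ℝ} (h : ContDiff ℝ 1 u) : H1l e u (pd e u) :=
  ⟨h.continuous.measurable, fun i => (LWD_pd_cont h i).measurable, .of_continuous h.continuous,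
    fun i => .of_continuous (LWD_pd_cont h i), fun i => .of_contDiff h (e i)⟩

theorem H1.of_c1c {u : E → ℝ} (h : ContDiff ℝ 1 u) (hc : HasCompactSupport u) :
    H1 e u (pd e u) :=
  (H1l.of_contDiff h).h1
    (LWD_memLp_of_cs (.of_continuous h.continuous) hc fun _ => image_eq_zero_of_notMem_tsupport)
    fun i => LWD_memLp_of_cs (.of_continuous (LWD_pd_cont h i)) hc fun _ => LWD_pd_zero i

theorem H1l.mul_contDiff {u ζ : E → ℝ} {g : ι → E → ℝ} (h : H1l e u g) (hζ : ContDiff ℝ 1 ζ) :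
    H1l e (fun x => ζ x * u x) fun i x => ζ x * g i x + pd e ζ i x * u x :=
  ⟨hζ.continuous.measurable.mul h.m,
    fun i => (hζ.continuous.measurable.mul (h.gm i)).add ((LWD_pd_cont hζ i).measurable.mul h.m),
    LWD_l2l_mul h.l2 hζ.continuous,
    fun i K hK => (LWD_l2l_mul (h.gl2 i) hζ.continuous K hK).add
      (LWD_l2l_mul h.l2 (LWD_pd_cont hζ i) K hK),
    fun i => (h.wd i).mul_contDiff hζ⟩

theorem H1l.mul_c1c {u ζ : E → ℝ} {g : ι → E → ℝ} (h : H1l e u g) (hζ : ContDiff ℝ 1 ζ)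
    (hc : HasCompactSupport ζ) :
    H1 e (fun x => ζ x * u x) fun i x => ζ x * g i x + pd e ζ i x * u x :=
  (h.mul_contDiff hζ).h1
    (LWD_memLp_of_cs (h.mul_contDiff hζ).l2 hc fun x hx => by
      rw [image_eq_zero_of_notMem_tsupport hx, zero_mul])
    fun i => LWD_memLp_of_cs ((h.mul_contDiff hζ).gl2 i) hc fun x hx => by
      rw [image_eq_zero_of_notMem_tsupport hx, LWD_pd_zero i hx, zero_mul, zero_mul, add_zero]

/-- Bounded `C¹` multipliers with bounded derivatives. -/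
theorem H1.mul_bdd {u ζ : E → ℝ} {g : ι → E → ℝ} (h : H1 e u g) (hζ : ContDiff ℝ 1 ζ) {M : ℝ}
    (h0 : ∀ x, |ζ x| ≤ M) (h1 : ∀ i x, |pd e ζ i x| ≤ M) :
    H1 e (fun x => ζ x * u x) fun i x => ζ x * g i x + pd e ζ i x * u x :=
  (h.h1l.mul_contDiff hζ).h1 (LWD_memLp_mul h.l2 hζ.continuous h0)
    fun i => (LWD_memLp_mul (h.gl2 i) hζ.continuous h0).add
      (LWD_memLp_mul h.l2 (LWD_pd_cont hζ i) (h1 i))

/-- A linear change of variables which maps the frame to the frame, up to the order and scalars. -/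
theorem H1l.comp_equiv (A : E ≃L[ℝ] F) (σ : ι → κ) (c : ι → ℝ) (hA : ∀ i, A (e i) = c i • f (σ i))
    {u : F → ℝ} {g : κ → F → ℝ} (h : H1l f u g) :
    H1l e (fun x => u (A x)) fun i x => c i * g (σ i) (A x) := by
  refine ⟨h.m.comp A.continuous.measurable,
    fun i => ((h.gm _).comp A.continuous.measurable).const_mul _, LWD_l2l_comp A h.l2,
    fun i K hK => (LWD_l2l_comp A (h.gl2 (σ i)) K hK).const_mul _, fun i => ?_⟩
  have := (h.wd (σ i)).dir_smul (c i)
  rw [← hA] at this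
  exact WD.comp_equiv A this

theorem H1.comp_equiv (A : E ≃L[ℝ] F) (σ : ι → κ) (c : ι → ℝ) (hA : ∀ i, A (e i) = c i • f (σ i))
    {u : F → ℝ} {g : κ → F → ℝ} (h : H1 f u g) :
    H1 e (fun x => u (A x)) fun i x => c i * g (σ i) (A x) :=
  (h.h1l.comp_equiv A σ c hA).h1 (LWD_memLp_comp A h.l2)
    fun i => (LWD_memLp_comp A (h.gl2 (σ i))).const_mul _

theorem H1.comp_add {u : E → ℝ} {g : ι → E → ℝ} (h : H1 e u g) (a : E) :
    H1 e (fun x => u (x + a)) fun i x => g i (x + a) :=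
  ⟨h.m.comp (measurable_add_const a), fun i => (h.gm i).comp (measurable_add_const a),
    h.l2.comp_measurePreserving (measurePreserving_add_right volume a),
    fun i => (h.gl2 i).comp_measurePreserving (measurePreserving_add_right volume a),
    fun i => (h.wd i).comp_add a⟩

theorem gs_nonneg (g : ι → E → ℝ) (x : E) : 0 ≤ gs g x :=
  Finset.sum_nonneg fun _ _ => sq_nonneg _

theorem gd_self (g : ι → E → ℝ) (x : E) : gd g g x = gs g x := by
  simp only [gd, gs, sq]

theorem gd_comm (g k : ι → E → ℝ) (x : E) : gd g k x = gd k g x := by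
  simp only [gd, mul_comm]

theorem gd_sq_le (g k : ι → E → ℝ) (x : E) : gd g k x ^ 2 ≤ gs g x * gs k x :=
  Finset.sum_mul_sq_le_sq_mul_sq _ _ _

theorem abs_gd_le (g k : ι → E → ℝ) (x : E) {t : ℝ} (ht : 0 < t) :
    |gd g k x| ≤ (t * gs g x + gs k x / t) / 2 := by
  refine (Finset.abs_sum_le_sum_abs _ _).trans ?_
  simp only [gs, Finset.mul_sum, Finset.sum_div, ← Finset.sum_add_distrib]
  refine Finset.sum_le_sum fun i _ => ?_
  have : (t * g i x ^ 2 + k i x ^ 2 / t) / 2 - |g i x * k i x| =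
      (t * |g i x| - |k i x|) ^ 2 / (2 * t) := by
    rw [abs_mul, ← sq_abs (g i x), ← sq_abs (k i x)]
    field_simp
    ring
  rw [← sub_nonneg, this]
  positivity

theorem H1.integrable_sq {u : E → ℝ} {g : ι → E → ℝ} (h : H1 e u g) :
    Integrable fun x => u x ^ 2 :=
  h.l2.integrable_sq

theorem H1.integrable_gs {u : E → ℝ} {g : ι → E → ℝ} (h : H1 e u g) : Integrable (gs g) :=
  integrable_finsetSum _ fun i _ => (h.gl2 i).integrable_sq

theorem H1.integrable_gd {u w : E → ℝ} {g k : ι → E → ℝ} (h : H1 e u g) (h' : H1 e w k) :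
    Integrable (gd g k) :=
  integrable_finsetSum _ fun i _ => LWD_int_mul (h.gl2 i) (h'.gl2 i)

theorem H1.integrable_mul {u w : E → ℝ} {g k : ι → E → ℝ} (h : H1 e u g) (h' : H1 e w k) :
    Integrable fun x => u x * w x :=
  LWD_int_mul h.l2 h'.l2

theorem nsq_nonneg (u : E → ℝ) : 0 ≤ nsq u :=
  integral_nonneg fun _ => sq_nonneg _

theorem dir_nonneg (g : ι → E → ℝ) : 0 ≤ dir g :=
  integral_nonneg (gs_nonneg g)

theorem ip_sq_le {u w : E → ℝ} (hu : MemLp u 2 volume) (hw : MemLp w 2 volume) :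
    ip u w ^ 2 ≤ nsq u * nsq w := by
  have := discrim_le_zero (a := nsq u) (b := 2 * ip u w) (c := nsq w) fun a => by
    have := nsq_nonneg fun x => a * u x + 1 * w x
    rw [LWD_nsq_lin hu hw] at this
    linarith
  rw [discrim] at this
  linarith

theorem nsq_lin {u w : E → ℝ} (hu : MemLp u 2 volume) (hw : MemLp w 2 volume) (a b : ℝ) :
    nsq (fun x => a * u x + b * w x) = a ^ 2 * nsq u + 2 * a * b * ip u w + b ^ 2 * nsq w :=
  LWD_nsq_lin hu hw a b

theorem FB.int_mul {U : E → ℝ} {C : ℝ} (hU : FB e U C) {u w : E → ℝ} {g k : ι → E → ℝ}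
    (h : H1 e u g) (h' : H1 e w k) : Integrable fun x => U x * (u x * w x) := by
  refine ((((hU.int _ _ (h.add h')).sub (hU.int _ _ (h.sub h'))).const_mul (1 / 4)).congr
    (.of_forall fun x => ?_))
  simp only [Pi.sub_apply]
  ring

theorem bf_self (U u : E → ℝ) (g : ι → E → ℝ) : bf U u g u g = qf U u g := by
  simp only [bf, qf, dir, gd_self, sq]

theorem bf_comm (U u w : E → ℝ) (g k : ι → E → ℝ) : bf U u g w k = bf U w k u g := by
  simp only [bf, gd_comm g k, mul_comm (u _)]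

theorem FB.qf_lin {U : E → ℝ} {C : ℝ} (hU : FB e U C) {u w : E → ℝ} {g k : ι → E → ℝ}
    (h : H1 e u g) (h' : H1 e w k) (a b : ℝ) :
    qf U (fun x => a * u x + b * w x) (fun i x => a * g i x + b * k i x) =
      a ^ 2 * qf U u g + 2 * a * b * bf U u g w k + b ^ 2 * qf U w k := by
  have a1 : dir (fun i x => a * g i x + b * k i x) =
      a ^ 2 * dir g + (2 * a * b * ∫ x, gd g k x) + b ^ 2 * dir k := by
    rw [dir, dir, dir, ← LWD_int3 h.integrable_gs (h.integrable_gd h') h'.integrable_gs]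
    congr 1
    funext x
    simp only [gs, gd, Finset.mul_sum, ← Finset.sum_add_distrib]
    exact Finset.sum_congr rfl fun i _ => by ring
  have a2 : ∫ x, U x * (a * u x + b * w x) ^ 2 = (a ^ 2 * ∫ x, U x * u x ^ 2) +
      (2 * a * b * ∫ x, U x * (u x * w x)) + b ^ 2 * ∫ x, U x * w x ^ 2 := by
    rw [← LWD_int3 (hU.int _ _ h) (hU.int_mul h h') (hU.int _ _ h')]
    congr 1
    funext x
    ring
  rw [qf, qf, qf, bf, a1, a2]
  ring

theorem FB.bf_lin {U : E → ℝ} {C : ℝ} (hU : FB e U C) {u w v : E → ℝ} {g k l : ι → E → ℝ}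
    (h : H1 e u g) (h' : H1 e w k) (h'' : H1 e v l) (a b : ℝ) :
    bf U v l (fun x => a * u x + b * w x) (fun i x => a * g i x + b * k i x) =
      a * bf U v l u g + b * bf U v l w k := by
  have a1 : ∫ x, gd l (fun i x => a * g i x + b * k i x) x =
      (a * ∫ x, gd l g x) + b * ∫ x, gd l k x := by
    rw [← LWD_int2 (h''.integrable_gd h) (h''.integrable_gd h')]
    congr 1
    funext x
    simp only [gd, Finset.mul_sum, ← Finset.sum_add_distrib]
    exact Finset.sum_congr rfl fun i _ => by ring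
  have a2 : ∫ x, U x * (v x * (a * u x + b * w x)) = (a * ∫ x, U x * (v x * u x)) +
      b * ∫ x, U x * (v x * w x) := by
    rw [← LWD_int2 (hU.int_mul h'' h) (hU.int_mul h'' h')]
    congr 1
    funext x
    ring
  rw [bf, bf, bf, a1, a2]
  ring

theorem FB.dir_le {U : E → ℝ} {C : ℝ} (hU : FB e U C) {u : E → ℝ} {g : ι → E → ℝ}
    (h : H1 e u g) : dir g ≤ 4 * (qf U u g + C * nsq u) := by
  have a1 := hU.bd u g h
  have a2 : |∫ x, U x * u x ^ 2| ≤ ∫ x, |U x| * u x ^ 2 := by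
    refine abs_integral_le_integral_abs.trans (le_of_eq ?_)
    simp only [abs_mul, abs_pow, sq_abs]
  rw [qf]
  linarith [neg_abs_le (∫ x, U x * u x ^ 2)]

end Crest.Agent.R335
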