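import Crest.Agent.R335.Defs

/-! Row 335. Algebra of weak derivatives. -/

set_option autoImplicit false

open MeasureTheory Set Filter Topology
open scoped ENNReal

noncomputable section

namespace Crest.Agent.R335

variable {E : Type} [NormedAddCommGroup E] [NormedSpace ℝ E] [FiniteDimensional ℝ E]
  [MeasureSpace E] [BorelSpace E] [(volume : Measure E).IsAddHaarMeasure]
  {ι : Type} [Fintype ι] {e : ι → E}
  {F : Type} [NormedAddCommGroup F] [NormedSpace ℝ F] [FiniteDimensional ℝ F]
  [MeasureSpace F] [BorelSpace F] [(volume : Measure F).IsAddHaarMeasure]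
  {κ : Type} [Fintype κ] {f : κ → F}

theorem LWD0_int {u φ : E → ℝ} (hu : LocallyIntegrable u volume) (hφ : Continuous φ)
    (hc : HasCompactSupport φ) : Integrable fun x => u x * φ x :=
  hu.integrable_smul_right_of_hasCompactSupport hφ hc

theorem LWD0_cd {φ : E → ℝ} (hφ : ContDiff ℝ 1 φ) (v : E) :
    Continuous fun x => fderiv ℝ φ x v :=
  (hφ.continuous_fderiv one_ne_zero).clm_apply continuous_const

theorem LWD0_intd {u φ : E → ℝ} (hu : LocallyIntegrable u volume) (hφ : ContDiff ℝ 1 φ)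
    (hc : HasCompactSupport φ) (v : E) : Integrable fun x => u x * fderiv ℝ φ x v :=
  LWD0_int hu (LWD0_cd hφ v) (hc.fderiv_apply ℝ v)

theorem LWD0_lin {u w : E → ℝ} (hu : LocallyIntegrable u volume)
    (hw : LocallyIntegrable w volume) (a b : ℝ) :
    LocallyIntegrable (fun x => a * u x + b * w x) volume :=
  (hu.smul a).add (hw.smul b)

theorem LWD0_tend {u : ℕ → E → ℝ} {w ψ : E → ℝ} (hu : ∀ n, LocallyIntegrable (u n) volume)
    (hw : LocallyIntegrable w volume) (hψ : Continuous ψ) (hc : HasCompactSupport ψ)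
    (h : ∀ K : Set E, IsCompact K → Tendsto (fun n => ∫ x in K, |u n x - w x|) atTop (𝓝 0)) :
    Tendsto (fun n => ∫ x, u n x * ψ x) atTop (𝓝 (∫ x, w x * ψ x)) := by
  obtain ⟨C, hC⟩ := hψ.bounded_above_of_compact_support hc
  rw [tendsto_iff_norm_sub_tendsto_zero]
  have h1 := (h _ hc.isCompact).mul_const C
  rw [zero_mul] at h1
  refine squeeze_zero (fun n => norm_nonneg _) (fun n => ?_) h1
  have hi : IntegrableOn (fun x => |u n x - w x|) (tsupport ψ) :=
    (((hu n).sub hw).integrableOn_isCompact hc.isCompact).abs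
  rw [← integral_sub (LWD0_int (hu n) hψ hc) (LWD0_int hw hψ hc),
    ← setIntegral_eq_integral_of_forall_compl_eq_zero (s := tsupport ψ)
      (fun x hx => by rw [image_eq_zero_of_notMem_tsupport hx, mul_zero, mul_zero, sub_self]),
    ← integral_mul_const]
  refine norm_integral_le_of_norm_le (hi.mul_const C) (Eventually.of_forall fun x => ?_)
  rw [← sub_mul, norm_mul, Real.norm_eq_abs]
  exact mul_le_mul_of_nonneg_left (hC x) (abs_nonneg _)

theorem LWD0_dom {u : ℕ → E → ℝ} {w b ψ : E → ℝ} (hu : ∀ n, LocallyIntegrable (u n) volume)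
    (hb : LocallyIntegrable b volume) (hψ : Continuous ψ) (hc : HasCompactSupport ψ)
    (hle : ∀ n, ∀ᵐ x, |u n x| ≤ b x) (h : ∀ᵐ x, Tendsto (fun n => u n x) atTop (𝓝 (w x))) :
    Tendsto (fun n => ∫ x, u n x * ψ x) atTop (𝓝 (∫ x, w x * ψ x)) := by
  refine tendsto_integral_of_dominated_convergence (fun x => b x * |ψ x|)
    (fun n => (LWD0_int (hu n) hψ hc).aestronglyMeasurable) (LWD0_int hb hψ.abs hc.abs)
    (fun n => ?_) ?_
  · filter_upwards [hle n] with x hx
    rw [Real.norm_eq_abs, abs_mul]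
    exact mul_le_mul_of_nonneg_right hx (abs_nonneg _)
  · filter_upwards [h] with x hx
    exact hx.mul_const _

theorem LWD0_dom_li {u : ℕ → E → ℝ} {w b : E → ℝ} (hu : ∀ n, LocallyIntegrable (u n) volume)
    (hb : LocallyIntegrable b volume)
    (hle : ∀ n, ∀ᵐ x, |u n x| ≤ b x) (h : ∀ᵐ x, Tendsto (fun n => u n x) atTop (𝓝 (w x))) :
    LocallyIntegrable w volume := by
  refine hb.mono (aestronglyMeasurable_of_tendsto_ae atTop
    (fun n => (hu n).aestronglyMeasurable) h) ?_
  filter_upwards [ae_all_iff.2 hle, h] with x hx hx'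
  rw [Real.norm_eq_abs, Real.norm_eq_abs]
  exact (le_of_tendsto' hx'.abs hx).trans (le_abs_self _)

theorem WD.unique {v : E} {u g g' : E → ℝ} (h : WD v u g) (h' : WD v u g') : g =ᵐ[volume] g' := by
  refine ae_eq_of_integral_contDiff_smul_eq h.lg h'.lg fun φ hφ hc => ?_
  have h1 := h.eq φ (hφ.of_le (by exact_mod_cast le_top)) hc
  have h2 := h'.eq φ (hφ.of_le (by exact_mod_cast le_top)) hc
  simp only [smul_eq_mul, mul_comm (φ _)]
  linarith

theorem WD.congr {v : E} {u g u' g' : E → ℝ} (h : WD v u g) (hu : u =ᵐ[volume] u')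
    (hg : g =ᵐ[volume] g') : WD v u' g' := by
  refine ⟨h.lu.congr hu, h.lg.congr hg, fun φ hφ hc => ?_⟩
  have h1 : ∫ x, u' x * fderiv ℝ φ x v = ∫ x, u x * fderiv ℝ φ x v :=
    integral_congr_ae (by filter_upwards [hu] with x hx; rw [hx])
  have h2 : ∫ x, g' x * φ x = ∫ x, g x * φ x :=
    integral_congr_ae (by filter_upwards [hg] with x hx; rw [hx])
  rw [h1, h2]
  exact h.eq φ hφ hc

theorem WD.lin {v : E} {u g w k : E → ℝ} (h : WD v u g) (h' : WD v w k) (a b : ℝ) :
    WD v (fun x => a * u x + b * w x) fun x => a * g x + b * k x := by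
  refine ⟨LWD0_lin h.lu h'.lu a b, LWD0_lin h.lg h'.lg a b, fun φ hφ hc => ?_⟩
  simp only [add_mul, mul_assoc]
  rw [integral_add ((LWD0_intd h.lu hφ hc v).const_mul a) ((LWD0_intd h'.lu hφ hc v).const_mul b),
    integral_add ((LWD0_int h.lg hφ.continuous hc).const_mul a)
      ((LWD0_int h'.lg hφ.continuous hc).const_mul b),
    integral_const_mul, integral_const_mul, integral_const_mul, integral_const_mul,
    h.eq φ hφ hc, h'.eq φ hφ hc]
  ring

/-- `integral_mul_fderiv_eq_neg_fderiv_mul_of_integrable`. -/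
theorem WD.of_contDiff {u : E → ℝ} (h : ContDiff ℝ 1 u) (v : E) :
    WD v u fun x => fderiv ℝ u x v := by
  have h1 : LocallyIntegrable u volume := h.continuous.locallyIntegrable
  have h2 : LocallyIntegrable (fun x => fderiv ℝ u x v) volume := (LWD0_cd h v).locallyIntegrable
  refine ⟨h1, h2, fun φ hφ hc => ?_⟩
  exact integral_mul_fderiv_eq_neg_fderiv_mul_of_integrable (LWD0_int h2 hφ.continuous hc)
    (LWD0_intd h1 hφ hc v) (LWD0_int h1 hφ.continuous hc)
    (fun x _ => h.differentiable one_ne_zero x) (fun x _ => hφ.differentiable one_ne_zero x)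

theorem WD.mul_contDiff {v : E} {u g ζ : E → ℝ} (h : WD v u g) (hζ : ContDiff ℝ 1 ζ) :
    WD v (fun x => ζ x * u x) fun x => ζ x * g x + fderiv ℝ ζ x v * u x := by
  have h1 : LocallyIntegrable (fun x => ζ x * u x) volume := h.lu.continuous_mul hζ.continuous
  have h2 : LocallyIntegrable (fun x => ζ x * g x) volume := h.lg.continuous_mul hζ.continuous
  have h3 : LocallyIntegrable (fun x => fderiv ℝ ζ x v * u x) volume :=
    h.lu.continuous_mul (LWD0_cd hζ v)
  refine ⟨h1, h2.add h3, fun φ hφ hc => ?_⟩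
  have h4 := h.eq (fun x => ζ x * φ x) (hζ.mul hφ) hc.mul_left
  have h5 : ∀ x, u x * fderiv ℝ (fun x => ζ x * φ x) x v
      = ζ x * u x * fderiv ℝ φ x v + fderiv ℝ ζ x v * u x * φ x := fun x => by
    rw [fderiv_fun_mul (hζ.differentiable one_ne_zero x) (hφ.differentiable one_ne_zero x)]
    simp only [ContinuousLinearMap.add_apply, ContinuousLinearMap.smul_apply, smul_eq_mul]
    ring
  have h6 : ∀ x, g x * (ζ x * φ x) = ζ x * g x * φ x := fun x => by ring
  simp only [h5, h6] at h4
  rw [integral_add (LWD0_intd h1 hφ hc v) (LWD0_int h3 hφ.continuous hc)] at h4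
  simp only [add_mul]
  rw [integral_add (LWD0_int h2 hφ.continuous hc) (LWD0_int h3 hφ.continuous hc)]
  linarith

theorem WD.dir_lin {v w : E} {u g k : E → ℝ} (h : WD v u g) (h' : WD w u k) (a b : ℝ) :
    WD (a • v + b • w) u fun x => a * g x + b * k x := by
  refine ⟨h.lu, LWD0_lin h.lg h'.lg a b, fun φ hφ hc => ?_⟩
  have h1 : ∀ x, u x * fderiv ℝ φ x (a • v + b • w)
      = a * (u x * fderiv ℝ φ x v) + b * (u x * fderiv ℝ φ x w) := fun x => by
    rw [map_add, map_smul, map_smul, smul_eq_mul, smul_eq_mul]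
    ring
  simp only [h1, add_mul, mul_assoc]
  rw [integral_add ((LWD0_intd h.lu hφ hc v).const_mul a) ((LWD0_intd h.lu hφ hc w).const_mul b),
    integral_add ((LWD0_int h.lg hφ.continuous hc).const_mul a)
      ((LWD0_int h'.lg hφ.continuous hc).const_mul b),
    integral_const_mul, integral_const_mul, integral_const_mul, integral_const_mul,
    h.eq φ hφ hc, h'.eq φ hφ hc]
  ring

theorem WD.dir_smul {v : E} {u g : E → ℝ} (h : WD v u g) (a : ℝ) :
    WD (a • v) u fun x => a * g x := by
  have h1 := h.dir_lin h a 0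
  simpa only [zero_smul, add_zero, zero_mul] using h1

/-- Linear changes of variables (`Measure.map A volume` is a Haar measure, hence a multiple of
`volume`: `isAddHaarMeasure_eq_smul` or `isAddLeftInvariant_eq_smul`). -/
theorem WD.comp_equiv (A : E ≃L[ℝ] F) {v : E} {u g : F → ℝ} (h : WD (A v) u g) :
    WD v (fun x => u (A x)) fun x => g (A x) := by
  obtain ⟨c, hc⟩ : ∃ c : NNReal, Measure.map A (volume : Measure E) = c • (volume : Measure F) :=
    ⟨_, Measure.isAddLeftInvariant_eq_smul _ _⟩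
  have hli : ∀ {w : F → ℝ}, LocallyIntegrable w volume →
      LocallyIntegrable (fun x => w (A x)) volume := fun {w} hw => by
    refine (locallyIntegrable_map_homeomorph A.toHomeomorph (f := w) (μ := volume)).1 ?_
    have e : Measure.map A.toHomeomorph (volume : Measure E) = c • (volume : Measure F) := hc
    rw [e, locallyIntegrable_iff]
    exact fun K hK => by
      have := (hw.integrableOn_isCompact hK)
      rw [IntegrableOn, Measure.restrict_smul]
      exact this.smul_measure_nnreal
  have hint : ∀ w : F → ℝ, ∫ x, w (A x) = c • ∫ y, w y := fun w => by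
    rw [← integral_smul_nnreal_measure, ← hc]
    exact (A.toHomeomorph.measurableEmbedding.integral_map w).symm
  refine ⟨hli h.lu, hli h.lg, fun φ hφ hcs => ?_⟩
  have hψ : ContDiff ℝ 1 fun y => φ (A.symm y) := hφ.comp A.symm.contDiff
  have hψc : HasCompactSupport fun y => φ (A.symm y) :=
    hcs.comp_homeomorph A.symm.toHomeomorph
  have h1 := h.eq _ hψ hψc
  have h2 : ∀ x, fderiv ℝ (fun y => φ (A.symm y)) (A x) (A v) = fderiv ℝ φ x v := fun x => by
    have h3 := A.symm.comp_right_fderiv (f := φ) (x := A x)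
    rw [show (fun y => φ (A.symm y)) = φ ∘ A.symm from rfl, h3]
    simp
  have h4 := hint fun y => u y * fderiv ℝ (fun y => φ (A.symm y)) y (A v)
  have h5 := hint fun y => g y * φ (A.symm y)
  simp only [h2, ContinuousLinearEquiv.symm_apply_apply] at h4 h5
  rw [h4, h5, h1, smul_neg]

theorem WD.comp_add {v : E} {u g : E → ℝ} (h : WD v u g) (a : E) :
    WD v (fun x => u (x + a)) fun x => g (x + a) := by
  have hli : ∀ {w : E → ℝ}, LocallyIntegrable w volume →
      LocallyIntegrable (fun x => w (x + a)) volume := fun {w} hw => by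
    refine (locallyIntegrable_map_homeomorph (Homeomorph.addRight a) (f := w) (μ := volume)).1 ?_
    have e : Measure.map (Homeomorph.addRight a) (volume : Measure E) = volume :=
      map_add_right_eq_self volume a
    rw [e]
    exact hw
  refine ⟨hli h.lu, hli h.lg, fun φ hφ hcs => ?_⟩
  have hψ : ContDiff ℝ 1 fun y => φ (y + -a) := hφ.comp (contDiff_id.add contDiff_const)
  have hψc : HasCompactSupport fun y => φ (y + -a) :=
    hcs.comp_homeomorph (Homeomorph.addRight (-a))
  have h1 := h.eq _ hψ hψc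
  have h4 := integral_add_right_eq_self (μ := (volume : Measure E))
    (fun y => u y * fderiv ℝ (fun y => φ (y + -a)) y v) a
  have h5 := integral_add_right_eq_self (μ := (volume : Measure E))
    (fun y => g y * φ (y + -a)) a
  simp only [fderiv_comp_add_right, add_neg_cancel_right] at h1 h4 h5
  rw [h4, h5, h1]

/-- Weak differentiability is a local property. -/
theorem WD.of_local {v : E} {u g : E → ℝ}
    (h : ∀ K : Set E, IsCompact K → ∃ u' g', WD v u' g' ∧ (∀ᵐ x, x ∈ K → u x = u' x) ∧
      ∀ᵐ x, x ∈ K → g x = g' x) : WD v u g := by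
  refine ⟨locallyIntegrable_iff.2 fun K hK => ?_, locallyIntegrable_iff.2 fun K hK => ?_,
    fun φ hφ hc => ?_⟩
  · obtain ⟨u', g', hw, h1, -⟩ := h K hK
    exact (hw.lu.integrableOn_isCompact hK).congr_fun_ae
      (EventuallyEq.symm ((ae_restrict_iff' hK.measurableSet).2 h1))
  · obtain ⟨u', g', hw, -, h1⟩ := h K hK
    exact (hw.lg.integrableOn_isCompact hK).congr_fun_ae
      (EventuallyEq.symm ((ae_restrict_iff' hK.measurableSet).2 h1))
  · obtain ⟨u', g', hw, h1, h2⟩ := h _ hc.isCompact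
    have e1 : ∫ x, u x * fderiv ℝ φ x v = ∫ x, u' x * fderiv ℝ φ x v := by
      refine integral_congr_ae ?_
      filter_upwards [h1] with x hx
      by_cases hxK : x ∈ tsupport φ
      · rw [hx hxK]
      · rw [fderiv_of_notMem_tsupport ℝ hxK, ContinuousLinearMap.zero_apply, mul_zero, mul_zero]
    have e2 : ∫ x, g x * φ x = ∫ x, g' x * φ x := by
      refine integral_congr_ae ?_
      filter_upwards [h2] with x hx
      by_cases hxK : x ∈ tsupport φ
      · rw [hx hxK]
      · rw [image_eq_zero_of_notMem_tsupport hxK, mul_zero, mul_zero]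
    rw [e1, e2]
    exact hw.eq φ hφ hc

/-- Limits in `L¹_loc`. -/
theorem WD.of_tendsto {v : E} {u g : ℕ → E → ℝ} {w k : E → ℝ} (h : ∀ n, WD v (u n) (g n))
    (hw : LocallyIntegrable w volume) (hk : LocallyIntegrable k volume)
    (h1 : ∀ K : Set E, IsCompact K → Tendsto (fun n => ∫ x in K, |u n x - w x|) atTop (𝓝 0))
    (h2 : ∀ K : Set E, IsCompact K → Tendsto (fun n => ∫ x in K, |g n x - k x|) atTop (𝓝 0)) :
    WD v w k := by
  refine ⟨hw, hk, fun φ hφ hc => ?_⟩
  have t1 := LWD0_tend (fun n => (h n).lu) hw (LWD0_cd hφ v) (hc.fderiv_apply ℝ v) h1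
  have t2 := (LWD0_tend (fun n => (h n).lg) hk hφ.continuous hc h2).neg
  exact tendsto_nhds_unique (t1.congr fun n => (h n).eq φ hφ hc) t2

/-- Dominated limits. -/
theorem WD.of_dominated {v : E} {u g : ℕ → E → ℝ} {w k b : E → ℝ} (h : ∀ n, WD v (u n) (g n))
    (hb : LocallyIntegrable b volume) (hu : ∀ n, ∀ᵐ x, |u n x| ≤ b x)
    (hg : ∀ n, ∀ᵐ x, |g n x| ≤ b x) (h1 : ∀ᵐ x, Tendsto (fun n => u n x) atTop (𝓝 (w x)))
    (h2 : ∀ᵐ x, Tendsto (fun n => g n x) atTop (𝓝 (k x))) : WD v w k := by
  refine ⟨LWD0_dom_li (fun n => (h n).lu) hb hu h1, LWD0_dom_li (fun n => (h n).lg) hb hg h2,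
    fun φ hφ hc => ?_⟩
  have t1 := LWD0_dom (fun n => (h n).lu) hb (LWD0_cd hφ v) (hc.fderiv_apply ℝ v) hu h1
  have t2 := (LWD0_dom (fun n => (h n).lg) hb hφ.continuous hc hg h2).neg
  exact tendsto_nhds_unique (t1.congr fun n => (h n).eq φ hφ hc) t2

theorem L2l.locallyIntegrable {u : E → ℝ} (h : L2l u) : LocallyIntegrable u volume := by
  refine locallyIntegrable_iff.2 fun K hK => ?_
  haveI : IsFiniteMeasure ((volume : Measure E).restrict K) :=
    isFiniteMeasure_restrict.2 hK.measure_lt_top.ne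
  exact (h K hK).integrable one_le_two

theorem L2l.mul_locallyIntegrable {u w : E → ℝ} (h : L2l u) (h' : L2l w) :
    LocallyIntegrable (fun x => u x * w x) volume :=
  locallyIntegrable_iff.2 fun K hK => (h K hK).integrable_mul (h' K hK)

theorem L2l.of_memLp {u : E → ℝ} (h : MemLp u 2 volume) : L2l u :=
  fun K _ => h.restrict K

theorem L2l.of_continuous {u : E → ℝ} (h : Continuous u) : L2l u := by
  intro K hK
  haveI : IsFiniteMeasure ((volume : Measure E).restrict K) :=
    isFiniteMeasure_restrict.2 hK.measure_lt_top.ne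
  obtain ⟨C, hC⟩ := hK.exists_bound_of_continuousOn h.continuousOn
  exact MemLp.of_bound h.aestronglyMeasurable C
    ((ae_restrict_iff' hK.measurableSet).2 (Eventually.of_forall hC))

theorem L2l.of_le {u w : E → ℝ} (h : L2l w) (hu : AEStronglyMeasurable u volume) {C : ℝ}
    (hle : ∀ᵐ x, |u x| ≤ C * |w x|) : L2l u :=
  fun K hK => (h K hK).of_le_mul (c := C) hu.restrict (ae_restrict_of_ae hle)

end Crest.Agent.R335
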