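import Crest.Agent.R335.Defs
import Crest.Prelude.Def_ThreeElectron

/-! Row 335 (S0521): the interfaces between the parts of the proof.

Scaled problem: `h = -Δ/2 + V D`, nuclei of charge one at `± D e₃`, repulsion `ε / ‖x - y‖`.

* `One`: the one-body problem (`a = σ_g`, `b = σ_u`, gap `g = eb - ea`).
* `Many`: two-body states `χ0`, `χ1` and the three-body ground state `ψ`.
* `Chan`: what the analysis on `X` has to know about `ψ (x, ·) = -p χ0 + E + q χ1 + B`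
  (`E` even, `B` odd in the second variable), `nL = ‖E + q χ1 + B‖`, `nE = ‖E‖`, `nB = ‖B‖`,
  `nD` the norm of the spin down slice, `s = √ρ`.
* `Pair`: the minimiser `(t, β)` of `∫ |∇t|² + |∇β|²` under `t² + β² = ρ`, `∫ t² = 2`, `β = 0` on
  the plane `z = 0`.
* `Rep ρ`: a consequence of ensemble representability. -/

set_option autoImplicit false

open MeasureTheory Set Filter Topology
open scoped ENNReal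

noncomputable section

namespace Crest.Agent.R335

/-- Position of a nucleus. -/
def Rn (D : ℝ) : X := EuclideanSpace.single 2 D

def V (D : ℝ) (x : X) : ℝ := -1 / ‖x - Rn D‖ - 1 / ‖x + Rn D‖

def W (x : X) (y : Y) : ℝ := 1 / ‖x - y.1‖ + 1 / ‖x - y.2‖

def U2 (D ε : ℝ) (y : Y) : ℝ := V D y.1 + V D y.2 + ε / ‖y.1 - y.2‖

def U3 (D ε : ℝ) (p : T) : ℝ := V D p.1 + U2 D ε p.2 + ε * W p.1 p.2

def PY (y : Y) : Y := (P y.1, P y.2)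

/-- The part of `W` which is odd in `y`. -/
def Wo (x : X) (y : Y) : ℝ := (W x y - W x (PY y)) / 2

/-- Antisymmetry in the first two electrons. -/
def Anti (u : T → ℝ) : Prop := ∀ x y z, u (y, x, z) = -u (x, y, z)

/-- The slice of the third electron. -/
def cyc (p : T) : T := (p.2.1, p.2.2, p.1)

/-- The density of the fermionic state built from `ψ`. -/
def rho3 (ψ : T → ℝ) (x : X) : ℝ := 2 * (∫ y, ψ (x, y) ^ 2) + ∫ y, ψ (cyc (x, y)) ^ 2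

def jb2 (y : Y) : ℝ := jb y.1 + jb y.2

def jb3 (p : T) : ℝ := jb p.1 + jb2 p.2

/-- `(a ⊗ b - b ⊗ a) ⊗ φ / √2`. -/
def slater (a b φ : X → ℝ) (p : T) : ℝ := (a p.1 * b p.2.1 - b p.1 * a p.2.1) * φ p.2.2 / √2

/-- The one-body problem. -/
structure One (c : ℝ) where
  D : ℝ
  a : X → ℝ
  b : X → ℝ
  ga : Fin 3 → X → ℝ
  gb : Fin 3 → X → ℝ
  ea : ℝ
  eb : ℝ
  D1 : 1 ≤ D
  ha : H1 eX a ga
  hb : H1 eX b gb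
  ca : Continuous a
  cb : Continuous b
  apos : ∀ x, 0 < a x
  aP : ∀ x, a (P x) = a x
  bP : ∀ x, b (P x) = -b x
  bpos : ∀ R : ℝ, ∃ c' : ℝ, 0 < c' ∧ ∀ x : X, ‖x‖ ≤ R → 0 ≤ x 2 → c' * x 2 ≤ b x
  bdd : ∃ M : ℝ, ∀ x, |a x| ≤ M ∧ |b x| ≤ M
  na : nsq a = 1
  nb : nsq b = 1
  ab : ip a b = 0
  eiga : Eig eX (V D) ea a ga
  eigb : Eig eX (V D) eb b gb
  gap : ∀ u g, H1 eX u g → ea * nsq u + (eb - ea) * ip b u ^ 2 +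
    c * (nsq u - ip a u ^ 2 - ip b u ^ 2) ≤ qf (V D) u g
  gpos : ea < eb
  gsm : eb - ea ≤ 1 / 10000
  g2 : 2 * (eb - ea) ≤ c
  ea_near : |ea + 1 / 2| ≤ 1 / 100
  dip : nsq (fun x => x 2 * a x) ≤ 2 * ip b (fun x => x 2 * a x) ^ 2
  dip1 : 1 ≤ ip b fun x => x 2 * a x
  wa : MemLp (fun x => Real.exp (√(eb - ea) * jb x) * a x) 2 volume
  wb : MemLp (fun x => Real.exp (√(eb - ea) * jb x) * b x) 2 volume

namespace One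

variable {c : ℝ} (o : One c)

/-- The small gap. -/
def g : ℝ := o.eb - o.ea
/-- The exponent of the weights. -/
def al : ℝ := √o.g / 4
/-- The radius outside of which the multipole estimates are used. -/
def Rs : ℝ := 2 * o.D + 1
/-- The unperturbed states. -/
def aa (y : Y) : ℝ := o.a y.1 * o.a y.2
def sy (y : Y) : ℝ := (o.a y.1 * o.b y.2 + o.b y.1 * o.a y.2) / √2
def u0 : T → ℝ := slater o.a o.b o.a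

end One

/-- A weighted `H¹` bound. -/
def WB {E : Type} [NormedAddCommGroup E] [NormedSpace ℝ E] [MeasureSpace E] {ι : Type}
    [Fintype ι] (e : ι → E) (ρ : E → ℝ) (α C : ℝ) (u : E → ℝ) (g : ι → E → ℝ) : Prop :=
  H1 e (fun x => Real.exp (α * ρ x) * u x)
      (fun i x => Real.exp (α * ρ x) * (g i x + α * pd e ρ i x * u x)) ∧
    nsq (fun x => Real.exp (α * ρ x) * u x) ≤ C ∧
    dir (fun i x => Real.exp (α * ρ x) * (g i x + α * pd e ρ i x * u x)) ≤ C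

/-- The two-body states. -/
structure Two {c : ℝ} (o : One c) (C ε : ℝ) where
  χ0 : Y → ℝ
  χ1 : Y → ℝ
  g0 : IY → Y → ℝ
  g1 : IY → Y → ℝ
  E2 : ℝ
  gS : ℝ
  h0 : H1 eY χ0 g0
  h1 : H1 eY χ1 g1
  n0 : nsq χ0 = 1
  n1 : nsq χ1 = 1
  s0 : ∀ y, χ0 y.swap = χ0 y
  s1 : ∀ y, χ1 y.swap = χ1 y
  P0 : ∀ y, χ0 (PY y) = χ0 y
  P1 : ∀ y, χ1 (PY y) = -χ1 y
  eig0 : Eig eY (U2 o.D ε) E2 χ0 g0
  eig1 : Eig eY (U2 o.D ε) (E2 + gS) χ1 g1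
  gap0 : ∀ u g, H1 eY u g →
    E2 * nsq u + (o.g - C * ε) * (nsq u - ip χ0 u ^ 2) ≤ qf (U2 o.D ε) u g
  c0 : nsq (fun y => χ0 y - o.aa y) ≤ C * ε
  c1 : nsq (fun y => χ1 y - o.sy y) ≤ C * ε
  E2_near : |E2 - 2 * o.ea| ≤ C * ε
  gS_near : |gS - o.g| ≤ C * ε
  d0 : dir g0 ≤ C
  d1 : dir g1 ≤ C
  w0 : WB eY jb2 o.al C χ0 g0
  w1 : WB eY jb2 o.al C χ1 g1

/-- The three-body ground state. -/
structure Three {c : ℝ} (o : One c) (C ε : ℝ) where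
  ψ : T → ℝ
  gψ : IT → T → ℝ
  gu : IT → T → ℝ
  E3 : ℝ
  hψ : H1 eT ψ gψ
  nψ : nsq ψ = 1
  anti : Anti ψ
  odd : ∀ x y, ψ (P x, PY y) = -ψ (x, y)
  eig : Eig eT (U3 o.D ε) E3 ψ gψ
  min : ∀ u g, H1 eT u g → Anti u → E3 * nsq u ≤ qf (U3 o.D ε) u g
  hu : H1 eT o.u0 gu
  eigu : Eig eT (U3 o.D 0) (2 * o.ea + o.eb) o.u0 gu
  cl : nsq (fun p => ψ p - o.u0 p) ≤ C * ε
  cd : dir (fun i p => gψ i p - gu i p) ≤ C * ε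
  E3_near : |E3 - (2 * o.ea + o.eb)| ≤ C * ε
  dψ : dir gψ ≤ C
  wψ : WB eT jb3 o.al C ψ gψ

/-- A pair with the density `s²`. -/
structure IsPair (s t : X → ℝ) (gt : Fin 3 → X → ℝ) (β : X → ℝ) (gβ : Fin 3 → X → ℝ) : Prop where
  ht : H1 eX t gt
  hβ : H1 eX β gβ
  van : Van β
  sum : ∀ᵐ x, t x ^ 2 + β x ^ 2 = s x ^ 2

/-- The channels. -/
structure Chan {c : ℝ} (o : One c) (C ε : ℝ) where
  I : ℝ
  gS : ℝ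
  d : ℝ
  p : X → ℝ
  q : X → ℝ
  s : X → ℝ
  nL : X → ℝ
  nB : X → ℝ
  nE : X → ℝ
  nD : X → ℝ
  Sp : X → ℝ
  Sq : X → ℝ
  gp : Fin 3 → X → ℝ
  gq : Fin 3 → X → ℝ
  gr : Fin 3 → X → ℝ
  gL : Fin 3 → X → ℝ
  gB : Fin 3 → X → ℝ
  gE : Fin 3 → X → ℝ
  gD : Fin 3 → X → ℝ
  ε0 : 0 < ε
  C1 : 1 ≤ C
  εC : C * ε ≤ o.g / 100
  I_near : |I + o.eb| ≤ C * ε
  gS_near : |gS - o.g| ≤ C * ε
  d1 : 1 ≤ d
  dC : d ≤ C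
  solp : Sol univ p gp fun x => Sp x - (V o.D x + I) * p x
  solq : Sol univ q gq fun x => Sq x - (V o.D x + I + gS) * q x
  Sp2 : MemLp Sp 2 volume
  Sq2 : MemLp Sq 2 volume
  Spn : nsq Sp ≤ C
  Sqn : nsq Sq ≤ C
  dp : dir gp ≤ C
  dq : dir gq ≤ C
  dr : dir gr ≤ C
  SpP : ∀ᵐ x, Sp (P x) = -Sp x
  pP : ∀ x, p (P x) = -p x
  qP : ∀ x, q (P x) = q x
  sP : ∀ x, s (P x) = s x
  EP : ∀ x, nE (P x) = nE x
  s0 : ∀ x, 0 ≤ s x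
  L0 : ∀ x, 0 ≤ nL x
  D0 : ∀ x, 0 ≤ nD x
  Sp_ext : ∀ᵐ x, o.Rs < ‖x‖ → |Sp x + 2 * ε / ‖x‖ * p x| ≤ ε * C / ‖x‖ ^ 2 * (|p x| + nL x)
  Sq_ext : ∀ᵐ x : X, o.Rs < ‖x‖ → |Sq x - ε * d * x 2 / ‖x‖ ^ 3 * p x + 2 * ε / ‖x‖ * q x| ≤
    ε * C * ((1 + |x 2|) / ‖x‖ ^ 4 * |p x| + (|q x| + nB x) / ‖x‖ ^ 2 +
      (1 + |x 2|) / ‖x‖ ^ 3 * nE x)
  subs : Sub (ext o.Rs) s gr fun x => -((V o.D x + I + 2 * ε / ‖x‖ - ε * C / ‖x‖ ^ 2) * s x)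
  subL : Sub (ext o.Rs) nL gL fun x =>
    ε * C / ‖x‖ ^ 2 * |p x| - (V o.D x + I + o.g - C * ε) * nL x
  subD : Sub (ext o.Rs) nD gD fun x => -((V o.D x + I + o.g - C * ε) * nD x)
  subB : Sub2 (ext o.Rs) nB gB
    (fun x => ε * (3 * d * |x 2| / ‖x‖ ^ 3 + C * (1 + |x 2|) / ‖x‖ ^ 4) * |p x| +
      ε * C / ‖x‖ ^ 2 * |q x| + ε * C * |x 2| / ‖x‖ ^ 2 * nE x -
      (V o.D x + I + o.g - C * ε) * nB x)
    fun x => ε * C * Real.exp (-2 * (√(2 * I) + 4 * o.g) * ‖x‖)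
  subE : Sub2 (ext o.Rs) nE gE
    (fun x => ε * C / ‖x‖ ^ 2 * (|p x| + |q x|) + ε * C * |x 2| / ‖x‖ ^ 2 * nB x -
      (V o.D x + I + o.g - C * ε) * nE x)
    fun x => ε * C * Real.exp (-2 * (√(2 * I) + 4 * o.g) * ‖x‖)
  vanE : Van nE
  Lsq : ∀ᵐ x, nL x ^ 2 = nE x ^ 2 + q x ^ 2 + nB x ^ 2
  rho : ∀ᵐ x, s x ^ 2 = 2 * (p x ^ 2 + nE x ^ 2 + q x ^ 2 + nB x ^ 2) + nD x ^ 2
  sbd : ∀ᵐ x, s x ≤ C
  mass : nsq s = 3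
  cp : ∀ᵐ x, |p x - o.b x / √2| ≤ C * √ε
  cq : ∀ᵐ x, |q x - o.a x / 2| ≤ C * √ε
  cB : ∀ᵐ x, |nB x - o.a x / 2| ≤ C * √ε
  cE : ∀ᵐ x, nE x ≤ C * √ε
  cD : ∀ᵐ x, |nD x - o.a x| ≤ C * √ε
  cpz : ∀ᵐ x : X, 2 * o.Rs + 10 ≤ ‖x‖ → |p x - o.b x / √2| ≤ C * √ε * |x 2|
  pair0 : ∃ t gt β gβ, IsPair s t gt β gβ ∧ |nsq t - 2| ≤ C * √ε ∧
    (dir gt + dir gβ) / 2 + ∫ x, V o.D x * s x ^ 2 ≤ 2 * o.ea + o.eb + C * ε

namespace Chan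

variable {c : ℝ} {o : One c} {C ε : ℝ} (ch : Chan o C ε)

def k : ℝ := √(2 * ch.I)
def k' : ℝ := √(2 * (ch.I + ch.gS))
def β : ℝ := (2 - 2 * ε) / ch.k - 2
def β' : ℝ := (2 - 2 * ε) / ch.k' - 1
def h (x : X) : ℝ := ‖x‖ ^ ch.β * Real.exp (-ch.k * ‖x‖)
def H (x : X) : ℝ := ‖x‖ ^ ch.β' * Real.exp (-ch.k' * ‖x‖)
def Q0 (x : X) : ℝ := ch.H x + ε * (1 + x 2 ^ 2) / ‖x‖ ^ 3 * ch.h x
/-- The potential of the subsolution `s`. -/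
def Qs (x : X) : ℝ := V o.D x + ch.I + 2 * ε / ‖x‖ - ε * C / ‖x‖ ^ 2

/-- Two-sided bounds with constants which depend on `D`. -/
structure FA (R A : ℝ) : Prop where
  R1 : 2 * o.Rs + 10 ≤ R
  A1 : 1 ≤ A
  p_lo : ∀ᵐ x : X, R < ‖x‖ → 0 < x 2 → x 2 * ch.h x ≤ A * ch.p x
  p_hi : ∀ᵐ x : X, R < ‖x‖ → |ch.p x| ≤ A * |x 2| * ch.h x
  q_lo : ∀ᵐ x : X, R < ‖x‖ → ch.Q0 x ≤ A * ch.q x
  q_hi : ∀ᵐ x : X, R < ‖x‖ → ch.q x ≤ A * ch.Q0 x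
  L_hi : ∀ᵐ x : X, R < ‖x‖ → ch.nL x ≤ A * (1 + |x 2|) / ‖x‖ ^ 2 * ch.h x

/-- The density is comparable to `p² + q²`. -/
def FC (R : ℝ) : Prop := ∀ᵐ x : X, R < ‖x‖ → ch.s x ^ 2 ≤ 200 * (ch.p x ^ 2 + ch.q x ^ 2)

/-- The profiles near the plane, with an absolute constant `K`. -/
structure FG (R K η : ℝ) (τ h0 : X → ℝ) : Prop where
  c1 : ContDiffOn ℝ 1 τ {x | R < ‖pl x‖}
  τpl : ∀ x, τ (pl x) = τ x
  τpos : ∀ x, R < ‖pl x‖ → 0 < τ x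
  hpos : ∀ x, R < ‖pl x‖ → 0 < h0 x
  cq : ∀ᵐ x : X, R < ‖pl x‖ → |x 2| ≤ 1 → τ x ≤ K * ch.q x ∧ ch.q x ≤ K * τ x
  cp : ∀ᵐ x : X, R < ‖pl x‖ → |x 2| ≤ 1 →
    |x 2| * h0 x ≤ K * |ch.p x| ∧ |ch.p x| ≤ K * |x 2| * h0 x
  loc : ∀ x y, R < ‖pl x‖ → R < ‖pl y‖ → ‖pl x - pl y‖ ≤ 1 → τ x ≤ K * τ y ∧ h0 x ≤ K * h0 y
  rad : ∀ x, R < ‖pl x‖ → fderiv ℝ τ x (‖pl x‖⁻¹ • pl x) ≤ -τ x / K
  small : ∀ x, R < ‖pl x‖ → τ x ≤ η * h0 x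

end Chan

/-- The minimising pair. -/
structure Pair0 (s : X → ℝ) where
  t : X → ℝ
  β : X → ℝ
  gt : Fin 3 → X → ℝ
  gβ : Fin 3 → X → ℝ
  lam : ℝ
  pair : IsPair s t gt β gβ
  t0 : ∀ x, 0 ≤ t x
  β0 : ∀ x, 0 ≤ β x
  tP : ∀ x, t (P x) = t x
  βP : ∀ x, β (P x) = β x
  mass : nsq t = 2
  min : ∀ n gn b gb, IsPair s n gn b gb →
    dir gt + dir gβ + 2 * lam * 2 ≤ dir gn + dir gb + 2 * lam * nsq n

/-- The minimising pair with its angle. -/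
structure Pair1 (s : X → ℝ) extends Pair0 s where
  θ : X → ℝ
  gθ : Fin 3 → X → ℝ
  hθ : H1l eX θ gθ
  θ0 : ∀ x, 0 ≤ θ x ∧ θ x ≤ Real.pi / 2
  θP : ∀ᵐ x, θ (P x) = θ x
  sin : ∀ᵐ x, t x = s x * Real.sin (θ x)
  cos : ∀ᵐ x, β x = s x * Real.cos (θ x)
  J : ∀ᵐ x, ∀ i, s x ^ 2 * gθ i x = β x * gt i x - t x * gβ i x
  J2 : ∀ i, MemLp (fun x => s x * gθ i x) 2 volume
  el : ∀ (ξ : X → ℝ) (k : Fin 3 → X → ℝ) (M : ℝ), H1l eX ξ k → (∀ᵐ x, |ξ x| ≤ M) →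
    (∀ i, MemLp (fun x => s x * k i x) 2 volume) → (Van fun x => s x * ξ x) →
    ∫ x, (s x ^ 2 * gd gθ k x + 2 * lam * (t x * β x * ξ x)) = 0

/-- The pair of a small coupling constant. -/
structure Pair {c : ℝ} {o : One c} {C ε : ℝ} (ch : Chan o C ε) (C' : ℝ) extends Pair1 ch.s where
  spos : LocPos ch.s
  tpos : LocPos t
  close : nsq (fun x => t x - √2 * o.a x) ≤ C' * √ε
  lam_near : |lam - o.g| ≤ C' * √(√ε)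
  lam_lo : o.g / 2 ≤ lam
  lam_hi : lam ≤ 2 * o.g

namespace Pair

variable {c : ℝ} {o : One c} {C ε C' : ℝ} {ch : Chan o C ε} (pr : Pair ch C')

/-- `t` is comparable to `σ_g` on a ball. -/
def Core (R K : ℝ) : Prop := ∀ᵐ x : X, ‖x‖ ≤ R → o.a x ≤ K * pr.t x ∧ pr.t x ≤ K * o.a x

/-- Upper bound. -/
def FU (R K : ℝ) : Prop := ∀ᵐ x : X, R < ‖x‖ → pr.t x ≤ K * ch.q x

/-- Lower bound in a slab. -/
def FL (R z₁ K : ℝ) : Prop := ∀ᵐ x : X, R < ‖pl x‖ → |x 2| ≤ z₁ → ch.q x ≤ K * pr.t x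

/-- The exterior inequality. -/
def PX (R K : ℝ) : Prop :=
  ∀ (ψ : X → ℝ) (g : Fin 3 → X → ℝ) (M : ℝ), H1 eX ψ g → (∀ᵐ x, |ψ x| ≤ M * pr.t x) →
    (∀ᵐ x, ‖x‖ ≤ R → ψ x = 0) → nsq ψ ≤ K * ∫ x, Dq pr.t pr.gt ψ g x

end Pair

/-- The gap in the even sector. -/
def Pair0.PStar {s : X → ℝ} (pr : Pair0 s) (K : ℝ) : Prop :=
  ∀ (φ : X → ℝ) (g : Fin 3 → X → ℝ), H1 eX φ g → (∀ᵐ x, φ (P x) = φ x) →
    Integrable (Dq pr.t pr.gt φ g) → nsq φ - ip pr.t φ ^ 2 / 2 ≤ K * ∫ x, Dq pr.t pr.gt φ g x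

/-- Local two-sided bounds of the density near a point `x₀` of the plane. -/
def Pair1.Box {s : X → ℝ} (pr : Pair1 s) (x₀ : X) (l K τ h : ℝ) : Prop :=
  ∀ᵐ x : X, ‖pl x - x₀‖ ≤ l → |x 2| ≤ l →
    x 2 ^ 2 * h ^ 2 + τ ^ 2 ≤ K * s x ^ 2 ∧ s x ^ 2 ≤ K * (x 2 ^ 2 * h ^ 2 + τ ^ 2) ∧
      pr.t x ≤ K * τ

/-- The one-body family of an ensemble of ground states. -/
structure Fam (v ρ : X → ℝ) {Ω : Type} [MeasurableSpace Ω] (μ : Measure Ω) (Θ : X × Ω → ℝ)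
    (g : Fin 3 → X × Ω → ℝ) : Prop where
  m : Measurable Θ
  gm : ∀ i, Measurable (g i)
  l2 : MemLp Θ 2 (volume.prod μ)
  gl2 : ∀ i, MemLp (g i) 2 (volume.prod μ)
  h1 : ∀ᵐ ω ∂μ, H1 eX (fun x => Θ (x, ω)) fun i x => g i (x, ω)
  dens : ∀ᵐ x, ∫ ω, Θ (x, ω) ^ 2 ∂μ = ρ x
  pauli : ∀ a : X → ℝ, MemLp a 2 volume → nsq a = 1 →
    ∫ ω, (∫ x, a x * Θ (x, ω)) ^ 2 ∂μ ≤ 2
  min : ∀ u k, H1 eT u k → Anti u → nsq u = 1 →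
    (∫ p, ∑ i, g i p ^ 2 ∂volume.prod μ) / 2 + ∫ x, v x * ρ x ≤
      qf (fun p : T => v p.1 + (v p.2.1 + v p.2.2)) u k

/-- What is used of ensemble representability. -/
def Rep (ρ : X → ℝ) : Prop :=
  ∃ v : X → ℝ, Measurable v ∧ Crest.MathPhysics.ThreeBody.IsSumClassPotential v ∧
    ∃ (Ω : Type) (_ : MeasurableSpace Ω) (μ : Measure Ω) (_ : SigmaFinite μ) (Θ : X × Ω → ℝ)
      (g : Fin 3 → X × Ω → ℝ), Fam v ρ μ Θ g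

/-- Ground state among the functions which are antisymmetric in the first two electrons. -/
structure RGS (U ψ : T → ℝ) (g : IT → T → ℝ) : Prop where
  h1 : H1 eT ψ g
  anti : Anti ψ
  n : nsq ψ = 1
  min : ∀ u k, H1 eT u k → Anti u → qf U ψ g * nsq u ≤ qf U u k

open Crest.MathPhysics.ThreeBody in
def toT (x : Config3) : T := (elPos 0 x, elPos 1 x, elPos 2 x)

end Crest.Agent.R335
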