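import Crest.Agent.R335.MDefs
import Crest.Agent.R335.LBar

/-! Row 335. The spectral gap of the hydrogen atom. -/

set_option autoImplicit false

open MeasureTheory Set Filter Topology
open scoped ENNReal

noncomputable section

namespace Crest.Agent.R335

/-- The normalised ground state. -/
def hyd (x : X) : ℝ := Real.exp (-‖x‖) / √(nsq fun y : X => Real.exp (-‖y‖))

/-- `|∇u + u x / ‖x‖|²`. -/
def Dh (u : X → ℝ) (g : Fin 3 → X → ℝ) (x : X) : ℝ := ∑ i, (g i x + u x * (x i / ‖x‖)) ^ 2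

theorem O1_abs (x : X) (i : Fin 3) : |x i / ‖x‖| ≤ 1 := by
  rw [abs_div, abs_norm]
  exact div_le_one_of_le₀ (LBar_abs_coord x i) (norm_nonneg _)

theorem O1_meas (i : Fin 3) : Measurable fun x : X => x i / ‖x‖ := by fun_prop

theorem O1_ne : ∀ᵐ x : X, x ≠ 0 := by
  filter_upwards [ae_two_ne] with x hx h
  exact hx (by simp [h])

theorem O1_sum {x : X} (hx : x ≠ 0) : ∑ i, (x i / ‖x‖) ^ 2 = 1 := by
  have := norm_pos_iff.2 hx
  simp only [div_pow]
  rw [← Finset.sum_div, ← LHardy_norm_sq, div_self (by positivity)]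

theorem O1_le {δ : ℝ} (hδ : 0 < δ) (x : X) : ‖x‖ ≤ √(‖x‖ ^ 2 + δ) :=
  Real.le_sqrt_of_sq_le (by linarith)

theorem O1_cd {δ : ℝ} (hδ : 0 < δ) : ContDiff ℝ 1 fun x : X => √(‖x‖ ^ 2 + δ) :=
  ((contDiff_norm_sq ℝ).add contDiff_const).sqrt fun x => by positivity

theorem O1_pd {δ : ℝ} (hδ : 0 < δ) (i : Fin 3) (x : X) :
    pd eX (fun x : X => √(‖x‖ ^ 2 + δ)) i x = x i / √(‖x‖ ^ 2 + δ) := by
  have h := ((hasDerivAt_id (‖x‖ ^ 2)).add_const δ).sqrt (by simp only [id]; positivity)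
  refine (LBar_pd_nsq (F := fun s => √(s + δ)) h i).trans ?_
  simp only [id]
  field_simp

theorem O1_pd2 {δ : ℝ} (hδ : 0 < δ) (i j : Fin 3) (x : X) :
    pd eX (fun x : X => x i * (√(‖x‖ ^ 2 + δ))⁻¹) j x =
      eX j i / √(‖x‖ ^ 2 + δ) - x i * x j / √(‖x‖ ^ 2 + δ) ^ 3 := by
  have h0 : 0 < √(‖x‖ ^ 2 + δ) := by positivity
  have h := (((hasDerivAt_id (‖x‖ ^ 2)).add_const δ).sqrt (by simp only [id]; positivity)).inv h0.ne'
  rw [LBar_pd_mul (f := fun x : X => x i) (g := fun x : X => (√(‖x‖ ^ 2 + δ))⁻¹) (by fun_prop)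
    (((O1_cd hδ).differentiable (by simp) x).inv h0.ne'),
    LBar_pd_coord (A := fun s => s) (hasDerivAt_id' _),
    LBar_pd_nsq (F := fun s => (√(s + δ))⁻¹) h j]
  simp only [id]
  field_simp
  ring

theorem O1_tend (x : X) :
    Tendsto (fun n : ℕ => √(‖x‖ ^ 2 + 1 / (n + 1))) atTop (𝓝 ‖x‖) := by
  have := (tendsto_one_div_add_atTop_nhds_zero_nat.const_add (‖x‖ ^ 2)).sqrt
  rwa [add_zero, Real.sqrt_sq (norm_nonneg _)] at this

/-- Limit of `√(δ² + ‖x‖²)` (`WD.of_dominated`). -/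
theorem h1l_norm : H1l eX (fun x : X => ‖x‖) fun i x => x i / ‖x‖ := by
  refine ⟨measurable_norm, O1_meas, L2l.of_continuous continuous_norm, fun i =>
    (L2l.of_continuous (continuous_const (y := (1 : ℝ)))).of_le (C := 1)
      (O1_meas i).aestronglyMeasurable (Eventually.of_forall fun x => by simpa using O1_abs x i),
    fun i => ?_⟩
  have hδ : ∀ n : ℕ, (0 : ℝ) < 1 / (n + 1) := fun n => by positivity
  refine WD.of_dominated (b := fun x => ‖x‖ + 1)
    (fun n : ℕ => (H1l.of_contDiff (e := eX) (O1_cd (hδ n))).wd i)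
    (Continuous.locallyIntegrable (by fun_prop)) (fun n => Eventually.of_forall fun x => ?_)
    (fun n => Eventually.of_forall fun x => ?_) (Eventually.of_forall O1_tend) ?_
  · rw [abs_of_nonneg (Real.sqrt_nonneg _)]
    have : (1 : ℝ) / (n + 1) ≤ 1 := by
      rw [div_le_one (by positivity)]
      linarith [n.cast_nonneg (α := ℝ)]
    exact Real.sqrt_le_iff.2 ⟨by positivity, by nlinarith [norm_nonneg x]⟩
  · rw [O1_pd (hδ n), abs_div, abs_of_nonneg (Real.sqrt_nonneg _)]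
    have := div_le_one_of_le₀ ((LBar_abs_coord x i).trans (O1_le (hδ n) x)) (Real.sqrt_nonneg _)
    linarith [norm_nonneg x]
  · filter_upwards [O1_ne] with x hx
    simp only [O1_pd (hδ _)]
    exact tendsto_const_nhds.div (O1_tend x) (norm_pos_iff.2 hx).ne'

theorem O1_comp {Φ Φ' : ℝ → ℝ} (hΦ : ∀ s, HasDerivAt Φ (Φ' s) s) (hc : Continuous Φ') :
    H1l eX (fun x : X => Φ ‖x‖) fun i x => Φ' ‖x‖ * (x i / ‖x‖) := by
  have hΦc : Continuous Φ := continuous_iff_continuousAt.2 fun s => (hΦ s).continuousAt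
  refine ⟨(hΦc.comp continuous_norm).measurable, fun i =>
    (hc.comp continuous_norm).measurable.mul (O1_meas i),
    L2l.of_continuous (hΦc.comp continuous_norm),
    fun i => LWD_l2l_mul (h1l_norm.gl2 i) (hc.comp continuous_norm),
    fun i => WD.of_local fun K hK => ?_⟩
  obtain ⟨R, hR, hKR⟩ := hK.isBounded.subset_ball_lt 0 0
  have := ((h1l_norm.min (H1l.const R)).comp_bdd hΦ hc (M := R) (Eventually.of_forall fun x => by
    rw [abs_of_nonneg (le_min (norm_nonneg _) hR.le)]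
    exact min_le_right _ _)).wd i
  refine ⟨_, _, this, Eventually.of_forall fun x hx => ?_, Eventually.of_forall fun x hx => ?_⟩
  · have : ‖x‖ < R := by simpa using hKR hx
    simp only [min_eq_left this.le]
  · have : ‖x‖ < R := by simpa using hKR hx
    simp only [min_eq_left this.le, if_pos this]

theorem O1_l2 : MemLp (fun x : X => Real.exp (-‖x‖)) 2 volume :=
  LBar_Dec.memLp (γ := 0) (κ := 1) one_pos ⟨by fun_prop, 1, 0, zero_le_one, fun x _ => by
    simp [abs_of_pos (Real.exp_pos _)]⟩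

theorem O1_pos : 0 < nsq fun x : X => Real.exp (-‖x‖) :=
  integral_pos_of_integrable_nonneg_nonzero (x := 0) (by fun_prop) O1_l2.integrable_sq
    (fun _ => sq_nonneg _) (by simp)

theorem O1_mul {u : X → ℝ} (hu : MemLp u 2 volume) (i : Fin 3) :
    MemLp (fun x => u x * (x i / ‖x‖)) 2 volume := by
  refine hu.of_le (hu.1.mul (O1_meas i).aestronglyMeasurable) (Eventually.of_forall fun x => ?_)
  rw [norm_mul]
  exact mul_le_of_le_one_right (norm_nonneg _) (O1_abs x i)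

theorem hyd_spec : H1 eX hyd (fun i x => -(hyd x * (x i / ‖x‖))) ∧ nsq hyd = 1 ∧
    (∀ x, 0 < hyd x) ∧ (∀ x, hyd (P x) = hyd x) := by
  have hN := O1_pos
  have h2 : MemLp hyd 2 volume := by
    have := O1_l2.mul_const (√(nsq fun y : X => Real.exp (-‖y‖)))⁻¹
    exact this
  refine ⟨?_, ?_, fun x => div_pos (Real.exp_pos _) (Real.sqrt_pos.2 hN), fun x => by simp [hyd]⟩
  · have := O1_comp (Φ := fun s => Real.exp (-s) / √(nsq fun y : X => Real.exp (-‖y‖)))
      (Φ' := fun s => -(Real.exp (-s) / √(nsq fun y : X => Real.exp (-‖y‖))))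
      (fun s => by
        have := ((hasDerivAt_neg s).exp).div_const √(nsq fun y : X => Real.exp (-‖y‖))
        rwa [mul_neg_one, neg_div] at this) (by fun_prop)
    simp only [neg_mul] at this
    exact this.h1 h2 fun i => (O1_mul h2 i).neg
  · change ∫ x, hyd x ^ 2 = 1
    simp only [hyd, div_pow]
    rw [integral_div, Real.sq_sqrt hN.le]
    exact div_self hN.ne'

theorem O1_int {u : X → ℝ} {g : Fin 3 → X → ℝ} (h : H1 eX u g) : Integrable (Dh u g) :=
  integrable_finsetSum _ fun i _ => ((h.gl2 i).add (O1_mul h.l2 i)).integrable_sq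

theorem O1_coul {u : X → ℝ} {g : Fin 3 → X → ℝ} (h : H1 eX u g) :
    Integrable fun x => u x ^ 2 / ‖x‖ := by
  simpa using (coul_le h 0 one_pos).1

theorem O1_div {u : X → ℝ} {g : Fin 3 → X → ℝ} (h : H1 eX u g) :
    ∫ x, (2 * (u x ^ 2 / ‖x‖) + 2 * ∑ i, g i x * (u x * (x i / ‖x‖))) = 0 := by
  have hδ : ∀ n : ℕ, (0 : ℝ) < 1 / (n + 1) := fun n => by positivity
  have key : ∀ δ : ℝ, 0 < δ → Integrable (fun x => (3 / √(‖x‖ ^ 2 + δ) -
        ‖x‖ ^ 2 / √(‖x‖ ^ 2 + δ) ^ 3) * u x ^ 2 +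
        2 * ∑ i, g i x * (u x * (x i / √(‖x‖ ^ 2 + δ)))) ∧
      ∫ x, ((3 / √(‖x‖ ^ 2 + δ) - ‖x‖ ^ 2 / √(‖x‖ ^ 2 + δ) ^ 3) * u x ^ 2 +
        2 * ∑ i, g i x * (u x * (x i / √(‖x‖ ^ 2 + δ)))) = 0 := fun δ hδ => by
    have h0 : ∀ x : X, 0 < √(‖x‖ ^ 2 + δ) := fun x => by positivity
    have h1 : ∀ (x : X) i, |x i| ≤ √(‖x‖ ^ 2 + δ) := fun x i =>
      (LBar_abs_coord x i).trans (O1_le hδ x)
    have h2 : ∀ x : X, √δ ≤ √(‖x‖ ^ 2 + δ) := fun x =>
      Real.sqrt_le_sqrt (by nlinarith [sq_nonneg ‖x‖])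
    have h3 := Real.sqrt_pos.2 hδ
    have := LHardy_div h (ξ := fun i x => x i * (√(‖x‖ ^ 2 + δ))⁻¹) (M := 1 + 2 / √δ)
      (fun i => ContDiff.mul (by fun_prop) ((O1_cd hδ).inv fun x => (h0 x).ne'))
      (fun i x => by
        rw [← div_eq_mul_inv, abs_div, abs_of_pos (h0 x)]
        exact (div_le_one_of_le₀ (h1 x i) (h0 x).le).trans (le_add_of_nonneg_right (by positivity)))
      (fun i j x => by
        rw [O1_pd2 hδ]
        have a1 : |eX j i / √(‖x‖ ^ 2 + δ)| ≤ 1 / √δ := by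
          rw [abs_div, abs_of_pos (h0 x)]
          refine div_le_div₀ zero_le_one ?_ h3 (h2 x)
          simpa [eX] using LBar_abs_coord (eX j) i
        have a2 : |x i * x j / √(‖x‖ ^ 2 + δ) ^ 3| ≤ 1 / √δ := by
          have := h0 x
          rw [abs_div, abs_mul, abs_of_pos (pow_pos (h0 x) 3)]
          calc _ ≤ √(‖x‖ ^ 2 + δ) * √(‖x‖ ^ 2 + δ) / √(‖x‖ ^ 2 + δ) ^ 3 := by
                gcongr <;> exact h1 x _
            _ = 1 / √(‖x‖ ^ 2 + δ) := by field_simp
            _ ≤ _ := one_div_le_one_div_of_le h3 (h2 x)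
        refine (abs_sub _ _).trans ?_
        have : 2 / √δ = 1 / √δ + 1 / √δ := by ring
        linarith)
    have e : (fun x => (∑ i, pd eX (fun x : X => x i * (√(‖x‖ ^ 2 + δ))⁻¹) i x) * u x ^ 2 +
        2 * u x * gd (fun i (x : X) => x i * (√(‖x‖ ^ 2 + δ))⁻¹) g x) = fun x =>
        (3 / √(‖x‖ ^ 2 + δ) - ‖x‖ ^ 2 / √(‖x‖ ^ 2 + δ) ^ 3) * u x ^ 2 +
        2 * ∑ i, g i x * (u x * (x i / √(‖x‖ ^ 2 + δ))) := by
      funext x
      have hn := LHardy_norm_sq x
      simp only [O1_pd2 hδ, gd, Fin.sum_univ_three] at hn ⊢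
      generalize √(‖x‖ ^ 2 + δ) = r
      rw [hn]
      simp [eX]
      ring
    rw [e] at this
    exact this
  refine tendsto_nhds_unique (tendsto_integral_of_dominated_convergence
    (fun x => 4 * (u x ^ 2 / ‖x‖) + 2 * ∑ i, |g i x * u x|) (fun n => (key _ (hδ n)).1.1)
    (((O1_coul h).const_mul _).add (Integrable.const_mul (integrable_finsetSum _ fun i _ =>
      ((h.gl2 i).integrable_mul h.l2).abs) _)) (fun n => ?_) ?_)
    (by simp only [fun n => (key _ (hδ n)).2]; exact tendsto_const_nhds)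
  · filter_upwards [O1_ne] with x hx
    have h0 := norm_pos_iff.2 hx
    have h1 := O1_le (hδ n) x
    generalize √(‖x‖ ^ 2 + 1 / (n + 1)) = r at h1
    have hr : 0 < r := h0.trans_le h1
    refine (norm_add_le _ _).trans (add_le_add ?_ ?_)
    · rw [norm_mul, Real.norm_of_nonneg (sq_nonneg _), mul_div_assoc', mul_div_right_comm]
      gcongr
      have a1 : 3 / r ≤ 3 / ‖x‖ := by gcongr
      have a2 : ‖x‖ ^ 2 / r ^ 3 ≤ 1 / ‖x‖ := by
        calc _ ≤ ‖x‖ ^ 2 / ‖x‖ ^ 3 := by gcongr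
          _ = _ := by field_simp
      have a3 : 4 / ‖x‖ = 3 / ‖x‖ + 1 / ‖x‖ := by ring
      refine (norm_sub_le _ _).trans ?_
      rw [Real.norm_of_nonneg (by positivity), Real.norm_of_nonneg (by positivity)]
      linarith
    · rw [norm_mul, Real.norm_two]
      gcongr
      refine (norm_sum_le _ _).trans (Finset.sum_le_sum fun i _ => ?_)
      rw [← mul_assoc, Real.norm_eq_abs, abs_mul, abs_div, abs_of_pos hr]
      exact mul_le_of_le_one_right (abs_nonneg _)
        (div_le_one_of_le₀ ((LBar_abs_coord x i).trans h1) hr.le)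
  · filter_upwards [O1_ne] with x hx
    have h0 := norm_pos_iff.2 hx
    have h1 := O1_tend x
    have e : 2 * (u x ^ 2 / ‖x‖) = (3 / ‖x‖ - ‖x‖ ^ 2 / ‖x‖ ^ 3) * u x ^ 2 := by
      field_simp
      ring
    rw [e]
    exact (((tendsto_const_nhds.div h1 h0.ne').sub
      (tendsto_const_nhds.div (h1.pow 3) (pow_pos h0 3).ne')).mul_const
      _).add (Tendsto.const_mul _ (tendsto_finsetSum _ fun i _ =>
        ((tendsto_const_nhds.div h1 h0.ne').const_mul _).const_mul _))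

/-- `∫ ∇(u²)·x / r = -∫ 2 u² / r`: `H1.ibp` for `u` and `u x_i / √(δ² + ‖x‖²)`, `δ → 0`
(`coul_le`). -/
theorem hyd_ident {u : X → ℝ} {g : Fin 3 → X → ℝ} (h : H1 eX u g) :
    Integrable (Dh u g) ∧ qf (fun x => -1 / ‖x‖) u g + nsq u / 2 = (∫ x, Dh u g x) / 2 := by
  refine ⟨O1_int h, ?_⟩
  have i1 : Integrable fun x => ∑ i, g i x * (u x * (x i / ‖x‖)) :=
    integrable_finsetSum _ fun i _ => (h.gl2 i).integrable_mul (O1_mul h.l2 i)
  have h1 := O1_div h
  rw [LWD_int2 (O1_coul h) i1] at h1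
  have h2 : ∫ x, Dh u g x =
      ∫ x, (1 * gs g x + 2 * ∑ i, g i x * (u x * (x i / ‖x‖)) + 1 * u x ^ 2) := by
    refine integral_congr_ae ?_
    filter_upwards [O1_ne] with x hx
    have := O1_sum hx
    simp only [Dh, gs, Fin.sum_univ_three] at this ⊢
    linear_combination u x ^ 2 * this
  have h3 : ∫ x, -1 / ‖x‖ * u x ^ 2 = -∫ x, u x ^ 2 / ‖x‖ := by
    rw [← integral_neg]
    congr 1
    funext x
    ring
  rw [h2, LWD_int3 h.integrable_gs i1 h.integrable_sq, qf, h3, dir, nsq]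
  linarith

theorem hyd_ext {u : X → ℝ} {g : Fin 3 → X → ℝ} (h : H1 eX u g) (h0 : ∀ᵐ x, ‖x‖ ≤ 4 → u x = 0) :
    nsq u ≤ 2 * ∫ x, Dh u g x := by
  have h1 := (hyd_ident h).2
  have h2 : ∫ x, -1 / 4 * u x ^ 2 ≤ ∫ x, -1 / ‖x‖ * u x ^ 2 := by
    refine integral_mono_ae (h.integrable_sq.const_mul _)
      ((O1_coul h).neg.congr (Eventually.of_forall fun x => by simp only [Pi.neg_apply]; ring)) ?_
    filter_upwards [h0] with x hx
    by_cases h4 : ‖x‖ ≤ 4
    · simp [hx h4]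
    · have : 1 / ‖x‖ ≤ 1 / 4 := one_div_le_one_div_of_le (by norm_num) (not_le.1 h4).le
      rw [neg_div, neg_div]
      gcongr
  rw [integral_const_mul] at h2
  have := dir_nonneg g
  unfold qf nsq at *
  linarith

theorem O1_ball {u : X → ℝ} {g : Fin 3 → X → ℝ} (h : H1 eX u g) : ∃ a : ℝ,
    ∫ x in Metric.closedBall (0 : X) 5, (u x - a * hyd x) ^ 2 ≤
      1600 * Real.exp 10 * ∫ x, Dh u g x := by
  have he := O1_comp Real.hasDerivAt_exp Real.continuous_exp
  have hc : Continuous fun x : X => Real.exp ‖x‖ := by fun_prop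
  have hK : IsCompact (Metric.closedBall (0 : X) 5) := isCompact_closedBall _ _
  have e : ∀ i (x : X), Real.exp ‖x‖ * (x i / ‖x‖) * u x + Real.exp ‖x‖ * g i x =
      Real.exp ‖x‖ * (g i x + u x * (x i / ‖x‖)) := fun i x => by ring
  have hw := he.mul h.h1l (LWD_l2l_mul h.h1l.l2 hc) fun i => by
    simp only [e]
    exact LWD_l2l_mul (L2l.of_memLp ((h.gl2 i).add (O1_mul h.l2 i))) hc
  obtain ⟨m, hm⟩ := poinc_mean hw (convex_closedBall 0 5) hK.measurableSet (d := 10)
    fun x hx y hy => by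
      have := dist_triangle_right x y 0
      have := Metric.mem_closedBall.1 hx
      have := Metric.mem_closedBall.1 hy
      linarith
  have hD : ∀ x, 0 ≤ Dh u g x := fun x => Finset.sum_nonneg fun _ _ => sq_nonneg _
  refine ⟨m * √(nsq fun y : X => Real.exp (-‖y‖)), le_trans ?_ (hm.trans ?_)⟩
  · refine integral_mono_of_nonneg (Eventually.of_forall fun _ => sq_nonneg _) ?_
      (Eventually.of_forall fun x => ?_)
    · have : IsFiniteMeasure (volume.restrict (Metric.closedBall (0 : X) 5)) :=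
        isFiniteMeasure_restrict.2 hK.measure_lt_top.ne
      exact ((hw.l2 _ hK).sub (memLp_const m)).integrable_sq
    · have h1 := Real.sqrt_pos.2 O1_pos
      have h2 : u x - m * √(nsq fun y : X => Real.exp (-‖y‖)) * hyd x =
          Real.exp (-‖x‖) * (Real.exp ‖x‖ * u x - m) := by
        rw [hyd, Real.exp_neg]
        field_simp
      have h3 : Real.exp (-‖x‖) ^ 2 ≤ 1 :=
        pow_le_one₀ (Real.exp_pos _).le (Real.exp_le_one_iff.2 (by simp))
      simp only [h2, mul_pow]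
      exact mul_le_of_le_one_left (sq_nonneg _) h3
  · rw [show (16 : ℝ) * 10 ^ 2 = 1600 by norm_num, mul_assoc, ← integral_const_mul (Real.exp 10)]
    gcongr
    refine le_trans (integral_mono_of_nonneg (Eventually.of_forall fun _ => gs_nonneg _ _)
      ((O1_int h).const_mul _).integrableOn ?_) (setIntegral_le_integral ((O1_int h).const_mul _)
        (Eventually.of_forall fun x => mul_nonneg (Real.exp_pos _).le (hD x)))
    filter_upwards [ae_restrict_mem hK.measurableSet] with x hx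
    have h1 : Real.exp ‖x‖ ^ 2 ≤ Real.exp 10 := by
      have : ‖x‖ ≤ 5 := by simpa using hx
      rw [← Real.exp_nat_mul]
      gcongr
      push_cast
      linarith
    calc _ = Real.exp ‖x‖ ^ 2 * Dh u g x := by
          simp only [gs, e, mul_pow, Dh, Finset.mul_sum]
      _ ≤ _ := mul_le_mul_of_nonneg_right h1 (hD x)

theorem O1_glob : ∃ M : ℝ, 0 < M ∧ ∀ (v : X → ℝ) (k : Fin 3 → X → ℝ), H1 eX v k →
    nsq v ≤ 4 * (∫ x, Dh v k x) + (1 + 4 * M) * ∫ x in Metric.closedBall (0 : X) 5, v x ^ 2 := by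
  obtain ⟨M, hM, hcut⟩ := exists_cut_ball
  obtain ⟨ζ, z1, z2, z3, z4, z5, -, z6, z7, -⟩ := hcut 0 4 1 (by norm_num) one_pos
  simp only [sub_zero, one_pow, div_one] at z4 z5 z6 z7
  refine ⟨M, hM, fun v k h => ?_⟩
  have hK : MeasurableSet (Metric.closedBall (0 : X) 5) := Metric.isClosed_closedBall.measurableSet
  have hz := h.sub (h.h1l.mul_c1c z1 z2)
  have h1 := hyd_ext hz (Eventually.of_forall fun x hx => by simp [z4 x hx])
  have iv := h.integrable_sq.indicator hK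
  have h2 : nsq v ≤ ∫ x, (1 * (Metric.closedBall (0 : X) 5).indicator (fun x => v x ^ 2) x +
      1 * (v x - ζ x * v x) ^ 2) := by
    refine integral_mono h.integrable_sq ((iv.const_mul _).add (hz.integrable_sq.const_mul _))
      fun x => ?_
    by_cases hx : x ∈ Metric.closedBall (0 : X) 5
    · simp only [indicator_of_mem hx]
      nlinarith [sq_nonneg (v x - ζ x * v x)]
    · have : 5 < ‖x‖ := by simpa using hx
      simp [indicator_of_notMem hx, z5 x (by linarith)]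
  have h3 : ∫ x, Dh (fun x => v x - ζ x * v x)
      (fun i x => k i x - (ζ x * k i x + pd eX ζ i x * v x)) x ≤ ∫ x, (2 * Dh v k x +
      2 * M * (Metric.closedBall (0 : X) 5).indicator (fun x => v x ^ 2) x) := by
    refine integral_mono (O1_int hz) (((O1_int h).const_mul _).add (iv.const_mul _)) fun x => ?_
    have a1 : gs (pd eX ζ) x * v x ^ 2 ≤
        M * (Metric.closedBall (0 : X) 5).indicator (fun x => v x ^ 2) x := by
      by_cases hx : x ∈ Metric.closedBall (0 : X) 5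
      · simp only [indicator_of_mem hx]
        exact mul_le_mul_of_nonneg_right (z6 x) (sq_nonneg _)
      · have : 5 < ‖x‖ := by simpa using hx
        simp [indicator_of_notMem hx, z7 x (Or.inr (by linarith))]
    have a2 : Dh (fun x => v x - ζ x * v x)
        (fun i x => k i x - (ζ x * k i x + pd eX ζ i x * v x)) x ≤
        2 * Dh v k x + 2 * (gs (pd eX ζ) x * v x ^ 2) := by
      simp only [Dh, gs, Finset.mul_sum, Finset.sum_mul, ← Finset.sum_add_distrib]
      refine Finset.sum_le_sum fun i _ => ?_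
      have b1 : ((1 - ζ x) * (k i x + v x * (x i / ‖x‖))) ^ 2 ≤
          (k i x + v x * (x i / ‖x‖)) ^ 2 := by
        rw [mul_pow]
        exact mul_le_of_le_one_left (sq_nonneg _)
          (pow_le_one₀ (by linarith [z3 x]) (by linarith [z3 x]))
      nlinarith [sq_nonneg ((1 - ζ x) * (k i x + v x * (x i / ‖x‖)) + pd eX ζ i x * v x)]
    simp only
    linarith
  rw [LWD_int2 iv hz.integrable_sq, integral_indicator hK] at h2
  rw [LWD_int2 (O1_int h) iv, integral_indicator hK] at h3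
  unfold nsq at *
  linarith

/-- `w = u exp ‖x‖ ∈ H¹_loc` has the gradient `exp ‖x‖ (∇u + u x / ‖x‖)`.  `poinc_mean` on the ball
of radius `5` gives `m`; put `v = u - m exp (-‖x‖)`, `Dh v = Dh u`; `nsq u - ⟨hyd, u⟩² ≤ nsq v ≤
∫_{B₅} v² + nsq ((1 - χ) v)` with `χ` from `exists_cut_ball` (radius `4`, width `1`); `hyd_ext`. -/
theorem hyd_gap : ∃ c : ℝ, 0 < c ∧ c ≤ 1 / 4 ∧ ∀ (u : X → ℝ) (g : Fin 3 → X → ℝ), H1 eX u g →
    -1 / 2 * nsq u + c * (nsq u - ip hyd u ^ 2) ≤ qf (fun x => -1 / ‖x‖) u g := by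
  obtain ⟨M, hM, hg⟩ := O1_glob
  have hK : 0 < (1 + 4 * M) * (1600 * Real.exp 10) := by positivity
  refine ⟨1 / (2 * (4 + (1 + 4 * M) * (1600 * Real.exp 10))), by positivity,
    one_div_le_one_div_of_le (by norm_num) (by linarith), fun u g h => ?_⟩
  obtain ⟨a, ha⟩ := O1_ball h
  obtain ⟨s1, s2, -⟩ := hyd_spec
  have h1 := hg _ _ (h.sub (s1.smul a))
  have e : Dh (fun x => u x - a * hyd x) (fun i x => g i x - a * -(hyd x * (x i / ‖x‖))) =
      Dh u g := by
    funext x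
    refine Finset.sum_congr rfl fun i _ => ?_
    ring
  rw [e] at h1
  have h2 := nsq_lin s1.l2 h.l2 (-a) 1
  simp only [show ∀ x, -a * hyd x + 1 * u x = u x - a * hyd x from fun x => by ring] at h2
  rw [s2] at h2
  have h3 : nsq u - ip hyd u ^ 2 ≤ (4 + (1 + 4 * M) * (1600 * Real.exp 10)) * ∫ x, Dh u g x := by
    have := mul_le_mul_of_nonneg_left ha (by positivity : 0 ≤ 1 + 4 * M)
    nlinarith [sq_nonneg (a - ip hyd u)]
  have h4 : 1 / (2 * (4 + (1 + 4 * M) * (1600 * Real.exp 10))) * (nsq u - ip hyd u ^ 2) ≤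
      (∫ x, Dh u g x) / 2 := by
    rw [div_mul_eq_mul_div, div_le_div_iff₀ (by positivity) two_pos]
    linarith
  linarith [(hyd_ident h).2]

/-- `Dh (ζ hyd) = |∇ζ|² hyd²`. -/
theorem hyd_trial {ζ : X → ℝ} (hζ : ContDiff ℝ 1 ζ) (hc : HasCompactSupport ζ) :
    ∃ k, H1 eX (fun x => ζ x * hyd x) k ∧
      qf (fun x => -1 / ‖x‖) (fun x => ζ x * hyd x) k =
        -1 / 2 * nsq (fun x => ζ x * hyd x) + (∫ x, gs (pd eX ζ) x * hyd x ^ 2) / 2 := by
  have h := hyd_spec.1.h1l.mul_c1c hζ hc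
  refine ⟨_, h, ?_⟩
  have h1 := (hyd_ident h).2
  have e : Dh (fun x => ζ x * hyd x)
      (fun i x => ζ x * -(hyd x * (x i / ‖x‖)) + pd eX ζ i x * hyd x) =
      fun x => gs (pd eX ζ) x * hyd x ^ 2 := by
    funext x
    simp only [Dh, gs, Finset.sum_mul]
    refine Finset.sum_congr rfl fun i _ => ?_
    ring
  rw [e] at h1
  linarith

end Crest.Agent.R335
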