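import Crest.Agent.R335.O1
import Crest.Agent.R335.TS

/-! Row 335. Two centres: IMS localisation. -/

set_option autoImplicit false

open MeasureTheory Set Filter Topology
open scoped ENNReal

noncomputable section

namespace Crest.Agent.R335

/-- The IMS formula. -/
theorem ims {U : X → ℝ} {C : ℝ} (hU : FB eX U C) {χ₁ χ₂ : X → ℝ} (h1 : ContDiff ℝ 1 χ₁)
    (h2 : ContDiff ℝ 1 χ₂) (hs : ∀ x, χ₁ x ^ 2 + χ₂ x ^ 2 = 1) {M : ℝ}
    (hM : ∀ x, gs (pd eX χ₁) x + gs (pd eX χ₂) x ≤ M) {u : X → ℝ} {g : Fin 3 → X → ℝ}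
    (hu : H1 eX u g) :
    H1 eX (fun x => χ₁ x * u x) (fun i x => χ₁ x * g i x + pd eX χ₁ i x * u x) ∧
    H1 eX (fun x => χ₂ x * u x) (fun i x => χ₂ x * g i x + pd eX χ₂ i x * u x) ∧
    qf U (fun x => χ₁ x * u x) (fun i x => χ₁ x * g i x + pd eX χ₁ i x * u x) +
        qf U (fun x => χ₂ x * u x) (fun i x => χ₂ x * g i x + pd eX χ₂ i x * u x) ≤
      qf U u g + M / 2 * nsq u := by
  have hM0 : 0 ≤ M := (add_nonneg (gs_nonneg _ 0) (gs_nonneg _ 0)).trans (hM 0)
  have hpd : ∀ (p : Fin 3 → X → ℝ) (x : X), gs p x ≤ M → ∀ i, |p i x| ≤ 1 + M := by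
    intro p x h i
    have h1 : p i x ^ 2 ≤ gs p x :=
      Finset.single_le_sum (f := fun i => p i x ^ 2) (fun _ _ => sq_nonneg _) (Finset.mem_univ i)
    rw [abs_le]
    constructor <;> nlinarith [sq_nonneg (p i x - 1), sq_nonneg (p i x + 1)]
  have H1' := hu.mul_bdd h1 (M := 1 + M)
    (fun x => (abs_le_of_sq_le_sq (b := 1) (by nlinarith [hs x, sq_nonneg (χ₂ x)])
      zero_le_one).trans (by linarith))
    (fun i x => hpd _ x (by linarith [hM x, gs_nonneg (pd eX χ₂) x]) i)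
  have H2' := hu.mul_bdd h2 (M := 1 + M)
    (fun x => (abs_le_of_sq_le_sq (b := 1) (by nlinarith [hs x, sq_nonneg (χ₁ x)])
      zero_le_one).trans (by linarith))
    (fun i x => hpd _ x (by linarith [hM x, gs_nonneg (pd eX χ₁) x]) i)
  refine ⟨H1', H2', ?_⟩
  have hd : ∀ i x, χ₁ x * pd eX χ₁ i x + χ₂ x * pd eX χ₂ i x = 0 := by
    intro i x
    have d1 := (h1.differentiable one_ne_zero x).hasFDerivAt
    have d2 := (h2.differentiable one_ne_zero x).hasFDerivAt
    have d3 := (d1.mul d1).add (d2.mul d2)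
    have e : (χ₁ * χ₁ + χ₂ * χ₂) = fun _ => (1 : ℝ) := by
      funext y
      simp only [Pi.add_apply, Pi.mul_apply]
      linarith [hs y]
    rw [e] at d3
    have d4 := congrArg (fun L : X →L[ℝ] ℝ => L (eX i)) (d3.unique (hasFDerivAt_const 1 x))
    simp only [ContinuousLinearMap.add_apply, ContinuousLinearMap.smul_apply, smul_eq_mul,
      ContinuousLinearMap.zero_apply] at d4
    unfold pd
    linarith
  have hgs : ∀ x, gs (fun i x => χ₁ x * g i x + pd eX χ₁ i x * u x) x +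
      gs (fun i x => χ₂ x * g i x + pd eX χ₂ i x * u x) x ≤ gs g x + M * u x ^ 2 := by
    intro x
    have e : gs (fun i x => χ₁ x * g i x + pd eX χ₁ i x * u x) x +
        gs (fun i x => χ₂ x * g i x + pd eX χ₂ i x * u x) x =
        gs g x + (gs (pd eX χ₁) x + gs (pd eX χ₂) x) * u x ^ 2 := by
      unfold gs
      rw [← Finset.sum_add_distrib, ← Finset.sum_add_distrib, Finset.sum_mul,
        ← Finset.sum_add_distrib]
      refine Finset.sum_congr rfl fun i _ => ?_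
      linear_combination (g i x ^ 2) * hs x + 2 * g i x * u x * hd i x
    rw [e]
    exact add_le_add le_rfl (mul_le_mul_of_nonneg_right (hM x) (sq_nonneg _))
  have a1 : dir (fun i x => χ₁ x * g i x + pd eX χ₁ i x * u x) +
      dir (fun i x => χ₂ x * g i x + pd eX χ₂ i x * u x) ≤ dir g + M * nsq u := by
    unfold dir nsq
    have i1 : Integrable fun x => M * u x ^ 2 := hu.integrable_sq.const_mul M
    rw [← integral_add H1'.integrable_gs H2'.integrable_gs, ← integral_const_mul,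
      ← integral_add hu.integrable_gs i1]
    exact integral_mono (H1'.integrable_gs.add H2'.integrable_gs) (hu.integrable_gs.add i1) hgs
  have a2 : (∫ x, U x * (χ₁ x * u x) ^ 2) + ∫ x, U x * (χ₂ x * u x) ^ 2 = ∫ x, U x * u x ^ 2 := by
    rw [← integral_add (hU.int _ _ H1') (hU.int _ _ H2')]
    refine integral_congr_ae (Eventually.of_forall fun x => ?_)
    linear_combination (U x * u x ^ 2) * hs x
  unfold qf
  linarith

theorem O2_line {F F' : ℝ → ℝ} (hF : ∀ z, HasDerivAt F (F' z) z) (hc : Continuous F') :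
    ContDiff ℝ 1 (fun x : X => F (x 2)) ∧
      ∀ x : X, gs (pd eX fun x : X => F (x 2)) x = F' (x 2) ^ 2 := by
  have h1 : ContDiff ℝ 1 F := by
    rw [contDiff_one_iff_deriv]
    refine ⟨fun z => (hF z).differentiableAt, ?_⟩
    rw [show deriv F = F' from funext fun z => (hF z).deriv]
    exact hc
  let L : X →L[ℝ] ℝ := EuclideanSpace.proj (2 : Fin 3)
  refine ⟨h1.comp L.contDiff, fun x => ?_⟩
  have h2 : HasFDerivAt (fun x : X => F (x 2)) (F' (x 2) • L) x :=
    (hF (x 2)).comp_hasFDerivAt x L.hasFDerivAt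
  unfold gs pd
  rw [h2.fderiv]
  simp [L, eX, Fin.sum_univ_three]

/-- `χ₁ = sin (π ϑ(z) / 2)`, `χ₂ = cos (π ϑ(z) / 2)`, `ϑ z = (1 + χ z - χ (-z)) / 2` with `χ` from
`exists_cut_line` (`a = -D / 2`, `L = D`). -/
theorem exists_ims : ∃ M : ℝ, ∀ D : ℝ, 0 < D → ∃ χ₁ : X → ℝ, ContDiff ℝ 1 χ₁ ∧
    (∀ x, χ₁ x ^ 2 + χ₁ (P x) ^ 2 = 1) ∧ (∀ x : X, D / 2 ≤ x 2 → χ₁ x = 1) ∧
    (∀ x : X, x 2 ≤ -(D / 2) → χ₁ x = 0) ∧ (∀ x, 0 ≤ χ₁ x ∧ χ₁ x ≤ 1) ∧
    ∀ x, gs (pd eX χ₁) x ≤ M / D ^ 2 := by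
  obtain ⟨M, hM, h⟩ := exists_cut_line
  refine ⟨4 * M ^ 2, fun D hD => ?_⟩
  obtain ⟨χ, χ', χ'', d1, d2, -, h01, h0, h1, hb, -, -⟩ := h (-(D / 2)) D hD
  have hc' : Continuous χ' := continuous_iff_continuousAt.2 fun z => (d2 z).continuousAt
  have hc : Continuous χ := continuous_iff_continuousAt.2 fun z => (d1 z).continuousAt
  have hF : ∀ z, HasDerivAt (fun z => Real.sin (Real.pi / 4 * (1 + χ z - χ (-z))))
      (Real.cos (Real.pi / 4 * (1 + χ z - χ (-z))) * (Real.pi / 4 * (χ' z + χ' (-z)))) z := by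
    intro z
    have a1 : HasDerivAt (fun z => χ (-z)) (χ' (-z) * -1) z := (d1 (-z)).comp z (hasDerivAt_neg z)
    have a2 := ((((d1 z).const_add 1).sub a1).const_mul (Real.pi / 4)).sin
    rw [mul_neg, mul_one, sub_neg_eq_add] at a2
    exact a2
  obtain ⟨k1, k2⟩ := O2_line hF (by fun_prop)
  have hpi := Real.pi_pos
  refine ⟨_, k1, fun x => ?_, fun x hx => ?_, fun x hx => ?_, fun x => ⟨?_, Real.sin_le_one _⟩,
    fun x => ?_⟩
  · simp only [P_two, neg_neg]
    rw [show Real.pi / 4 * (1 + χ (-x 2) - χ (x 2)) =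
      Real.pi / 2 - Real.pi / 4 * (1 + χ (x 2) - χ (-x 2)) by ring, Real.sin_pi_div_two_sub,
      Real.sin_sq_add_cos_sq]
  · simp only
    rw [h1 (x 2) (by linarith), h0 (-x 2) (by linarith),
      show Real.pi / 4 * (1 + 1 - 0) = Real.pi / 2 by ring, Real.sin_pi_div_two]
  · simp only
    rw [h0 (x 2) hx, h1 (-x 2) (by linarith)]
    simp
  · refine Real.sin_nonneg_of_nonneg_of_le_pi ?_ ?_
    · exact mul_nonneg (by positivity) (by linarith [(h01 (x 2)).1, (h01 (-x 2)).2])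
    · nlinarith [(h01 (x 2)).2, (h01 (-x 2)).1]
  · rw [k2, mul_pow]
    have a1 : 0 ≤ χ' (x 2) + χ' (-x 2) := add_nonneg (hb _).1 (hb _).1
    have a2 : Real.pi / 4 * (χ' (x 2) + χ' (-x 2)) ≤ 1 * (2 * (M / D)) :=
      mul_le_mul (by linarith [Real.pi_le_four]) (by linarith [(hb (x 2)).2, (hb (-x 2)).2]) a1
        zero_le_one
    have a3 := pow_le_pow_left₀ (by positivity) a2 2
    calc _ ≤ 1 * (1 * (2 * (M / D))) ^ 2 :=
          mul_le_mul (Real.cos_sq_le_one _) a3 (sq_nonneg _) zero_le_one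
      _ = _ := by ring

/-- What the localisation gives in the sector of parity `s`. -/
def Loc2 (c η D s : ℝ) : Prop :=
  ∃ (u₀ : X → ℝ) (g₀ : Fin 3 → X → ℝ), H1 eX u₀ g₀ ∧ (∀ x, u₀ (P x) = s * u₀ x) ∧ nsq u₀ = 1 ∧
    (∀ x : X, |x 2| < D / 2 → u₀ x = 0) ∧ qf (V D) u₀ g₀ ≤ -1 / 2 + η ∧
    ∀ u g, H1 eX u g → (∀ x, u (P x) = s * u x) →
      (-1 / 2 - η) * nsq u + c * (nsq u - ip u₀ u ^ 2) ≤ qf (V D) u g

/-- The tail of the hydrogen ground state. -/
def O2_T (r : ℝ) : ℝ := ∫ x : X, if r < ‖x‖ then hyd x ^ 2 else 0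

theorem O2_T_int (r : ℝ) : Integrable fun x : X => if r < ‖x‖ then hyd x ^ 2 else 0 := by
  have h := hyd_spec.1.integrable_sq.indicator (s := {x : X | r < ‖x‖})
    (measurableSet_lt measurable_const measurable_norm)
  refine h.congr (Eventually.of_forall fun x => ?_)
  simp [indicator]

theorem O2_tail : Tendsto O2_T atTop (𝓝 0) := by
  have h := tendsto_integral_filter_of_dominated_convergence (μ := (volume : Measure X))
    (l := atTop) (F := fun (r : ℝ) (x : X) => if r < ‖x‖ then hyd x ^ 2 else 0)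
    (f := fun _ => 0) (fun x => hyd x ^ 2)
    (Eventually.of_forall fun r => (O2_T_int r).aestronglyMeasurable)
    (Eventually.of_forall fun r => Eventually.of_forall fun x => by
      split_ifs
      · rw [Real.norm_eq_abs, abs_of_nonneg (sq_nonneg _)]
      · rw [norm_zero]; exact sq_nonneg _)
    hyd_spec.1.integrable_sq
    (Eventually.of_forall fun x => tendsto_const_nhds.congr' (by
      filter_upwards [eventually_ge_atTop ‖x‖] with r hr
      rw [if_neg (not_lt.2 hr)]))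
  rw [integral_zero] at h
  exact h

theorem O2_nsq_add (u : X → ℝ) (a : X) : nsq (fun x => u (x + a)) = nsq u :=
  integral_add_right_eq_self (fun x => u x ^ 2) a

theorem O2_ip_add (u w : X → ℝ) (a : X) :
    ip (fun x => u (x + a)) (fun x => w (x + a)) = ip u w :=
  integral_add_right_eq_self (fun x => u x * w x) a

theorem O2_qf_add (U u : X → ℝ) (g : Fin 3 → X → ℝ) (a : X) :
    qf (fun x => U (x + a)) (fun x => u (x + a)) (fun i x => g i (x + a)) = qf U u g := by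
  unfold qf dir
  rw [← integral_add_right_eq_self (gs g) a,
    ← integral_add_right_eq_self (fun x => U x * u x ^ 2) a]
  rfl

theorem O2_qf_V (D : ℝ) {u : X → ℝ} {g : Fin 3 → X → ℝ} (h : H1 eX u g) :
    qf (V D) u g = qf (fun x => -1 / ‖x‖) (fun x => u (x + Rn D)) (fun i x => g i (x + Rn D)) -
      ∫ x, u x ^ 2 / ‖x - -Rn D‖ := by
  have h0 := O2_qf_add (fun x => -1 / ‖x - Rn D‖) u g (Rn D)
  simp only [add_sub_cancel_right] at h0
  rw [h0]
  have h1 : Integrable fun x => -(u x ^ 2 / ‖x - Rn D‖) := (coul_le h (Rn D) one_pos).1.neg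
  have h2 := (coul_le h (-Rn D) one_pos).1
  have e1 : ∫ x, V D x * u x ^ 2 = ∫ x, (-(u x ^ 2 / ‖x - Rn D‖) - u x ^ 2 / ‖x - -Rn D‖) := by
    refine integral_congr_ae (Eventually.of_forall fun x => ?_)
    simp only [V, sub_neg_eq_add]
    ring
  have e2 : ∫ x, -1 / ‖x - Rn D‖ * u x ^ 2 = ∫ x, -(u x ^ 2 / ‖x - Rn D‖) :=
    integral_congr_ae (Eventually.of_forall fun x => by ring)
  unfold qf
  rw [e1, e2, integral_sub h1 h2]
  ring

theorem O2_qf_P (D : ℝ) (u : X → ℝ) (g : Fin 3 → X → ℝ) :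
    qf (V D) (fun x => u (P x)) (fun i x => sg i * g i (P x)) = qf (V D) u g := by
  unfold qf dir
  rw [← integral_P (gs g), ← integral_P (fun x => V D x * u x ^ 2)]
  simp only [gs_P, V_P]

theorem O2_qf_smul (U u : X → ℝ) (g : Fin 3 → X → ℝ) (a : ℝ) :
    qf U (fun x => a * u x) (fun i x => a * g i x) = a ^ 2 * qf U u g := by
  unfold qf dir
  have e1 : ∀ x, gs (fun i x => a * g i x) x = a ^ 2 * gs g x := by
    intro x
    unfold gs
    rw [Finset.mul_sum]
    exact Finset.sum_congr rfl fun i _ => by ring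
  have e2 : ∀ x, U x * (a * u x) ^ 2 = a ^ 2 * (U x * u x ^ 2) := fun x => by ring
  simp only [e1, e2, integral_const_mul]
  ring

theorem O2_Rn_two (D : ℝ) : Rn D 2 = D := by simp [Rn]

/-- The localised trial state. -/
theorem O2_trial : ∃ M : ℝ, 0 < M ∧ ∀ D : ℝ, 0 < D → ∃ (φ : X → ℝ) (k : Fin 3 → X → ℝ),
    H1 eX φ k ∧ (∀ x : X, x 2 ≤ D / 2 → φ x = 0) ∧ nsq φ ≤ 1 ∧ 1 - O2_T (D / 4) ≤ nsq φ ∧
    nsq (fun x => hyd (x + -Rn D) - φ x) ≤ O2_T (D / 4) ∧
    qf (V D) φ k ≤ -1 / 2 * nsq φ + M / D ^ 2 := by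
  obtain ⟨M, hM, h⟩ := exists_cut_ball
  refine ⟨8 * M, by positivity, fun D hD => ?_⟩
  obtain ⟨ζ, hζ, hζc, h01, h1, h0, -, hg, -, -⟩ := h 0 (D / 4) (D / 4) (by positivity)
    (by positivity)
  simp only [sub_zero] at h1 h0
  obtain ⟨k, hk, hq⟩ := hyd_trial hζ hζc
  obtain ⟨hh, hn, -, -⟩ := hyd_spec
  have hk' := hk.comp_add (-Rn D)
  have hns : nsq (fun x => ζ (x + -Rn D) * hyd (x + -Rn D)) = nsq fun x => ζ x * hyd x :=
    O2_nsq_add (fun x => ζ x * hyd x) _
  refine ⟨_, _, hk', fun x hx => ?_, ?_, ?_, ?_, ?_⟩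
  · have h2 := abs_two_le (x + -Rn D)
    rw [PiLp.add_apply, PiLp.neg_apply, O2_Rn_two] at h2
    rw [h0 _ (by linarith [neg_abs_le (x 2 + -D)]), zero_mul]
  · rw [hns, ← hn]
    refine integral_mono hk.integrable_sq hh.integrable_sq fun x => ?_
    have := h01 x
    simp only [mul_pow]
    exact mul_le_of_le_one_left (sq_nonneg _) (by nlinarith)
  · rw [hns, ← hn, sub_le_iff_le_add]
    unfold nsq O2_T
    rw [← integral_add hk.integrable_sq (O2_T_int _)]
    refine integral_mono hh.integrable_sq (hk.integrable_sq.add (O2_T_int _)) fun x => ?_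
    simp only
    split_ifs with hx
    · linarith [sq_nonneg (ζ x * hyd x)]
    · rw [h1 x (not_lt.1 hx), one_mul, add_zero]
  · rw [O2_nsq_add (fun x => hyd x - ζ x * hyd x)]
    refine integral_mono (hh.sub hk).integrable_sq (O2_T_int _) fun x => ?_
    simp only
    split_ifs with hx
    · have := h01 x
      rw [show hyd x - ζ x * hyd x = (1 - ζ x) * hyd x by ring, mul_pow]
      exact mul_le_of_le_one_left (sq_nonneg _) (by nlinarith)
    · rw [h1 x (not_lt.1 hx), one_mul, sub_self]; norm_num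
  · rw [O2_qf_V D hk', hns]
    simp only [add_neg_cancel_right]
    rw [hq]
    have a1 : 0 ≤ ∫ x, (ζ (x + -Rn D) * hyd (x + -Rn D)) ^ 2 / ‖x - -Rn D‖ :=
      integral_nonneg fun x => by positivity
    have a2 : ∫ x, gs (pd eX ζ) x * hyd x ^ 2 ≤ ∫ x, M / (D / 4) ^ 2 * hyd x ^ 2 :=
      integral_mono_of_nonneg
        (Eventually.of_forall fun x => mul_nonneg (gs_nonneg _ _) (sq_nonneg _))
        (hh.integrable_sq.const_mul _)
        (Eventually.of_forall fun x => mul_le_mul_of_nonneg_right (hg x) (sq_nonneg _))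
    rw [integral_const_mul] at a2
    have a3 : ∫ x, hyd x ^ 2 = 1 := hn
    have a4 : M / (D / 4) ^ 2 = 2 * (8 * M / D ^ 2) := by field_simp; ring
    rw [a3, a4] at a2
    linarith

/-- The symmetrised state. -/
theorem O2_sym {D s : ℝ} (hD : 0 < D) (hs : s ^ 2 = 1) {φ : X → ℝ} {k : Fin 3 → X → ℝ}
    (h : H1 eX φ k) (h0 : ∀ x : X, x 2 ≤ D / 2 → φ x = 0) (hn : 0 < nsq φ) :
    ∃ (u₀ : X → ℝ) (g₀ : Fin 3 → X → ℝ), H1 eX u₀ g₀ ∧ (∀ x, u₀ (P x) = s * u₀ x) ∧ nsq u₀ = 1 ∧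
      (∀ x : X, |x 2| < D / 2 → u₀ x = 0) ∧ nsq φ * qf (V D) u₀ g₀ = qf (V D) φ k ∧
      ∀ u, MemLp u 2 volume → (∀ x, u (P x) = s * u x) →
        nsq φ * ip u₀ u ^ 2 = 2 * ip φ u ^ 2 := by
  set a : ℝ := (√(2 * nsq φ))⁻¹ with ha
  have ha2 : nsq φ * a ^ 2 = 1 / 2 := by
    rw [ha, inv_pow, Real.sq_sqrt (by positivity)]
    field_simp
  have hP := h.comp_P
  have hdis : ∀ x, φ x = 0 ∨ φ (P x) = 0 := by
    intro x
    rcases le_total (x 2) 0 with hx | hx
    · exact Or.inl (h0 x (by linarith))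
    · exact Or.inr (h0 _ (by rw [P_two]; linarith))
  have hip : ip φ (fun x => φ (P x)) = 0 := by
    unfold ip
    rw [← integral_zero X ℝ]
    refine integral_congr_ae (Eventually.of_forall fun x => ?_)
    rcases hdis x with hx | hx <;> simp [hx]
  have hnP : nsq (fun x => φ (P x)) = nsq φ := integral_P fun x => φ x ^ 2
  have hbf : bf (V D) φ k (fun x => φ (P x)) (fun i x => sg i * k i (P x)) = 0 := by
    have e1 : ∫ x, gd k (fun i x => sg i * k i (P x)) x = 0 := by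
      rw [← integral_zero X ℝ]
      refine integral_congr_ae ?_
      filter_upwards [h.h1l.grad_zero, hP.h1l.grad_zero] with x h1 h2
      unfold gd
      refine Finset.sum_eq_zero fun i _ => ?_
      rcases hdis x with hx | hx
      · rw [h1 hx i, zero_mul]
      · exact mul_eq_zero_of_right _ (h2 hx i)
    have e2 : ∫ x, V D x * (φ x * φ (P x)) = 0 := by
      rw [← integral_zero X ℝ]
      refine integral_congr_ae (Eventually.of_forall fun x => ?_)
      rcases hdis x with hx | hx <;> simp [hx]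
    unfold bf
    rw [e1, e2]
    norm_num
  refine ⟨_, _, h.lin hP a (a * s), fun x => ?_, ?_, fun x hx => ?_, ?_, fun u hu hus => ?_⟩
  · simp only [P_P]
    linear_combination (-(a * φ (P x))) * hs
  · rw [nsq_lin h.l2 hP.l2, hip, hnP]
    linear_combination 2 * ha2 + nsq φ * a ^ 2 * hs
  · have := abs_lt.1 hx
    rw [h0 x this.2.le, h0 (P x) (by rw [P_two]; linarith [this.1])]
    ring
  · rw [(fb_V D).qf_lin h hP, hbf, O2_qf_P]
    linear_combination 2 * qf (V D) φ k * ha2 + nsq φ * a ^ 2 * qf (V D) φ k * hs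
  · have e1 : ip u (fun x => φ (P x)) = s * ip u φ := by
      unfold ip
      rw [← integral_P (fun x => u x * φ (P x)), ← integral_const_mul]
      refine integral_congr_ae (Eventually.of_forall fun x => ?_)
      simp only [P_P, hus]
      ring
    rw [TP_ip_comm, TP_ip_lin h.l2 hP.l2 hu, e1, TP_ip_comm u φ]
    linear_combination 4 * ip φ u ^ 2 * ha2 +
      nsq φ * a ^ 2 * ip φ u ^ 2 * (s ^ 2 + 3) * hs

theorem O2_gs_P {χ : X → ℝ} (hχ : ContDiff ℝ 1 χ) :
    ContDiff ℝ 1 (fun x => χ (P x)) ∧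
      ∀ x, gs (pd eX fun x => χ (P x)) x = gs (pd eX χ) (P x) := by
  obtain ⟨A, hA⟩ := exists_PL
  have e : P = fun x => A.toContinuousLinearEquiv.toContinuousLinearMap x :=
    funext fun x => (hA x).symm
  have hd : ∀ x, HasFDerivAt P A.toContinuousLinearEquiv.toContinuousLinearMap x := by
    intro x
    rw [e]
    exact A.toContinuousLinearEquiv.toContinuousLinearMap.hasFDerivAt
  have hc : ContDiff ℝ 1 P := by
    rw [e]
    exact A.toContinuousLinearEquiv.toContinuousLinearMap.contDiff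
  refine ⟨hχ.comp hc, fun x => ?_⟩
  rw [← gs_P]
  unfold gs
  refine Finset.sum_congr rfl fun i _ => ?_
  have h1 : HasFDerivAt (fun x => χ (P x)) _ x :=
    (hχ.differentiable one_ne_zero (P x)).hasFDerivAt.comp x (hd x)
  have h2 : A.toContinuousLinearEquiv.toContinuousLinearMap (eX i) = sg i • eX i :=
    (hA _).trans (P_eX i)
  unfold pd
  rw [h1.fderiv, ContinuousLinearMap.comp_apply, h2, map_smul, smul_eq_mul]

/-- Localisation of a symmetric state. -/
theorem O2_low : ∃ M : ℝ, ∀ D : ℝ, 0 < D → ∀ s : ℝ, s ^ 2 = 1 → ∀ u g, H1 eX u g →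
    (∀ x, u (P x) = s * u x) → ∃ v k, H1 eX v k ∧ (∀ x : X, D / 2 ≤ x 2 → v x = u x) ∧
      2 * nsq v = nsq u ∧
      2 * qf (fun x => -1 / ‖x‖) (fun x => v (x + Rn D)) (fun i x => k i (x + Rn D)) ≤
        qf (V D) u g + (M / D ^ 2 + 2 / D) * nsq u := by
  obtain ⟨M, h⟩ := exists_ims
  refine ⟨M, fun D hD s hs u g hu hus => ?_⟩
  obtain ⟨χ, hχ, hsum, h1, h0, -, hg⟩ := h D hD
  obtain ⟨hχP, hgP⟩ := O2_gs_P hχ
  obtain ⟨H₁, H₂, hq⟩ := ims (fb_V D) hχ hχP hsum (M := 2 * (M / D ^ 2))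
    (fun x => by rw [hgP]; linarith [hg x, hg (P x)]) hu
  have e0 : ∀ x, χ (P x) * u x = s * (χ (P x) * u (P x)) := by
    intro x
    rw [hus]
    linear_combination (-(χ (P x) * u x)) * hs
  have e1 := qf_congr (U := V D) H₂ (H₁.comp_P.smul s) (Eventually.of_forall e0)
  rw [O2_qf_smul, hs, one_mul] at e1
  replace e1 := e1.trans (O2_qf_P D (fun x => χ x * u x)
    (fun i x => χ x * g i x + pd eX χ i x * u x))
  have e2 : nsq (fun x => χ (P x) * u x) = nsq fun x => χ x * u x := by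
    unfold nsq
    rw [← integral_P (fun x => (χ x * u x) ^ 2)]
    refine integral_congr_ae (Eventually.of_forall fun x => ?_)
    simp only
    rw [e0 x, mul_pow, hs, one_mul]
  have e3 : nsq (fun x => χ x * u x) + nsq (fun x => χ (P x) * u x) = nsq u := by
    unfold nsq
    rw [← integral_add H₁.integrable_sq H₂.integrable_sq]
    refine integral_congr_ae (Eventually.of_forall fun x => ?_)
    linear_combination (u x ^ 2) * hsum x
  have e4 : ∫ x, (χ x * u x) ^ 2 / ‖x - -Rn D‖ ≤ ∫ x, 2 / D * (χ x * u x) ^ 2 := by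
    refine integral_mono (coul_le H₁ (-Rn D) one_pos).1 (H₁.integrable_sq.const_mul _) fun x => ?_
    simp only
    rcases le_total (x 2) (-(D / 2)) with hx | hx
    · rw [h0 x hx]; simp
    · have h2 := abs_two_le (x - -Rn D)
      rw [PiLp.sub_apply, PiLp.neg_apply, O2_Rn_two] at h2
      have h3 : D / 2 ≤ ‖x - -Rn D‖ := by linarith [le_abs_self (x 2 - -D)]
      calc _ ≤ (χ x * u x) ^ 2 / (D / 2) :=
            div_le_div_of_nonneg_left (sq_nonneg _) (by positivity) h3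
        _ = _ := by field_simp
  rw [integral_const_mul] at e4
  have e5 := O2_qf_V D H₁
  refine ⟨_, _, H₁, fun x hx => by rw [h1 x hx, one_mul], by linarith, ?_⟩
  have e6 : 2 * (2 / D * nsq fun x => χ x * u x) = 2 / D * nsq u := by
    rw [← e3, e2]; ring
  have e7 : (∫ x, (χ x * u x) ^ 2) = nsq fun x => χ x * u x := rfl
  rw [e7] at e4
  linarith

theorem O2_arith {c η n a b A N nv Q q e : ℝ} (hc : 0 < c) (hc4 : c ≤ 1 / 4) (hη : 0 < η)
    (n1 : n ≤ 1) (b2 : n * A = 2 * a ^ 2) (b3 : A ≤ N) (hA : 0 ≤ A) (hN : 0 ≤ N)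
    (hnv : 2 * nv = N) (b1 : b ^ 2 ≤ η / (1 + 1 / η) * nv)
    (h1 : -1 / 2 * nv + c * (nv - (a + b) ^ 2) ≤ Q) (hq : 2 * Q ≤ q + e * N) (he : e ≤ η / 2) :
    (-1 / 2 - η) * N + c * (N - A) ≤ q := by
  have c1 : 2 * a ^ 2 ≤ A := by
    rw [← b2]
    exact mul_le_of_le_one_left hA n1
  have c3 : (1 + 1 / η) * b ^ 2 ≤ η * nv := by
    have := mul_le_mul_of_nonneg_left b1 (by positivity : 0 ≤ 1 + 1 / η)
    rwa [← mul_assoc (1 + 1 / η) (η / (1 + 1 / η)), mul_div_cancel₀ _ (by positivity)] at this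
  have c4 : 2 * (a * b) ≤ η * a ^ 2 + 1 / η * b ^ 2 := by
    have h2 : η * a ^ 2 + 1 / η * b ^ 2 - 2 * (a * b) = (η * a - b) ^ 2 / η := by
      field_simp; ring
    have h3 : 0 ≤ (η * a - b) ^ 2 / η := by positivity
    linarith
  have c5 : η * (2 * a ^ 2) ≤ η * N := mul_le_mul_of_nonneg_left (c1.trans b3) hη.le
  have c0 : η * N = 2 * (η * nv) := by rw [← hnv]; ring
  have c6 : 2 * (a + b) ^ 2 ≤ A + 2 * (η * N) := by linarith
  have c7 := mul_le_mul_of_nonneg_left c6 hc.le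
  have c8 : c * (η * N) ≤ 1 / 4 * (η * N) := mul_le_mul_of_nonneg_right hc4 (by positivity)
  have c9 : e * N ≤ η / 2 * N := mul_le_mul_of_nonneg_right he hN
  have c10 : c * N = 2 * (c * nv) := by rw [← hnv]; ring
  linarith

/-- `u₀` is the normalised `φ + s φ ∘ P`, `φ x = (ζ hyd) (x - Rn D)`, `ζ` from `exists_cut_ball`
(centre `0`, radius `D / 4`, width `D / 4`); the two terms have disjoint supports.  Upper bound:
`hyd_trial` (the other nucleus only lowers the energy).  Lower bound: `ims` with `χ₁`, `χ₁ ∘ P`; the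
two terms are equal by the symmetry; on the support of `χ₁` the other nucleus contributes
`≥ -2 / D`; `hyd_gap` (translated, `H1.comp_add`);
`⟨hyd (· - R), χ₁ u⟩² ≤ (1 + η) ⟨φ, u⟩² + (1 + 1 / η) ∫_{‖x‖ > D/4} hyd² · nsq u` and
`⟨φ, u⟩² ≤ ⟨u₀, u⟩² / 2`. -/
theorem loc2 : ∃ c : ℝ, 0 < c ∧ c ≤ 1 / 4 ∧ ∀ η : ℝ, 0 < η → ∃ D₀ : ℝ, ∀ D : ℝ, D₀ ≤ D →
    Loc2 c η D 1 ∧ Loc2 c η D (-1) := by
  obtain ⟨c, hc, hc4, hgap⟩ := hyd_gap
  obtain ⟨M₁, hM₁, htrial⟩ := O2_trial
  obtain ⟨M₂, hlow⟩ := O2_low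
  refine ⟨c, hc, hc4, fun η hη => ?_⟩
  have hT : Tendsto (fun D : ℝ => O2_T (D / 4)) atTop (𝓝 0) :=
    O2_tail.comp (tendsto_id.atTop_div_const (by norm_num))
  have hsq : ∀ M : ℝ, Tendsto (fun D : ℝ => M / D ^ 2) atTop (𝓝 0) := fun M =>
    tendsto_const_nhds.div_atTop (tendsto_pow_atTop two_ne_zero)
  have hi : Tendsto (fun D : ℝ => 2 / D) atTop (𝓝 0) := tendsto_const_nhds.div_atTop tendsto_id
  have hη' : 0 < η / (1 + 1 / η) := by positivity
  obtain ⟨D₀, hD₀⟩ := eventually_atTop.1 ((eventually_gt_atTop (0 : ℝ)).and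
    ((hT.eventually_le_const (by norm_num : (0 : ℝ) < 1 / 2)).and
    ((hT.eventually_le_const hη').and (((hsq M₁).eventually_le_const (half_pos hη)).and
    (((hsq M₂).eventually_le_const (half_pos (half_pos hη))).and
    (hi.eventually_le_const (half_pos (half_pos hη))))))))
  refine ⟨D₀, fun D hD => ?_⟩
  obtain ⟨hD, t1, t2, t3, t4, t5⟩ := hD₀ D hD
  obtain ⟨φ, k, hφ, hφ0, n1, n2, n3, hq⟩ := htrial D hD
  have key : ∀ s : ℝ, s ^ 2 = 1 → Loc2 c η D s := by
    intro s hs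
    have hn : 0 < nsq φ := by linarith
    obtain ⟨u₀, g₀, hu₀, hP, hn₀, hz, hq₀, hip⟩ := O2_sym hD hs hφ hφ0 hn
    refine ⟨u₀, g₀, hu₀, hP, hn₀, hz, ?_, fun u g hu hus => ?_⟩
    · refine le_of_mul_le_mul_left ?_ hn
      rw [hq₀]
      nlinarith
    · obtain ⟨v, l, hv, hvu, hnv, hqv⟩ := hlow D hD s hs u g hu hus
      have h1 := hgap _ _ (hv.comp_add (Rn D))
      rw [O2_nsq_add] at h1
      have hh := hyd_spec.1.comp_add (-Rn D)
      have e1 : ip hyd (fun x => v (x + Rn D)) = ip (fun x => hyd (x + -Rn D)) v := by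
        rw [← O2_ip_add (fun x => hyd (x + -Rn D)) v (Rn D)]
        simp only [add_neg_cancel_right]
      have e2 : ip φ v = ip φ u := by
        refine integral_congr_ae (Eventually.of_forall fun x => ?_)
        simp only
        rcases le_total (x 2) (D / 2) with hx | hx
        · rw [hφ0 x hx, zero_mul, zero_mul]
        · rw [hvu x hx]
      have e3 : ip (fun x => hyd (x + -Rn D)) v =
          ip φ u + ip (fun x => hyd (x + -Rn D) - φ x) v := by
        rw [← e2]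
        unfold ip
        rw [← integral_add (hφ.integrable_mul hv) ((hh.sub hφ).integrable_mul hv)]
        exact integral_congr_ae (Eventually.of_forall fun x => by ring)
      have b1 := ip_sq_le (hh.sub hφ).l2 hv.l2
      have b2 := hip u hu.l2 hus
      have b3 := ip_sq_le hu₀.l2 hu.l2
      rw [hn₀, one_mul] at b3
      rw [e1, e3] at h1
      exact O2_arith hc hc4 hη n1 b2 b3 (sq_nonneg _) (nsq_nonneg u) hnv
        (b1.trans (mul_le_mul_of_nonneg_right (n3.trans t2) (nsq_nonneg v))) h1 hqv (by linarith)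
  exact ⟨key 1 (by norm_num), key (-1) (by norm_num)⟩

end Crest.Agent.R335
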