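import Crest.Agent.R335.O2
import Crest.Agent.R335.LGap

/-! Row 335. The ground states of the two parity sectors. -/

set_option autoImplicit false

open MeasureTheory Set Filter Topology
open scoped ENNReal

noncomputable section

namespace Crest.Agent.R335

theorem sector_P (s : ℝ) (hs : s = 1 ∨ s = -1) :
    Sector fun u : X → ℝ => ∀ x, u (P x) = s * u x := by
  have hss : s * s = 1 := by rcases hs with rfl | rfl <;> norm_num
  refine ⟨fun u w a b hu hw x => ?_, fun u w hu h2 hm hw hl => ?_⟩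
  · simp only [hu, hw]
    ring
  · obtain ⟨φ, -, hφ⟩ := exists_subseq_ae h2 hw hl
    refine ⟨fun x => (w x + s * w (P x)) / 2,
      (hm.add ((hm.comp continuous_P.measurable).const_mul s)).div_const 2, ?_, fun x => ?_⟩
    · filter_upwards [hφ, ae_P hφ] with x h1 h2
      simp only [hu] at h2
      rw [tendsto_nhds_unique h2 (h1.const_mul s), ← mul_assoc, hss]
      ring
    · simp only [P_P]
      linear_combination (-(w (P x)) / 2) * hss

theorem O3_closed {q : X → Prop} (hc : IsClosed {x | q x}) (h : ∀ᵐ x, q x) (x : X) : q x := by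
  have h1 := (Measure.dense_of_ae h).closure_eq
  rw [hc.closure_eq] at h1
  exact (h1.ge (mem_univ x) : x ∈ {x | q x})

theorem O3_coord : Continuous fun x : X => x 2 := by fun_prop

theorem O3_eig {D s e : ℝ} (hs : s = 1 ∨ s = -1) {w : X → ℝ} {k : Fin 3 → X → ℝ} (hw : H1 eX w k)
    (hp : ∀ x, w (P x) = s * w x)
    (h : ∀ u g, H1 eX u g → (∀ x, u (P x) = s * u x) → bf (V D) w k u g = e * ip w u) :
    Eig eX (V D) e w k := by
  obtain ⟨A, hA⟩ := exists_PL
  have hA' : ⇑A.toContinuousLinearEquiv = P := funext hA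
  intro u g hu
  refine eig_of_sector (fb_V D) A.toContinuousLinearEquiv (Equiv.refl _) sg ?_ ?_ ?_ ?_ ?_
    (S := fun _ => True) (fun _ _ => trivial) (fun _ _ _ _ _ _ => trivial) hs hw ?_ ?_ u g hu
    trivial
  · intro i
    fin_cases i <;> simp [sg]
  · intro i
    rw [hA']
    exact P_eX i
  · rw [hA']
    exact P_P
  · rw [hA']
    exact mp_P
  · rw [hA']
    exact V_P D
  · rw [hA']
    exact hp
  · rw [hA']
    exact fun u g hu _ hu' => h u g hu hu'

theorem O3_abs {s : ℝ} (hs : s = 1 ∨ s = -1) {w : X → ℝ} {k : Fin 3 → X → ℝ} (hw : H1 eX w k)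
    (hp : ∀ x, w (P x) = s * w x) : ∃ w₁ k₁, H1 eX w₁ k₁ ∧ (∀ x, w₁ (P x) = s * w₁ x) ∧
      (∀ x, w₁ x ^ 2 = w x ^ 2) ∧ (∀ x, gs k₁ x = gs k x) ∧ ∀ x : X, 0 < x 2 → 0 ≤ w₁ x := by
  rcases hs with rfl | rfl
  · refine ⟨_, _, hw.abs, fun x => ?_, fun x => sq_abs _, fun x => ?_, fun x _ => abs_nonneg _⟩
    · rw [hp, one_mul, one_mul]
    · simp only [gs]
      split_ifs <;> simp
  · have hv : Van fun x => |w x| :=
      (van_of_odd hw (ae_of_all _ fun x => by rw [hp]; ring)).mono hw.l2 (C := 1)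
        (ae_of_all _ fun x => by simp)
    refine ⟨_, _, hw.abs.sgn hv, fun x => ?_, fun x => ?_, fun x => ?_, fun x hx => ?_⟩
    · rw [P_two, hp, neg_one_mul, abs_neg]
      rcases lt_trichotomy (x 2) 0 with h | h | h
      · rw [if_pos (by linarith), if_neg (by linarith)]
        ring
      · have h1 : P x = x := by
          ext i
          fin_cases i <;> simp [P, h]
        have h2 := hp x
        rw [h1] at h2
        have h3 : w x = 0 := by linarith
        simp [h3]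
      · rw [if_neg (by linarith), if_pos h]
        ring
    · split_ifs <;> simp
    · simp only [gs]
      split_ifs <;> simp
    · rw [if_pos hx]
      exact abs_nonneg _

/-- The ground state of a sector. -/
structure SG (c η D s : ℝ) (w : X → ℝ) (k : Fin 3 → X → ℝ) (e : ℝ) : Prop where
  h1 : H1 eX w k
  cont : Continuous w
  par : ∀ x, w (P x) = s * w x
  pos : ∀ x : X, 0 < x 2 → 0 ≤ w x
  n : nsq w = 1
  eig : Eig eX (V D) e w k
  lo : -1 / 2 - η ≤ e
  hi : e ≤ -1 / 2 + η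
  gap : ∀ u g, H1 eX u g → (∀ x, u (P x) = s * u x) →
    e * ip w u ^ 2 + (-1 / 2 - η + c) * (nsq u - ip w u ^ 2) ≤ qf (V D) u g
  tail : ∫ x in {x : X | |x 2| < D / 2}, w x ^ 2 ≤ 4 * η / c
  wt : ∀ α : ℝ, 0 ≤ α → α ^ 2 ≤ c - 2 * η → ∃ C, WB eX jb α C w k

/-- `gapmin` (`a = -1/2 - η`, `γ = c`, `μ = 2 η`).  `|w|` (`H1.abs`), respectively `sign(z) |w|`
(`H1.sgn`, `van_of_odd`, set it to `0` on the plane), has the same energy, so it is `± w`
(`eq_of_ip_sq`).  `eig_of_sector`, `Eig.sol`, `Sol.exists_cont` (continuous functions which agree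
almost everywhere agree), `aggap`, `exists_tail`. -/
theorem sg_exists {c η D s : ℝ} (hη : 0 < η) (hc : 2 * η < c) (hs : s = 1 ∨ s = -1)
    (h : Loc2 c η D s) : ∃ w k e, SG c η D s w k e := by
  obtain ⟨u₀, g₀, h0, hS0, hn0, hz, hq, hgap⟩ := h
  obtain ⟨w₀, k₀, b, hw₀, hS, hn, hqb, hlo, hhi, hel, hg, hcl, -⟩ :=
    gapmin (sector_P s hs) (fb_V D) h0 hS0 hn0 (a := -1 / 2 - η) (γ := c) (μ := 2 * η)
      (by linarith) hc (by linarith) hgap
  obtain ⟨w₁, k₁, hw₁, hS₁, e1, e2, hp₁⟩ := O3_abs hs hw₀ hS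
  have hn₁ : nsq w₁ = 1 := by
    rw [← hn]
    simp only [nsq, e1]
  have hq₁ : qf (V D) w₁ k₁ = b := by
    rw [← hqb]
    simp only [qf, dir, e1, e2]
  have hip : 1 ≤ ip w₀ w₁ ^ 2 := by
    have h1 := hg _ _ hw₁ hS₁
    rw [hn₁, hq₁] at h1
    by_contra h2
    have h3 : 0 < (-1 / 2 - η + c - b) * (1 - ip w₀ w₁ ^ 2) :=
      mul_pos (by linarith) (by linarith)
    nlinarith
  obtain ⟨σ, hσ, hσw⟩ : ∃ σ : ℝ, σ * σ = 1 ∧ w₁ =ᵐ[volume] fun x => σ * w₀ x := by
    rcases eq_of_ip_sq hw₁.l2 hw₀.l2 hn₁ hn hip with h1 | h1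
    · exact ⟨1, by norm_num, by simpa only [one_mul] using h1⟩
    · exact ⟨-1, by norm_num, by simpa only [neg_one_mul] using h1⟩
  have hE₀ : Eig eX (V D) b w₀ k₀ := O3_eig hs hw₀ hS hel
  obtain ⟨w', hc', hw'⟩ := (hE₀.sol hw₀).exists_cont
  have hw : H1 eX (fun x => σ * w' x) fun i x => σ * k₀ i x :=
    (hw₀.congr hc'.measurable hw₀.gm hw'.symm fun _ => EventuallyEq.rfl).smul σ
  have hcw : Continuous fun x => σ * w' x := continuous_const.mul hc'
  have hsq : ∀ᵐ x, (σ * w' x) ^ 2 = w₀ x ^ 2 := by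
    filter_upwards [hw'] with x hx
    rw [hx]
    linear_combination (w₀ x ^ 2) * hσ
  have hipw : ∀ u : X → ℝ, ip (fun x => σ * w' x) u = σ * ip w₀ u := by
    intro u
    unfold ip
    rw [← integral_const_mul]
    refine integral_congr_ae ?_
    filter_upwards [hw'] with x hx
    rw [hx, mul_assoc]
  have hipq : ∀ u : X → ℝ, ip (fun x => σ * w' x) u ^ 2 = ip w₀ u ^ 2 := by
    intro u
    rw [hipw]
    linear_combination (ip w₀ u ^ 2) * hσ
  have hnw : nsq (fun x => σ * w' x) = 1 := by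
    rw [← hn]
    exact integral_congr_ae hsq
  have hpar : ∀ x, σ * w' (P x) = s * (σ * w' x) := by
    refine O3_closed (isClosed_eq (hcw.comp continuous_P) (continuous_const.mul hcw)) ?_
    filter_upwards [hw', ae_P hw'] with x h1 h2
    rw [h1, h2, hS]
    ring
  have hE : Eig eX (V D) b (fun x => σ * w' x) fun i x => σ * k₀ i x := by
    intro u g hu
    have h1 := hE₀ u g hu
    have h2 : ∫ x, V D x * (σ * w' x * u x) = σ * ∫ x, V D x * (w₀ x * u x) := by
      rw [← integral_const_mul]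
      refine integral_congr_ae ?_
      filter_upwards [hw'] with x hx
      rw [hx]
      ring
    unfold bf at h1 ⊢
    rw [LMax0_gd_smul, hipw, h2]
    linear_combination σ * h1
  refine ⟨fun x => σ * w' x, fun i x => σ * k₀ i x, b, hw, hcw, hpar, ?_, hnw, hE, hlo,
    by linarith, fun u g hu hu' => ?_, ?_, fun α hα hα' => ?_⟩
  · have h1 : ∀ x : X, x 2 ≤ 0 ∨ 0 ≤ σ * w' x := by
      refine O3_closed ((isClosed_le O3_coord continuous_const).union
        (isClosed_le continuous_const hcw)) ?_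
      filter_upwards [hw', hσw] with x h1 h2
      rw [h1, ← h2]
      exact (le_or_gt (x 2) 0).imp id (hp₁ x)
    exact fun x hx => (h1 x).resolve_left (not_le.2 hx)
  · rw [hipq]
    exact hg u g hu hu'
  · have h1 : ∫ x in {x : X | |x 2| < D / 2}, (σ * w' x) ^ 2 =
        ∫ x in {x : X | |x 2| < D / 2}, (w₀ x - u₀ x) ^ 2 := by
      refine setIntegral_congr_ae (LVan_ms' _) ?_
      filter_upwards [hsq] with x hx hx'
      rw [hx, hz x hx', sub_zero]
    rw [h1]
    refine (setIntegral_le_integral (hw₀.sub h0).integrable_sq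
      (ae_of_all _ fun x => sq_nonneg _)).trans (hcl.trans (le_of_eq ?_))
    ring
  · obtain ⟨L, -, hL⟩ := exists_tail hw.l2 contDiff_jb.continuous.measurable (δ := 1 / 16)
      (by norm_num)
    obtain ⟨h1, h2, h3⟩ := aggap (S := fun u : X → ℝ => ∀ x, u (P x) = s * u x) (fb_V D) hw hpar
      hnw (b := b) (γ := c - 2 * η) (by linarith) (fun u g hu _ => hE u g hu)
      (fun u g hu hu' => by
        have h1 := hg u g hu hu'
        have h2 := ip_sq_le hw₀.l2 hu.l2
        rw [hn, one_mul] at h2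
        rw [hipq]
        have h3 : 0 ≤ (-1 / 2 - η + c - (b + (c - 2 * η))) * (nsq u - ip w₀ u ^ 2) :=
          mul_nonneg (by linarith) (by linarith)
        nlinarith)
      contDiff_jb (fun x => (norm_nonneg x).trans (norm_le_jb x)) gs_jb_le
      (fun Φ u hu x => by
        simp only [jb_P, hu x]
        ring) hα (by linarith) hL
    exact ⟨_, h1, h2.trans (le_max_left _ _), h3.trans (le_max_right _ _)⟩

theorem O3_duh {c η D s : ℝ} {w : X → ℝ} {k : Fin 3 → X → ℝ} {e : ℝ} (h : SG c η D s w k e) :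
    MemLp (fun x => -(V D x * w x)) 2 volume ∧
      ∀ x, w x = duh (-e) 1 w (fun x => -(V D x * w x)) x := by
  have hS : MemLp (fun x => -(V D x * w x)) 2 volume := (memLp_V_mul D h.h1).1.neg
  refine ⟨hS, O3_closed (isClosed_eq h.cont (continuous_duh _ one_pos h.h1.l2 hS)) ?_⟩
  refine duh_eq (g := k) one_pos hS ?_
  have e1 : (fun x => -(V D x * w x) - -e * w x) = fun x => (e - V D x) * w x := by
    funext x
    ring
  rw [e1]
  exact h.eig.sol h.h1

/-- `duh_ge` with `m = -e`, `S = -V w ≥ 0`; `Gc_pos`, `continuous_duh`. -/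
theorem SG.pos_even {c η D : ℝ} {w : X → ℝ} {k : Fin 3 → X → ℝ} {e : ℝ} (h : SG c η D 1 w k e) :
    ∀ x, 0 < w x := by
  obtain ⟨hS, hd⟩ := O3_duh h
  have h0 : ∀ᵐ x, 0 ≤ w x := by
    filter_upwards [ae_two_ne] with x hx
    rcases lt_or_gt_of_ne hx with h1 | h1
    · have h2 := h.pos (P x) (by rw [P_two]; linarith)
      rwa [h.par, one_mul] at h2
    · exact h.pos x h1
  intro x
  rw [hd x, duh]
  refine add_pos_of_pos_of_nonneg (mul_pos (Real.exp_pos _)
    (Gc_pos one_pos h.h1.l2 h0 (by rw [h.n]; norm_num) x)) ?_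
  refine setIntegral_nonneg measurableSet_Ioc fun τ hτ => mul_nonneg (Real.exp_pos _).le ?_
  refine integral_nonneg_of_ae ?_
  filter_upwards [h0] with y hy
  exact mul_nonneg (G_pos hτ.1 _).le (neg_nonneg.2 (mul_nonpos_of_nonpos_of_nonneg (V_nonpos D y) hy))

/-- `duh_eq`, `Gc_odd_nonneg`, `Gc_odd_lower`. -/
theorem SG.pos_odd {c η D : ℝ} {w : X → ℝ} {k : Fin 3 → X → ℝ} {e : ℝ}
    (h : SG c η D (-1) w k e) (R : ℝ) :
    ∃ c' : ℝ, 0 < c' ∧ ∀ x : X, ‖x‖ ≤ R → 0 ≤ x 2 → c' * x 2 ≤ w x := by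
  obtain ⟨hS, hd⟩ := O3_duh h
  obtain ⟨c₀, hc₀, hlo⟩ := Gc_odd_lower h.h1.l2 (ae_of_all _ fun x => by rw [h.par]; ring)
    (ae_of_all _ h.pos) (by rw [h.n]; norm_num) R
  refine ⟨Real.exp (- -e * 1) * c₀, mul_pos (Real.exp_pos _) hc₀, fun x hx hx' => ?_⟩
  rw [hd x, duh, mul_assoc]
  refine le_add_of_le_of_nonneg (mul_le_mul_of_nonneg_left (hlo x hx hx') (Real.exp_pos _).le) ?_
  refine setIntegral_nonneg measurableSet_Ioc fun τ hτ => mul_nonneg (Real.exp_pos _).le ?_
  refine Gc_odd_nonneg hτ.1 hS (ae_of_all _ fun y => ?_) (ae_of_all _ fun y hy => ?_) hx'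
  · rw [V_P, h.par]
    ring
  · exact neg_nonneg.2 (mul_nonpos_of_nonpos_of_nonneg (V_nonpos D y) (h.pos y hy))

theorem SG.bdd {c η D s : ℝ} {w : X → ℝ} {k : Fin 3 → X → ℝ} {e : ℝ} (h : SG c η D s w k e) :
    ∃ M : ℝ, ∀ x, |w x| ≤ M :=
  ⟨_, O3_closed (isClosed_le h.cont.abs continuous_const) (h.eig.sol h.h1).abs_le⟩

end Crest.Agent.R335
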