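import Crest.Agent.R335.PrA

/-! Row 335. The Picone type convexity inequality. -/

set_option autoImplicit false

open MeasureTheory Set Filter Topology
open scoped ENNReal

noncomputable section

namespace Crest.Agent.R335

variable {s : X → ℝ} {gr : Fin 3 → X → ℝ}

/-- Pointwise: for `t > 0`, with `m σ = (1 - σ) t² + σ n²` and `e σ = ∑ ((1 - σ) t a_i + σ n b_i)² / m σ`:
`(1 - σ) |a|² + σ |b|² - e σ = σ (1 - σ) |t b - n a|² / m σ`. -/
theorem picone_pt {t n σ : ℝ} (a b : Fin 3 → ℝ) (hm : 0 < (1 - σ) * t ^ 2 + σ * n ^ 2) :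
    (1 - σ) * ∑ i, a i ^ 2 + σ * ∑ i, b i ^ 2 -
        ∑ i, (((1 - σ) * t * a i + σ * n * b i) / √((1 - σ) * t ^ 2 + σ * n ^ 2)) ^ 2 =
      σ * (1 - σ) * (∑ i, (t * b i - n * a i) ^ 2) / ((1 - σ) * t ^ 2 + σ * n ^ 2) := by
  simp only [div_pow, Real.sq_sqrt hm.le, Fin.sum_univ_three]
  field_simp
  ring

theorem PrD_fatou {F : ℕ → X → ℝ} {f : X → ℝ} (hF : ∀ j, Integrable (F j))
    (h0 : ∀ j, ∀ᵐ x, 0 ≤ F j x) (hf : AEStronglyMeasurable f volume)
    (hlim : ∀ᵐ x, Tendsto (fun j => F j x) atTop (𝓝 (f x))) {R : ℝ} (hR : ∀ j, ∫ x, F j x ≤ R) :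
    Integrable f ∧ ∫ x, f x ≤ R := by
  have hf0 : ∀ᵐ x, 0 ≤ f x := by
    filter_upwards [ae_all_iff.2 h0, hlim] with x h1 h2
    exact ge_of_tendsto' h2 h1
  have hR0 : 0 ≤ R := (integral_nonneg_of_ae (h0 0)).trans (hR 0)
  have key : ∫⁻ x, ENNReal.ofReal (f x) ≤ ENNReal.ofReal R := by
    calc ∫⁻ x, ENNReal.ofReal (f x) = ∫⁻ x, liminf (fun j => ENNReal.ofReal (F j x)) atTop := by
          refine lintegral_congr_ae ?_
          filter_upwards [hlim] with x hx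
          exact ((ENNReal.continuous_ofReal.tendsto _).comp hx).liminf_eq.symm
      _ ≤ liminf (fun j => ∫⁻ x, ENNReal.ofReal (F j x)) atTop :=
          lintegral_liminf_le' fun j => (hF j).aemeasurable.ennreal_ofReal
      _ ≤ ENNReal.ofReal R := by
          refine liminf_le_of_frequently_le' (Frequently.of_forall fun j => ?_)
          rw [← ofReal_integral_eq_lintegral_ofReal (hF j) (h0 j)]
          exact ENNReal.ofReal_le_ofReal (hR j)
  refine ⟨⟨hf, (hasFiniteIntegral_iff_ofReal hf0).2 (key.trans_lt ENNReal.ofReal_lt_top)⟩, ?_⟩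
  rw [integral_eq_lintegral_of_nonneg_ae hf0 hf]
  exact ENNReal.toReal_le_of_le_ofReal hR0 key

theorem PrD_cs {t n σ : ℝ} (a b : Fin 3 → ℝ) (h0 : 0 ≤ σ) (h1 : σ ≤ 1) :
    ∑ i, (((1 - σ) * t * a i + σ * n * b i) / √((1 - σ) * t ^ 2 + σ * n ^ 2)) ^ 2 ≤
      (1 - σ) * ∑ i, a i ^ 2 + σ * ∑ i, b i ^ 2 := by
  have h1' : 0 ≤ 1 - σ := by linarith
  have hm : 0 ≤ (1 - σ) * t ^ 2 + σ * n ^ 2 := by positivity
  rcases hm.eq_or_lt with hm | hm
  · rw [← hm]
    simp only [Real.sqrt_zero, div_zero, ne_eq, OfNat.ofNat_ne_zero, not_false_eq_true, zero_pow,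
      Finset.sum_const_zero]
    positivity
  · have := picone_pt a b hm
    have h2 : 0 ≤ σ * (1 - σ) * (∑ i, (t * b i - n * a i) ^ 2) / ((1 - σ) * t ^ 2 + σ * n ^ 2) := by
      positivity
    linarith

theorem PrD_measurable_Dq {t φ : X → ℝ} {gt g : Fin 3 → X → ℝ} (ht : H1 eX t gt)
    (h : H1 eX φ g) : Measurable (Dq t gt φ g) := by
  unfold Dq
  exact Finset.measurable_sum _ fun i _ =>
    ((h.gm i).sub ((h.m.mul (ht.gm i)).div ht.m)).pow_const 2

theorem PrD_step (pr : Pair0 s) (hp : ∀ᵐ x, 0 < pr.t x) {n b : X → ℝ}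
    {gn gb : Fin 3 → X → ℝ} (h : IsPair s n gn b gb) {σ : ℝ} (h0 : 0 < σ) (h1 : σ < 1) :
    Integrable (fun x => (1 - σ) * (∑ i, (pr.t x * gn i x - n x * pr.gt i x) ^ 2) /
        ((1 - σ) * pr.t x ^ 2 + σ * n x ^ 2)) ∧
      ∫ x, (1 - σ) * (∑ i, (pr.t x * gn i x - n x * pr.gt i x) ^ 2) /
        ((1 - σ) * pr.t x ^ 2 + σ * n x ^ 2) ≤
        dir gn + dir gb + 2 * pr.lam * nsq n - (dir pr.gt + dir pr.gβ + 2 * pr.lam * 2) := by
  obtain ⟨k, l, hkl, hk, hl, -, hmass⟩ := pair_conv pr.pair h h0.le h1.le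
  have hmin := pr.min _ _ _ _ hkl
  rw [hmass, pr.mass] at hmin
  have i1 := pr.pair.ht.integrable_gs
  have i2 := h.ht.integrable_gs
  have i3 := hkl.ht.integrable_gs
  have i4 := pr.pair.hβ.integrable_gs
  have i5 := h.hβ.integrable_gs
  have i6 := hkl.hβ.integrable_gs
  have hdl : dir l ≤ (1 - σ) * dir pr.gβ + σ * dir gb := by
    unfold dir
    rw [← integral_const_mul, ← integral_const_mul, ← integral_add (i4.const_mul _) (i5.const_mul _)]
    refine integral_mono i6 ((i4.const_mul _).add (i5.const_mul _)) fun x => ?_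
    have := PrD_cs (t := pr.β x) (n := b x) (fun i => pr.gβ i x) (fun i => gb i x) h0.le h1.le
    simpa only [gs, hl] using this
  have hae : (fun x => (1 - σ) * (∑ i, (pr.t x * gn i x - n x * pr.gt i x) ^ 2) /
        ((1 - σ) * pr.t x ^ 2 + σ * n x ^ 2)) =ᵐ[volume]
      fun x => σ⁻¹ * ((1 - σ) * gs pr.gt x + σ * gs gn x - gs k x) := by
    filter_upwards [hp] with x hx
    have h1' : 0 < 1 - σ := by linarith
    have hm : 0 < (1 - σ) * pr.t x ^ 2 + σ * n x ^ 2 := by positivity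
    have := picone_pt (fun i => pr.gt i x) (fun i => gn i x) hm
    simp only [gs, hk]
    rw [this]
    field_simp
  have i7 : Integrable fun x => (1 - σ) * gs pr.gt x + σ * gs gn x :=
    (i1.const_mul _).add (i2.const_mul _)
  refine ⟨((i7.sub i3).const_mul σ⁻¹).congr hae.symm, ?_⟩
  rw [integral_congr_ae hae, integral_const_mul, integral_sub i7 i3,
    integral_add (i1.const_mul _) (i2.const_mul _), integral_const_mul, integral_const_mul,
    inv_mul_le_iff₀ h0]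
  change (1 - σ) * dir pr.gt + σ * dir gn - dir k ≤ _
  nlinarith

/-- Apply `min` to the pairs of `pair_conv`: with
`F σ = (1 - σ) |t ∇n - n ∇t|² / m σ ≥ 0` one gets `∫ F σ ≤ E₁ - E₀ + 2 lam (nsq n - 2)`; Fatou
(`lintegral_liminf_le`) along `σ = 1 / (j + 1)`. -/
theorem pair_picone (pr : Pair0 s) (hp : ∀ᵐ x, 0 < pr.t x) {n b : X → ℝ}
    {gn gb : Fin 3 → X → ℝ} (h : IsPair s n gn b gb) :
    Integrable (Dq pr.t pr.gt n gn) ∧
      dir pr.gt + dir pr.gβ + 2 * pr.lam * 2 + ∫ x, Dq pr.t pr.gt n gn x ≤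
        dir gn + dir gb + 2 * pr.lam * nsq n := by
  have hσ0 : ∀ j : ℕ, (0 : ℝ) < 1 / ((j : ℝ) + 1) / 2 := fun j => by positivity
  have hσ1 : ∀ j : ℕ, 1 / ((j : ℝ) + 1) / 2 < 1 := fun j => by
    have : 1 / ((j : ℝ) + 1) ≤ 1 := by
      rw [div_le_one (by positivity)]
      linarith [(Nat.cast_nonneg j : (0 : ℝ) ≤ j)]
    linarith
  have hσ : Tendsto (fun j : ℕ => 1 / ((j : ℝ) + 1) / 2) atTop (𝓝 0) := by
    simpa using (tendsto_one_div_add_atTop_nhds_zero_nat (𝕜 := ℝ)).div_const 2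
  have key := PrD_fatou (f := Dq pr.t pr.gt n gn)
    (fun j => (PrD_step pr hp h (hσ0 j) (hσ1 j)).1)
    (fun j => Eventually.of_forall fun x => by
      have h1 : 0 ≤ 1 - 1 / ((j : ℝ) + 1) / 2 := by linarith [hσ1 j]
      positivity)
    (PrD_measurable_Dq pr.pair.ht h.ht).aestronglyMeasurable ?_
    (fun j => (PrD_step pr hp h (hσ0 j) (hσ1 j)).2)
  · exact ⟨key.1, by linarith [key.2]⟩
  filter_upwards [hp] with x hx
  have h1 := (((tendsto_const_nhds (x := (1 : ℝ))).sub hσ).mul_const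
    (∑ i, (pr.t x * gn i x - n x * pr.gt i x) ^ 2)).div
    ((((tendsto_const_nhds (x := (1 : ℝ))).sub hσ).mul_const (pr.t x ^ 2)).add
      (hσ.mul_const (n x ^ 2))) (by simpa using hx.ne')
  have h2 : Dq pr.t pr.gt n gn x = ((1 - 0) * ∑ i, (pr.t x * gn i x - n x * pr.gt i x) ^ 2) /
      ((1 - 0) * pr.t x ^ 2 + 0 * n x ^ 2) := by
    simp only [Dq, Fin.sum_univ_three, sub_zero, one_mul, zero_mul, add_zero]
    field_simp
  rw [h2]
  exact h1

theorem LocPos.ae_pos {w : X → ℝ} (h : LocPos w) : ∀ᵐ x, 0 < w x := by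
  have : ∀ j : ℕ, ∀ᵐ x : X, x ∈ Metric.closedBall (0 : X) j → 0 < w x := by
    intro j
    obtain ⟨c, hc, h'⟩ := h _ (isCompact_closedBall (0 : X) j)
    filter_upwards [h'] with x hx hx'
    exact hc.trans_le (hx hx')
  filter_upwards [ae_all_iff.2 this] with x hx
  obtain ⟨j, hj⟩ := exists_nat_ge ‖x‖
  exact hx j (by simpa using hj)

theorem Dq_nonneg (t : X → ℝ) (gt : Fin 3 → X → ℝ) (φ : X → ℝ) (g : Fin 3 → X → ℝ) (x : X) :
    0 ≤ Dq t gt φ g x :=
  Finset.sum_nonneg fun _ _ => sq_nonneg _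

theorem measurable_Dq {t φ : X → ℝ} {gt g : Fin 3 → X → ℝ} (ht : H1 eX t gt) (h : H1 eX φ g) :
    Measurable (Dq t gt φ g) :=
  PrD_measurable_Dq ht h

theorem integrable_Dq {t φ : X → ℝ} {gt g : Fin 3 → X → ℝ} (ht : H1 eX t gt) (h : H1 eX φ g)
    {M : ℝ} (hM : ∀ᵐ x, |φ x| ≤ M * |t x|) : Integrable (Dq t gt φ g) := by
  refine Integrable.mono' ((h.integrable_gs.const_mul 2).add (ht.integrable_gs.const_mul (2 * M ^ 2)))
    (measurable_Dq ht h).aestronglyMeasurable ?_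
  filter_upwards [hM] with x hx
  rw [Real.norm_of_nonneg (Dq_nonneg _ _ _ _ _)]
  have h1 : (φ x / t x) ^ 2 ≤ M ^ 2 := by
    by_cases h0 : t x = 0
    · simp [h0, sq_nonneg]
    · have h2 : 0 < |t x| := abs_pos.2 h0
      have h3 : |φ x / t x| ≤ M := by rw [abs_div, div_le_iff₀ h2]; exact hx
      rw [← sq_abs]
      exact pow_le_pow_left₀ (abs_nonneg _) h3 2
  simp only [Dq, gs, Pi.add_apply, Finset.mul_sum, ← Finset.sum_add_distrib]
  refine Finset.sum_le_sum fun i _ => ?_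
  rw [show φ x * gt i x / t x = φ x / t x * gt i x by ring]
  nlinarith [sq_nonneg (g i x + φ x / t x * gt i x), mul_le_mul_of_nonneg_right h1 (sq_nonneg (gt i x))]

/-- Multiplication by a `C¹` function. -/
theorem Dq_mul_le (t : X → ℝ) (gt : Fin 3 → X → ℝ) (φ ζ : X → ℝ) (g : Fin 3 → X → ℝ) (x : X) :
    Dq t gt (fun x => ζ x * φ x) (fun i x => ζ x * g i x + pd eX ζ i x * φ x) x ≤
      2 * ζ x ^ 2 * Dq t gt φ g x + 2 * gs (pd eX ζ) x * φ x ^ 2 := by
  simp only [Dq, gs, Finset.mul_sum, Finset.sum_mul, ← Finset.sum_add_distrib]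
  refine Finset.sum_le_sum fun i _ => ?_
  rw [show ζ x * g i x + pd eX ζ i x * φ x - ζ x * φ x * gt i x / t x =
    ζ x * (g i x - φ x * gt i x / t x) + pd eX ζ i x * φ x by ring]
  nlinarith [sq_nonneg (ζ x * (g i x - φ x * gt i x / t x) - pd eX ζ i x * φ x)]

theorem Dq_sub (t : X → ℝ) (gt : Fin 3 → X → ℝ) (φ : X → ℝ) (g : Fin 3 → X → ℝ) (m : ℝ) {x : X}
    (hx : t x ≠ 0) :
    Dq t gt (fun x => φ x - m * t x) (fun i x => g i x - m * gt i x) x = Dq t gt φ g x := by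
  unfold Dq
  refine Finset.sum_congr rfl fun i _ => ?_
  congr 1
  field_simp
  ring

theorem Dq_eq (t : X → ℝ) (gt : Fin 3 → X → ℝ) (φ : X → ℝ) (g : Fin 3 → X → ℝ) {x : X}
    (hx : t x ≠ 0) :
    Dq t gt φ g x = t x ^ 2 * gs (fun i x => (g i x - φ x / t x * gt i x) / t x) x := by
  simp only [Dq, gs, Finset.mul_sum]
  refine Finset.sum_congr rfl fun i _ => ?_
  field_simp

/-- `∇t·∇(φ² / t) = |∇φ|² - Dq`. -/
theorem gd_sq_div (t : X → ℝ) (gt : Fin 3 → X → ℝ) (φ : X → ℝ) (g : Fin 3 → X → ℝ) (x : X) :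
    gd gt (fun i x => 2 * (φ x / t x) * g i x - (φ x / t x) ^ 2 * gt i x) x =
      gs g x - Dq t gt φ g x := by
  simp only [Dq, gs, gd, ← Finset.sum_sub_distrib]
  refine Finset.sum_congr rfl fun i _ => ?_
  ring

end Crest.Agent.R335
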