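import Crest.Agent.R335.PrB
import Crest.Agent.R335.PrD
import Crest.Agent.R335.Par

/-! Row 335. The bulk inequality. -/

set_option autoImplicit false

open MeasureTheory Set Filter Topology
open scoped ENNReal

noncomputable section

namespace Crest.Agent.R335

variable {c : ℝ} {o : One c} {C ε C' : ℝ} {ch : Chan o C ε}

theorem PB_pt (pr : Pair ch C') {ψ : X → ℝ} {g : Fin 3 → X → ℝ} (hψ : H1 eX ψ g) {M : ℝ}
    (hM : ∀ᵐ x, |ψ x| ≤ M * pr.t x) {A : Set X} (hA : ∀ᵐ x, x ∉ A → ψ x = 0)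
    (hβ : ∀ᵐ x, x ∈ A → ch.s x ^ 2 ≤ 2 * pr.β x ^ 2) :
    ∀ᵐ x, 0 < ch.s x ∧ 0 < pr.t x ∧ |ψ x / pr.t x| ≤ |M| ∧ |ψ x / pr.β x| ≤ 2 * |M| ∧
      |ψ x| ≤ 2 * |M| * |pr.β x| ∧
      ((x ∉ A ∧ ψ x = 0 ∧ ∀ i, g i x = 0) ∨
        (x ∈ A ∧ 0 < pr.β x ∧ ch.s x ≤ 2 * pr.β x ∧ |ch.s x / pr.β x| ≤ 2)) := by
  filter_upwards [hM, hA, hβ, hψ.h1l.grad_zero, pr.spos.ae_pos, pr.tpos.ae_pos, pr.pair.sum]
    with x h1 h2 h3 h4 h5 h6 h7
  have a1 : |ψ x| ≤ |M| * pr.t x := h1.trans (mul_le_mul_of_nonneg_right (le_abs_self M) h6.le)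
  have a2 : |ψ x / pr.t x| ≤ |M| := by rwa [abs_div, abs_of_pos h6, div_le_iff₀ h6]
  have hM0 := abs_nonneg M
  by_cases hx : x ∈ A
  · have b0 := pr.β0 x
    have b1 : ch.s x ≤ 2 * pr.β x := by nlinarith [h3 hx]
    have b2 : 0 < pr.β x := by linarith
    have b3 : pr.t x ≤ ch.s x := by nlinarith
    have b4 : |ψ x| ≤ 2 * |M| * pr.β x := by nlinarith
    refine ⟨h5, h6, a2, ?_, by rwa [abs_of_pos b2], Or.inr ⟨hx, b2, b1, ?_⟩⟩
    · rwa [abs_div, abs_of_pos b2, div_le_iff₀ b2]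
    · rwa [abs_of_pos (div_pos h5 b2), div_le_iff₀ b2]
  · refine ⟨h5, h6, a2, ?_, ?_, Or.inl ⟨hx, h2 hx, h4 (h2 hx)⟩⟩
    · rw [h2 hx, zero_div, abs_zero]; positivity
    · rw [h2 hx, abs_zero]; positivity

theorem PB_l2 {a b u : X → ℝ} (ha : MemLp a 2 volume) (hb : MemLp b 2 volume) (hu : Measurable u)
    {c d : ℝ} (h : ∀ᵐ x, |u x| ≤ c * (|a x| + d * |b x|)) : MemLp u 2 volume :=
  ((ha.abs.add (hb.abs.const_mul d)).const_mul c).of_le hu.aestronglyMeasurable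
    (h.mono fun _ hx => hx.trans (le_abs_self _))

theorem PB_abs {r a m b c d : ℝ} (hr : |r| ≤ c) (hm : |m| ≤ d) :
    |r * (a - m * b)| ≤ c * (|a| + d * |b|) := by
  rw [abs_mul]
  refine mul_le_mul hr ((abs_sub _ _).trans ?_) (abs_nonneg _) ((abs_nonneg _).trans hr)
  rw [abs_mul]
  exact add_le_add le_rfl (mul_le_mul_of_nonneg_right hm (abs_nonneg _))

theorem PB_tilde (pr : Pair ch C') {ψ : X → ℝ} {g : Fin 3 → X → ℝ} (hψ : H1 eX ψ g) {M : ℝ}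
    (hM : ∀ᵐ x, |ψ x| ≤ M * pr.t x) {A : Set X} (hA : ∀ᵐ x, x ∉ A → ψ x = 0)
    (hβ : ∀ᵐ x, x ∈ A → ch.s x ^ 2 ≤ 2 * pr.β x ^ 2) :
    H1l eX (fun x => ψ x / pr.β x) (fun i x => (g i x - ψ x / pr.β x * pr.gβ i x) / pr.β x) ∧
    ∀ i, MemLp (fun x => ch.s x * ((g i x - ψ x / pr.β x * pr.gβ i x) / pr.β x)) 2 volume := by
  have hp := PB_pt pr hψ hM hA hβ
  have h1 : H1l eX (fun x => ψ x / pr.β x)
      (fun i x => (g i x - ψ x / pr.β x * pr.gβ i x) / pr.β x) := by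
    refine hψ.h1l.div_on pr.pair.hβ.h1l hA (fun K hK => ?_) (hp.mono fun x hx => hx.2.2.2.2.1)
    obtain ⟨c, hc, hc'⟩ := pr.spos K hK
    refine ⟨c / 2, half_pos hc, ?_⟩
    filter_upwards [hc', hp] with x a1 a2 hx hxA
    rcases a2.2.2.2.2.2 with a | a
    · exact absurd hxA a.1
    · linarith [a1 hx, a.2.2.1]
  refine ⟨h1, fun i => PB_l2 (hψ.gl2 i) (pr.pair.hβ.gl2 i) (ch.subs.h1.m.mul (h1.gm i))
    (c := 2) (d := 2 * |M|) ?_⟩
  filter_upwards [hp] with x ⟨_, _, _, a4, _, a6⟩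
  rcases a6 with a | a
  · rw [a.2.1, a.2.2 i]
    simp only [zero_div, zero_mul, sub_zero, mul_zero, abs_zero]
    positivity
  · rw [show ch.s x * ((g i x - ψ x / pr.β x * pr.gβ i x) / pr.β x) =
      ch.s x / pr.β x * (g i x - ψ x / pr.β x * pr.gβ i x) by ring]
    exact PB_abs a.2.2.2 a4

theorem PB_el (pr : Pair ch C') {ψ : X → ℝ} {g : Fin 3 → X → ℝ} (hψ : H1 eX ψ g) {M : ℝ}
    (hM : ∀ᵐ x, |ψ x| ≤ M * pr.t x) (hv : Van ψ) {A : Set X} (hA : ∀ᵐ x, x ∉ A → ψ x = 0)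
    (hβ : ∀ᵐ x, x ∈ A → ch.s x ^ 2 ≤ 2 * pr.β x ^ 2) :
    ∫ x, Dq pr.t pr.gt ψ g x = 2 * pr.lam * nsq ψ + ∫ x, Dq pr.β pr.gβ ψ g x := by
  have hp := PB_pt pr hψ hM hA hβ
  obtain ⟨h1, h2⟩ := PB_tilde pr hψ hM hA hβ
  have h3 := hψ.h1l.div pr.pair.ht.h1l pr.tpos hM
  have h4 := h3.mul_locbdd h1 (fun _ _ => ⟨_, hp.mono fun x hx _ => hx.2.2.1⟩)
    fun _ _ => ⟨_, hp.mono fun x hx _ => hx.2.2.2.1⟩
  have key := pr.el _ _ (|M| * (2 * |M|)) h4 (hp.mono fun x hx => by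
      rw [abs_mul]
      exact mul_le_mul hx.2.2.1 hx.2.2.2.1 (abs_nonneg _) (abs_nonneg _))
    (fun i => by
      simp only [mul_add]
      refine MemLp.add (PB_l2 (hψ.gl2 i) (pr.pair.ht.gl2 i)
        (ch.subs.h1.m.mul ((h3.gm i).mul h1.m)) (c := 2 * |M|) (d := |M|) ?_) ?_
      · filter_upwards [hp] with x ⟨_, _, a3, _, _, a6⟩
        rcases a6 with a | a
        · rw [a.2.1]
          simp only [zero_div, mul_zero, abs_zero]
          positivity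
        · rw [show ch.s x * ((g i x - ψ x / pr.t x * pr.gt i x) / pr.t x * (ψ x / pr.β x)) =
            ch.s x / pr.β x * (ψ x / pr.t x) * (g i x - ψ x / pr.t x * pr.gt i x) by ring]
          refine PB_abs ?_ a3
          rw [abs_mul]
          exact mul_le_mul a.2.2.2 a3 (abs_nonneg _) zero_le_two
      · refine (h2 i).of_le_mul (c := |M|)
          (ch.subs.h1.m.mul (h3.m.mul (h1.gm i))).aestronglyMeasurable ?_
        filter_upwards [hp] with x hx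
        rw [mul_left_comm, norm_mul]
        exact mul_le_mul_of_nonneg_right hx.2.2.1 (norm_nonneg _))
    (hv.mono hψ.l2 (C := 2 * |M|) (by
      filter_upwards [hp] with x ⟨_, _, a3, _, _, a6⟩
      rcases a6 with a | a
      · simp [a.2.1]
      · rw [show ch.s x * (ψ x / pr.t x * (ψ x / pr.β x)) =
          ch.s x / pr.β x * (ψ x / pr.t x) * ψ x by ring, abs_mul, abs_mul]
        exact mul_le_mul_of_nonneg_right (mul_le_mul a.2.2.2 a3 (abs_nonneg _) zero_le_two)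
          (abs_nonneg _)))
  have i1 := integrable_Dq pr.pair.ht hψ (M := M)
    (hM.mono fun x hx => by rwa [abs_of_nonneg (pr.t0 x)])
  have i2 := integrable_Dq pr.pair.hβ hψ (hp.mono fun x hx => hx.2.2.2.2.1)
  rw [integral_congr_ae (g := fun x => 1 * Dq pr.β pr.gβ ψ g x + (-1) * Dq pr.t pr.gt ψ g x +
    2 * pr.lam * ψ x ^ 2), LWD_int3 i2 i1 hψ.integrable_sq] at key
  · rw [nsq]; linarith
  filter_upwards [hp, pr.J] with x ⟨_, a2, _, _, _, a6⟩ hJ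
  simp only [gd, Dq, Finset.mul_sum, ← mul_assoc, hJ, ← Finset.sum_add_distrib]
  rcases a6 with a | a
  · simp [a.2.1, a.2.2]
  · have := a.2.1.ne'
    have := a2.ne'
    congr 1
    · refine Finset.sum_congr rfl fun i _ => ?_
      field_simp
      ring
    · field_simp

/-- `s / β = 1 / cos θ` with `cos θ ≥ 1/2` on `A`; `H1.mul_h1l` with a bounded `C¹` function of `θ`,
e.g. `Φ a = 1 / χ (cos a)`; or `H1l.div_on` for `ψ / β` and `H1.mul_h1l`. -/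
theorem bulk_tilde (pr : Pair ch C') {ψ : X → ℝ} {g : Fin 3 → X → ℝ} (hψ : H1 eX ψ g) {M : ℝ}
    (hM : ∀ᵐ x, |ψ x| ≤ M * pr.t x) {A : Set X} (hA : ∀ᵐ x, x ∉ A → ψ x = 0)
    (hβ : ∀ᵐ x, x ∈ A → ch.s x ^ 2 ≤ 2 * pr.β x ^ 2) :
    H1l eX (fun x => ψ x / pr.β x) (fun i x => (g i x - ψ x / pr.β x * pr.gβ i x) / pr.β x) ∧
    H1 eX (fun x => ch.s x * (ψ x / pr.β x)) fun i x => ch.gr i x * (ψ x / pr.β x) +
      ch.s x * ((g i x - ψ x / pr.β x * pr.gβ i x) / pr.β x) := by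
  obtain ⟨h1, h2⟩ := PB_tilde pr hψ hM hA hβ
  exact ⟨h1, ch.subs.h1.mul_h1l h1 ((PB_pt pr hψ hM hA hβ).mono fun x hx => hx.2.2.2.1) h2⟩

/-- `el` with `ξ = (ψ / t) (ψ / β)` gives `∫ Dq t ψ = 2 lam ∫ ψ² + ∫ Dq β ψ`;
`Dq β ψ = β² |∇(ψ / β)|² ≥ (1 - η) s² |∇(ψ / β)|² = (1 - η) Dq s ψ'` with `ψ' = s ψ / β`;
`subs` with the test `ψ'² / s` (`H1.sq_div`, `gd_sq_div`). -/
theorem bulk (pr : Pair ch C') {ψ : X → ℝ} {g : Fin 3 → X → ℝ} (hψ : H1 eX ψ g) {M : ℝ}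
    (hM : ∀ᵐ x, |ψ x| ≤ M * pr.t x) (hv : Van ψ) {A : Set X} (hAe : A ⊆ ext o.Rs)
    (hA : ∀ᵐ x, x ∉ A → ψ x = 0) {η : ℝ} (hη : 0 ≤ η) (hη' : η ≤ 1 / 2)
    (hβ : ∀ᵐ x, x ∈ A → (1 - η) * ch.s x ^ 2 ≤ pr.β x ^ 2) {g' : Fin 3 → X → ℝ}
    (h' : H1 eX (fun x => ch.s x * (ψ x / pr.β x)) g') :
    Integrable (fun x => ch.Qs x * (ch.s x * (ψ x / pr.β x)) ^ 2) ∧
    2 * pr.lam * nsq ψ + (1 - η) * (dir g' + 2 * ∫ x, ch.Qs x * (ch.s x * (ψ x / pr.β x)) ^ 2) ≤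
      ∫ x, Dq pr.t pr.gt ψ g x := by
  have hβ' : ∀ᵐ x, x ∈ A → ch.s x ^ 2 ≤ 2 * pr.β x ^ 2 := hβ.mono fun x hx hxA => by
    nlinarith [hx hxA, sq_nonneg (ch.s x)]
  have hp := PB_pt pr hψ hM hA hβ'
  have hs := ch.subs.h1
  have hg := h'.h1l.grad_ae (bulk_tilde pr hψ hM hA hβ').2.h1l EventuallyEq.rfl
  have hb : ∀ᵐ x, |ch.s x * (ψ x / pr.β x)| ≤ 2 * |M| * ch.s x := hp.mono fun x hx => by
    rw [abs_mul, abs_of_pos hx.1, mul_comm]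
    exact mul_le_mul_of_nonneg_right hx.2.2.2.1 hx.1.le
  have hw := h'.sq_div hs (.of_forall ch.s0) hb
  have hw0 : ∀ᵐ x, x ∉ ext o.Rs → (ch.s x * (ψ x / pr.β x)) ^ 2 / ch.s x = 0 :=
    hA.mono fun x hx hx' => by simp [hx fun h => hx' (hAe h)]
  have e1 : (fun x => -(ch.Qs x * ch.s x) * ((ch.s x * (ψ x / pr.β x)) ^ 2 / ch.s x)) =ᵐ[volume]
      fun x => -(ch.Qs x * (ch.s x * (ψ x / pr.β x)) ^ 2) := hp.mono fun x hx => by
    have := hx.1.ne'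
    generalize ch.s x * (ψ x / pr.β x) = y
    field_simp
  have i0 := (integrable_test (measurableSet_ext _) ch.subs.fl2 hw.l2 hw0).congr e1
  have key := ch.subs.le _ _ hw (.of_forall fun x => div_nonneg (sq_nonneg _) (ch.s0 x)) hw0
  have i1 := integrable_Dq hs h' (M := 2 * |M|)
    (hb.mono fun x hx => by rwa [abs_of_nonneg (ch.s0 x)])
  have i2 := integrable_Dq pr.pair.hβ hψ (hp.mono fun x hx => hx.2.2.2.2.1)
  simp only [gd_sq_div ch.s ch.gr (fun x => ch.s x * (ψ x / pr.β x)) g'] at key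
  rw [integral_sub h'.integrable_gs i1] at key
  replace key := key.trans_eq ((integral_congr_ae e1).trans (integral_neg _))
  have a1 : ∫ x, (1 - η) * Dq ch.s ch.gr (fun x => ch.s x * (ψ x / pr.β x)) g' x ≤
      ∫ x, Dq pr.β pr.gβ ψ g x := by
    refine integral_mono_ae (i1.const_mul _) i2 ?_
    filter_upwards [hp, hg, hβ] with x ⟨a1, _, _, _, _, a6⟩ b1 b2
    simp only [Dq, b1, Finset.mul_sum]
    refine Finset.sum_le_sum fun i _ => ?_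
    rcases a6 with a | a
    · simp [a.2.1, a.2.2]
    · have := a.2.1.ne'
      have := a1.ne'
      have := mul_le_mul_of_nonneg_right (b2 a.1)
        (sq_nonneg ((g i x - ψ x / pr.β x * pr.gβ i x) / pr.β x))
      convert this using 1
      · field_simp
        ring
      · field_simp
  rw [integral_const_mul] at a1
  refine ⟨by simpa using i0.neg, ?_⟩
  rw [PB_el pr hψ hM hv hA hβ', dir]
  nlinarith [mul_le_mul_of_nonneg_left key (show 0 ≤ 1 - η by linarith)]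

theorem Qs_ge (o : One c) (C : ℝ) {η : ℝ} (hη : 0 < η) : ∃ R : ℝ, o.Rs ≤ R ∧
    ∀ (ε : ℝ) (ch : Chan o C ε) (x : X), R ≤ ‖x‖ → ch.I - η ≤ ch.Qs x := by
  refine ⟨max o.Rs (5 / η), le_max_left _ _, fun ε ch x hx => ?_⟩
  have h1 : o.Rs ≤ ‖x‖ := (le_max_left _ _).trans hx
  have h2 : 5 / η ≤ ‖x‖ := (le_max_right _ _).trans hx
  have h3 := o.Rs_ge
  have h0 : 0 < ‖x‖ := by linarith
  have h4 := V_ext' o.D1 (x := x) (by rw [One.Rs] at h1; linarith)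
  have h5 : 0 ≤ 2 * ε / ‖x‖ := by have := ch.ε0; positivity
  have h6 : ε * C / ‖x‖ ^ 2 ≤ 1 / ‖x‖ := by
    rw [div_le_div_iff₀ (by positivity) h0]
    have : ε * C ≤ 1 := by linarith [ch.εC, o.g_le]
    nlinarith
  have h7 : 5 / ‖x‖ ≤ η := by
    rw [div_le_iff₀ hη] at h2
    rw [div_le_iff₀ h0]
    linarith
  have h8 : 5 / ‖x‖ = 4 / ‖x‖ + 1 / ‖x‖ := by ring
  rw [Chan.Qs]
  linarith [(abs_le.1 h4).1]

end Crest.Agent.R335
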