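import Crest.Agent.R335.MDefs
import Crest.Agent.R335.LPoinc
import Crest.Agent.R335.LVan

/-! Row 335. Pairs: hidden convexity and existence of minimisers. -/

set_option autoImplicit false

open MeasureTheory Set Filter Topology
open scoped ENNReal

noncomputable section

namespace Crest.Agent.R335

variable {s : X → ℝ} {gr : Fin 3 → X → ℝ}

theorem PrA_sqrt {u w : X → ℝ} {g k : Fin 3 → X → ℝ} (h : H1 eX u g) (h' : H1 eX w k) {σ : ℝ}
    (h0 : 0 ≤ σ) (h1 : σ ≤ 1) :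
    H1 eX (fun x => √((1 - σ) * u x ^ 2 + σ * w x ^ 2))
      (fun i x => ((1 - σ) * u x * g i x + σ * w x * k i x) /
        √((1 - σ) * u x ^ 2 + σ * w x ^ 2)) ∧
    dir (fun i x => ((1 - σ) * u x * g i x + σ * w x * k i x) /
        √((1 - σ) * u x ^ 2 + σ * w x ^ 2)) ≤ (1 - σ) * dir g + σ * dir k ∧
    nsq (fun x => √((1 - σ) * u x ^ 2 + σ * w x ^ 2)) = (1 - σ) * nsq u + σ * nsq w ∧
    (Van u → Van w → Van fun x => √((1 - σ) * u x ^ 2 + σ * w x ^ 2)) := by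
  obtain ⟨a, ha⟩ : ∃ a : ℝ, a ^ 2 = 1 - σ := ⟨_, Real.sq_sqrt (by linarith)⟩
  obtain ⟨b, rfl⟩ : ∃ b : ℝ, b ^ 2 = σ := ⟨_, Real.sq_sqrt h0⟩
  rw [← ha]
  have e1 : ∀ x, a ^ 2 * u x ^ 2 + b ^ 2 * w x ^ 2 = (a * u x) ^ 2 + (b * w x) ^ 2 := fun x => by
    ring
  have e2 : ∀ i x, a ^ 2 * u x * g i x + b ^ 2 * w x * k i x =
      a * u x * (a * g i x) + b * w x * (b * k i x) := fun i x => by ring
  have hH := (h.smul a).sqrt_sq_add (h'.smul b)
  refine ⟨?_, ?_, ?_, fun hu hw => ?_⟩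
  · simp only [e1, e2]
    exact hH
  · simp only [e1, e2]
    rw [dir, dir, dir, ← LWD_int2 h.integrable_gs h'.integrable_gs]
    refine integral_mono hH.integrable_gs
      ((h.integrable_gs.const_mul _).add (h'.integrable_gs.const_mul _)) fun x => ?_
    refine (gs_sqrt_le (fun x => a * u x) (fun x => b * w x) (fun i x => a * g i x)
      (fun i x => b * k i x) x).trans (le_of_eq ?_)
    simp only [gs, mul_pow, Finset.mul_sum]
  · rw [nsq, nsq, nsq, ← LWD_int2 h.integrable_sq h'.integrable_sq]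
    refine integral_congr_ae (Eventually.of_forall fun x => ?_)
    exact Real.sq_sqrt (by positivity)
  · simp only [e1]
    exact Van.sqrt (hu.mono h.l2 (C := |a|) (Eventually.of_forall fun x => (abs_mul _ _).le))
      (hw.mono h'.l2 (C := |b|) (Eventually.of_forall fun x => (abs_mul _ _).le))
      (h.smul a).l2 (h'.smul b).l2

/-- `H1.sqrt_sq_add` for `√(1 - σ) t` and `√σ t'`; `gs_sqrt_le`, `Van.sqrt`. -/
theorem pair_conv {t β t' β' : X → ℝ} {gt gβ gt' gβ' : Fin 3 → X → ℝ} (h : IsPair s t gt β gβ)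
    (h' : IsPair s t' gt' β' gβ') {σ : ℝ} (h0 : 0 ≤ σ) (h1 : σ ≤ 1) :
    ∃ k l, IsPair s (fun x => √((1 - σ) * t x ^ 2 + σ * t' x ^ 2)) k
        (fun x => √((1 - σ) * β x ^ 2 + σ * β' x ^ 2)) l ∧
      (∀ x i, k i x = ((1 - σ) * t x * gt i x + σ * t' x * gt' i x) /
        √((1 - σ) * t x ^ 2 + σ * t' x ^ 2)) ∧
      (∀ x i, l i x = ((1 - σ) * β x * gβ i x + σ * β' x * gβ' i x) /
        √((1 - σ) * β x ^ 2 + σ * β' x ^ 2)) ∧
      dir k + dir l ≤ (1 - σ) * (dir gt + dir gβ) + σ * (dir gt' + dir gβ') ∧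
      nsq (fun x => √((1 - σ) * t x ^ 2 + σ * t' x ^ 2)) = (1 - σ) * nsq t + σ * nsq t' := by
  obtain ⟨a1, a2, a3, -⟩ := PrA_sqrt h.ht h'.ht h0 h1
  obtain ⟨b1, b2, -, b4⟩ := PrA_sqrt h.hβ h'.hβ h0 h1
  refine ⟨_, _, ⟨a1, b1, b4 h.van h'.van, ?_⟩, fun _ _ => rfl, fun _ _ => rfl, by linarith, a3⟩
  have h2 : 0 ≤ 1 - σ := by linarith
  filter_upwards [h.sum, h'.sum] with x e1 e2
  rw [Real.sq_sqrt (by positivity), Real.sq_sqrt (by positivity)]
  linear_combination (1 - σ) * e1 + σ * e2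

theorem pair_full (hs : H1 eX s gr) : IsPair s s gr (fun _ => 0) fun _ _ => 0 := by
  exact ⟨hs, H1.zero, ⟨0, fun δ _ _ => by simp⟩, Eventually.of_forall fun x => by simp⟩

theorem PrA_mulz (hs : H1 eX s gr) {Φ Φ' : ℝ → ℝ} (hΦ : ∀ z, HasDerivAt Φ (Φ' z) z)
    (hc : Continuous Φ') {K : ℝ} (hK : ∀ z, |Φ' z| ≤ K) (h1 : ∀ z, |Φ z| ≤ 1) :
    ∃ g, H1 eX (fun x => s x * Φ (x 2)) g ∧ dir g ≤ 2 * dir gr + 6 * K ^ 2 * nsq s := by
  have hξ := LVan_coord.comp hΦ hc hK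
  have hb : ∀ (i : Fin 3) (x : X), |Φ' (x 2) * if i = 2 then 1 else 0| ≤ K := fun i x => by
    split_ifs
    · rw [mul_one]; exact hK _
    · rw [mul_zero, abs_zero]; exact (abs_nonneg _).trans (hK 0)
  have hH := hs.mul_h1l hξ (Eventually.of_forall fun x => h1 (x 2)) fun i =>
    (hs.l2.const_mul K).of_le (hs.m.mul (hξ.gm i)).aestronglyMeasurable
      (Eventually.of_forall fun x => by
        rw [Real.norm_eq_abs, Real.norm_eq_abs, abs_mul, abs_mul K, mul_comm]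
        exact mul_le_mul_of_nonneg_right ((hb i x).trans (le_abs_self K)) (abs_nonneg _))
  refine ⟨_, hH, ?_⟩
  rw [dir, dir, nsq, ← LWD_int2 hs.integrable_gs hs.integrable_sq]
  refine integral_mono hH.integrable_gs
    ((hs.integrable_gs.const_mul _).add (hs.integrable_sq.const_mul _)) fun x => ?_
  have key : ∀ i : Fin 3, (gr i x * Φ (x 2) + s x * (Φ' (x 2) * if i = 2 then 1 else 0)) ^ 2 ≤
      2 * gr i x ^ 2 + 2 * K ^ 2 * s x ^ 2 := fun i => by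
    have a1 : Φ (x 2) ^ 2 ≤ 1 := (sq_le_one_iff_abs_le_one _).2 (h1 _)
    have a2 := sq_le_sq' (abs_le.1 (hb i x)).1 (abs_le.1 (hb i x)).2
    generalize (Φ' (x 2) * if i = 2 then 1 else 0) = c at a2
    have a3 := mul_le_mul_of_nonneg_left a1 (sq_nonneg (gr i x))
    have a4 := mul_le_mul_of_nonneg_left a2 (sq_nonneg (s x))
    nlinarith [sq_nonneg (gr i x * Φ (x 2) - s x * c)]
  refine (Finset.sum_le_sum fun i _ => key i).trans (le_of_eq ?_)
  simp only [gs, Fin.sum_univ_three]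
  ring

/-- `t = s cos ϑ(z)`, `β = s sin ϑ(z)` with `ϑ = (π / 2) χ`, where `χ` is an even `C¹` function which
vanishes near `0` and is `1` for `|z| ≥ δ` (`exists_cut_line`; `χ₁ z + χ₁ (-z)`); `slab_trace` with
`2 δ (3 + B) ≤ 1`; `van_of_zero`. -/
theorem pair_ramp (B : ℝ) : ∃ B' : ℝ, ∀ (s : X → ℝ) (gr : Fin 3 → X → ℝ), H1 eX s gr →
    nsq s = 3 → dir gr ≤ B →
    ∃ t gt β gβ, IsPair s t gt β gβ ∧ nsq t ≤ 1 ∧ dir gt + dir gβ ≤ B' := by
  obtain ⟨M, hM, hcut⟩ := exists_cut_line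
  obtain ⟨δ, hδ, hδB⟩ : ∃ δ : ℝ, 0 < δ ∧ 2 * δ * (3 + |B|) = 1 :=
    ⟨1 / (2 * (3 + |B|)), by positivity, by field_simp⟩
  obtain ⟨χ, χ', χ'', hχ, hχ', -, -, hz, ho, hb, -⟩ := hcut (δ / 2) (δ / 2) (half_pos hδ)
  obtain ⟨K, hK⟩ : ∃ K, K = M / (δ / 2) := ⟨_, rfl⟩
  rw [← hK] at hb
  have cχ : Continuous χ := continuous_iff_continuousAt.2 fun z => (hχ z).continuousAt
  have cχ' : Continuous χ' := continuous_iff_continuousAt.2 fun z => (hχ' z).continuousAt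
  have hθ : ∀ z, HasDerivAt (fun z => Real.pi / 2 * (χ z + χ (-z)))
      (Real.pi / 2 * (χ' z - χ' (-z))) z := fun z => by
    have h1 : HasDerivAt (fun z => χ (-z)) (χ' (-z) * -1) z :=
      (hχ (-z)).comp z (hasDerivAt_neg z)
    exact (((hχ z).add h1).const_mul (Real.pi / 2)).congr_deriv (by ring)
  have hθb : ∀ z, |Real.pi / 2 * (χ' z - χ' (-z))| ≤ 2 * K := fun z => by
    rw [abs_mul, abs_of_pos (half_pos Real.pi_pos)]
    refine mul_le_mul (by linarith [Real.pi_le_four]) (abs_le.2 ⟨?_, ?_⟩) (abs_nonneg _)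
      zero_le_two
    · linarith [(hb z).1, (hb (-z)).2]
    · linarith [(hb z).2, (hb (-z)).1]
  have hmul : ∀ (c : ℝ) (z : ℝ), |c| ≤ 1 → |c * (Real.pi / 2 * (χ' z - χ' (-z)))| ≤ 2 * K :=
    fun c z hc => by
      rw [abs_mul]
      exact (mul_le_of_le_one_left (abs_nonneg _) hc).trans (hθb z)
  refine ⟨2 * (2 * B + 6 * (2 * K) ^ 2 * 3), fun s gr hs hn hB => ?_⟩
  obtain ⟨gt, ht, dt⟩ := PrA_mulz hs (fun z => (hθ z).cos) (by fun_prop)
    (fun z => hmul _ z (by rw [abs_neg]; exact Real.abs_sin_le_one _))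
    fun z => Real.abs_cos_le_one _
  obtain ⟨gβ, hβ, dβ⟩ := PrA_mulz hs (fun z => (hθ z).sin) (by fun_prop)
    (fun z => hmul _ z (Real.abs_cos_le_one _)) fun z => Real.abs_sin_le_one _
  refine ⟨_, gt, _, gβ, ⟨ht, hβ, van_of_zero hβ.l2 (half_pos hδ)
    (Eventually.of_forall fun x hx => ?_), Eventually.of_forall fun x => ?_⟩, ?_, ?_⟩
  · rw [hz _ (abs_lt.1 hx).2.le, hz _ (by linarith [(abs_lt.1 hx).1])]
    simp
  · rw [mul_pow, mul_pow, ← mul_add, Real.cos_sq_add_sin_sq, mul_one]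
  · have h1 := slab_trace hs hδ
    have h2 : 2 * δ * (nsq s + dir gr) ≤ 2 * δ * (3 + |B|) :=
      mul_le_mul_of_nonneg_left (by linarith [le_abs_self B]) (by positivity)
    refine le_trans ?_ (h1.trans (h2.trans hδB.le))
    rw [← integral_indicator (LVan_ms' δ)]
    refine integral_mono ht.integrable_sq (hs.integrable_sq.indicator (LVan_ms' δ)) fun x => ?_
    by_cases hx : |x 2| < δ
    · rw [indicator_of_mem (show x ∈ {x : X | |x 2| < δ} from hx)]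
      simp only [mul_pow]
      exact mul_le_of_le_one_right (sq_nonneg _) (Real.cos_sq_le_one _)
    · rw [indicator_of_notMem (show x ∉ {x : X | |x 2| < δ} from hx)]
      have h3 : χ (x 2) + χ (-x 2) = 1 := by
        rcases le_abs.1 (not_lt.1 hx) with h4 | h4
        · rw [ho _ (by linarith), hz _ (by linarith), add_zero]
        · rw [hz _ (by linarith), ho _ (by linarith), zero_add]
      simp only [h3, mul_one, Real.cos_pi_div_two, mul_zero]
      norm_num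
  · rw [hn] at dt dβ
    linarith

/-- almost minimisers which form a Cauchy sequence -/
theorem PrA_seq {A : Type} [Nonempty A] (En N : A → ℝ) (D : A → A → ℝ) (C : ℝ)
    (hE : ∀ p, 0 ≤ En p) (hN : ∀ p, 0 ≤ N p) (hC : ∀ p, N p ≤ C)
    (hmid : ∀ p q, ∃ r, En r ≤ (En p + En q) / 2 ∧ D p q = 2 * N p + 2 * N q - 4 * N r) :
    ∃ e : ℝ, (∀ p, e ≤ En p) ∧ ∃ p : ℕ → A, (∀ n : ℕ, En (p n) ≤ e + 1 / ((n : ℝ) + 1)) ∧
      ∀ δ : ℝ, 0 < δ → ∃ n₀, ∀ n k, n₀ ≤ n → n₀ ≤ k → D (p n) (p k) ≤ δ := by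
  have hb : BddBelow (range En) := ⟨0, by rintro _ ⟨p, rfl⟩; exact hE p⟩
  obtain ⟨e, he⟩ : ∃ e, e = sInf (range En) := ⟨_, rfl⟩
  have hpos : ∀ n : ℕ, (0 : ℝ) < 1 / ((n : ℝ) + 1) := fun n => by positivity
  have hmono : ∀ {n k : ℕ}, n ≤ k → 1 / ((k : ℝ) + 1) ≤ 1 / ((n : ℝ) + 1) := fun h =>
    Nat.one_div_le_one_div h
  let K : ℕ → Set ℝ := fun n => N '' {p | En p ≤ e + 1 / ((n : ℝ) + 1)}
  have hne : ∀ n, (K n).Nonempty := fun n => by
    obtain ⟨_, ⟨p, rfl⟩, hp⟩ := exists_lt_of_csInf_lt (range_nonempty En)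
      (show sInf (range En) < e + 1 / ((n : ℝ) + 1) by rw [← he]; linarith [hpos n])
    exact ⟨N p, p, hp.le, rfl⟩
  have hbd : ∀ n, BddBelow (K n) := fun n => ⟨0, by rintro _ ⟨p, -, rfl⟩; exact hN p⟩
  have hp : ∀ n : ℕ, ∃ p, En p ≤ e + 1 / ((n : ℝ) + 1) ∧ N p ≤ sInf (K n) + 1 / ((n : ℝ) + 1) :=
    fun n => by
      obtain ⟨_, ⟨p, hp, rfl⟩, hp'⟩ := exists_lt_of_csInf_lt (hne n)
        (show sInf (K n) < sInf (K n) + 1 / ((n : ℝ) + 1) by linarith [hpos n])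
      exact ⟨p, hp, hp'.le⟩
  choose p hp1 hp2 using hp
  refine ⟨e, fun q => he ▸ csInf_le hb ⟨q, rfl⟩, p, hp1, fun δ hδ => ?_⟩
  have hd : BddAbove (range fun n => sInf (K n)) := by
    refine ⟨C, ?_⟩
    rintro _ ⟨n, rfl⟩
    exact (csInf_le (hbd n) ⟨p n, hp1 n, rfl⟩).trans (hC _)
  obtain ⟨d, hd'⟩ : ∃ d, d = sSup (range fun n => sInf (K n)) := ⟨_, rfl⟩
  have hle : ∀ n, sInf (K n) ≤ d := fun n => hd' ▸ le_csSup hd ⟨n, rfl⟩
  obtain ⟨_, ⟨n₁, rfl⟩, h1⟩ := exists_lt_of_lt_csSup (range_nonempty fun n => sInf (K n))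
    (show d - δ / 8 < sSup (range fun n => sInf (K n)) by rw [← hd']; linarith)
  obtain ⟨n₂, h2⟩ := exists_nat_one_div_lt (show 0 < δ / 8 by positivity)
  refine ⟨max n₁ n₂, fun n k hn hk => ?_⟩
  obtain ⟨r, hr, hD⟩ := hmid (p n) (p k)
  have a1 := hmono (le_of_max_le_left hn)
  have a2 := hmono (le_of_max_le_left hk)
  have a3 := hmono (le_of_max_le_right hn)
  have a4 := hmono (le_of_max_le_right hk)
  have a5 : sInf (K n₁) ≤ N r := csInf_le (hbd n₁) ⟨r, by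
    change En r ≤ e + 1 / ((n₁ : ℝ) + 1)
    linarith [hp1 n, hp1 k], rfl⟩
  simp only at h1
  linarith [hp2 n, hp2 k, hle n, hle k]

theorem PrA_dct {u : ℕ → X → ℝ} {w b : X → ℝ} (hu : ∀ n, Measurable (u n)) (hw : Measurable w)
    (hb : MemLp b 2 volume)
    (h : ∀ᵐ x, (∀ n, |u n x| ≤ b x) ∧ Tendsto (fun n => u n x) atTop (𝓝 (w x))) :
    MemLp w 2 volume ∧ Tendsto (fun n => nsq fun x => u n x - w x) atTop (𝓝 0) ∧
      Tendsto (fun n => nsq (u n)) atTop (𝓝 (nsq w)) := by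
  have h1 : ∀ᵐ x, |w x| ≤ b x := h.mono fun x hx => le_of_tendsto' hx.2.abs hx.1
  refine ⟨hb.of_le hw.aestronglyMeasurable (h1.mono fun x hx => hx.trans (le_abs_self _)), ?_, ?_⟩
  · have := tendsto_integral_of_dominated_convergence (F := fun n x => (u n x - w x) ^ 2)
      (f := fun _ : X => (0 : ℝ)) (μ := volume) (fun x => 4 * b x ^ 2)
      (fun n => (((hu n).sub hw).pow_const 2).aestronglyMeasurable)
      (hb.integrable_sq.const_mul 4) (fun n => by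
        filter_upwards [h, h1] with x hx hx'
        rw [Real.norm_of_nonneg (sq_nonneg _)]
        have a1 := abs_le.1 (hx.1 n)
        have a2 := abs_le.1 hx'
        have a3 : (u n x - w x) ^ 2 ≤ (2 * b x) ^ 2 := sq_le_sq' (by linarith) (by linarith)
        linarith)
      (h.mono fun x hx => by simpa using (hx.2.sub_const (w x)).pow 2)
    simpa only [integral_zero, nsq] using this
  · exact tendsto_integral_of_dominated_convergence (F := fun n x => u n x ^ 2)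
      (f := fun x => w x ^ 2) (μ := volume) (fun x => b x ^ 2)
      (fun n => ((hu n).pow_const 2).aestronglyMeasurable) hb.integrable_sq (fun n => by
        filter_upwards [h] with x hx
        rw [Real.norm_of_nonneg (sq_nonneg _)]
        exact sq_le_sq' (abs_le.1 (hx.1 n)).1 (abs_le.1 (hx.1 n)).2)
      (h.mono fun x hx => hx.2.pow 2)

theorem PrA_abs {u : X → ℝ} {g : Fin 3 → X → ℝ} (h : H1 eX u g) :
    ∃ k, H1 eX (fun x => |u x|) k ∧ dir k = dir g := by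
  refine ⟨_, h.abs, integral_congr_ae (Eventually.of_forall fun x => ?_)⟩
  simp only [gs]
  split_ifs <;> simp only [neg_sq]

theorem PrA_quot {a b c : ℝ} (hc : 0 ≤ c) (h : a ^ 2 + b ^ 2 = c ^ 2) :
    |a ^ 2 / c| ≤ c ∧ |a| = √(a ^ 2 / c * c) ∧ |b| = √(c ^ 2 - a ^ 2 / c * c) ∧ |a| ≤ c ∧
      |b| ≤ c := by
  have h1 : |a| ≤ c := abs_le_of_sq_le_sq (by nlinarith [sq_nonneg b]) hc
  have h2 : |b| ≤ c := abs_le_of_sq_le_sq (by nlinarith [sq_nonneg a]) hc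
  have h3 : a ^ 2 / c * c = a ^ 2 := by
    rcases hc.eq_or_lt with rfl | hc'
    · rw [abs_nonpos_iff.1 h1]; simp
    · field_simp
  refine ⟨?_, by rw [h3, Real.sqrt_sq_eq_abs], ?_, h1, h2⟩
  · rw [abs_of_nonneg (by positivity)]
    exact div_le_of_le_mul₀ hc hc (by nlinarith [sq_nonneg b])
  · rw [h3, ← h, add_sub_cancel_left, Real.sqrt_sq_eq_abs]

theorem PrA_memLp (hs : H1 eX s gr) (h0 : ∀ x, 0 ≤ s x) {t β : X → ℝ} {gt gβ : Fin 3 → X → ℝ}
    (h : IsPair s t gt β gβ) :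
    MemLp (fun x => t x ^ 2 / s x) 2 volume ∧ nsq (fun x => t x ^ 2 / s x) ≤ nsq s := by
  have h1 : ∀ᵐ x, |t x ^ 2 / s x| ≤ s x := h.sum.mono fun x hx => (PrA_quot (h0 x) hx).1
  have h2 : MemLp (fun x => t x ^ 2 / s x) 2 volume :=
    hs.l2.of_le ((h.ht.m.pow_const 2).div hs.m).aestronglyMeasurable
      (h1.mono fun x hx => hx.trans (le_abs_self _))
  exact ⟨h2, integral_mono_ae h2.integrable_sq hs.integrable_sq
    (h1.mono fun x hx => sq_le_sq' (abs_le.1 hx).1 (abs_le.1 hx).2)⟩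

/-- Let `e` be the infimum.  The sets `K n = {t² / s : pair of mass m and energy ≤ e + 1/n}` are
nonempty, nested, convex (`pair_conv`) and bounded in `L²` (`0 ≤ t² / s ≤ s`).  Almost norm minimal
elements form a Cauchy sequence (parallelogram identity; `exists_l2_lim`, `exists_subseq_ae`).  So
`|t_n| → t`, `|β_n| → β` almost everywhere, dominated by `s`, hence in `L²`.  `H1.of_bdd` along a
subsequence on which `dir (gt n)` converges; `H1.abs`, `Van.lim`. -/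
theorem pair_exists (hs : H1 eX s gr) (h0 : ∀ x, 0 ≤ s x) {m : ℝ}
    (hne : ∃ t gt β gβ, IsPair s t gt β gβ ∧ nsq t = m) :
    ∃ t gt β gβ, IsPair s t gt β gβ ∧ nsq t = m ∧
      ∀ n gn b gb, IsPair s n gn b gb → nsq n = m → dir gt + dir gβ ≤ dir gn + dir gb := by
  let A := {p : (X → ℝ) × (Fin 3 → X → ℝ) × (X → ℝ) × (Fin 3 → X → ℝ) //
    IsPair s p.1 p.2.1 p.2.2.1 p.2.2.2 ∧ nsq p.1 = m}
  have : Nonempty A := by
    obtain ⟨t, gt, β, gβ, h⟩ := hne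
    exact ⟨⟨(t, gt, β, gβ), h⟩⟩
  obtain ⟨e, he, p, hp, hC⟩ := PrA_seq (A := A) (fun p => dir p.1.2.1 + dir p.1.2.2.2)
    (fun p => nsq fun x => p.1.1 x ^ 2 / s x)
    (fun p q => nsq fun x => p.1.1 x ^ 2 / s x - q.1.1 x ^ 2 / s x) (nsq s)
    (fun p => add_nonneg (dir_nonneg _) (dir_nonneg _)) (fun p => nsq_nonneg _)
    (fun p => (PrA_memLp hs h0 p.2.1).2) (by
      rintro ⟨⟨t, gt, β, gβ⟩, h, hm⟩ ⟨⟨t', gt', β', gβ'⟩, h', hm'⟩
      obtain ⟨k, l, a1, -, -, a2, a3⟩ := pair_conv h h' (σ := 1 / 2) (by norm_num) (by norm_num)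
      refine ⟨⟨(_, k, _, l), a1, by rw [a3, hm, hm']; ring⟩, by simp only at a2 ⊢; linarith, ?_⟩
      have b1 := nsq_lin (PrA_memLp hs h0 h).1 (PrA_memLp hs h0 h').1 1 (-1)
      have b2 := nsq_lin (PrA_memLp hs h0 h).1 (PrA_memLp hs h0 h').1 (1 / 2) (1 / 2)
      have b3 : (fun x => √((1 - 1 / 2) * t x ^ 2 + 1 / 2 * t' x ^ 2) ^ 2 / s x) =
          fun x => 1 / 2 * (t x ^ 2 / s x) + 1 / 2 * (t' x ^ 2 / s x) := by
        funext x
        rw [Real.sq_sqrt (by positivity)]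
        ring
      simp only [one_mul, neg_mul, ← sub_eq_add_neg] at b1
      simp only [b3, b1, b2]
      ring)
  have hf := fun n => (PrA_memLp hs h0 (p n).2.1).1
  obtain ⟨w, hwm, hw, hlim⟩ := exists_l2_lim hf hC
  obtain ⟨φ, hφ, hae⟩ := exists_subseq_ae hf hw hlim
  have hq := ae_all_iff.2 fun n => (p (φ n)).2.1.sum
  choose k hk dk using fun n => PrA_abs (p (φ n)).2.1.ht
  choose l hl dl using fun n => PrA_abs (p (φ n)).2.1.hβ
  have mt : Measurable fun x => √(w x * s x) := (hwm.mul hs.m).sqrt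
  have mβ : Measurable fun x => √(s x ^ 2 - w x * s x) :=
    ((hs.m.pow_const 2).sub (hwm.mul hs.m)).sqrt
  have ct : ∀ᵐ x, Tendsto (fun n => |(p (φ n)).1.1 x|) atTop (𝓝 √(w x * s x)) := by
    filter_upwards [hae, hq] with x h1 h2
    exact (h1.mul_const (s x)).sqrt.congr fun n => (PrA_quot (h0 x) (h2 n)).2.1.symm
  have cβ : ∀ᵐ x, Tendsto (fun n => |(p (φ n)).1.2.2.1 x|) atTop
      (𝓝 √(s x ^ 2 - w x * s x)) := by
    filter_upwards [hae, hq] with x h1 h2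
    exact ((h1.mul_const (s x)).const_sub (s x ^ 2)).sqrt.congr
      fun n => (PrA_quot (h0 x) (h2 n)).2.2.1.symm
  obtain ⟨t2, t3, t4⟩ := PrA_dct (fun n => (hk n).m) mt hs.l2 (by
    filter_upwards [hq, ct] with x h1 h2
    exact ⟨fun n => by rw [abs_abs]; exact (PrA_quot (h0 x) (h1 n)).2.2.2.1, h2⟩)
  obtain ⟨β2, β3, -⟩ := PrA_dct (fun n => (hl n).m) mβ hs.l2 (by
    filter_upwards [hq, cβ] with x h1 h2
    exact ⟨fun n => by rw [abs_abs]; exact (PrA_quot (h0 x) (h1 n)).2.2.2.2, h2⟩)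
  have hE : ∀ n : ℕ, dir (k n) + dir (l n) ≤ e + 1 / ((n : ℝ) + 1) := fun n => by
    have := Nat.one_div_le_one_div (α := ℝ) (show n ≤ φ n from hφ.id_le n)
    rw [dk, dl]
    exact (hp (φ n)).trans (by simpa only [add_le_add_iff_left] using this)
  have hE1 : ∀ n : ℕ, dir (k n) + dir (l n) ≤ e + 1 := fun n => by
    have := Nat.one_div_le_one_div (α := ℝ) (Nat.zero_le n)
    rw [Nat.cast_zero, zero_add, div_one] at this
    linarith [hE n]
  obtain ⟨c, hc⟩ : ∃ c, c = liminf (fun n => dir (k n)) atTop := ⟨_, rfl⟩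
  obtain ⟨gt, ht, dt⟩ := H1.of_bdd hk mt t2 t3 (c := c) fun δ hδ =>
    (frequently_lt_of_liminf_lt (IsBoundedUnder.isCoboundedUnder_ge (isBoundedUnder_of
      ⟨e + 1, fun n => by linarith [hE1 n, dir_nonneg (l n)]⟩))
      (show liminf (fun n => dir (k n)) atTop < c + δ by rw [← hc]; linarith)).mono
      fun n hn => hn.le
  obtain ⟨gβ, hβ, dβ⟩ := H1.of_bdd hl mβ β2 β3 (c := e - c) fun δ hδ => by
    have a1 := eventually_lt_of_lt_liminf
      (show c - δ / 2 < liminf (fun n => dir (k n)) atTop by rw [← hc]; linarith)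
      (isBoundedUnder_of ⟨0, fun n => dir_nonneg (k n)⟩)
    have a2 := (tendsto_one_div_add_atTop_nhds_zero_nat (𝕜 := ℝ)).eventually
      (gt_mem_nhds (half_pos hδ))
    refine Eventually.frequently ?_
    filter_upwards [a1, a2] with n b1 b2
    linarith [hE n]
  refine ⟨_, gt, _, gβ, ⟨ht, hβ, Van.lim hl (fun n => (p (φ n)).2.1.van.mono (p (φ n)).2.1.hβ.l2
    (C := 1) (Eventually.of_forall fun x => by rw [abs_abs, one_mul])) (C := e + 1)
    (fun n => by linarith [hE1 n, dir_nonneg (k n)]) β2 β3, ?_⟩, ?_, fun n gn b gb h hm => ?_⟩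
  · filter_upwards [hq, ct, cβ] with x h1 h2 h3
    refine tendsto_nhds_unique ((h2.pow 2).add (h3.pow 2)) (tendsto_const_nhds.congr fun n => ?_)
    rw [sq_abs, sq_abs, h1 n]
  · refine tendsto_nhds_unique t4 (tendsto_const_nhds.congr fun n => ?_)
    refine (p (φ n)).2.2.symm.trans ?_
    simp only [nsq, sq_abs]
  · have := he ⟨(n, gn, b, gb), h, hm⟩
    simp only at this
    linarith

/-- A subgradient: `E` is a set of points `(mass, energy)`, convex in the sense of `hconv`, with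
points on both sides of `2` and a minimal point `(2, e)`.  Take `-2 lam` = the infimum of the slopes
`(y - e) / (m - 2)` over the points with `m > 2`. -/
theorem exists_subgrad {E : Set (ℝ × ℝ)} {e : ℝ}
    (hconv : ∀ p ∈ E, ∀ q ∈ E, ∀ σ : ℝ, 0 ≤ σ → σ ≤ 1 →
      ∃ y, ((1 - σ) * p.1 + σ * q.1, y) ∈ E ∧ y ≤ (1 - σ) * p.2 + σ * q.2)
    (hmin : ∀ p ∈ E, p.1 = 2 → e ≤ p.2) (hl : ∃ p ∈ E, p.1 < 2) (hr : ∃ p ∈ E, 2 < p.1) :
    ∃ lam : ℝ, ∀ p ∈ E, e + 2 * lam * 2 ≤ p.2 + 2 * lam * p.1 := by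
  obtain ⟨r, h1, h2⟩ := exists_between_of_forall_le
    (s := (fun p : ℝ × ℝ => (e - p.2) / (2 - p.1)) '' {p ∈ E | p.1 < 2})
    (t := (fun p : ℝ × ℝ => (p.2 - e) / (p.1 - 2)) '' {p ∈ E | 2 < p.1})
    (Nonempty.image _ hl) (Nonempty.image _ hr) (by
      rintro _ ⟨p, ⟨hp, hp2⟩, rfl⟩ _ ⟨q, ⟨hq, hq2⟩, rfl⟩
      have a1 : 0 < q.1 - p.1 := by linarith
      obtain ⟨y, hy, hy'⟩ := hconv p hp q hq ((2 - p.1) / (q.1 - p.1))
        (div_nonneg (by linarith) a1.le) ((div_le_one a1).2 (by linarith))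
      have a2 := (hmin _ hy (by simp only; field_simp; ring)).trans hy'
      have a3 : (1 - (2 - p.1) / (q.1 - p.1)) * p.2 + (2 - p.1) / (q.1 - p.1) * q.2 =
          ((q.1 - 2) * p.2 + (2 - p.1) * q.2) / (q.1 - p.1) := by field_simp; ring
      rw [a3, le_div_iff₀ a1] at a2
      rw [div_le_div_iff₀ (by linarith) (by linarith)]
      linarith)
  refine ⟨-r / 2, fun p hp => ?_⟩
  rcases lt_trichotomy p.1 2 with h | h | h
  · have := (div_le_iff₀ (by linarith : 0 < 2 - p.1)).1 (h1 ⟨p, ⟨hp, h⟩, rfl⟩)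
    linarith
  · rw [h]
    linarith [hmin p hp h]
  · have := (le_div_iff₀ (by linarith : 0 < p.1 - 2)).1 (h2 ⟨p, ⟨hp, h⟩, rfl⟩)
    linarith

theorem PrA_refl (hP : ∀ x, s (P x) = s x) {t β : X → ℝ} {gt gβ : Fin 3 → X → ℝ}
    (h : IsPair s t gt β gβ) :
    ∃ k l, IsPair s (fun x => t (P x)) k (fun x => β (P x)) l ∧ dir k = dir gt ∧ dir l = dir gβ ∧
      nsq (fun x => t (P x)) = nsq t := by
  refine ⟨_, _, ⟨h.ht.comp_P, h.hβ.comp_P, h.van.comp_P, ?_⟩, ?_, ?_,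
    integral_P fun x => t x ^ 2⟩
  · simpa only [hP] using ae_P h.sum
  · simp only [dir, gs_P]
    exact integral_P _
  · simp only [dir, gs_P]
    exact integral_P _

/-- Interpolate the given pair with `pair_ramp` or `pair_full` to reach the mass `2`; minimise;
symmetrise with `pair_conv` (`σ = 1/2`) and the reflected pair (`H1.comp_P`, `Van.comp_P`). -/
theorem pair0_exists (B : ℝ) : ∃ C₁ : ℝ, 0 ≤ C₁ ∧ ∀ (s : X → ℝ) (gr : Fin 3 → X → ℝ),
    H1 eX s gr → (∀ x, 0 ≤ s x) → (∀ x, s (P x) = s x) → nsq s = 3 → dir gr ≤ B →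
    ∀ t gt β gβ (μ : ℝ), IsPair s t gt β gβ → |nsq t - 2| ≤ μ → μ ≤ 1 / 2 →
      ∃ pr : Pair0 s, dir pr.gt + dir pr.gβ ≤ dir gt + dir gβ + C₁ * μ := by
  obtain ⟨B', hB'⟩ := pair_ramp B
  refine ⟨|B| + |B'|, by positivity, fun s gr hs h0 hP hn hB t gt β gβ μ h hμ hμ' => ?_⟩
  obtain ⟨r, gr', b, gb, hr, hr1, hr2⟩ := hB' s gr hs hn hB
  have hfull := pair_full hs
  have hd0 : dir (fun (_ : Fin 3) (_ : X) => (0 : ℝ)) = 0 := by simp [dir, gs]
  have hE : 0 ≤ dir gt + dir gβ := add_nonneg (dir_nonneg _) (dir_nonneg _)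
  obtain ⟨a1, a2⟩ := abs_le.1 hμ
  have hμ0 : 0 ≤ μ := (abs_nonneg _).trans hμ
  have h2 : ∃ t' gt' β' gβ', IsPair s t' gt' β' gβ' ∧ nsq t' = 2 ∧
      dir gt' + dir gβ' ≤ dir gt + dir gβ + (|B| + |B'|) * μ := by
    have key : ∀ t' gt' β' gβ' (σ : ℝ), IsPair s t' gt' β' gβ' → 0 ≤ σ → σ ≤ μ →
        (1 - σ) * nsq t + σ * nsq t' = 2 → dir gt' + dir gβ' ≤ |B| + |B'| →
        ∃ t' gt' β' gβ', IsPair s t' gt' β' gβ' ∧ nsq t' = 2 ∧
          dir gt' + dir gβ' ≤ dir gt + dir gβ + (|B| + |B'|) * μ := by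
      intro t' gt' β' gβ' σ h' s0 s1 s2 s3
      obtain ⟨k, l, b1, -, -, b2, b3⟩ := pair_conv h h' s0 (by linarith)
      refine ⟨_, k, _, l, b1, b3.trans s2, b2.trans ?_⟩
      have c1 := mul_le_mul s1 s3 (add_nonneg (dir_nonneg _) (dir_nonneg _)) hμ0
      nlinarith [mul_nonneg s0 hE]
    rcases le_total 2 (nsq t) with c | c
    · have c1 : 1 ≤ nsq t - nsq r := by linarith
      refine key _ _ _ _ ((nsq t - 2) / (nsq t - nsq r)) hr
        (div_nonneg (by linarith) (by linarith))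
        ((div_le_self (by linarith) c1).trans a2) ?_ ?_
      · have : nsq t - nsq r ≠ 0 := by linarith
        field_simp
        ring
      · linarith [le_abs_self B', abs_nonneg B]
    · have c1 : 1 ≤ 3 - nsq t := by linarith
      refine key _ _ _ _ ((2 - nsq t) / (3 - nsq t)) hfull
        (div_nonneg (by linarith) (by linarith))
        ((div_le_self (by linarith) c1).trans (by linarith)) ?_ ?_
      · have : 3 - nsq t ≠ 0 := by linarith
        rw [hn]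
        field_simp
        ring
      · linarith [le_abs_self B, abs_nonneg B']
  obtain ⟨t', gt', β', gβ', h', m', d'⟩ := h2
  obtain ⟨t₁, g₁, β₁, l₁, h₁, m₁, hmin⟩ := pair_exists hs h0 ⟨t', gt', β', gβ', h', m'⟩
  obtain ⟨k, l, h₂, e1, e2, e3⟩ := PrA_refl hP h₁
  obtain ⟨k', l', h₃, -, -, d₃, m₃⟩ := pair_conv h₁ h₂ (σ := 1 / 2) (by norm_num) (by norm_num)
  rw [e1, e2] at d₃
  obtain ⟨lam, hlam⟩ := exists_subgrad (e := dir g₁ + dir l₁)
    (E := {p | ∃ n gn b gb, IsPair s n gn b gb ∧ p = (nsq n, dir gn + dir gb)})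
    (by
      rintro _ ⟨n, gn, b, gb, c, rfl⟩ _ ⟨n', gn', b', gb', c', rfl⟩ σ s0 s1
      obtain ⟨k, l, b1, -, -, b2, b3⟩ := pair_conv c c' s0 s1
      exact ⟨dir k + dir l, ⟨_, k, _, l, b1, by rw [b3]⟩, b2⟩)
    (by
      rintro _ ⟨n, gn, b, gb, c, rfl⟩ c'
      exact hmin n gn b gb c c')
    ⟨_, ⟨_, _, _, _, hr, rfl⟩, by simp only; linarith⟩
    ⟨_, ⟨_, _, _, _, hfull, rfl⟩, by simp only; linarith⟩
  refine ⟨⟨_, _, k', l', lam, h₃, fun x => Real.sqrt_nonneg _, fun x => Real.sqrt_nonneg _,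
    fun x => ?_, fun x => ?_, ?_, fun n gn b gb c => ?_⟩, ?_⟩
  · simp only [P_P]
    congr 1
    ring
  · simp only [P_P]
    congr 1
    ring
  · rw [m₃, e3, m₁]
    ring
  · have := hlam _ ⟨n, gn, b, gb, c, rfl⟩
    simp only at this
    linarith
  · have := hmin _ _ _ _ h' m'
    simp only
    linarith

end Crest.Agent.R335
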