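import Crest.Agent.R335.BarA

/-! Row 335. Upper bounds for `s` and `nL` by comparison (`cmp_ext`). -/

set_option autoImplicit false

open MeasureTheory Set Filter Topology
open scoped ENNReal

noncomputable section

namespace Crest.Agent.R335

variable {c : ℝ} {o : One c} {C ε : ℝ}

theorem StA1_cmp {R₀ R : ℝ} {u f U fU : X → ℝ} {g gU : Fin 3 → X → ℝ} (hu : Sub (ext R₀) u g f)
    (hU : Sol (ext 1) U gU fU) (h0 : R₀ ≤ R) (h1 : 1 ≤ R) (A : ℝ)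
    (hs : ∀ᵐ x : X, R < ‖x‖ → ‖x‖ < R + 1 → u x ≤ A * U x)
    (hf : ∀ᵐ x : X, R < ‖x‖ → A * U x < u x → f x ≤ A * fU x) :
    ∀ᵐ x : X, R < ‖x‖ → u x ≤ A * U x :=
  cmp_ext (by linarith) (hu.subset fun _ hx => lt_of_le_of_lt h0 hx)
    ((hU.smul A).sup.subset fun _ hx => lt_of_le_of_lt h1 hx) hs hf

theorem StA1_shell (ch : Chan o C ε) {R : ℝ} {x : X} (h1 : 1 ≤ ‖x‖) (h2 : ‖x‖ < R + 1) :
    1 ≤ Real.exp (2 * (R + 1)) * ch.h x := by
  calc (1 : ℝ) ≤ Real.exp (2 * (R + 1) + -2 * ‖x‖) := Real.one_le_exp (by linarith)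
    _ = Real.exp (2 * (R + 1)) * Real.exp (-2 * ‖x‖) := Real.exp_add _ _
    _ ≤ _ := mul_le_mul_of_nonneg_left (ch.h_ge h1) (Real.exp_pos _).le

theorem StA1_level (ch : Chan o C ε) {x : X} (h1 : 2 * o.Rs + 10 ≤ ‖x‖) (h2 : 20 / o.g ≤ ‖x‖) :
    ch.I + o.g / 8 + 3 / ‖x‖ + o.g / 2 ≤ V o.D x + ch.I + o.g - C * ε := by
  have hD := o.D1
  have hg := o.g_pos
  have hr : 0 < ‖x‖ := lt_of_lt_of_le (by positivity) h2
  have hV := (abs_le.1 (V_ext' hD (x := x) (by unfold One.Rs at h1; linarith))).1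
  have h3 : 1 / ‖x‖ ≤ o.g / 20 := by
    rw [div_le_iff₀ hg] at h2
    rw [div_le_iff₀ hr]
    linarith
  have e1 : 3 / ‖x‖ = 3 * (1 / ‖x‖) := by ring
  have e2 : 4 / ‖x‖ = 4 * (1 / ‖x‖) := by ring
  have := ch.εC
  rw [e1]
  rw [e2] at hV
  linarith

/-- Barrier `A * bar_s`.  `Qs ≥ I - κ₀ / r - (4 D + C) / r² ≥ 0` (`V_ext`); on the shell use `sbd`
and `h_ge`. -/
theorem stA_s (o : One c) (C : ℝ) : ∃ R A : ℝ, 2 * o.Rs + 10 ≤ R ∧ 1 ≤ A ∧
    ∀ (ε : ℝ) (ch : Chan o C ε), ∀ᵐ x : X, R < ‖x‖ → ch.s x ≤ A * ‖x‖ * ch.h x := by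
  set L := 4 * o.D + |C| with hL
  set R := max (2 * o.Rs + 10) (64 * L ^ 2) with hR
  have hD := o.D1
  have hRs := o.Rs_ge
  have hL1 : 1 ≤ L := by linarith [abs_nonneg C]
  have hR1 : 2 * o.Rs + 10 ≤ R := le_max_left _ _
  have hR2 : 64 * L ^ 2 ≤ R := le_max_right _ _
  refine ⟨R, 1 + 2 * |C| * Real.exp (2 * (R + 1)), hR1, le_add_of_nonneg_right (by positivity),
    fun ε ch => ?_⟩
  set A := 1 + 2 * |C| * Real.exp (2 * (R + 1)) with hA
  have hA0 : 0 < A := by positivity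
  obtain ⟨U, gU, fU, hU, hb⟩ := ch.bar_s
  have key := StA1_cmp ch.subs hU (R := R) (by linarith) (by linarith) A ?_ ?_
  · filter_upwards [key] with x hx hxR
    refine (hx hxR).trans ?_
    rw [mul_assoc]
    exact mul_le_mul_of_nonneg_left (hb x (by linarith)).2.1 hA0.le
  · filter_upwards [ch.sbd] with x hx h1 h2
    have h3 := StA1_shell ch (by linarith) h2
    have h4 := (hb x (by linarith)).1
    have h5 := ch.h_pos (x := x) (by linarith)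
    have h6 : ch.h x / 2 ≤ U x := le_trans (by nlinarith) h4
    have h7 : 0 ≤ U x := le_trans (by positivity) h6
    calc ch.s x ≤ |C| * 1 := by linarith [le_abs_self C]
      _ ≤ |C| * (Real.exp (2 * (R + 1)) * ch.h x) := by gcongr
      _ = 2 * |C| * Real.exp (2 * (R + 1)) * (ch.h x / 2) := by ring
      _ ≤ 2 * |C| * Real.exp (2 * (R + 1)) * U x := by gcongr
      _ ≤ _ := by rw [hA]; linarith
  · refine Eventually.of_forall fun x h1 h2 => ?_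
    obtain ⟨b1, b2, b3⟩ := hb x (by linarith)
    have hr : 0 < ‖x‖ := by linarith
    have h5 := ch.h_pos (x := x) hr
    have h7 : 0 ≤ U x := le_trans (by positivity) b1
    have hV := (abs_le.1 (V_ext hD (x := x) (by unfold One.Rs at hR1; linarith))).1
    have hε := ch.ε_le
    have hε0 := ch.ε0
    have hC := ch.C1
    have hI := ch.I_bd.1
    have hεC : ε * C / ‖x‖ ^ 2 ≤ |C| / ‖x‖ ^ 2 := by
      gcongr
      nlinarith [le_abs_self C]
    have hQ : ch.I - (2 - 2 * ε) / ‖x‖ - L / ‖x‖ ^ 2 ≤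
        V o.D x + ch.I + 2 * ε / ‖x‖ - ε * C / ‖x‖ ^ 2 := by
      have e1 : (2 - 2 * ε) / ‖x‖ = 2 / ‖x‖ - 2 * ε / ‖x‖ := by ring
      have e2 : L / ‖x‖ ^ 2 = 4 * o.D / ‖x‖ ^ 2 + |C| / ‖x‖ ^ 2 := by rw [hL]; ring
      linarith
    have hsq : 8 * L ≤ √‖x‖ := Real.le_sqrt_of_sq_le (by nlinarith)
    have hss : √‖x‖ * √‖x‖ = ‖x‖ := Real.mul_self_sqrt hr.le
    have hs0 : 0 < √‖x‖ := by linarith
    have hLr : L / ‖x‖ ≤ 1 / (8 * √‖x‖) := by
      rw [div_le_div_iff₀ hr (by positivity)]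
      nlinarith
    have hQ0 : 0 ≤ ch.I - (2 - 2 * ε) / ‖x‖ - L / ‖x‖ ^ 2 := by
      have e1 : (2 - 2 * ε) / ‖x‖ ≤ 1 / 8 := by
        rw [div_le_iff₀ hr]; linarith
      have e2 : L / ‖x‖ ^ 2 ≤ 1 / 8 := by
        rw [div_le_iff₀ (by positivity)]; nlinarith
      linarith
    have h8 : L / ‖x‖ ^ 2 * U x ≤ ch.h x / (8 * √‖x‖) := by
      calc L / ‖x‖ ^ 2 * U x ≤ L / ‖x‖ ^ 2 * (‖x‖ * ch.h x) := by gcongr
        _ = L / ‖x‖ * ch.h x := by field_simp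
        _ ≤ 1 / (8 * √‖x‖) * ch.h x := by gcongr
        _ = _ := by ring
    set Q := V o.D x + ch.I + 2 * ε / ‖x‖ - ε * C / ‖x‖ ^ 2
    set Q' := ch.I - (2 - 2 * ε) / ‖x‖ - L / ‖x‖ ^ 2 with hQ'
    have h9 : 0 ≤ fU x + Q' * U x := by rw [hQ', sub_mul]; linarith
    have h10 : Q' * (A * U x) ≤ Q * ch.s x :=
      mul_le_mul hQ h2.le (by positivity) (hQ0.trans hQ)
    nlinarith [mul_nonneg hA0.le h9]

/-- Barrier `A * bar_rad`; the level of `nL` is `V + I + g - C ε ≥ I + 1 / r + g / 2`. -/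
theorem stA_L1 (o : One c) (C R₀ A₀ : ℝ) (hR : 2 * o.Rs + 10 ≤ R₀) : ∃ R A : ℝ, R₀ ≤ R ∧ 1 ≤ A ∧
    ∀ (ε : ℝ) (ch : Chan o C ε), (∀ᵐ x : X, R₀ < ‖x‖ → ch.s x ≤ A₀ * ‖x‖ * ch.h x) →
      ∀ᵐ x : X, R < ‖x‖ → ch.nL x ≤ A / ‖x‖ * ch.h x := by
  set R := max R₀ (20 / o.g) with hRd
  have hRs := o.Rs_ge
  have hg := o.g_pos
  have hR1 : R₀ ≤ R := le_max_left _ _
  have hR2 : 20 / o.g ≤ R := le_max_right _ _
  refine ⟨R, 1 + |A₀| * (R + 1) ^ 2, hR1, le_add_of_nonneg_right (by positivity),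
    fun ε ch hs => ?_⟩
  set A := 1 + |A₀| * (R + 1) ^ 2 with hA
  have hA0 : 0 < A := by positivity
  have hA1 : |A₀| ≤ A := by
    have : (1 : ℝ) ≤ (R + 1) ^ 2 := one_le_pow₀ (by linarith)
    nlinarith [abs_nonneg A₀]
  obtain ⟨U, gU, fU, hU, hb⟩ := ch.bar_rad
  have key := StA1_cmp ch.subL hU (R := R) (by linarith) (by linarith) A ?_ ?_
  · filter_upwards [key] with x hx hxR
    refine (hx hxR).trans (le_of_eq ?_)
    rw [(hb x (by linarith)).1]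
    ring
  · filter_upwards [hs, ch.p_le_s] with x hx hp h1 h2
    have hr : 0 < ‖x‖ := by linarith
    have h5 := ch.h_pos (x := x) hr
    rw [(hb x (by linarith)).1]
    calc ch.nL x ≤ A₀ * ‖x‖ * ch.h x := hp.2.2.1.trans (hx (by linarith))
      _ ≤ |A₀| * ‖x‖ * ch.h x := by gcongr; exact le_abs_self _
      _ = |A₀| * ‖x‖ ^ 2 * (ch.h x / ‖x‖) := by field_simp
      _ ≤ |A₀| * (R + 1) ^ 2 * (ch.h x / ‖x‖) := by gcongr
      _ ≤ _ := by gcongr; rw [hA]; linarith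
  · filter_upwards [hs, ch.p_le_s] with x hx hp h1 h2
    obtain ⟨b1, b2⟩ := hb x (by linarith)
    have hr : 0 < ‖x‖ := by linarith
    have h5 := ch.h_pos (x := x) hr
    have h7 : 0 ≤ U x := by rw [b1]; positivity
    have hQ := StA1_level ch (x := x) (by linarith) (by linarith)
    have hI := ch.I_bd.1
    have hεC := ch.εC
    have hp' : |ch.p x| ≤ A * ‖x‖ * ch.h x := by
      refine (hp.1.trans (hx (by linarith))).trans ?_
      gcongr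
      exact (le_abs_self _).trans hA1
    have h8 : ε * C / ‖x‖ ^ 2 * |ch.p x| ≤ o.g / 2 * (A * U x) := by
      calc ε * C / ‖x‖ ^ 2 * |ch.p x| ≤ o.g / 2 / ‖x‖ ^ 2 * (A * ‖x‖ * ch.h x) := by
            gcongr
            linarith
        _ = _ := by rw [b1]; field_simp
    have e : 1 / ‖x‖ ≤ 3 / ‖x‖ := by gcongr; norm_num
    have hQ' : ch.I + 1 / ‖x‖ + o.g / 2 ≤ V o.D x + ch.I + o.g - C * ε := by linarith
    have hQ0 : 0 ≤ ch.I + 1 / ‖x‖ + o.g / 2 := by positivity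
    have h10 := mul_le_mul hQ' h2.le (by positivity) (hQ0.trans hQ')
    nlinarith [mul_nonneg hA0.le b2]

/-- Barrier `A * bar_sqrt` with `l = 4 / g`. -/
theorem stA_L2 (o : One c) (C R₀ A₀ : ℝ) (hR : 2 * o.Rs + 10 ≤ R₀) : ∃ R A : ℝ, R₀ ≤ R ∧ 1 ≤ A ∧
    ∀ (ε : ℝ) (ch : Chan o C ε), (∀ᵐ x : X, R₀ < ‖x‖ → |ch.p x| ≤ A₀ * |x 2| * ch.h x) →
      ∀ᵐ x : X, R < ‖x‖ → ch.nL x ≤ A * (1 + |x 2|) / ‖x‖ ^ 2 * ch.h x := by
  set R := max R₀ (20 / o.g) with hRd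
  have hRs := o.Rs_ge
  have hg := o.g_pos
  have hg1 := o.g_le
  have hR1 : R₀ ≤ R := le_max_left _ _
  have hR2 : 20 / o.g ≤ R := le_max_right _ _
  set l := 4 / o.g with hl
  have hl1 : 1 ≤ l := by rw [hl, le_div_iff₀ hg]; linarith
  set A := 1 + |A₀| + |C| * (R + 1) ^ 2 * Real.exp (2 * (R + 1)) with hA
  have hA2 : 0 ≤ |C| * (R + 1) ^ 2 * Real.exp (2 * (R + 1)) := by positivity
  have hA0 : 0 < A := by positivity
  have hA1 : |A₀| ≤ A := by linarith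
  refine ⟨R, A * l, hR1, one_le_mul_of_one_le_of_one_le (by linarith [abs_nonneg A₀]) hl1,
    fun ε ch hs => ?_⟩
  obtain ⟨U, gU, fU, hU, hb⟩ := ch.bar_sqrt hl1
  have key := StA1_cmp ch.subL hU (R := R) (by linarith) (by linarith) A ?_ ?_
  · filter_upwards [key] with x hx hxR
    refine (hx hxR).trans ?_
    have hr : 0 < ‖x‖ := by linarith
    have h5 := ch.h_pos (x := x) hr
    rw [(hb x (by linarith)).1]
    have h1 : √(l + x 2 ^ 2) ≤ l * (1 + |x 2|) := by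
      refine Real.sqrt_le_iff.2 ⟨by positivity, ?_⟩
      have h2 : 1 + x 2 ^ 2 ≤ (1 + |x 2|) ^ 2 := by nlinarith [abs_nonneg (x 2), sq_abs (x 2)]
      have h3 : l + x 2 ^ 2 ≤ l ^ 2 * (1 + x 2 ^ 2) := by
        have : 1 ≤ l ^ 2 := one_le_pow₀ hl1
        nlinarith [sq_nonneg (x 2)]
      rw [mul_pow]
      exact h3.trans (by gcongr)
    calc A * (√(l + x 2 ^ 2) / ‖x‖ ^ 2 * ch.h x) ≤ A * (l * (1 + |x 2|) / ‖x‖ ^ 2 * ch.h x) := by
          gcongr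
      _ = _ := by ring
  · filter_upwards [ch.sbd, ch.p_le_s] with x hx hp h1 h2
    have hr : 0 < ‖x‖ := by linarith
    have h5 := ch.h_pos (x := x) hr
    have h3 := StA1_shell ch (by linarith) h2
    have h4 : 1 ≤ √(l + x 2 ^ 2) := Real.one_le_sqrt.2 (by nlinarith [sq_nonneg (x 2)])
    rw [(hb x (by linarith)).1]
    calc ch.nL x ≤ |C| * 1 := by linarith [le_abs_self C, hp.2.2.1]
      _ ≤ |C| * (Real.exp (2 * (R + 1)) * ch.h x) := by gcongr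
      _ = |C| * ‖x‖ ^ 2 * Real.exp (2 * (R + 1)) * (1 / ‖x‖ ^ 2 * ch.h x) := by field_simp
      _ ≤ |C| * (R + 1) ^ 2 * Real.exp (2 * (R + 1)) * (√(l + x 2 ^ 2) / ‖x‖ ^ 2 * ch.h x) := by
          gcongr
      _ ≤ _ := by gcongr; linarith [abs_nonneg A₀]
  · filter_upwards [hs] with x hx h1 h2
    obtain ⟨b1, b2⟩ := hb x (by linarith)
    have hr : 0 < ‖x‖ := by linarith
    have h5 := ch.h_pos (x := x) hr
    have h7 : 0 ≤ U x := by rw [b1]; positivity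
    have hQ := StA1_level ch (x := x) (by linarith) (by linarith)
    have hI := ch.I_bd.1
    have hεC := ch.εC
    have hz : |x 2| ≤ √(l + x 2 ^ 2) := Real.abs_le_sqrt (by linarith)
    have hp' : |ch.p x| ≤ A * √(l + x 2 ^ 2) * ch.h x := by
      refine (hx (by linarith)).trans ?_
      gcongr
      exact (le_abs_self _).trans hA1
    have h8 : ε * C / ‖x‖ ^ 2 * |ch.p x| ≤ o.g / 2 * (A * U x) := by
      calc ε * C / ‖x‖ ^ 2 * |ch.p x| ≤ o.g / 2 / ‖x‖ ^ 2 * (A * √(l + x 2 ^ 2) * ch.h x) := by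
            gcongr
            linarith
        _ = _ := by rw [b1]; field_simp
    have e : 1 / (2 * l) = o.g / 8 := by rw [hl]; field_simp; norm_num
    rw [e] at b2
    have hQ0 : 0 ≤ ch.I + o.g / 8 + 3 / ‖x‖ + o.g / 2 := by positivity
    have h10 := mul_le_mul hQ h2.le (by positivity) (hQ0.trans hQ)
    nlinarith [mul_nonneg hA0.le b2]

end Crest.Agent.R335
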