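import Crest.Agent.R335.TS

/-! Row 335. Gaps of the noninteracting two- and three-body problems. -/

set_option autoImplicit false

open MeasureTheory Set Filter Topology
open scoped ENNReal

noncomputable section

namespace Crest.Agent.R335

variable {c : ℝ} {o : One c} {C ε : ℝ}

section T2

variable {E F : Type} [NormedAddCommGroup E] [NormedSpace ℝ E] [FiniteDimensional ℝ E]
  [MeasureSpace E] [BorelSpace E] [(volume : Measure E).IsAddHaarMeasure]
  [NormedAddCommGroup F] [NormedSpace ℝ F] [FiniteDimensional ℝ F]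
  [MeasureSpace F] [BorelSpace F] [(volume : Measure F).IsAddHaarMeasure]

theorem T2_left {Φ : E × F → ℝ} (h : MemLp Φ 2 volume) {a b : E → ℝ} (ha : MemLp a 2 volume)
    (hb : MemLp b 2 volume) {q : F → ℝ} (hq : Integrable q) {α β γ : ℝ}
    (hle : ∀ᵐ y, α * nsq (fun x => Φ (x, y)) - β * ip a (fun x => Φ (x, y)) ^ 2 -
      γ * ip b (fun x => Φ (x, y)) ^ 2 ≤ q y) :
    α * nsq Φ - β * (∫ y, ip a (fun x => Φ (x, y)) ^ 2) -
      γ * ∫ y, ip b (fun x => Φ (x, y)) ^ 2 ≤ ∫ y, q y := by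
  obtain ⟨-, i1, -, e⟩ := nsq_prod h
  have i2 := (integrable_ip_sq h ha (b := fun _ => 0) MemLp.zero).1
  have i3 := (integrable_ip_sq h hb (b := fun _ => 0) MemLp.zero).1
  have i4 := (i1.const_mul α).sub' (i2.const_mul β)
  refine le_trans (le_of_eq ?_) (integral_mono_ae (i4.sub' (i3.const_mul γ)) hq hle)
  rw [integral_sub i4 (i3.const_mul γ), integral_sub (i1.const_mul α) (i2.const_mul β),
    integral_const_mul, integral_const_mul, integral_const_mul, e]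

theorem T2_right {Φ : E × F → ℝ} (h : MemLp Φ 2 volume) {a b : F → ℝ} (ha : MemLp a 2 volume)
    (hb : MemLp b 2 volume) {q : E → ℝ} (hq : Integrable q) {α β γ : ℝ}
    (hle : ∀ᵐ x, α * nsq (fun y => Φ (x, y)) - β * ip a (fun y => Φ (x, y)) ^ 2 -
      γ * ip b (fun y => Φ (x, y)) ^ 2 ≤ q x) :
    α * nsq Φ - β * (∫ x, ip a (fun y => Φ (x, y)) ^ 2) -
      γ * ∫ x, ip b (fun y => Φ (x, y)) ^ 2 ≤ ∫ x, q x := by
  obtain ⟨i1, -, e, -⟩ := nsq_prod h
  have i2 := (integrable_ip_sq h (a := fun _ => 0) MemLp.zero ha).2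
  have i3 := (integrable_ip_sq h (a := fun _ => 0) MemLp.zero hb).2
  have i4 := (i1.const_mul α).sub' (i2.const_mul β)
  refine le_trans (le_of_eq ?_) (integral_mono_ae (i4.sub' (i3.const_mul γ)) hq hle)
  rw [integral_sub i4 (i3.const_mul γ), integral_sub (i1.const_mul α) (i2.const_mul β),
    integral_const_mul, integral_const_mul, integral_const_mul, e]

omit [BorelSpace E] [BorelSpace F] in
theorem T2_tb {Φ : E × F → ℝ} (h : MemLp Φ 2 volume) {a : E → ℝ} {b : F → ℝ}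
    (ha : MemLp a 2 volume) (hb : MemLp b 2 volume) (na : nsq a = 1) (nb : nsq b = 1) :
    (∫ y, ip a (fun x => Φ (x, y)) ^ 2) + ∫ x, ip b (fun y => Φ (x, y)) ^ 2 ≤
      nsq Φ + ip (fun p : E × F => a p.1 * b p.2) Φ ^ 2 :=
  tb (μ := volume) (ν := volume) h ha hb na nb

end T2

theorem T2_nsq {E : Type} [NormedAddCommGroup E] [NormedSpace ℝ E] [MeasureSpace E] (u : E → ℝ) :
    nsq u = ip u u := by
  simp only [nsq, ip, sq]

theorem T2_swap (f : Y → ℝ) : ∫ y : Y, f y.swap = ∫ y, f y :=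
  integral_prod_swap (μ := volume) (ν := volume) f

theorem T2_one (o : One c) {u : X → ℝ} {g : Fin 3 → X → ℝ} (h : H1 eX u g) :
    o.ea * nsq u + o.g * (nsq u - ip o.a u ^ 2) ≤ qf (V o.D) u g ∧
      o.ea * nsq u + o.g * (2 * nsq u - 2 * ip o.a u ^ 2 - ip o.b u ^ 2) ≤ qf (V o.D) u g := by
  have h1 := o.gap u g h
  have hl := o.ha.lin o.hb (ip o.a u) (ip o.b u)
  have h2 := nsq_nonneg fun x => 1 * (ip o.a u * o.a x + ip o.b u * o.b x) + -1 * u x
  have h3 : ip (fun x => ip o.a u * o.a x + ip o.b u * o.b x) u = ip o.a u ^ 2 + ip o.b u ^ 2 := by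
    rw [sq, sq]
    refine Eq.trans (integral_congr_ae (.of_forall fun x => ?_))
      (LWD_int2 (o.ha.integrable_mul h) (o.hb.integrable_mul h) (ip o.a u) (ip o.b u))
    beta_reduce
    ring
  rw [nsq_lin hl.l2 h.l2, nsq_lin o.ha.l2 o.hb.l2, o.na, o.nb, o.ab, h3] at h2
  have h4 : 0 ≤ nsq u - ip o.a u ^ 2 - ip o.b u ^ 2 := by linarith only [h2]
  have h5 := mul_le_mul_of_nonneg_right o.g2 h4
  have h6 := mul_nonneg o.g_pos.le h4
  rw [One.g] at h6 ⊢
  exact ⟨by linarith only [h1, h5, h6], by linarith only [h1, h5]⟩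

/-- `(a ⊗ b + s b ⊗ a) / √2`. -/
def T2_pm (o : One c) (s : ℝ) (y : Y) : ℝ :=
  (√2)⁻¹ * (o.a y.1 * o.b y.2) + s * (√2)⁻¹ * (o.b y.1 * o.a y.2)

theorem T2_sy (o : One c) : T2_pm o 1 = o.sy := by
  funext y
  rw [T2_pm, One.sy]
  ring

theorem T2_two : (√2)⁻¹ ^ 2 = (1 / 2 : ℝ) := by
  rw [inv_pow, Real.sq_sqrt two_pos.le, one_div]

theorem T2_ip (o : One c) {u : Y → ℝ} (h : MemLp u 2 volume) {s : ℝ} (hs : s = 1 ∨ s = -1)
    (hsym : ∀ y, u y.swap = s * u y) :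
    ip (T2_pm o s) u ^ 2 = 2 * ip (fun y : Y => o.a y.1 * o.b y.2) u ^ 2 := by
  have h1 : ∫ y : Y, o.b y.1 * o.a y.2 * u y = s * ip (fun y : Y => o.a y.1 * o.b y.2) u := by
    rw [← T2_swap, ip, ← integral_const_mul]
    refine integral_congr_ae (.of_forall fun y => ?_)
    simp only [hsym, Prod.fst_swap, Prod.snd_swap]
    ring
  have h2 : ip (T2_pm o s) u = (√2)⁻¹ * ip (fun y : Y => o.a y.1 * o.b y.2) u +
      s * (√2)⁻¹ * ∫ y : Y, o.b y.1 * o.a y.2 * u y := by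
    refine Eq.trans (integral_congr_ae (.of_forall fun y => ?_))
      (LWD_int2 (LWD_int_mul (o.ha.tensor o.hb).l2 h) (LWD_int_mul (o.hb.tensor o.ha).l2 h) _ _)
    simp only [T2_pm]
    ring
  rw [h2, h1]
  rcases hs with rfl | rfl <;>
    linear_combination 4 * ip (fun y : Y => o.a y.1 * o.b y.2) u ^ 2 * T2_two

theorem T2_spec (o : One c) {s : ℝ} (hs : s = 1 ∨ s = -1) : ∃ k, H1 eY (T2_pm o s) k ∧
    nsq (T2_pm o s) = 1 ∧ qf (U2 o.D 0) (T2_pm o s) k = o.ea + o.eb := by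
  have h1 := o.ha.tensor o.hb
  have h2 := o.hb.tensor o.ha
  have h := h1.lin h2 (√2)⁻¹ (s * (√2)⁻¹)
  have hn : nsq (T2_pm o s) = 1 := by
    refine (nsq_lin h1.l2 h2.l2 _ _).trans ?_
    rw [T2_nsq, T2_nsq, ip_tensor, ip_tensor, ip_tensor, ← T2_nsq, ← T2_nsq, o.na, o.nb, o.ab]
    rcases hs with rfl | rfl <;> linear_combination 2 * T2_two
  refine ⟨_, h, hn, ?_⟩
  have e1 := eig_tensor (fb_V o.D) (fb_V o.D) o.ha o.hb o.eiga o.eigb
  have e2 := eig_tensor (fb_V o.D) (fb_V o.D) o.hb o.ha o.eigb o.eiga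
  rw [add_comm o.eb] at e2
  rw [U2_zero, ← bf_self]
  rw [T2_nsq] at hn
  exact (Eig.lin ((fb_V o.D).prod (fb_V o.D)) h1 h2 e1 e2 _ _ _ _ h).trans
    ((congrArg _ hn).trans (mul_one _))

/-- `qf_prod`, `One.gap` on slices (`c ≥ g`), `tb`. -/
theorem gap2_all (o : One c) {u : Y → ℝ} {g : IY → Y → ℝ} (h : H1 eY u g) :
    2 * o.ea * nsq u + o.g * (nsq u - ip o.aa u ^ 2) ≤ qf (U2 o.D 0) u g := by
  obtain ⟨i1, i2, e⟩ := qf_prod (fb_V o.D) (fb_V o.D) h
  have h1 := T2_left h.l2 o.ha.l2 o.hb.l2 i1 (α := o.ea + o.g) (β := o.g) (γ := 0)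
    (h.slice_left.mono fun y hy => by linarith only [(T2_one o hy).1])
  have h2 := T2_right h.l2 o.ha.l2 o.hb.l2 i2 (α := o.ea + o.g) (β := o.g) (γ := 0)
    (h.slice_right.mono fun y hy => by linarith only [(T2_one o hy).1])
  have h3 := mul_le_mul_of_nonneg_left (T2_tb h.l2 o.ha.l2 o.ha.l2 o.na o.na) o.g_pos.le
  rw [U2_zero, e]
  change _ ≤ o.g * (nsq u + ip o.aa u ^ 2) at h3
  linarith only [h1, h2, h3]

/-- On slices `qf ≥ ea ‖·‖² + g (2 ‖·‖² - 2 ⟨a, ·⟩² - ⟨b, ·⟩²)` (`c ≥ 2 g`, Bessel); `tb2`. -/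
theorem gap2_pm (o : One c) {u : Y → ℝ} {g : IY → Y → ℝ} (h : H1 eY u g) {s : ℝ}
    (hs : s = 1 ∨ s = -1) (hsym : ∀ y, u y.swap = s * u y) (h0 : ip o.aa u = 0) :
    (o.ea + o.eb) * nsq u + o.g * (nsq u - 2 * ip (fun y : Y => o.a y.1 * o.b y.2) u ^ 2) ≤
      qf (U2 o.D 0) u g := by
  obtain ⟨i1, i2, e⟩ := qf_prod (fb_V o.D) (fb_V o.D) h
  have h1 := T2_left h.l2 o.ha.l2 o.hb.l2 i1 (α := o.ea + 2 * o.g) (β := 2 * o.g) (γ := o.g)
    (h.slice_left.mono fun y hy => by linarith only [(T2_one o hy).2])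
  have h2 := T2_right h.l2 o.ha.l2 o.hb.l2 i2 (α := o.ea + 2 * o.g) (β := 2 * o.g) (γ := o.g)
    (h.slice_right.mono fun y hy => by linarith only [(T2_one o hy).2])
  have h3 : ∀ (d : X → ℝ) (x : X), ip d (fun y => u (x, y)) ^ 2 = ip d (fun y => u (y, x)) ^ 2 := by
    intro d x
    have : ip d (fun y => u (x, y)) = s * ip d fun y => u (y, x) := by
      rw [ip, ip, ← integral_const_mul]
      exact integral_congr_ae (.of_forall fun y => by
        beta_reduce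
        rw [show u (x, y) = s * u (y, x) from hsym (y, x)]
        ring)
    rw [this]
    rcases hs with rfl | rfl <;> ring
  simp only [h3] at h2
  have h4 := mul_le_mul_of_nonneg_left (tb2 (μ := volume) h.l2 hs (fun x y => hsym (x, y))
    o.ha.l2 o.hb.l2 o.na o.nb o.ab h0) o.g_pos.le
  change o.g * (2 * (∫ y, ip o.a (fun x => u (x, y)) ^ 2) + ∫ y, ip o.b (fun x => u (x, y)) ^ 2) ≤
    o.g * (nsq u + ip (fun y : Y => o.a y.1 * o.b y.2) u ^ 2) at h4
  have h5 : o.eb * nsq u = o.ea * nsq u + o.g * nsq u := by rw [One.g]; ring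
  rw [U2_zero, e]
  linarith only [h1, h2, h4, h5]

theorem gap2_sy (o : One c) {u : Y → ℝ} {g : IY → Y → ℝ} (h : H1 eY u g)
    (hsym : ∀ y, u y.swap = u y) (ho : ∀ y, u (PY y) = -u y) :
    (o.ea + o.eb) * nsq u + o.g * (nsq u - ip o.sy u ^ 2) ≤ qf (U2 o.D 0) u g := by
  have h0 : ip o.aa u = 0 := by
    have h1 := integral_PY fun y => o.aa y * u y
    have h2 : ∀ y, o.aa (PY y) = o.aa y := fun y => by simp only [One.aa, PY, o.aP]
    simp only [h2, ho, mul_neg, integral_neg] at h1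
    rw [ip]
    linarith only [h1]
  have h1 := gap2_pm o h (Or.inl rfl) (fun y => by rw [hsym, one_mul]) h0
  rw [← T2_ip o h.l2 (Or.inl rfl) fun y => by rw [hsym, one_mul], T2_sy] at h1
  exact h1

/-- Compose with `cyc` (`qf_comp`, `sym_cyc`): the slices in `Y` are antisymmetric; `gap2_pm` with
`s = -1`, `One.gap` in the remaining variable, `tb` with `a` and `(a ⊗ b - b ⊗ a) / √2`. -/
theorem gap3 (o : One c) {u : T → ℝ} {g : IT → T → ℝ} (h : H1 eT u g) (ha : Anti u) :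
    (2 * o.ea + o.eb) * nsq u + o.g * (nsq u - ip o.u0 u ^ 2) ≤ qf (U3 o.D 0) u g := by
  obtain ⟨S⟩ := sym_cyc
  have hw := h.comp_equiv S.A S.σ S.sgn S.fr
  obtain ⟨e1, -, e2⟩ := qf_comp (U3 o.D 0) S.A S.σ S.sgn S.hsg S.mp u g
  have e3 : (fun p => U3 o.D 0 (S.A p)) = fun p : T => V o.D p.1 + U2 o.D 0 p.2 := by
    funext p
    rw [S.eq, U3_cyc, U3, zero_mul, add_zero]
  have e4 : ip (fun p : T => o.a p.1 * T2_pm o (-1) p.2) (fun p => u (S.A p)) = ip o.u0 u := by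
    rw [ip, ip, ← S.mp.integral_comp S.A.toHomeomorph.measurableEmbedding fun p => o.u0 p * u p]
    refine integral_congr_ae (.of_forall fun p => ?_)
    simp only [S.eq, One.u0, slater, cyc, T2_pm]
    ring
  obtain ⟨k, hk, nk, -⟩ := T2_spec o (Or.inr rfl)
  obtain ⟨i1, i2, e⟩ := qf_prod (fb_V o.D) (fb_U2 o.D le_rfl zero_le_one) hw
  have h1 := T2_left hw.l2 o.ha.l2 o.hb.l2 i1 (α := o.ea + o.g) (β := o.g) (γ := 0)
    (hw.slice_left.mono fun y hy => by linarith only [(T2_one o hy).1])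
  have h2 := T2_right hw.l2 hk.l2 hk.l2 i2 (α := o.ea + o.eb + o.g) (β := o.g) (γ := 0)
    (hw.slice_right.mono fun x hx => by
      have hs : ∀ y : Y, u (S.A (x, y.swap)) = -1 * u (S.A (x, y)) := fun y => by
        rw [S.eq, S.eq, neg_one_mul]
        exact ha y.1 y.2 x
      have h0 : ip o.aa (fun y => u (S.A (x, y))) = 0 := by
        have h1 := T2_swap fun y => o.aa y * u (S.A (x, y))
        have h2 : ∀ y : Y, o.aa y.swap = o.aa y := fun y => mul_comm _ _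
        simp only [h2, hs, neg_mul, one_mul, mul_neg, integral_neg] at h1
        rw [ip]
        linarith only [h1]
      have h1 := gap2_pm o hx (Or.inr rfl) hs h0
      rw [← T2_ip o hx.l2 (Or.inr rfl) hs] at h1
      linarith only [h1])
  have h3 := mul_le_mul_of_nonneg_left (T2_tb hw.l2 o.ha.l2 hk.l2 o.na nk) o.g_pos.le
  rw [e3, e] at e1
  rw [e2] at h1 h2 h3
  rw [e4] at h3
  linarith only [h1, h2, h3, e1]

theorem aa_spec (o : One c) : ∃ k, H1 eY o.aa k ∧ nsq o.aa = 1 ∧ qf (U2 o.D 0) o.aa k = 2 * o.ea := by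
  have h := o.ha.tensor o.ha
  have hn : ip o.aa o.aa = 1 := by
    have := ip_tensor (a := o.a) (a' := o.a) (b := o.a) (b' := o.a)
    rw [← T2_nsq o.a, o.na, one_mul] at this
    exact this
  refine ⟨_, h, by rw [T2_nsq, hn], ?_⟩
  rw [U2_zero, ← bf_self]
  exact (eig_tensor (fb_V o.D) (fb_V o.D) o.ha o.ha o.eiga o.eiga _ _ h).trans
    ((congrArg _ hn).trans (by ring))

theorem sy_spec (o : One c) :
    ∃ k, H1 eY o.sy k ∧ nsq o.sy = 1 ∧ qf (U2 o.D 0) o.sy k = o.ea + o.eb := by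
  rw [← T2_sy]
  exact T2_spec o (Or.inl rfl)

end Crest.Agent.R335
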