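import Crest.Agent.R335.MDefs
import Crest.Agent.R335.LSlice
import Crest.Agent.R335.LNorm

/-! Row 335. Quadratic forms on products. -/

set_option autoImplicit false

open MeasureTheory Set Filter Topology
open scoped ENNReal

noncomputable section

namespace Crest.Agent.R335

variable {E : Type} [NormedAddCommGroup E] [NormedSpace ℝ E] [FiniteDimensional ℝ E]
  [MeasureSpace E] [BorelSpace E] [(volume : Measure E).IsAddHaarMeasure]
  {ι : Type} [Fintype ι] {e : ι → E}
  {F : Type} [NormedAddCommGroup F] [NormedSpace ℝ F] [FiniteDimensional ℝ F]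
  [MeasureSpace F] [BorelSpace F] [(volume : Measure F).IsAddHaarMeasure]
  {κ : Type} [Fintype κ] {f : κ → F}

theorem TP_int_inl {Φ : E × F → ℝ} {g : ι ⊕ κ → E × F → ℝ} (h : H1 (eP e f) Φ g) :
    Integrable (fun p => ∑ i, g (.inl i) p ^ 2) (volume.prod volume) :=
  integrable_finsetSum _ fun i _ => (h.gl2 (.inl i)).integrable_sq

theorem TP_int_inr {Φ : E × F → ℝ} {g : ι ⊕ κ → E × F → ℝ} (h : H1 (eP e f) Φ g) :
    Integrable (fun p => ∑ j, g (.inr j) p ^ 2) (volume.prod volume) :=
  integrable_finsetSum _ fun j _ => (h.gl2 (.inr j)).integrable_sq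

theorem TP_norm (a b : ℝ) : ‖a * b ^ 2‖ = |a| * b ^ 2 := by
  rw [Real.norm_eq_abs, abs_mul, abs_of_nonneg (sq_nonneg b)]

theorem TP_dir {Φ : E × F → ℝ} {g : ι ⊕ κ → E × F → ℝ} (h : H1 (eP e f) Φ g) :
    dir g = (∫ p, ∑ i, g (.inl i) p ^ 2) + ∫ p, ∑ j, g (.inr j) p ^ 2 := by
  rw [dir, Measure.volume_eq_prod, ← integral_add (TP_int_inl h) (TP_int_inr h)]
  exact integral_congr_ae (Eventually.of_forall fun p => gs_sum g p)

theorem TP_ip_lin {u w v : E → ℝ} (hu : MemLp u 2 volume) (hw : MemLp w 2 volume)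
    (hv : MemLp v 2 volume) (a b : ℝ) :
    ip v (fun x => a * u x + b * w x) = a * ip v u + b * ip v w := by
  rw [ip, ip, ip, ← LWD_int2 (LWD_int_mul hv hu) (LWD_int_mul hv hw)]
  exact integral_congr_ae (Eventually.of_forall fun x => by ring)

theorem TP_ip_comm (u w : E → ℝ) : ip u w = ip w u :=
  integral_congr_ae (Eventually.of_forall fun _ => mul_comm _ _)

theorem FB.fst {U : E → ℝ} {C : ℝ} (hU : FB e U C) {Φ : E × F → ℝ} {g : ι ⊕ κ → E × F → ℝ}
    (h : H1 (eP e f) Φ g) : Integrable (fun p => U p.1 * Φ p ^ 2) ∧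
      ∫ p, |U p.1| * Φ p ^ 2 ≤ (∫ p, ∑ i, g (.inl i) p ^ 2) / 4 + C * nsq Φ := by
  have hm : Measurable fun p : E × F => U p.1 * Φ p ^ 2 :=
    (hU.m.comp measurable_fst).mul (h.m.pow_const 2)
  have i1 := TP_int_inl h
  have i2 : Integrable (fun p => Φ p ^ 2) (volume.prod volume) := h.integrable_sq
  have i3 := (i1.integral_prod_right.div_const 4).add (i2.integral_prod_right.const_mul C)
  have hb : ∀ᵐ y, ∫ x, |U x| * Φ (x, y) ^ 2 ≤
      (∫ x, ∑ i, g (.inl i) (x, y) ^ 2) / 4 + C * ∫ x, Φ (x, y) ^ 2 := by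
    filter_upwards [h.slice_left] with y hy
    exact hU.bd _ _ hy
  have i4 : Integrable (fun p : E × F => U p.1 * Φ p ^ 2) (volume.prod volume) := by
    rw [integrable_prod_iff' hm.aestronglyMeasurable]
    refine ⟨h.slice_left.mono fun y hy => hU.int _ _ hy, ?_⟩
    refine Integrable.mono' i3
      (hm.norm.stronglyMeasurable.integral_prod_left').aestronglyMeasurable ?_
    filter_upwards [hb] with y hy
    rw [Real.norm_of_nonneg (integral_nonneg fun x => norm_nonneg _)]
    simpa only [TP_norm, Pi.add_apply] using hy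
  refine ⟨i4, ?_⟩
  have i5 : Integrable (fun p : E × F => |U p.1| * Φ p ^ 2) (volume.prod volume) := by
    simpa only [TP_norm] using i4.norm
  rw [nsq, Measure.volume_eq_prod, integral_prod_symm _ i5, integral_prod_symm _ i1,
    integral_prod_symm _ i2, ← integral_div, ← integral_const_mul,
    ← integral_add (i1.integral_prod_right.div_const 4) (i2.integral_prod_right.const_mul C)]
  exact integral_mono_ae i5.integral_prod_right i3 hb

theorem FB.snd {U : F → ℝ} {C : ℝ} (hU : FB f U C) {Φ : E × F → ℝ} {g : ι ⊕ κ → E × F → ℝ}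
    (h : H1 (eP e f) Φ g) : Integrable (fun p => U p.2 * Φ p ^ 2) ∧
      ∫ p, |U p.2| * Φ p ^ 2 ≤ (∫ p, ∑ j, g (.inr j) p ^ 2) / 4 + C * nsq Φ := by
  have hm : Measurable fun p : E × F => U p.2 * Φ p ^ 2 :=
    (hU.m.comp measurable_snd).mul (h.m.pow_const 2)
  have i1 := TP_int_inr h
  have i2 : Integrable (fun p => Φ p ^ 2) (volume.prod volume) := h.integrable_sq
  have i3 := (i1.integral_prod_left.div_const 4).add (i2.integral_prod_left.const_mul C)
  have hb : ∀ᵐ x, ∫ y, |U y| * Φ (x, y) ^ 2 ≤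
      (∫ y, ∑ j, g (.inr j) (x, y) ^ 2) / 4 + C * ∫ y, Φ (x, y) ^ 2 := by
    filter_upwards [h.slice_right] with x hx
    exact hU.bd _ _ hx
  have i4 : Integrable (fun p : E × F => U p.2 * Φ p ^ 2) (volume.prod volume) := by
    rw [integrable_prod_iff hm.aestronglyMeasurable]
    refine ⟨h.slice_right.mono fun x hx => hU.int _ _ hx, ?_⟩
    refine Integrable.mono' i3
      (hm.norm.stronglyMeasurable.integral_prod_right').aestronglyMeasurable ?_
    filter_upwards [hb] with x hx
    rw [Real.norm_of_nonneg (integral_nonneg fun x => norm_nonneg _)]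
    simpa only [TP_norm, Pi.add_apply] using hx
  refine ⟨i4, ?_⟩
  have i5 : Integrable (fun p : E × F => |U p.2| * Φ p ^ 2) (volume.prod volume) := by
    simpa only [TP_norm] using i4.norm
  rw [nsq, Measure.volume_eq_prod, integral_prod _ i5, integral_prod _ i1,
    integral_prod _ i2, ← integral_div, ← integral_const_mul,
    ← integral_add (i1.integral_prod_left.div_const 4) (i2.integral_prod_left.const_mul C)]
  exact integral_mono_ae i5.integral_prod_left i3 hb

theorem TP_fb_fst {U : E → ℝ} {C : ℝ} (hU : FB e U C) (f : κ → F) :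
    FB (eP e f) (fun p => U p.1) C := by
  refine ⟨hU.m.comp measurable_fst, fun Φ g h => (hU.fst h).1, fun Φ g h => ?_⟩
  have h1 : 0 ≤ ∫ p, ∑ j, g (.inr j) p ^ 2 :=
    integral_nonneg fun p => Finset.sum_nonneg fun _ _ => sq_nonneg _
  have h2 := (hU.fst h).2
  rw [TP_dir h]
  linarith

theorem TP_fb_snd {U : F → ℝ} {C : ℝ} (hU : FB f U C) (e : ι → E) :
    FB (eP e f) (fun p => U p.2) C := by
  refine ⟨hU.m.comp measurable_snd, fun Φ g h => (hU.snd h).1, fun Φ g h => ?_⟩
  have h1 : 0 ≤ ∫ p, ∑ i, g (.inl i) p ^ 2 :=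
    integral_nonneg fun p => Finset.sum_nonneg fun _ _ => sq_nonneg _
  have h2 := (hU.snd h).2
  rw [TP_dir h]
  linarith

theorem FB.prod {U : E → ℝ} {U' : F → ℝ} {C C' : ℝ} (hU : FB e U C) (hU' : FB f U' C') :
    FB (eP e f) (fun p => U p.1 + U' p.2) (C + C') := by
  have hi : ∀ Φ g, H1 (eP e f) Φ g → Integrable fun p : E × F => (U p.1 + U' p.2) * Φ p ^ 2 := by
    intro Φ g h
    simp only [add_mul]
    exact (hU.fst h).1.add (hU'.snd h).1
  refine ⟨(hU.m.comp measurable_fst).add (hU'.m.comp measurable_snd), hi, fun Φ g h => ?_⟩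
  obtain ⟨h1, h2⟩ := hU.fst h
  obtain ⟨h3, h4⟩ := hU'.snd h
  have i1 : Integrable fun p : E × F => |U p.1| * Φ p ^ 2 := by
    simpa only [TP_norm] using h1.norm
  have i2 : Integrable fun p : E × F => |U' p.2| * Φ p ^ 2 := by
    simpa only [TP_norm] using h3.norm
  have i3 : Integrable fun p : E × F => |U p.1 + U' p.2| * Φ p ^ 2 := by
    simpa only [TP_norm] using (hi Φ g h).norm
  have h5 : ∫ p : E × F, |U p.1 + U' p.2| * Φ p ^ 2 ≤
      (∫ p : E × F, |U p.1| * Φ p ^ 2) + ∫ p : E × F, |U' p.2| * Φ p ^ 2 := by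
    rw [← integral_add i1 i2]
    refine integral_mono i3 (i1.add i2) fun p => ?_
    simp only [← add_mul]
    exact mul_le_mul_of_nonneg_right (abs_add_le _ _) (sq_nonneg _)
  rw [TP_dir h]
  linarith

/-- The form as an integral over slices. -/
theorem qf_prod {U : E → ℝ} {U' : F → ℝ} {C C' : ℝ} (hU : FB e U C) (hU' : FB f U' C')
    {Φ : E × F → ℝ} {g : ι ⊕ κ → E × F → ℝ} (h : H1 (eP e f) Φ g) :
    Integrable (fun y => qf U (fun x => Φ (x, y)) fun i x => g (.inl i) (x, y)) ∧
    Integrable (fun x => qf U' (fun y => Φ (x, y)) fun j y => g (.inr j) (x, y)) ∧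
    qf (fun p => U p.1 + U' p.2) Φ g =
      (∫ y, qf U (fun x => Φ (x, y)) fun i x => g (.inl i) (x, y)) +
        ∫ x, qf U' (fun y => Φ (x, y)) fun j y => g (.inr j) (x, y) := by
  have i1 := TP_int_inl h
  have i2 := TP_int_inr h
  have i3 : Integrable (fun p : E × F => U p.1 * Φ p ^ 2) (volume.prod volume) := (hU.fst h).1
  have i4 : Integrable (fun p : E × F => U' p.2 * Φ p ^ 2) (volume.prod volume) := (hU'.snd h).1
  refine ⟨(i1.integral_prod_right.div_const 2).add i3.integral_prod_right,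
    (i2.integral_prod_left.div_const 2).add i4.integral_prod_left, ?_⟩
  have e1 : ∫ y, qf U (fun x => Φ (x, y)) (fun i x => g (.inl i) (x, y)) =
      (∫ p, ∑ i, g (.inl i) p ^ 2) / 2 + ∫ p : E × F, U p.1 * Φ p ^ 2 := by
    rw [Measure.volume_eq_prod, integral_prod_symm _ i1, integral_prod_symm _ i3, ← integral_div,
      ← integral_add (i1.integral_prod_right.div_const 2) i3.integral_prod_right]
    rfl
  have e2 : ∫ x, qf U' (fun y => Φ (x, y)) (fun j y => g (.inr j) (x, y)) =
      (∫ p, ∑ j, g (.inr j) p ^ 2) / 2 + ∫ p : E × F, U' p.2 * Φ p ^ 2 := by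
    rw [Measure.volume_eq_prod, integral_prod _ i2, integral_prod _ i4, ← integral_div,
      ← integral_add (i2.integral_prod_left.div_const 2) i4.integral_prod_left]
    rfl
  have e3 : ∫ p : E × F, (U p.1 + U' p.2) * Φ p ^ 2 =
      (∫ p : E × F, U p.1 * Φ p ^ 2) + ∫ p : E × F, U' p.2 * Φ p ^ 2 := by
    simp only [add_mul]
    exact integral_add i3 i4
  rw [e1, e2, qf, TP_dir h, e3]
  ring

theorem nsq_prod {Φ : E × F → ℝ} (h : MemLp Φ 2 volume) :
    Integrable (fun x => nsq fun y => Φ (x, y)) ∧ Integrable (fun y => nsq fun x => Φ (x, y)) ∧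
      nsq Φ = ∫ x, (nsq fun y => Φ (x, y)) ∧ nsq Φ = ∫ y, nsq fun x => Φ (x, y) := by
  have i : Integrable (fun p => Φ p ^ 2) (volume.prod volume) := h.integrable_sq
  exact ⟨i.integral_prod_left, i.integral_prod_right, integral_prod _ i, integral_prod_symm _ i⟩

theorem integrable_ip_sq {Φ : E × F → ℝ} (h : MemLp Φ 2 volume) {a : E → ℝ}
    (ha : MemLp a 2 volume) {b : F → ℝ} (hb : MemLp b 2 volume) :
    Integrable (fun y => (ip a fun x => Φ (x, y)) ^ 2) ∧
      Integrable fun x => (ip b fun y => Φ (x, y)) ^ 2 := by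
  have hs : MemLp (fun p : F × E => Φ p.swap) 2 volume :=
    h.comp_measurePreserving (Measure.measurePreserving_swap (μ := volume) (ν := volume))
  obtain ⟨i1, i2, -, -⟩ := nsq_prod h
  constructor
  · have hm : AEStronglyMeasurable (fun p : F × E => a p.2 * Φ p.swap) (volume.prod volume) :=
      ha.1.comp_snd.mul hs.1
    refine Integrable.mono' (i2.const_mul (nsq a)) (hm.integral_prod_right'.pow 2) ?_
    filter_upwards [LSlice_memLp_right hs] with y hy
    rw [Real.norm_of_nonneg (sq_nonneg _)]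
    exact ip_sq_le ha hy
  · have hm : AEStronglyMeasurable (fun p : E × F => b p.2 * Φ p) (volume.prod volume) :=
      hb.1.comp_snd.mul h.1
    refine Integrable.mono' (i1.const_mul (nsq b)) (hm.integral_prod_right'.pow 2) ?_
    filter_upwards [LSlice_memLp_right h] with x hx
    rw [Real.norm_of_nonneg (sq_nonneg _)]
    exact ip_sq_le hb hx

theorem ip_tensor {a a' : E → ℝ} {b b' : F → ℝ} :
    ip (fun p : E × F => a p.1 * b p.2) (fun p => a' p.1 * b' p.2) = ip a a' * ip b b' := by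
  rw [ip, ip, ip, ← integral_prod_mul]
  exact integral_congr_ae (Eventually.of_forall fun p => by ring)

theorem bf_tensor {U : E → ℝ} {U' : F → ℝ} {C C' : ℝ} (hU : FB e U C) (hU' : FB f U' C')
    {a a' : E → ℝ} {g g' : ι → E → ℝ} {b b' : F → ℝ} {k k' : κ → F → ℝ} (ha : H1 e a g)
    (ha' : H1 e a' g') (hb : H1 f b k) (hb' : H1 f b' k') :
    bf (fun p : E × F => U p.1 + U' p.2) (fun p => a p.1 * b p.2)
        (Sum.elim (fun i p => g i p.1 * b p.2) fun j p => a p.1 * k j p.2)
        (fun p => a' p.1 * b' p.2)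
        (Sum.elim (fun i p => g' i p.1 * b' p.2) fun j p => a' p.1 * k' j p.2) =
      bf U a g a' g' * ip b b' + ip a a' * bf U' b k b' k' := by
  have i1 := (ha.integrable_gd ha').mul_prod (hb.integrable_mul hb')
  have i2 := (ha.integrable_mul ha').mul_prod (hb.integrable_gd hb')
  have i3 := (hU.int_mul ha ha').mul_prod (hb.integrable_mul hb')
  have i4 := (ha.integrable_mul ha').mul_prod (hU'.int_mul hb hb')
  have e1 : ∫ p : E × F, gd (Sum.elim (fun i p => g i p.1 * b p.2) fun j p => a p.1 * k j p.2)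
      (Sum.elim (fun i p => g' i p.1 * b' p.2) fun j p => a' p.1 * k' j p.2) p =
      (∫ x, gd g g' x) * (∫ y, b y * b' y) + (∫ x, a x * a' x) * ∫ y, gd k k' y := by
    rw [← integral_prod_mul, ← integral_prod_mul, ← integral_add i1 i2]
    refine integral_congr_ae (Eventually.of_forall fun p => ?_)
    rw [gd_sum]
    simp only [gd, Sum.elim_inl, Sum.elim_inr, Finset.mul_sum, Finset.sum_mul]
    congr 1 <;> exact Finset.sum_congr rfl fun i _ => by ring
  have e2 : ∫ p : E × F, (U p.1 + U' p.2) * (a p.1 * b p.2 * (a' p.1 * b' p.2)) =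
      (∫ x, U x * (a x * a' x)) * (∫ y, b y * b' y) +
        (∫ x, a x * a' x) * ∫ y, U' y * (b y * b' y) := by
    rw [← integral_prod_mul, ← integral_prod_mul, ← integral_add i3 i4]
    exact integral_congr_ae (Eventually.of_forall fun p => by ring)
  simp only [bf, ip]
  rw [e1, e2]
  ring

theorem TP_eig_fst {U : E → ℝ} {C : ℝ} (hU : FB e U C)
    {a : E → ℝ} {g : ι → E → ℝ} {b : F → ℝ} {k : κ → F → ℝ} (ha : H1 e a g) (hb : H1 f b k)
    {α : ℝ} (h : Eig e U α a g) {w : E × F → ℝ} {l : ι ⊕ κ → E × F → ℝ} (hw : H1 (eP e f) w l) :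
    (∫ p : E × F, ∑ i, g i p.1 * b p.2 * l (.inl i) p) / 2 +
      ∫ p : E × F, U p.1 * (a p.1 * b p.2 * w p) = α * ∫ p : E × F, a p.1 * b p.2 * w p := by
  have ht := ha.tensor hb
  have i1 : Integrable (fun p : E × F => ∑ i, g i p.1 * b p.2 * l (.inl i) p)
      (volume.prod volume) :=
    integrable_finsetSum _ fun i _ => LWD_int_mul (ht.gl2 (.inl i)) (hw.gl2 (.inl i))
  have i2 : Integrable (fun p : E × F => U p.1 * (a p.1 * b p.2 * w p)) (volume.prod volume) :=
    (TP_fb_fst hU f).int_mul ht hw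
  have i3 : Integrable (fun p : E × F => a p.1 * b p.2 * w p) (volume.prod volume) :=
    ht.integrable_mul hw
  rw [Measure.volume_eq_prod, integral_prod_symm _ i1, integral_prod_symm _ i2,
    integral_prod_symm _ i3, ← integral_div, ← integral_const_mul,
    ← integral_add (i1.integral_prod_right.div_const 2) i2.integral_prod_right]
  refine integral_congr_ae ?_
  filter_upwards [hw.slice_left] with y hy
  have h0 := h _ _ hy
  have e1 : ∫ x, ∑ i, g i x * b y * l (.inl i) (x, y) =
      b y * ∫ x, gd g (fun i x => l (.inl i) (x, y)) x := by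
    rw [← integral_const_mul]
    refine integral_congr_ae (Eventually.of_forall fun x => ?_)
    simp only [gd, Finset.mul_sum]
    exact Finset.sum_congr rfl fun i _ => by ring
  have e2 : ∫ x, U x * (a x * b y * w (x, y)) = b y * ∫ x, U x * (a x * w (x, y)) := by
    rw [← integral_const_mul]
    exact integral_congr_ae (Eventually.of_forall fun x => by ring)
  have e3 : ∫ x, a x * b y * w (x, y) = b y * ∫ x, a x * w (x, y) := by
    rw [← integral_const_mul]
    exact integral_congr_ae (Eventually.of_forall fun x => by ring)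
  simp only [bf, ip] at h0
  simp only [e1, e2, e3]
  linear_combination b y * h0

theorem TP_eig_snd {U : F → ℝ} {C : ℝ} (hU : FB f U C)
    {a : E → ℝ} {g : ι → E → ℝ} {b : F → ℝ} {k : κ → F → ℝ} (ha : H1 e a g) (hb : H1 f b k)
    {α : ℝ} (h : Eig f U α b k) {w : E × F → ℝ} {l : ι ⊕ κ → E × F → ℝ} (hw : H1 (eP e f) w l) :
    (∫ p : E × F, ∑ j, a p.1 * k j p.2 * l (.inr j) p) / 2 +
      ∫ p : E × F, U p.2 * (a p.1 * b p.2 * w p) = α * ∫ p : E × F, a p.1 * b p.2 * w p := by
  have ht := ha.tensor hb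
  have i1 : Integrable (fun p : E × F => ∑ j, a p.1 * k j p.2 * l (.inr j) p)
      (volume.prod volume) :=
    integrable_finsetSum _ fun j _ => LWD_int_mul (ht.gl2 (.inr j)) (hw.gl2 (.inr j))
  have i2 : Integrable (fun p : E × F => U p.2 * (a p.1 * b p.2 * w p)) (volume.prod volume) :=
    (TP_fb_snd hU e).int_mul ht hw
  have i3 : Integrable (fun p : E × F => a p.1 * b p.2 * w p) (volume.prod volume) :=
    ht.integrable_mul hw
  rw [Measure.volume_eq_prod, integral_prod _ i1, integral_prod _ i2,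
    integral_prod _ i3, ← integral_div, ← integral_const_mul,
    ← integral_add (i1.integral_prod_left.div_const 2) i2.integral_prod_left]
  refine integral_congr_ae ?_
  filter_upwards [hw.slice_right] with x hx
  have h0 := h _ _ hx
  have e1 : ∫ y, ∑ j, a x * k j y * l (.inr j) (x, y) =
      a x * ∫ y, gd k (fun j y => l (.inr j) (x, y)) y := by
    rw [← integral_const_mul]
    refine integral_congr_ae (Eventually.of_forall fun y => ?_)
    simp only [gd, Finset.mul_sum]
    exact Finset.sum_congr rfl fun i _ => by ring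
  have e2 : ∫ y, U y * (a x * b y * w (x, y)) = a x * ∫ y, U y * (b y * w (x, y)) := by
    rw [← integral_const_mul]
    exact integral_congr_ae (Eventually.of_forall fun y => by ring)
  have e3 : ∫ y, a x * b y * w (x, y) = a x * ∫ y, b y * w (x, y) := by
    rw [← integral_const_mul]
    exact integral_congr_ae (Eventually.of_forall fun y => by ring)
  simp only [bf, ip] at h0
  simp only [e1, e2, e3]
  linear_combination a x * h0

/-- Slices of the test function (`H1.slice_left`, `H1.slice_right`). -/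
theorem eig_tensor {U : E → ℝ} {U' : F → ℝ} {C C' : ℝ} (hU : FB e U C) (hU' : FB f U' C')
    {a : E → ℝ} {g : ι → E → ℝ} {b : F → ℝ} {k : κ → F → ℝ} (ha : H1 e a g) (hb : H1 f b k)
    {α β : ℝ} (h : Eig e U α a g) (h' : Eig f U' β b k) :
    Eig (eP e f) (fun p => U p.1 + U' p.2) (α + β) (fun p => a p.1 * b p.2)
      (Sum.elim (fun i p => g i p.1 * b p.2) fun j p => a p.1 * k j p.2) := by
  intro w l hw
  have ht := ha.tensor hb
  have h1 := TP_eig_fst hU ha hb h hw
  have h2 := TP_eig_snd hU' ha hb h' hw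
  have i1 : Integrable (fun p : E × F => ∑ i, g i p.1 * b p.2 * l (.inl i) p) :=
    integrable_finsetSum _ fun i _ => LWD_int_mul (ht.gl2 (.inl i)) (hw.gl2 (.inl i))
  have i2 : Integrable (fun p : E × F => ∑ j, a p.1 * k j p.2 * l (.inr j) p) :=
    integrable_finsetSum _ fun j _ => LWD_int_mul (ht.gl2 (.inr j)) (hw.gl2 (.inr j))
  have i3 : Integrable (fun p : E × F => U p.1 * (a p.1 * b p.2 * w p)) :=
    (TP_fb_fst hU f).int_mul ht hw
  have i4 : Integrable (fun p : E × F => U' p.2 * (a p.1 * b p.2 * w p)) :=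
    (TP_fb_snd hU' e).int_mul ht hw
  have e1 : ∫ p : E × F, gd (Sum.elim (fun i p => g i p.1 * b p.2) fun j p => a p.1 * k j p.2)
      l p = (∫ p : E × F, ∑ i, g i p.1 * b p.2 * l (.inl i) p) +
        ∫ p : E × F, ∑ j, a p.1 * k j p.2 * l (.inr j) p := by
    rw [← integral_add i1 i2]
    exact integral_congr_ae (Eventually.of_forall fun p => gd_sum _ _ p)
  have e2 : ∫ p : E × F, (U p.1 + U' p.2) * (a p.1 * b p.2 * w p) =
      (∫ p : E × F, U p.1 * (a p.1 * b p.2 * w p)) +
        ∫ p : E × F, U' p.2 * (a p.1 * b p.2 * w p) := by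
    simp only [add_mul]
    exact integral_add i3 i4
  simp only [bf, ip]
  rw [e1, e2]
  linear_combination h1 + h2

theorem Eig.lin {U : E → ℝ} {C : ℝ} (hU : FB e U C) {u w : E → ℝ} {g k : ι → E → ℝ}
    (hu : H1 e u g) (hw : H1 e w k) {α : ℝ} (h : Eig e U α u g) (h' : Eig e U α w k) (a b : ℝ) :
    Eig e U α (fun x => a * u x + b * w x) fun i x => a * g i x + b * k i x := by
  intro v l hv
  rw [bf_comm, hU.bf_lin hu hw hv, bf_comm U v u, bf_comm U v w, h v l hv, h' v l hv, TP_ip_comm _ v,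
    TP_ip_comm _ v, TP_ip_comm _ v, TP_ip_lin hu.l2 hw.l2 hv.l2]
  ring

theorem eig_of_min {U : E → ℝ} {C : ℝ} (hU : FB e U C) {u : E → ℝ} {g : ι → E → ℝ}
    (hu : H1 e u g) {α : ℝ} (h0 : qf U u g = α * nsq u)
    (h : ∀ w k, H1 e w k → α * nsq w ≤ qf U w k) : Eig e U α u g := by
  intro w k hw
  have h1 : ∀ t : ℝ, 0 ≤ (qf U w k - α * nsq w) * (t * t) +
      (2 * (bf U u g w k - α * ip u w)) * t + 0 := by
    intro t
    have h2 := h _ _ (hu.lin hw 1 t)
    rw [hU.qf_lin hu hw, nsq_lin hu.l2 hw.l2, h0] at h2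
    nlinarith
  have h3 := discrim_le_zero h1
  rw [discrim] at h3
  have h4 : (bf U u g w k - α * ip u w) ^ 2 ≤ 0 := by nlinarith
  exact sub_eq_zero.1 (pow_eq_zero_iff two_ne_zero |>.1 (le_antisymm h4 (sq_nonneg _)))

/-- From normalised functions to all functions. -/
theorem le_qf_of_norm {U : E → ℝ} {C : ℝ} (hU : FB e U C) {α : ℝ}
    (h : ∀ w k, H1 e w k → nsq w = 1 → α ≤ qf U w k) {w : E → ℝ} {k : ι → E → ℝ}
    (hw : H1 e w k) : α * nsq w ≤ qf U w k := by
  rcases (nsq_nonneg w).eq_or_lt with h0 | h0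
  · have h1 := hU.dir_le hw
    have h2 := dir_nonneg k
    rw [← h0] at h1 ⊢
    linarith
  · have h1 : (√(nsq w))⁻¹ ^ 2 * nsq w = 1 := by
      rw [inv_pow, Real.sq_sqrt h0.le, inv_mul_cancel₀ h0.ne']
    have h2 := h _ _ (hw.lin hw (√(nsq w))⁻¹ 0) (by rw [nsq_lin hw.l2 hw.l2]; linarith)
    rw [hU.qf_lin hw hw] at h2
    have h3 := mul_le_mul_of_nonneg_right h2 h0.le
    calc α * nsq w ≤ _ := h3
      _ = (√(nsq w))⁻¹ ^ 2 * nsq w * qf U w k := by ring
      _ = _ := by rw [h1, one_mul]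

theorem qf_congr {U u u' : E → ℝ} {g g' : ι → E → ℝ} (h : H1 e u g) (h' : H1 e u' g')
    (hu : u =ᵐ[volume] u') : qf U u g = qf U u' g' := by
  have h1 : dir g = dir g' := by
    refine integral_congr_ae ?_
    filter_upwards [h.h1l.grad_ae h'.h1l hu] with x hx
    simp only [gs, hx]
  have h2 : ∫ x, U x * u x ^ 2 = ∫ x, U x * u' x ^ 2 := by
    refine integral_congr_ae ?_
    filter_upwards [hu] with x hx
    rw [hx]
  rw [qf, qf, h1, h2]

/-- An involutive symmetry `A` of the form: the equation in the sector `u ∘ A = s u` implies the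
equation for all tests (split the test function into `(w ± w ∘ A) / 2`). -/
theorem eig_of_sector {U : E → ℝ} {C : ℝ} (hU : FB e U C) (A : E ≃L[ℝ] E) (σ : ι ≃ ι)
    (sgn : ι → ℝ) (hsg : ∀ i, sgn i ^ 2 = 1) (hA : ∀ i, A (e i) = sgn i • e (σ i))
    (hAA : ∀ x, A (A x) = x) (hmp : MeasurePreserving A volume volume) (hUA : ∀ x, U (A x) = U x)
    {S : (E → ℝ) → Prop} (hSA : ∀ w, S w → S fun x => w (A x))
    (hlin : ∀ u w (a b : ℝ), S u → S w → S fun x => a * u x + b * w x)
    {s : ℝ} (hs : s = 1 ∨ s = -1) {u : E → ℝ} {g : ι → E → ℝ} (hu : H1 e u g)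
    (hus : ∀ x, u (A x) = s * u x) {α : ℝ}
    (h : ∀ w k, H1 e w k → S w → (∀ x, w (A x) = s * w x) → bf U u g w k = α * ip u w) :
    ∀ w k, H1 e w k → S w → bf U u g w k = α * ip u w := by
  intro w k hw hSw
  have hs2 : s * s = 1 := by rcases hs with rfl | rfl <;> norm_num
  have hemb : MeasurableEmbedding A := A.toHomeomorph.measurableEmbedding
  have hw' := hw.comp_equiv A σ sgn hA
  have hu' := hu.comp_equiv A σ sgn hA
  have h1 := h _ _ (hw.lin hw' (1 / 2) (s / 2)) (hlin _ _ _ _ hSw (hSA w hSw)) (fun x => by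
    rw [hAA]
    linear_combination (-(w (A x)) / 2) * hs2)
  rw [hU.bf_lin hw hw' hu, TP_ip_lin hw.l2 hw'.l2 hu.l2] at h1
  have hus' : ∀ x, u x = s * u (A x) := fun x => by rw [hus, ← mul_assoc, hs2, one_mul]
  have e1 : ip u (fun x => w (A x)) = s * ip u w := by
    rw [ip, ip, ← hmp.integral_comp hemb (fun x => u x * w x), ← integral_const_mul]
    refine integral_congr_ae (Eventually.of_forall fun x => ?_)
    simp only
    rw [hus' x]
    ring
  have e2 : ∫ x, U x * (u x * w (A x)) = s * ∫ x, U x * (u x * w x) := by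
    rw [← hmp.integral_comp hemb (fun x => U x * (u x * w x)), ← integral_const_mul]
    refine integral_congr_ae (Eventually.of_forall fun x => ?_)
    simp only
    rw [hus' x, hUA]
    ring
  have e3 : ∫ x, gd g (fun i x => sgn i * k (σ i) (A x)) x = s * ∫ x, gd g k x := by
    rw [← hmp.integral_comp hemb (gd g k), ← integral_const_mul]
    refine integral_congr_ae ?_
    filter_upwards [hu'.h1l.grad_ae (hu.smul s).h1l (Eventually.of_forall hus)] with x hx
    simp only [gd]
    rw [← σ.sum_comp (fun j => g j (A x) * k j (A x)), Finset.mul_sum]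
    refine Finset.sum_congr rfl fun i _ => ?_
    have h2 := hx i
    have h3 := hsg i
    linear_combination (-(s * sgn i * k (σ i) (A x))) * h2 - sgn i * g i x * k (σ i) (A x) * hs2 +
      s * g (σ i) (A x) * k (σ i) (A x) * h3
  have e4 : bf U u g (fun x => w (A x)) (fun i x => sgn i * k (σ i) (A x)) =
      s * bf U u g w k := by
    rw [bf, bf, e2, e3]
    ring
  rw [e1, e4] at h1
  linear_combination h1 - (bf U u g w k - α * ip u w) / 2 * hs2

/-- Invariance of the form under a symmetry. -/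
theorem qf_comp (U : F → ℝ) (A : E ≃L[ℝ] F) (σ : ι ≃ κ) (sgn : ι → ℝ) (hsg : ∀ i, sgn i ^ 2 = 1)
    (hmp : MeasurePreserving A volume volume) (u : F → ℝ) (g : κ → F → ℝ) :
    qf (fun x => U (A x)) (fun x => u (A x)) (fun i x => sgn i * g (σ i) (A x)) = qf U u g ∧
      dir (fun i x => sgn i * g (σ i) (A x)) = dir g ∧ nsq (fun x => u (A x)) = nsq u := by
  have hemb : MeasurableEmbedding A := A.toHomeomorph.measurableEmbedding
  have h1 : dir (fun i x => sgn i * g (σ i) (A x)) = dir g := by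
    rw [dir, dir, ← hmp.integral_comp hemb (gs g)]
    refine integral_congr_ae (Eventually.of_forall fun x => ?_)
    simp only [gs, mul_pow, hsg, one_mul]
    exact σ.sum_comp fun j => g j (A x) ^ 2
  refine ⟨?_, h1, hmp.integral_comp hemb fun x => u x ^ 2⟩
  rw [qf, qf, h1, hmp.integral_comp hemb fun x => U x * u x ^ 2]

end Crest.Agent.R335
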