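import Crest.Agent.R335.PrB
import Crest.Agent.R335.Par

/-! Row 335. `s Φ(θ)` is a subsolution for convex `Φ`. -/

set_option autoImplicit false

open MeasureTheory Set Filter Topology
open scoped ENNReal

noncomputable section

namespace Crest.Agent.R335

variable {c : ℝ} {o : One c} {C ε C' : ℝ} {ch : Chan o C ε}

theorem UY_bd {F : ℝ → ℝ} (hF : Continuous F) :
    ∃ B : ℝ, 0 ≤ B ∧ ∀ a, 0 ≤ a → a ≤ Real.pi / 2 → |F a| ≤ B := by
  obtain ⟨B, hB⟩ := (isCompact_Icc (a := (0 : ℝ)) (b := Real.pi / 2)).exists_bound_of_continuousOn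
    hF.continuousOn
  exact ⟨max B 0, le_max_right _ _, fun a h h' => (hB a ⟨h, h'⟩).trans (le_max_left _ _)⟩

theorem UY_pos {w : X → ℝ} (h : LocPos w) : ∀ᵐ x, 0 < w x := by
  have : ∀ j : ℕ, ∀ᵐ x : X, x ∈ Metric.closedBall (0 : X) j → 0 < w x := by
    intro j
    obtain ⟨c, hc, h'⟩ := h _ (isCompact_closedBall (0 : X) j)
    filter_upwards [h'] with x hx hx'
    exact hc.trans_le (hx hx')
  filter_upwards [ae_all_iff.2 this] with x hx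
  obtain ⟨j, hj⟩ := exists_nat_ge ‖x‖
  exact hx j (by simpa using hj)

theorem UY_l2 {s : X → ℝ} (pr : Pair1 s) {u : X → ℝ} (hu : Measurable u) {M : ℝ}
    (hM : ∀ᵐ x, |u x| ≤ M * |s x|) {F : ℝ → ℝ} (hF : Continuous F) (i : Fin 3) :
    MemLp (fun x => u x * (F (pr.θ x) * pr.gθ i x)) 2 volume := by
  obtain ⟨B, hB0, hB⟩ := UY_bd hF
  refine (pr.J2 i).of_le_mul (c := M * B)
    (hu.mul ((hF.measurable.comp pr.hθ.m).mul (pr.hθ.gm i))).aestronglyMeasurable ?_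
  filter_upwards [hM] with x hx
  have h1 := hB _ (pr.θ0 x).1 (pr.θ0 x).2
  simp only [Real.norm_eq_abs, abs_mul]
  calc |u x| * (|F (pr.θ x)| * |pr.gθ i x|) ≤ (M * |s x|) * (B * |pr.gθ i x|) :=
        mul_le_mul hx (mul_le_mul_of_nonneg_right h1 (abs_nonneg _)) (by positivity)
          ((abs_nonneg _).trans hx)
    _ = M * B * (|s x| * |pr.gθ i x|) := by ring

theorem UY_bl2 {u w : X → ℝ} (hu : Measurable u) {B : ℝ} (hB : ∀ᵐ x, |u x| ≤ B)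
    (hm : Measurable w) (hw : MemLp w 2 volume) : MemLp (fun x => u x * w x) 2 volume := by
  refine hw.of_le_mul (c := B) (hu.mul hm).aestronglyMeasurable ?_
  filter_upwards [hB] with x hx
  simp only [Real.norm_eq_abs, abs_mul]
  exact mul_le_mul_of_nonneg_right hx (abs_nonneg _)

/-- `∇y·∇φ = s² ∇Φ(θ)·∇(φ / s) + ∇s·∇(φ Φ(θ))`.  Use `subs` with the test `φ Φ(θ)` (`H1.mul_h1l`)
and `el` with `ξ = Φ'(θ) φ / s` (`H1l.div`, `H1l.comp_bdd`, `H1l.mul_locbdd`):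
`s² Φ'(θ) ∇θ·∇(φ / s) = s² ∇θ·∇ξ - Φ''(θ) s |∇θ|² φ`. -/
theorem y_sub (pr : Pair ch C') {Φ Φ' Φ'' : ℝ → ℝ} (h1 : ∀ a, HasDerivAt Φ (Φ' a) a)
    (h2 : ∀ a, HasDerivAt Φ' (Φ'' a) a) (hc : Continuous Φ'')
    (h0 : ∀ a, 0 ≤ a → a ≤ Real.pi / 2 → 0 ≤ Φ a ∧ 0 ≤ Φ'' a) :
    ∃ gy : Fin 3 → X → ℝ, H1 eX (fun x => ch.s x * Φ (pr.θ x)) gy ∧
      ∀ (φ : X → ℝ) (k : Fin 3 → X → ℝ) (M : ℝ), H1 eX φ k →
        (∀ᵐ x, 0 ≤ φ x ∧ φ x ≤ M * ch.s x) → Van φ → (∀ᵐ x, x ∉ ext o.Rs → φ x = 0) →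
        Integrable (fun x => -(ch.Qs x * (ch.s x * Φ (pr.θ x)) +
          pr.lam * Φ' (pr.θ x) * (ch.s x * Real.sin (pr.θ x) * Real.cos (pr.θ x))) * φ x) ∧
        (∫ x, gd gy k x) / 2 ≤ ∫ x, -(ch.Qs x * (ch.s x * Φ (pr.θ x)) +
          pr.lam * Φ' (pr.θ x) * (ch.s x * Real.sin (pr.θ x) * Real.cos (pr.θ x))) * φ x := by
  have hc1 : Continuous Φ' := continuous_iff_continuousAt.2 fun a => (h2 a).continuousAt
  have hc0 : Continuous Φ := continuous_iff_continuousAt.2 fun a => (h1 a).continuousAt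
  obtain ⟨B0, -, hB0⟩ := UY_bd hc0
  obtain ⟨B1, hB1', hB1⟩ := UY_bd hc1
  have hθM : ∀ᵐ x, |pr.θ x| ≤ Real.pi / 2 :=
    ae_of_all _ fun x => by rw [abs_of_nonneg (pr.θ0 x).1]; exact (pr.θ0 x).2
  have A0 := pr.hθ.comp_bdd h1 hc1 hθM
  have A1 := pr.hθ.comp_bdd h2 hc hθM
  have hs := ch.subs.h1
  have hb0 : ∀ᵐ x, |Φ (pr.θ x)| ≤ B0 := ae_of_all _ fun x => hB0 _ (pr.θ0 x).1 (pr.θ0 x).2
  have hb1 : ∀ᵐ x, |Φ' (pr.θ x)| ≤ B1 := ae_of_all _ fun x => hB1 _ (pr.θ0 x).1 (pr.θ0 x).2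
  have Hy := hs.mul_h1l A0 hb0
    (UY_l2 pr.toPair1 hs.m (M := 1) (ae_of_all _ fun x => by rw [one_mul]) hc1)
  refine ⟨_, Hy, fun φ k M hφ hM hv hz => ?_⟩
  have hpos := UY_pos pr.spos
  have hM1 : ∀ᵐ x, |φ x| ≤ M * ch.s x := by
    filter_upwards [hM] with x hx
    rw [abs_of_nonneg hx.1]; exact hx.2
  have hM2 : ∀ᵐ x, |φ x| ≤ M * |ch.s x| := by
    filter_upwards [hM1] with x hx
    rwa [abs_of_nonneg (ch.s0 x)]
  have hr : ∀ᵐ x, |φ x / ch.s x| ≤ |M| := by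
    filter_upwards [hM2] with x hx
    exact LLim_abs_div hx
  have Hψ := hφ.mul_h1l A0 hb0 (UY_l2 pr.toPair1 hφ.m hM2 hc1)
  have Hr := hφ.h1l.div hs.h1l pr.spos hM1
  have Hξ := A1.mul_locbdd Hr (fun K _ => ⟨B1, hb1.mono fun x hx _ => hx⟩)
    (fun K _ => ⟨|M|, hr.mono fun x hx _ => hx⟩)
  have hξb : ∀ᵐ x, |Φ' (pr.θ x) * (φ x / ch.s x)| ≤ B1 * |M| := by
    filter_upwards [hb1, hr] with x hx hx'
    rw [abs_mul]
    exact mul_le_mul hx hx' (abs_nonneg _) hB1'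
  have hξ2 : ∀ i, MemLp (fun x => ch.s x * (Φ'' (pr.θ x) * pr.gθ i x * (φ x / ch.s x) +
      Φ' (pr.θ x) * ((k i x - φ x / ch.s x * ch.gr i x) / ch.s x))) 2 volume := by
    intro i
    have e1 := UY_l2 pr.toPair1 hφ.m hM2 hc i
    have e2 := UY_bl2 Hr.m hr (hs.gm i) (hs.gl2 i)
    have e3 := UY_bl2 A1.m hb1 ((hφ.gm i).sub (Hr.m.mul (hs.gm i))) ((hφ.gl2 i).sub e2)
    refine (e1.add e3).ae_eq ?_
    filter_upwards [hpos] with x hx
    simp only [Pi.add_apply, Pi.sub_apply, Pi.mul_apply]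
    field_simp
  have hξv : Van fun x => ch.s x * (Φ' (pr.θ x) * (φ x / ch.s x)) := by
    refine hv.mono hφ.l2 (C := B1) ?_
    filter_upwards [hpos, hb1] with x hx hx'
    have : ch.s x * (Φ' (pr.θ x) * (φ x / ch.s x)) = Φ' (pr.θ x) * φ x := by field_simp
    rw [this, abs_mul]
    exact mul_le_mul_of_nonneg_right hx' (abs_nonneg _)
  have hel := pr.el _ _ _ Hξ hξb hξ2 hξv
  obtain ⟨I1, I2⟩ := pr.toPair1.integrable_el hs.m Hξ hξb hξ2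
  have hz' : ∀ᵐ x, x ∉ ext o.Rs → φ x * Φ (pr.θ x) = 0 := by
    filter_upwards [hz] with x hx hx'
    rw [hx hx', zero_mul]
  have hsub := ch.subs.le _ _ Hψ (by
    filter_upwards [hM] with x hx
    exact mul_nonneg hx.1 (h0 _ (pr.θ0 x).1 (pr.θ0 x).2).1) hz'
  have I3 := integrable_test (measurableSet_ext _) ch.subs.fl2 Hψ.l2 hz'
  have I4 := hs.integrable_gd Hψ
  have I5 := Hy.integrable_gd hφ
  have hE : (fun x => -(ch.Qs x * (ch.s x * Φ (pr.θ x)) +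
      pr.lam * Φ' (pr.θ x) * (ch.s x * Real.sin (pr.θ x) * Real.cos (pr.θ x))) * φ x) =ᵐ[volume]
      fun x => -((V o.D x + ch.I + 2 * ε / ‖x‖ - ε * C / ‖x‖ ^ 2) * ch.s x) *
        (φ x * Φ (pr.θ x)) -
        pr.lam * (pr.t x * pr.β x * (Φ' (pr.θ x) * (φ x / ch.s x))) := by
    filter_upwards [hpos, pr.sin, pr.cos] with x hx h3 h4
    rw [h3, h4, Chan.Qs]
    have : ch.s x * Real.sin (pr.θ x) * (ch.s x * Real.cos (pr.θ x)) *
        (Φ' (pr.θ x) * (φ x / ch.s x)) =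
        ch.s x * Real.sin (pr.θ x) * Real.cos (pr.θ x) * Φ' (pr.θ x) * φ x := by
      field_simp
    rw [this]
    ring
  refine ⟨(I3.sub (I2.const_mul pr.lam)).congr hE.symm, ?_⟩
  rw [integral_congr_ae hE, integral_sub I3 (I2.const_mul _), integral_const_mul]
  rw [integral_add I1 (I2.const_mul _), integral_const_mul] at hel
  have hle := integral_mono_ae I5 (I4.add I1) (by
    filter_upwards [hpos, hM] with x hx hx'
    have h5 : 0 ≤ ch.s x * Φ'' (pr.θ x) * φ x * gs pr.gθ x :=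
      mul_nonneg (mul_nonneg (mul_nonneg hx.le (h0 _ (pr.θ0 x).1 (pr.θ0 x).2).2) hx'.1)
        (gs_nonneg _ _)
    refine (le_add_of_nonneg_right h5).trans (le_of_eq ?_)
    simp only [Pi.add_apply, gd, gs, Fin.sum_univ_three]
    field_simp
    ring)
  rw [integral_add' I4 I1] at hle
  linarith

end Crest.Agent.R335
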